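import Mathlib
import Vale.Agent.P161.Tree
import Vale.Agent.P161.Spins

/-!
Geometry of paths, sides of edges and side spheres in a regular tree.
-/

namespace Vale.Agent.P161.Crit

open Finset

variable {V : Type*} {G : SimpleGraph V}

/-- `y` lies on the side of `x` of the edge `xp`. -/
def OnSide (G : SimpleGraph V) (x p y : V) : Prop := G.dist y x < G.dist y p

open Classical in
/-- The part of `D` on the side of `x` of the edge `xp`. -/
noncomputable def sideF (G : SimpleGraph V) (D : Finset V) (x p : V) : Finset V :=
  D.filter fun y ↦ OnSide G x p y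

/-- The `i`-th vertex on the way from `w` towards `o`. -/
noncomputable def up (G : SimpleGraph V) (o w : V) (i : ℕ) : V := (par G o)^[i] w

lemma mem_sideF {D : Finset V} {x p y : V} : y ∈ sideF G D x p ↔ y ∈ D ∧ OnSide G x p y := by
  simp [sideF]

lemma sideF_subset (D : Finset V) (x p : V) : sideF G D x p ⊆ D := fun _ h ↦ (mem_sideF.1 h).1

section Sides

variable (hG : G.IsTree) {x p y : V}
include hG

lemma onSide_eq (h : G.Adj x p) (hy : OnSide G x p y) : G.dist y p = G.dist y x + 1 := by
  rcases adj_dist_cases hG (v := y) h with e | e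
  · unfold OnSide at hy; omega
  · exact e

lemma not_onSide_eq (h : G.Adj x p) (hy : ¬ OnSide G x p y) : G.dist y x = G.dist y p + 1 := by
  rcases adj_dist_cases hG (v := y) h with e | e
  · exact e
  · unfold OnSide at hy; omega

lemma onSide_comm (h : G.Adj x p) : OnSide G p x y ↔ ¬ OnSide G x p y := by
  rcases adj_dist_cases hG (v := y) h with e | e <;> unfold OnSide <;> omega

lemma dist_cross (h : G.Adj x p) {a c : V} (ha : OnSide G x p a) (hc : ¬ OnSide G x p c) :
    G.dist a c = G.dist a x + 1 + G.dist p c :=
  dist_split hG _ rfl h (onSide_eq hG h ha) (not_onSide_eq hG h hc)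

/-- The edge `xp` is the only one between its two sides. -/
lemma cross_unique (h : G.Adj x p) {a c : V} (ha : OnSide G x p a) (hc : ¬ OnSide G x p c)
    (hac : G.Adj a c) : a = x ∧ c = p := by
  have h1 := dist_cross hG h ha hc
  rw [SimpleGraph.dist_eq_one_iff_adj.2 hac] at h1
  exact ⟨(hG.connected a x).dist_eq_zero_iff.mp (by omega),
    ((hG.connected p c).dist_eq_zero_iff.mp (by omega)).symm⟩

/-- Sides along a path are nested. -/
lemma onSide_nest {a b c : V} (hab : G.Adj a b) (hbc : G.Adj b c) (hac : a ≠ c)
    (hy : OnSide G a b y) : OnSide G b c y := by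
  have h1 := onSide_eq hG hab hy
  rcases adj_dist_cases hG (v := y) hbc with e | e
  · exact absurd (closer_unique hG (v := y) hab.symm (by omega) hbc (by omega)) hac
  · unfold OnSide; omega

/-- Sides at two different neighbours are disjoint. -/
lemma onSide_disjoint {a b c : V} (hab : G.Adj a b) (hcb : G.Adj c b) (hac : a ≠ c)
    (hy : OnSide G a b y) : ¬ OnSide G c b y := fun hy' ↦
  hac (closer_unique hG (v := y) hab.symm (by have := onSide_eq hG hab hy; omega) hcb.symm
    (by have := onSide_eq hG hcb hy'; omega))

omit hG in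
lemma onSide_self (h : G.Adj x p) : OnSide G x p x := by
  simp [OnSide, SimpleGraph.dist_eq_one_iff_adj.2 h]

omit hG in
lemma not_onSide_other (x p : V) : ¬ OnSide G x p p := by simp [OnSide]

lemma sub_sideF {D : Finset V} {v : V} (hD : Sub G D v) (hx : x ∈ D) (h : G.Adj x p) :
    Sub G (sideF G D x p) x := by
  refine ⟨mem_sideF.2 ⟨hx, onSide_self h⟩, fun z hz hzx ↦ ?_⟩
  obtain ⟨hzD, hzs⟩ := mem_sideF.1 hz
  obtain ⟨z', hz', hadj, hd⟩ := (hD.reroot hG hx).2 z hzD hzx
  refine ⟨z', mem_sideF.2 ⟨hz', ?_⟩, hadj, hd⟩
  by_contra hc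
  exact hzx (cross_unique hG h hzs hc hadj).1

lemma sideF_compl [DecidableEq V] {D : Finset V} (h : G.Adj x p) :
    D \ sideF G D x p = sideF G D p x := by
  ext z
  simp only [mem_sdiff, mem_sideF, onSide_comm hG h]
  tauto

lemma sideF_disjoint {D : Finset V} (h : G.Adj x p) :
    Disjoint (sideF G D x p) (sideF G D p x) :=
  Finset.disjoint_left.2 fun _ ha hb ↦
    (onSide_comm hG h).1 (mem_sideF.1 hb).2 (mem_sideF.1 ha).2

end Sides

section Paths

variable [DecidableEq V] (hG : G.IsTree) {o w : V}
include hG

omit hG in
lemma up_zero : up G o w 0 = w := rfl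

omit hG in
lemma up_succ (i : ℕ) : up G o w (i + 1) = par G o (up G o w i) := by
  simp [up, Function.iterate_succ_apply']

lemma dist_up : ∀ i, i ≤ G.dist o w → G.dist o (up G o w i) = G.dist o w - i := by
  intro i
  induction i with
  | zero => intro _; rfl
  | succ i ih =>
    intro hi
    have h1 := ih (by omega)
    have hne : up G o w i ≠ o := by
      intro e; rw [e] at h1; simp at h1; omega
    have h2 := (par_spec hG hne).2
    rw [up_succ]
    omega

lemma up_ne {i : ℕ} (hi : i < G.dist o w) : up G o w i ≠ o := by
  intro e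
  have h := dist_up hG i hi.le
  rw [e] at h; simp at h; omega

lemma up_adj {i : ℕ} (hi : i < G.dist o w) : G.Adj (up G o w i) (up G o w (i + 1)) := by
  rw [up_succ]; exact (par_spec hG (up_ne hG hi)).1

lemma up_dist_self : up G o w (G.dist o w) = o := by
  have h := dist_up hG (o := o) (w := w) _ le_rfl
  rw [Nat.sub_self] at h
  exact ((hG.connected o _).dist_eq_zero_iff.mp h).symm

lemma up_ne_up2 {i : ℕ} (hi : i + 1 < G.dist o w) : up G o w i ≠ up G o w (i + 2) := by
  intro e
  have h1 := dist_up hG (o := o) (w := w) i (by omega)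
  have h2 := dist_up hG (o := o) (w := w) (i + 2) (by omega)
  rw [e] at h1; omega

lemma dist_up_left : ∀ i, i ≤ G.dist o w → G.dist w (up G o w i) = i := by
  intro i hi
  have h1 := dist_up hG i hi
  have h2 : G.dist o w ≤ G.dist o (up G o w i) + G.dist (up G o w i) w :=
    hG.connected.dist_triangle
  have h3 : ∀ j, j ≤ i → G.dist w (up G o w j) ≤ j := by
    intro j
    induction j with
    | zero => intro _; simp [up_zero]
    | succ j ih =>
      intro hj
      have := hG.connected.dist_triangle (u := w) (v := up G o w j) (w := up G o w (j + 1))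
      have h4 := SimpleGraph.dist_eq_one_iff_adj.2 (up_adj hG (o := o) (w := w) (i := j) (by omega))
      have := ih (by omega)
      omega
  have := h3 i le_rfl
  rw [SimpleGraph.dist_comm (u := up G o w i) (v := w)] at h2
  omega

lemma onSide_up_left {i : ℕ} (hi : i < G.dist o w) :
    OnSide G (up G o w i) (up G o w (i + 1)) w := by
  have h1 := dist_up_left hG (o := o) (w := w) i hi.le
  have h2 := dist_up_left hG (o := o) (w := w) (i + 1) hi
  unfold OnSide; omega

lemma onSide_up_right {i : ℕ} (hi : i < G.dist o w) :
    OnSide G (up G o w (i + 1)) (up G o w i) o := by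
  have h1 := dist_up hG (o := o) (w := w) i hi.le
  have h2 := dist_up hG (o := o) (w := w) (i + 1) hi
  unfold OnSide; omega

lemma onSide_up_mono {i j : ℕ} {y : V} (hij : i ≤ j) (hj : j < G.dist o w)
    (h : OnSide G (up G o w i) (up G o w (i + 1)) y) :
    OnSide G (up G o w j) (up G o w (j + 1)) y := by
  induction j, hij using Nat.le_induction with
  | base => exact h
  | succ j _ ih =>
    exact onSide_nest hG (up_adj hG (by omega)) (up_adj hG hj) (up_ne_up2 hG hj) (ih (by omega))

/-- Distances to a root along a path first decrease and then increase. -/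
lemma dist_root_up (r : V) : ∀ i, i ≤ G.dist o w →
    G.dist r (up G o w i) + i = G.dist r w ∨
      G.dist r (up G o w i) + (G.dist o w - i) = G.dist r o := by
  set k := G.dist o w with hk
  have inc : ∀ i, i < k → G.dist r (up G o w (i + 1)) = G.dist r (up G o w i) + 1 →
      ∀ j, i + 1 + j ≤ k →
        G.dist r (up G o w (i + 1 + j)) = G.dist r (up G o w (i + 1)) + j ∧
        G.dist r (up G o w (i + 1 + j)) = G.dist r (up G o w (i + j)) + 1 := by
    intro i hi h j
    induction j with
    | zero => intro _; simpa using h
    | succ j ih =>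
      intro hj
      obtain ⟨ih1, ih2⟩ := ih (by omega)
      have a1 := up_adj hG (o := o) (w := w) (i := i + j) (by omega)
      have a2 := up_adj hG (o := o) (w := w) (i := i + 1 + j) (by omega)
      rw [show i + j + 1 = i + 1 + j by omega] at a1
      rcases adj_dist_cases hG (v := r) a2 with e | e
      · exfalso
        refine up_ne_up2 hG (o := o) (w := w) (i := i + j) (by omega) ?_
        rw [show i + j + 2 = i + 1 + j + 1 by omega]
        exact closer_unique hG (v := r) a1.symm (by omega) a2 (by omega)
      · rw [show i + (j + 1) = i + 1 + j by omega, show i + 1 + (j + 1) = i + 1 + j + 1 by omega]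
        exact ⟨by omega, e⟩
  intro i
  induction i with
  | zero => intro _; left; simp [up_zero]
  | succ i ih =>
    intro hi
    rcases adj_dist_cases hG (v := r) (up_adj hG (o := o) (w := w) (i := i) (by omega)) with e | e
    · rcases ih (by omega) with h | h
      · left; omega
      · have h1 := hG.connected.dist_triangle (u := r) (v := up G o w (i + 1)) (w := o)
        have h2 := dist_up hG (o := o) (w := w) (i + 1) hi
        rw [SimpleGraph.dist_comm (u := up G o w (i + 1))] at h1
        omega
    · right
      obtain ⟨h1, -⟩ := inc i (by omega) e (k - (i + 1)) (by omega)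
      rw [show i + 1 + (k - (i + 1)) = k by omega, hk, up_dist_self hG] at h1
      omega

lemma dist_root_up_le (r : V) {i : ℕ} (hi : i ≤ G.dist o w) :
    G.dist r (up G o w i) ≤ max (G.dist r w - i) (G.dist r o) := by
  rcases dist_root_up hG r i hi with h | h <;> omega

end Paths

section Counts

variable [DecidableEq V] [G.LocallyFinite] (hG : G.IsTree) {d : ℕ}
  (hreg : G.IsRegularOfDegree d)
include hG

/-- Neighbours of `y` farther from `p`. -/
noncomputable def farther (G : SimpleGraph V) [G.LocallyFinite] (p y : V) : Finset V :=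
  (G.neighborFinset y).filter fun z ↦ G.dist p z = G.dist p y + 1

omit hG in
/-- The sphere about `x` on its side of the edge `xp`. -/
noncomputable def sideSph (G : SimpleGraph V) [G.LocallyFinite] (x p : V) (n : ℕ) : Finset V :=
  sideF G (sphere G x n) x p

include hreg in
lemma card_farther {p y : V} (hy : y ≠ p) : (farther G p y).card = d - 1 := by
  obtain ⟨q, hq, hq'⟩ := exists_closer hG hy
  have : farther G p y = (G.neighborFinset y).erase q := by
    ext z
    simp only [farther, mem_filter, mem_erase, SimpleGraph.mem_neighborFinset]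
    constructor
    · rintro ⟨h1, h2⟩; exact ⟨fun e ↦ by subst e; omega, h1⟩
    · rintro ⟨h1, h2⟩
      refine ⟨h2, ?_⟩
      rcases adj_dist_cases hG (v := p) h2 with e | e
      · exact absurd (closer_unique hG (v := p) h2 (by omega) hq hq') h1
      · exact e
  rw [this, card_erase_of_mem (by simpa using hq), SimpleGraph.card_neighborFinset_eq_degree,
    hreg.degree_eq y]

omit [DecidableEq V] in
lemma farther_disjoint {p : V} {s : Set V} : s.PairwiseDisjoint (farther G p) := by
  intro a _ c _ hac
  simp only [Function.onFun, Finset.disjoint_left, farther, mem_filter,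
    SimpleGraph.mem_neighborFinset]
  intro z ha hc
  exact hac (closer_unique hG (v := p) ha.1.symm (by omega) hc.1.symm (by omega))

lemma mem_sideSph {x p y : V} {n : ℕ} :
    y ∈ sideSph G x p n ↔ G.dist x y = n ∧ OnSide G x p y := by
  simp [sideSph, mem_sideF, mem_sphere hG]

lemma sideSph_succ {x p : V} (h : G.Adj x p) (n : ℕ) :
    sideSph G x p (n + 1) = (sideSph G x p n).biUnion (farther G p) := by
  ext z
  simp only [mem_biUnion, mem_sideSph hG, farther, mem_filter, SimpleGraph.mem_neighborFinset]
  constructor
  · rintro ⟨h1, h2⟩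
    have hzx : z ≠ x := by intro e; subst e; simp at h1
    obtain ⟨y, hy, hy'⟩ := exists_closer hG hzx
    have hys : OnSide G x p y := by
      by_contra hc
      exact hzx (cross_unique hG h h2 hc hy).1
    have e1 := onSide_eq hG h h2
    have e2 := onSide_eq hG h hys
    rw [SimpleGraph.dist_comm (u := z), SimpleGraph.dist_comm (u := z)] at e1
    rw [SimpleGraph.dist_comm (u := y), SimpleGraph.dist_comm (u := y)] at e2
    exact ⟨y, ⟨by omega, hys⟩, hy.symm, by omega⟩
  · rintro ⟨y, ⟨h1, h2⟩, h3, h4⟩
    have e2 := onSide_eq hG h h2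
    rw [SimpleGraph.dist_comm (u := y), SimpleGraph.dist_comm (u := y)] at e2
    have t1 : G.dist p z ≤ G.dist x z + 1 := by
      have := hG.connected.dist_triangle (u := p) (v := x) (w := z)
      rw [SimpleGraph.dist_eq_one_iff_adj.2 h.symm] at this
      omega
    have t2 : G.dist x z ≤ G.dist x y + 1 := by
      have := hG.connected.dist_triangle (u := x) (v := y) (w := z)
      rw [SimpleGraph.dist_eq_one_iff_adj.2 h3] at this
      omega
    refine ⟨by omega, ?_⟩
    unfold OnSide
    rw [SimpleGraph.dist_comm (u := z), SimpleGraph.dist_comm (u := z)]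
    omega

include hreg in
lemma card_sideSph {x p : V} (h : G.Adj x p) : ∀ n, (sideSph G x p n).card = (d - 1) ^ n := by
  intro n
  induction n with
  | zero =>
    have : sideSph G x p 0 = {x} := by
      ext y
      rw [mem_sideSph hG, Finset.mem_singleton, (hG.connected x y).dist_eq_zero_iff]
      constructor
      · exact fun e ↦ e.1.symm
      · rintro rfl; exact ⟨rfl, onSide_self h⟩
    simp [this]
  | succ n ih =>
    rw [sideSph_succ hG h, card_biUnion (farther_disjoint hG),
      sum_congr rfl (fun y hy ↦ card_farther hG hreg (fun e : y = p ↦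
        not_onSide_other x p (e ▸ ((mem_sideSph hG).1 hy).2))), sum_const, smul_eq_mul, ih, pow_succ]

omit hG in
include hreg in
/-- A neighbour avoiding two given vertices. -/
lemma exists_other (hd : 3 ≤ d) (u a c : V) : ∃ z, G.Adj u z ∧ z ≠ a ∧ z ≠ c := by
  have h : 0 < (((G.neighborFinset u).erase a).erase c).card := by
    have h1 := pred_card_le_card_erase (a := a) (s := G.neighborFinset u)
    have h2 := pred_card_le_card_erase (a := c) (s := (G.neighborFinset u).erase a)
    have h3 : (G.neighborFinset u).card = d := by
      rw [SimpleGraph.card_neighborFinset_eq_degree, hreg.degree_eq u]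
    omega
  obtain ⟨z, hz⟩ := card_pos.1 h
  simp only [mem_erase, SimpleGraph.mem_neighborFinset] at hz
  exact ⟨z, hz.2.2, hz.2.1, hz.1⟩

lemma sideSph_subset_ball {r x p : V} {n m : ℕ} (h : G.dist r x + n ≤ m) :
    sideSph G x p n ⊆ ball G r m := fun y hy ↦ by
  have := hG.connected.dist_triangle (u := r) (v := x) (w := y)
  have := ((mem_sideSph hG).1 hy).1
  exact (mem_ball hG).2 (by omega)

end Counts

end Vale.Agent.P161.Crit
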