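import Mathlib
import Vale.Agent.P161.Local

/-!
The clock model used at the reconstruction threshold: observation `(k, x)` of the spin at `x` has
signal `s k` and is revealed at the random time `a k + c k * clock (T (k, x))`.
Finite-volume posteriors, innovations and the decoding map.
-/

namespace Vale.Agent.P161.Crit

open Finset MeasureTheory

/-- Indices: a level and a vertex. -/
abbrev Ix (V : Type*) : Type _ := ℕ × V

/-- A pair of real fields on indices: labels, and observations or innovations. -/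
abbrev Dat (V : Type*) : Type _ := (Ix V → ℝ) × (Ix V → ℝ)

/-- An observation scheme. -/
structure Sch where
  s : ℕ → ℝ
  a : ℕ → ℝ
  c : ℕ → ℝ
  s_nonneg : ∀ k, 0 ≤ s k
  s_le : ∀ k, s k ≤ 1 / 2
  a_nonneg : ∀ k, 0 ≤ a k
  c_pos : ∀ k, 0 < c k

/-- The edge parameter is in `[0,1)`. -/
structure Par (θ : ℝ) : Prop where
  nonneg : 0 ≤ θ
  lt_one : θ < 1

/-- A uniform label turned into a clock with survival function `1 / (1 + x)`. -/
noncomputable def clock (u : ℝ) : ℝ := if 0 ≤ u ∧ u < 1 then u / (1 - u) else 0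

lemma clock_nonneg (u : ℝ) : 0 ≤ clock u := by
  unfold clock
  split_ifs with h
  · exact div_nonneg h.1 (by linarith [h.2])
  · exact le_rfl

lemma measurable_clock : Measurable clock :=
  Measurable.ite ((measurableSet_le measurable_const measurable_id).inter
    (measurableSet_lt measurable_id measurable_const)) (by fun_prop) measurable_const

variable {V : Type*}

/-- The time at which an index is revealed. -/
noncomputable def tm (σ : Sch) (T : Ix V → ℝ) (i : Ix V) : ℝ := σ.a i.1 + σ.c i.1 * clock (T i)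

lemma a_le_tm (σ : Sch) (T : Ix V → ℝ) (i : Ix V) : σ.a i.1 ≤ tm σ T i :=
  le_add_of_nonneg_right (mul_nonneg (σ.c_pos _).le (clock_nonneg _))

lemma measurable_tm (σ : Sch) (i : Ix V) : Measurable fun T : Ix V → ℝ ↦ tm σ T i :=
  measurable_const.add (measurable_const.mul (measurable_clock.comp (measurable_pi_apply i)))

/-- A rule selecting the revealed indices from the labels. -/
abbrev Rule (V : Type*) : Type _ := (Ix V → ℝ) → Ix V → Prop

/-- Revealed strictly before time `t`. -/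
def rT (σ : Sch) (t : ℝ) : Rule V := fun T i ↦ tm σ T i < t

/-- Revealed strictly before index `j`. -/
def rJ (σ : Sch) (j : Ix V) : Rule V := fun T i ↦ tm σ T i < tm σ T j

/-- Revealed no later than index `j`. -/
def rC (σ : Sch) (j : Ix V) : Rule V := fun T i ↦ tm σ T i < tm σ T j ∨ i = j

/-- A rule is closed under earlier times. -/
def Down (σ : Sch) (R : Rule V) : Prop :=
  ∀ T i j, R T j → tm σ T i < tm σ T j → R T i

/-- A rule is measurable in the labels. -/
def RMeas (R : Rule V) : Prop := ∀ i, MeasurableSet {T | R T i}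

lemma down_rT (σ : Sch) (t : ℝ) : Down (V := V) σ (rT σ t) := fun _ _ _ h h' ↦ h'.trans h

lemma down_rJ (σ : Sch) (j : Ix V) : Down σ (rJ σ j) := fun _ _ _ h h' ↦ h'.trans h

lemma down_rC (σ : Sch) (j : Ix V) : Down σ (rC σ j) := by
  intro T i k h h'
  rcases h with h | rfl
  · exact Or.inl (h'.trans h)
  · exact Or.inl h'

lemma rmeas_rT (σ : Sch) (t : ℝ) : RMeas (V := V) (rT σ t) := fun i ↦
  measurableSet_lt (measurable_tm σ i) measurable_const

lemma rmeas_rJ (σ : Sch) (j : Ix V) : RMeas (rJ σ j) := fun i ↦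
  measurableSet_lt (measurable_tm σ i) (measurable_tm σ j)

lemma rmeas_rC (σ : Sch) (j : Ix V) : RMeas (rC σ j) := fun i ↦
  (measurableSet_lt (measurable_tm σ i) (measurable_tm σ j)).union (MeasurableSet.const _)

open Classical in
/-- The indices of level below `n` in `D` selected by the rule. -/
noncomputable def past (n : ℕ) (D : Finset V) (R : Rule V) (T : Ix V → ℝ) : Finset (Ix V) :=
  (range n ×ˢ D).filter fun i ↦ R T i

lemma mem_past {n : ℕ} {D : Finset V} {R : Rule V} {T : Ix V → ℝ} {i : Ix V} :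
    i ∈ past n D R T ↔ i.1 < n ∧ i.2 ∈ D ∧ R T i := by
  simp [past, and_assoc]

lemma past_snd {n : ℕ} {D : Finset V} {R : Rule V} {T : Ix V → ℝ} :
    ∀ i ∈ past n D R T, i.2 ∈ D := fun _ h ↦ (mem_past.1 h).2.1

lemma past_card_lt {σ : Sch} {n : ℕ} {D : Finset V} {T : Ix V → ℝ} {i j : Ix V}
    (h : i ∈ past n D (rJ σ j) T) :
    (past n D (rJ σ i) T).card < (past n D (rJ σ j) T).card := by
  obtain ⟨h1, h2, h3⟩ := mem_past.1 h
  apply card_lt_card
  rw [Finset.ssubset_iff_of_subset]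
  · exact ⟨i, h, fun h' ↦ lt_irrefl _ (mem_past.1 h').2.2⟩
  · intro k hk
    exact mem_past.2 ⟨(mem_past.1 hk).1, (mem_past.1 hk).2.1, (mem_past.1 hk).2.2.trans h3⟩

/-- Likelihood of the observations on `P`. -/
noncomputable def lik (σ : Sch) (P : Finset (Ix V)) (y : Ix V → ℝ) (S : Finset V) [DecidableEq V] :
    ℝ :=
  ∏ i ∈ P, (1 + σ.s i.1 * sg S i.2 * c11 (y i))

variable [DecidableEq V] {G : SimpleGraph V} {θ : ℝ} {σ : Sch}

/-- Posterior weights summed against `f`. -/
noncomputable def pS (G : SimpleGraph V) (θ : ℝ) (σ : Sch) (D : Finset V) (P : Finset (Ix V))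
    (y : Ix V → ℝ) (f : Finset V → ℝ) : ℝ :=
  ∑ S ∈ D.powerset, tw G θ D S * (lik σ P y S * f S)

/-- Posterior mean of a function of the configuration. -/
noncomputable def pf (G : SimpleGraph V) (θ : ℝ) (σ : Sch) (D : Finset V) (P : Finset (Ix V))
    (y : Ix V → ℝ) (f : Finset V → ℝ) : ℝ :=
  pS G θ σ D P y f / pS G θ σ D P y fun _ ↦ 1

/-- The posterior mean used to reveal `j`. -/
noncomputable def mm (G : SimpleGraph V) (θ : ℝ) (σ : Sch) (n : ℕ) (D : Finset V) (T : Ix V → ℝ)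
    (y : Ix V → ℝ) (j : Ix V) : ℝ :=
  pf G θ σ D (past n D (rJ σ j) T) y fun S ↦ sg S j.2

/-- The innovations. -/
noncomputable def UU (G : SimpleGraph V) (θ : ℝ) (σ : Sch) (n : ℕ) (D : Finset V)
    (T y : Ix V → ℝ) (j : Ix V) : ℝ :=
  cdf1 (σ.s j.1 * mm G θ σ n D T y j) (y j)

/-- One sweep of the decoding map. -/
noncomputable def step (G : SimpleGraph V) (θ : ℝ) (σ : Sch) (n : ℕ) (D : Finset V)
    (T u y : Ix V → ℝ) (j : Ix V) : ℝ :=
  qf (σ.s j.1 * mm G θ σ n D T y j) (u j)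

/-- The decoding map from innovations to observations. -/
noncomputable def FF (G : SimpleGraph V) (θ : ℝ) (σ : Sch) (n : ℕ) (D : Finset V)
    (T u : Ix V → ℝ) (j : Ix V) : ℝ :=
  ((step G θ σ n D T u)^[(past n D (rJ σ j) T).card + 1] 0) j

lemma lik_factor_bound (σ : Sch) (k : ℕ) {a c : ℝ} (ha : |a| = 1) (hc : |c| ≤ 1) :
    1 / 2 ≤ 1 + σ.s k * a * c ∧ 1 + σ.s k * a * c ≤ 2 := by
  have h : |σ.s k * a * c| ≤ σ.s k := by
    rw [abs_mul, abs_mul, ha, abs_of_nonneg (σ.s_nonneg k), mul_one]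
    exact mul_le_of_le_one_right (σ.s_nonneg k) hc
  have := abs_le.1 h
  constructor <;> linarith [σ.s_le k]

lemma lik_pos (σ : Sch) (P : Finset (Ix V)) (y : Ix V → ℝ) (S : Finset V) : 0 < lik σ P y S :=
  prod_pos fun i _ ↦ lt_of_lt_of_le (by norm_num)
    (lik_factor_bound σ i.1 (sg_abs S i.2) (c11_abs _)).1

lemma den_pos (hp : Par θ) (D : Finset V) (P : Finset (Ix V)) (y : Ix V → ℝ) :
    0 < pS G θ σ D P y (fun _ ↦ 1) :=
  sum_pos (fun S _ ↦ by
    have := tw_pos (G := G) hp.nonneg hp.lt_one D S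
    have := lik_pos σ P y S
    positivity) ⟨∅, empty_mem_powerset D⟩

lemma pf_abs (hp : Par θ) (D : Finset V) (P : Finset (Ix V)) (y : Ix V → ℝ) {f : Finset V → ℝ}
    {C : ℝ} (hf : ∀ S, |f S| ≤ C) : |pf G θ σ D P y f| ≤ C := by
  rw [pf, abs_div, abs_of_pos (den_pos hp D P y), div_le_iff₀ (den_pos hp D P y), pS, pS, mul_sum]
  refine (abs_sum_le_sum_abs _ _).trans (sum_le_sum fun S _ ↦ ?_)
  rw [abs_mul, abs_mul, abs_of_pos (tw_pos hp.nonneg hp.lt_one D S), abs_of_pos (lik_pos σ P y S)]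
  have h1 := (tw_pos (G := G) hp.nonneg hp.lt_one D S).le
  have h2 := (lik_pos σ P y S).le
  calc tw G θ D S * (lik σ P y S * |f S|) ≤ tw G θ D S * (lik σ P y S * C) := by
        gcongr
        exact hf S
    _ = _ := by ring

lemma mm_abs (hp : Par θ) (n : ℕ) (D : Finset V) (T y : Ix V → ℝ) (j : Ix V) :
    |mm G θ σ n D T y j| ≤ 1 :=
  pf_abs hp _ _ _ fun S ↦ (sg_abs S j.2).le

lemma pf_congr {D : Finset V} {P : Finset (Ix V)} {y y' : Ix V → ℝ} (f : Finset V → ℝ)
    (h : ∀ i ∈ P, y i = y' i) : pf G θ σ D P y f = pf G θ σ D P y' f := by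
  have e : ∀ S, lik σ P y S = lik σ P y' S := fun S ↦ prod_congr rfl fun i hi ↦ by rw [h i hi]
  simp only [pf, pS, e]

lemma mm_congr {n : ℕ} {D : Finset V} {T y y' : Ix V → ℝ} {j : Ix V}
    (h : ∀ i ∈ past n D (rJ σ j) T, y i = y' i) :
    mm G θ σ n D T y j = mm G θ σ n D T y' j :=
  pf_congr _ h

lemma abs_s_mm (hp : Par θ) (n : ℕ) (D : Finset V) (T y : Ix V → ℝ) (j : Ix V) :
    |σ.s j.1 * mm G θ σ n D T y j| ≤ σ.s j.1 := by
  rw [abs_mul, abs_of_nonneg (σ.s_nonneg _)]
  exact mul_le_of_le_one_right (σ.s_nonneg _) (mm_abs hp _ _ _ _ _)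

lemma abs_s_mm_lt (hp : Par θ) (n : ℕ) (D : Finset V) (T y : Ix V → ℝ) (j : Ix V) :
    |σ.s j.1 * mm G θ σ n D T y j| < 1 :=
  lt_of_le_of_lt (abs_s_mm hp n D T y j) (by linarith [σ.s_le j.1])

lemma step_iterate_stable (n : ℕ) (D : Finset V) (T u y₀ : Ix V → ℝ) :
    ∀ (c : ℕ) (j : Ix V), (past n D (rJ σ j) T).card = c → ∀ m k, c < m → c < k →
      ((step G θ σ n D T u)^[m] y₀) j = ((step G θ σ n D T u)^[k] y₀) j := by
  intro c
  induction c using Nat.strong_induction_on with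
  | _ c ih =>
    intro j hj m k hm hk
    obtain ⟨m, rfl⟩ : ∃ l, m = l + 1 := ⟨m - 1, by omega⟩
    obtain ⟨k, rfl⟩ : ∃ l, k = l + 1 := ⟨k - 1, by omega⟩
    simp only [Function.iterate_succ', Function.comp_apply, step]
    rw [mm_congr (fun i hi ↦ ih _ (hj ▸ past_card_lt hi) i rfl m k
      (by have := past_card_lt hi; omega) (by have := past_card_lt hi; omega))]

lemma FF_eq (n : ℕ) (D : Finset V) (T u : Ix V → ℝ) (j : Ix V) :
    FF G θ σ n D T u j = qf (σ.s j.1 * mm G θ σ n D T (FF G θ σ n D T u) j) (u j) := by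
  conv_lhs => rw [FF, Function.iterate_succ', Function.comp_apply, step]
  rw [mm_congr (fun i hi ↦ step_iterate_stable n D T u 0 _ i rfl (past n D (rJ σ j) T).card
    ((past n D (rJ σ i) T).card + 1) (past_card_lt hi) (Nat.lt_succ_self _))]
  rfl

lemma FF_abs (hp : Par θ) (n : ℕ) (D : Finset V) (T u : Ix V → ℝ) (j : Ix V) :
    |FF G θ σ n D T u j| ≤ 1 := by
  rw [FF_eq]
  exact qf_bound (abs_s_mm_lt hp n D T _ j) _

lemma FF_UU (hp : Par θ) (n : ℕ) (D : Finset V) (T : Ix V → ℝ) {y : Ix V → ℝ}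
    (hy : ∀ i, |y i| ≤ 1) : ∀ j, FF G θ σ n D T (UU G θ σ n D T y) j = y j := by
  intro j
  induction hc : (past n D (rJ σ j) T).card using Nat.strong_induction_on generalizing j with
  | _ c ih =>
    rw [FF_eq, mm_congr (fun i hi ↦ ih _ (hc ▸ past_card_lt hi) i rfl)]
    exact (qf_cdf1 (abs_s_mm_lt hp n D T y j) (hy j)).1

/-- The decoded observations selected by a closed rule depend only on those innovations. -/
lemma FF_congr {n : ℕ} {D : Finset V} {R : Rule V} (hR : Down σ R) {T u u' : Ix V → ℝ}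
    (h : ∀ i ∈ past n D R T, u i = u' i) : ∀ j ∈ past n D R T,
    FF G θ σ n D T u j = FF G θ σ n D T u' j := by
  intro j
  induction hc : (past n D (rJ σ j) T).card using Nat.strong_induction_on generalizing j with
  | _ c ih =>
    intro hj
    rw [FF_eq, FF_eq (u := u'), h j hj, mm_congr (fun i hi ↦ ih _ (hc ▸ past_card_lt hi) i rfl ?_)]
    obtain ⟨h1, h2, h3⟩ := mem_past.1 hi
    exact mem_past.2 ⟨h1, h2, hR T i j (mem_past.1 hj).2.2 h3⟩

end Vale.Agent.P161.Crit
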