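import Mathlib
import Vale.Agent.P161.Laws
import Vale.Agent.P161.Crit.Model

/-!
The joint law of finitely many clock observations and of the innovations.
-/

namespace Vale.Agent.P161.Crit

open Finset MeasureTheory

variable {V : Type*} [DecidableEq V] {G : SimpleGraph V} {θ : ℝ} {σ : Sch}

/-- Observations generated from noise `w` given the configuration `S`. -/
noncomputable def obs (σ : Sch) (S : Finset V) (w : Ix V → ℝ) (i : Ix V) : ℝ :=
  qf (σ.s i.1 * sg S i.2) (w i)

lemma abs_s_sg (σ : Sch) (k : ℕ) {a : ℝ} (ha : |a| = 1) : |σ.s k * a| < 1 := by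
  rw [abs_mul, ha, abs_of_nonneg (σ.s_nonneg k)]; linarith [σ.s_le k]

lemma obs_abs (σ : Sch) (S : Finset V) (w : Ix V → ℝ) (i : Ix V) : |obs σ S w i| ≤ 1 :=
  qf_bound (abs_s_sg σ i.1 (sg_abs S i.2)) _

lemma measurable_obs (S : Finset V) : Measurable (obs σ S) :=
  measurable_pi_iff.2 fun i ↦
    measurable_qf.comp (measurable_const.prodMk (measurable_pi_apply i))

lemma bm_factor (S : Finset V) (i : Ix V) :
    BM (fun y : Ix V → ℝ ↦ 1 + σ.s i.1 * sg S i.2 * c11 (y i)) := by
  refine ⟨by have := measurable_c11; fun_prop, 2, fun y ↦ ?_⟩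
  have := lik_factor_bound σ i.1 (sg_abs S i.2) (c11_abs (y i))
  rw [abs_le]; constructor <;> linarith

lemma bm_lik (P : Finset (Ix V)) (S : Finset V) : BM (fun y : Ix V → ℝ ↦ lik σ P y S) := by
  induction P using Finset.induction with
  | empty => simpa [lik] using BM.const (Ω := Ix V → ℝ) 1
  | insert i P hi ih => simp only [lik, prod_insert hi]; exact (bm_factor S i).mul ih

lemma bm_pS (D : Finset V) (P : Finset (Ix V)) (f : Finset V → ℝ) :
    BM (fun y : Ix V → ℝ ↦ pS G θ σ D P y f) :=
  BM.sum _ fun S _ ↦ (BM.const _).mul ((bm_lik P S).mul (BM.const _))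

lemma bm_pf (hp : Par θ) (D : Finset V) (P : Finset (Ix V)) (f : Finset V → ℝ) {C : ℝ}
    (hf : ∀ S, |f S| ≤ C) : BM (fun y : Ix V → ℝ ↦ pf G θ σ D P y f) :=
  ⟨(bm_pS D P _).1.div (bm_pS D P _).1, C, fun y ↦ pf_abs hp D P y hf⟩

/-- Law of finitely many observations given the configuration. -/
lemma integral_obs (S : Finset V) : ∀ (P : Finset (Ix V))
    (h : (Ix V → ℝ) → ℝ), BM h → Dep h P →
    ∫ w, h (obs σ S w) ∂W01 V = ∫ y, h y * lik σ P y S ∂W11 V := by
  intro P
  induction P using Finset.induction with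
  | empty =>
    intro h hh hd
    have e : ∀ y, h y = h 0 := fun y ↦ hd y 0 (by simp)
    simp [lik, e]
  | insert i P hi ih =>
    intro h hh hd
    set g : (Ix V → ℝ) → ℝ := fun y ↦ h y * (1 + σ.s i.1 * sg S i.2 * c11 (y i))
    have hg : BM g := hh.mul (bm_factor S i)
    set h1 : (Ix V → ℝ) → ℝ := fun y ↦ ∫ t, g (Function.update y i t) ∂u11
    have hh1 : BM h1 := hg.resample (fun _ ↦ u11) i
    have hd1 : Dep h1 P := by
      intro y y' hyy
      simp only [h1]
      congr 1
      funext t
      simp only [g, Function.update_self]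
      rw [hd (Function.update y i t) (Function.update y' i t) (fun k hk ↦ by
        by_cases hki : k = i
        · simp [hki]
        · simp [hki, hyy k ((mem_insert.1 hk).resolve_left hki)])]
    have ha := abs_s_sg σ i.1 (sg_abs S i.2)
    have e1 : ∀ w, ∫ t, h (obs σ S (Function.update w i t)) ∂u01 = h1 (obs σ S w) := by
      intro w
      have e : ∀ t, obs σ S (Function.update w i t) =
          Function.update (obs σ S w) i (qf (σ.s i.1 * sg S i.2) t) := by
        intro t; funext k
        by_cases hki : k = i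
        · subst hki; simp [obs]
        · simp [obs, hki]
      simp only [e, h1, g, Function.update_self]
      rw [integral_qf ha (fun y ↦ h (Function.update (obs σ S w) i y)), integral_u11_clip]
    rw [W01, integral_resample (fun _ ↦ u01) (hh.comp (measurable_obs S)) i]
    simp only [e1]
    rw [← W01, ih h1 hh1 hd1]
    have e2 : (fun y ↦ h y * lik σ (insert i P) y S) = fun y ↦ g y * lik σ P y S := by
      funext y; simp only [g, lik, prod_insert hi]; ring
    rw [e2, W11, integral_resample (fun _ ↦ u11) (hg.mul (bm_lik P S)) i]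
    congr 1
    funext y
    have e3 : ∀ t, lik σ P (Function.update y i t) S = lik σ P y S := fun t ↦
      prod_congr rfl fun k hk ↦ by rw [Function.update_of_ne (fun e : k = i ↦ hi (e ▸ hk))]
    simp only [e3, h1]
    rw [integral_mul_const]

/-- Orthogonality in finite volume: the posterior mean is the conditional expectation. -/
lemma orth (hp : Par θ) (D : Finset V) (P : Finset (Ix V)) {f : Finset V → ℝ} {C : ℝ}
    (hf : ∀ S, |f S| ≤ C) {φ : (Ix V → ℝ) → ℝ} (hφ : BM φ) (hd : Dep φ P) :
    ∑ S ∈ D.powerset, tw G θ D S * (f S * ∫ w, φ (obs σ S w) ∂W01 V) =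
      ∑ S ∈ D.powerset, tw G θ D S *
        ∫ w, φ (obs σ S w) * pf G θ σ D P (obs σ S w) f ∂W01 V := by
  have hd2 : Dep (fun y ↦ φ y * pf G θ σ D P y f) P := fun y y' h ↦ by
    simp only [hd y y' h, pf_congr (D := D) f h]
  have hb := hφ.mul (bm_pf (G := G) (σ := σ) hp D P f hf)
  have e1 : ∀ S, ∫ w, φ (obs σ S w) ∂W01 V = ∫ y, φ y * lik σ P y S ∂W11 V :=
    fun S ↦ integral_obs S P φ hφ hd
  have e2 : ∀ S, ∫ w, φ (obs σ S w) * pf G θ σ D P (obs σ S w) f ∂W01 V =
      ∫ y, φ y * pf G θ σ D P y f * lik σ P y S ∂W11 V :=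
    fun S ↦ integral_obs S P _ hb hd2
  simp only [e1, e2, ← integral_const_mul]
  rw [← integral_finset_sum _ fun S _ ↦ ?_, ← integral_finset_sum _ fun S _ ↦ ?_]
  · congr 1
    funext y
    calc ∑ S ∈ D.powerset, tw G θ D S * (f S * (φ y * lik σ P y S))
        = φ y * pS G θ σ D P y f := by
          rw [pS, mul_sum]; exact sum_congr rfl fun S _ ↦ by ring
      _ = φ y * (pf G θ σ D P y f * pS G θ σ D P y (fun _ ↦ 1)) := by
          rw [pf, div_mul_cancel₀ _ (den_pos hp D P y).ne']
      _ = _ := by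
          rw [pS, mul_sum, mul_sum]; exact sum_congr rfl fun S _ ↦ by ring
  · exact ((hb.mul (bm_lik P S)).integrable _).const_mul _
  · exact (((hφ.mul (bm_lik P S)).integrable _).const_mul _).const_mul _

lemma bm_mm (hp : Par θ) (n : ℕ) (D : Finset V) (T : Ix V → ℝ) (j : Ix V) :
    BM (fun y ↦ mm G θ σ n D T y j) := bm_pf hp _ _ _ fun S ↦ (sg_abs S j.2).le

lemma measurable_UU (hp : Par θ) (n : ℕ) (D : Finset V) (T : Ix V → ℝ) :
    Measurable (UU G θ σ n D T) := by
  refine measurable_pi_iff.2 fun j ↦ ?_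
  have := (bm_mm (G := G) (σ := σ) hp n D T j).1
  unfold UU cdf1
  fun_prop

lemma UU_dep (n : ℕ) (D : Finset V) (T : Ix V → ℝ) {j : Ix V} {y y' : Ix V → ℝ}
    (h : ∀ i ∈ past n D (rJ σ j) T, y i = y' i) (hj : y j = y' j) :
    UU G θ σ n D T y j = UU G θ σ n D T y' j := by
  simp only [UU, mm_congr h, hj]

/-- In the mixed observation law the innovations are i.i.d. uniform. -/
lemma integral_UU (hG : G.IsTree) (hp : Par θ) {n : ℕ} {D : Finset V} {o : V} (hD : Sub G D o)
    {T : Ix V → ℝ} (hT : Set.InjOn (tm σ T) (range n ×ˢ D : Finset (Ix V))) :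
    ∀ (m : ℕ) (P : Finset (Ix V)), P.card = m →
    (∀ j ∈ P, j.1 < n ∧ j.2 ∈ D ∧ past n D (rJ σ j) T ⊆ P) →
    ∀ f : (Ix V → ℝ) → ℝ, BM f → Dep f P →
    ∫ y, f (UU G θ σ n D T y) * pS G θ σ D P y (fun _ ↦ 1) ∂W11 V = ∫ u, f u ∂W01 V := by
  intro m
  induction m with
  | zero =>
    intro P hP _ f hf hd
    rw [Finset.card_eq_zero] at hP
    subst hP
    have e : ∀ y, f y = f 0 := fun y ↦ hd y 0 (by simp)
    simp [e, pS, lik, sum_tw hG θ hD]
  | succ m ih =>
    intro P hP hdown f hf hd
    have hne : P.Nonempty := Finset.card_pos.1 (by omega)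
    obtain ⟨i, hi, himax⟩ := exists_max_image P (tm σ T) hne
    have hiW : i ∈ (range n ×ˢ D : Finset (Ix V)) :=
      mem_product.2 ⟨Finset.mem_range.2 (hdown i hi).1, (hdown i hi).2.1⟩
    have htop : ∀ j ∈ P, j ≠ i → tm σ T j < tm σ T i := by
      intro j hj hji
      refine lt_of_le_of_ne (himax j hj) fun e ↦ hji ?_
      exact hT (mem_product.2 ⟨Finset.mem_range.2 (hdown j hj).1, (hdown j hj).2.1⟩) hiW e
    have hpast : past n D (rJ σ i) T = P.erase i := by
      ext j
      refine ⟨fun hj ↦ mem_erase.2 ⟨?_, (hdown i hi).2.2 hj⟩, fun hj ↦ ?_⟩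
      · rintro rfl; exact lt_irrefl _ (mem_past.1 hj).2.2
      · exact mem_past.2 ⟨(hdown j (mem_of_mem_erase hj)).1, (hdown j (mem_of_mem_erase hj)).2.1,
          htop j (mem_of_mem_erase hj) (mem_erase.1 hj).1⟩
    have hnot : ∀ j ∈ P.erase i, i ∉ past n D (rJ σ j) T := fun j hj hc ↦
      lt_asymm (htop j (mem_of_mem_erase hj) (mem_erase.1 hj).1) (mem_past.1 hc).2.2
    have hdown' : ∀ j ∈ P.erase i,
        j.1 < n ∧ j.2 ∈ D ∧ past n D (rJ σ j) T ⊆ P.erase i := fun j hj ↦
      ⟨(hdown j (mem_of_mem_erase hj)).1, (hdown j (mem_of_mem_erase hj)).2.1, fun k hk ↦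
        mem_erase.2 ⟨fun e ↦ hnot j hj (e ▸ hk), (hdown j (mem_of_mem_erase hj)).2.2 hk⟩⟩
    set f' : (Ix V → ℝ) → ℝ := fun U ↦ ∫ t, f (Function.update U i t) ∂u01
    have hf' : BM f' := hf.resample (fun _ ↦ u01) i
    have hd' : Dep f' (P.erase i) := by
      intro y y' h
      simp only [f']
      congr 1
      funext t
      refine hd _ _ fun k hk ↦ ?_
      by_cases hki : k = i
      · simp [hki]
      · simp [hki, h k (mem_erase.2 ⟨hki, hk⟩)]
    have key : ∀ y, ∫ t, f (UU G θ σ n D T (Function.update y i t)) *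
        pS G θ σ D P (Function.update y i t) (fun _ ↦ 1) ∂u11 =
        f' (UU G θ σ n D T y) * pS G θ σ D (P.erase i) y (fun _ ↦ 1) := by
      intro y
      set a := σ.s i.1 * mm G θ σ n D T y i
      have hU : ∀ t, f (UU G θ σ n D T (Function.update y i t)) =
          f (Function.update (UU G θ σ n D T y) i (cdf1 a t)) := by
        intro t
        refine hd _ _ fun k hk ↦ ?_
        by_cases hki : k = i
        · subst hki
          rw [Function.update_self, UU, Function.update_self,
            mm_congr (y' := y) (fun l hl ↦ Function.update_of_ne (fun e : l = k ↦ by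
              subst e; exact lt_irrefl _ (mem_past.1 hl).2.2) _ _)]
        · rw [Function.update_of_ne hki]
          exact UU_dep n D T (fun l hl ↦ Function.update_of_ne
            (fun e : l = i ↦ hnot k (mem_erase.2 ⟨hki, hk⟩) (e ▸ hl)) _ _)
            (Function.update_of_ne hki _ _)
      have hP' : ∀ t, pS G θ σ D P (Function.update y i t) (fun _ ↦ 1) =
          pS G θ σ D (P.erase i) y (fun _ ↦ 1) * (1 + a * c11 t) := by
        intro t
        have e : ∀ S, lik σ P (Function.update y i t) S =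
            (1 + σ.s i.1 * sg S i.2 * c11 t) * lik σ (P.erase i) y S := by
          intro S
          rw [lik, ← mul_prod_erase P _ hi, Function.update_self, lik]
          congr 1
          exact prod_congr rfl fun k hk ↦ by rw [Function.update_of_ne (mem_erase.1 hk).1]
        have hnum : pS G θ σ D (P.erase i) y (fun S ↦ sg S i.2) =
            mm G θ σ n D T y i * pS G θ σ D (P.erase i) y (fun _ ↦ 1) := by
          rw [mm, hpast, pf, div_mul_cancel₀ _ (den_pos hp D _ y).ne']
        calc pS G θ σ D P (Function.update y i t) (fun _ ↦ 1)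
            = pS G θ σ D (P.erase i) y (fun _ ↦ 1) +
              σ.s i.1 * c11 t * pS G θ σ D (P.erase i) y (fun S ↦ sg S i.2) := by
              simp only [pS, mul_sum, ← sum_add_distrib, e]
              exact sum_congr rfl fun S _ ↦ by ring
          _ = _ := by rw [hnum]; simp only [a]; ring
      simp only [hU, hP']
      have : (fun t ↦ f (Function.update (UU G θ σ n D T y) i (cdf1 a t)) *
          (pS G θ σ D (P.erase i) y (fun _ ↦ 1) * (1 + a * c11 t))) = fun t ↦
          pS G θ σ D (P.erase i) y (fun _ ↦ 1) *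
            (f (Function.update (UU G θ σ n D T y) i (cdf1 a t)) * (1 + a * c11 t)) := by
        funext t; ring
      rw [this, integral_const_mul, integral_u11_clip,
        integral_cdf1 (abs_s_mm_lt hp n D T y i)
          (fun w ↦ f (Function.update (UU G θ σ n D T y) i w))]
      ring
    rw [W11, integral_resample (fun _ ↦ u11)
      ((hf.comp (measurable_UU hp n D T)).mul (bm_pS D P _)) i]
    simp only [key]
    rw [← W11, ih (P.erase i) (by rw [card_erase_of_mem hi]; omega) hdown' f' hf' hd', W01,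
      integral_resample (fun _ ↦ u01) hf i]

/-- The law of the innovations, for functions of finitely many coordinates. -/
lemma law_UU (hG : G.IsTree) (hp : Par θ) {n : ℕ} {D : Finset V} {o : V} (hD : Sub G D o)
    {T : Ix V → ℝ} (hT : Set.InjOn (tm σ T) (range n ×ˢ D : Finset (Ix V)))
    {f : (Ix V → ℝ) → ℝ} (hf : BM f) (hd : Dep f (range n ×ˢ D)) :
    ∑ S ∈ D.powerset, tw G θ D S * ∫ w, f (UU G θ σ n D T (obs σ S w)) ∂W01 V =
      ∫ u, f u ∂W01 V := by
  set P0 : Finset (Ix V) := range n ×ˢ D with hP0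
  have hdown : ∀ j ∈ P0, j.1 < n ∧ j.2 ∈ D ∧ past n D (rJ σ j) T ⊆ P0 := by
    intro j hj
    refine ⟨Finset.mem_range.1 (mem_product.1 hj).1, (mem_product.1 hj).2, fun k hk ↦ ?_⟩
    exact mem_product.2 ⟨Finset.mem_range.2 (mem_past.1 hk).1, (mem_past.1 hk).2.1⟩
  have hdU : Dep (fun y ↦ f (UU G θ σ n D T y)) P0 := fun y y' h ↦
    hd _ _ fun j hj ↦ UU_dep n D T (fun l hl ↦ h l ((hdown j hj).2.2 hl)) (h j hj)
  have hb : BM (fun y ↦ f (UU G θ σ n D T y)) := hf.comp (measurable_UU hp n D T)
  rw [← integral_UU hG hp hD hT _ P0 rfl hdown f hf hd]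
  simp only [integral_obs _ P0 _ hb hdU, ← integral_const_mul]
  rw [← integral_finset_sum _ fun S _ ↦ ((hb.mul (bm_lik P0 S)).integrable _).const_mul _]
  congr 1
  funext y
  simp only [pS, mul_sum]
  exact sum_congr rfl fun S _ ↦ by ring

end Vale.Agent.P161.Crit
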