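import Mathlib
import Vale.Agent.P161.Global
import Vale.Agent.P161.Crit.Laws

/-!
The sample space of the clock model; posterior means with respect to a revelation rule and their
martingale limits; the law of the finite-volume innovations.
-/

namespace Vale.Agent.P161.Crit

open Finset MeasureTheory Filter Topology

variable {V : Type*} [DecidableEq V]

/-- The sample space: spins, observation noise, labels. -/
abbrev Om (V : Type*) : Type _ := (V → Bool) × Dat V

/-- The sampling law. -/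
noncomputable def Pm (G : SimpleGraph V) (θ : ℝ) (r : V) : Measure (Om V) :=
  (isingM G θ r).prod ((W01 V).prod (W01 V))

lemma Pm_prob {G : SimpleGraph V} {θ : ℝ} (hp : Par θ) (r : V) :
    IsProbabilityMeasure (Pm G θ r) := by
  have := isingM_prob (G := G) hp.nonneg hp.lt_one.le r
  exact inferInstanceAs (IsProbabilityMeasure ((isingM G θ r).prod _))

/-- The noisy observations. -/
noncomputable def Yv (σ : Sch) (ω : Om V) (i : Ix V) : ℝ :=
  qf (σ.s i.1 * sgB (ω.1 i.2)) (ω.2.1 i)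

lemma Yv_abs (σ : Sch) (ω : Om V) (i : Ix V) : |Yv σ ω i| ≤ 1 :=
  qf_bound (abs_s_sg σ i.1 (sgB_abs _)) _

lemma measurable_Yv (σ : Sch) : Measurable (Yv (V := V) σ) := by
  refine measurable_pi_iff.2 fun i ↦ measurable_qf.comp (Measurable.prodMk ?_ (by fun_prop))
  exact measurable_const.mul ((measurable_of_countable sgB).comp (by fun_prop))

/-- The visible data: labels and observations. -/
noncomputable def vis (σ : Sch) (ω : Om V) : Dat V := (ω.2.2, Yv σ ω)

lemma measurable_vis (σ : Sch) : Measurable (vis (V := V) σ) :=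
  (measurable_snd.comp measurable_snd).prodMk (measurable_Yv σ)

open Classical in
/-- Keep only the observations selected by the rule. -/
noncomputable def msk (R : Rule V) (p : Dat V) : Dat V :=
  (p.1, fun i ↦ if R p.1 i then p.2 i else 0)

open Classical in
/-- Keep only the observations in the window selected by the rule. -/
noncomputable def mskW (W : Finset (Ix V)) (R : Rule V) (p : Dat V) : Dat V :=
  (p.1, fun i ↦ if i ∈ W ∧ R p.1 i then p.2 i else 0)

lemma measurable_msk {R : Rule V} (hR : RMeas R) : Measurable (msk R) :=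
  measurable_fst.prodMk (measurable_pi_iff.2 fun i ↦
    Measurable.ite ((hR i).preimage measurable_fst) (by fun_prop) measurable_const)

lemma measurable_mskW (W : Finset (Ix V)) {R : Rule V} (hR : RMeas R) :
    Measurable (mskW W R) := by
  classical
  exact measurable_fst.prodMk (measurable_pi_iff.2 fun i ↦
    Measurable.ite ((MeasurableSet.const _).inter ((hR i).preimage measurable_fst)) (by fun_prop)
      measurable_const)

variable {G : SimpleGraph V} {θ : ℝ} {σ : Sch}

lemma Yv_eq_obs {D : Finset V} {i : Ix V} (hi : i.2 ∈ D) (ω : Om V) :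
    Yv σ ω i = obs σ (conf D ω.1) ω.2.1 i := by
  simp [Yv, obs, sg_conf hi]

/-- A function of the configuration depends only on the spins in `A`. -/
def Loc (f : Finset V → ℝ) (A : Finset V) : Prop := ∀ S, f S = f (S ∩ A)

lemma loc_sg (x : V) : Loc (fun S ↦ sg S x) {x} := fun S ↦ sg_congr (by simp)

lemma loc_sg_mul (x y : V) : Loc (fun S ↦ sg S x * sg S y) {x, y} := fun S ↦ by
  change sg S x * sg S y = sg (S ∩ {x, y}) x * sg (S ∩ {x, y}) y
  rw [sg_congr (S := S ∩ {x, y}) (T := S) (x := x) (by simp),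
    sg_congr (S := S ∩ {x, y}) (T := S) (x := y) (by simp)]

lemma Loc.eq_conf {f : Finset V → ℝ} {A D : Finset V} (h : Loc f A) (hAD : A ⊆ D)
    (τ : V → Bool) : f (conf D τ) = f (conf A τ) := by
  rw [h (conf D τ), conf_inter hAD]

lemma measurable_fconf (f : Finset V → ℝ) (D : Finset V) :
    Measurable fun τ : V → Bool ↦ f (conf D τ) := by
  have e : (fun τ : V → Bool ↦ f (conf D τ)) = fun τ ↦ ∑ S ∈ D.powerset,
      Set.indicator {τ | conf D τ = S} (fun _ ↦ f S) τ := by
    funext τ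
    rw [sum_eq_single (conf D τ)]
    · simp
    · intro S _ hne; simp [Ne.symm hne]
    · intro hne; exact absurd (conf_mem _ τ) hne
  rw [e]
  exact Finset.measurable_sum _ fun S _ ↦ measurable_const.indicator (measurableSet_conf_eq _ S)

lemma bm_fconf {f : Finset V → ℝ} {C : ℝ} (hf : ∀ S, |f S| ≤ C) (D : Finset V) :
    BM fun ω : Om V ↦ f (conf D ω.1) :=
  ⟨(measurable_fconf f D).comp measurable_fst, C, fun _ ↦ hf _⟩

lemma gint (hG : G.IsTree) [G.LocallyFinite] (hp : Par θ) {r v : V} {D : Finset V}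
    (hD : Sub G D v) (h : Finset V → Dat V → ℝ) (hh : ∀ S, BM (h S)) :
    ∫ ω, h (conf D ω.1) ω.2 ∂Pm G θ r =
      ∫ T, ∑ S ∈ D.powerset, tw G θ D S * ∫ w, h S (w, T) ∂W01 V ∂W01 V := by
  rw [Pm, integral_conf hG hp.nonneg hp.lt_one.le hD _ h hh, integral_finsetSum]
  · refine sum_congr rfl fun S _ ↦ ?_
    rw [integral_const_mul, integral_prod_symm _ ((hh S).integrable _)]
  · intro S _
    refine Integrable.const_mul ?_ _
    exact ((hh S).integrable ((W01 V).prod (W01 V))).integral_prod_right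

lemma measurable_pf_past (n : ℕ) (D : Finset V) {R : Rule V} (hR : RMeas R)
    (f : Finset V → ℝ) :
    Measurable fun p : Dat V ↦ pf G θ σ D (past n D R p.1) p.2 f := by
  classical
  have hlik : ∀ S, Measurable fun p : Dat V ↦ lik σ (past n D R p.1) p.2 S := by
    intro S
    simp only [lik, past, prod_filter]
    refine Finset.measurable_prod _ fun i _ ↦ ?_
    refine Measurable.ite ((hR i).preimage measurable_fst) ?_ measurable_const
    have := measurable_c11
    fun_prop
  simp only [pf, pS]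
  exact (Finset.measurable_sum _ fun S _ ↦ measurable_const.mul ((hlik S).mul measurable_const)).div
    (Finset.measurable_sum _ fun S _ ↦ measurable_const.mul ((hlik S).mul measurable_const))

lemma bm_pf_past (hp : Par θ) (n : ℕ) (D : Finset V) {R : Rule V} (hR : RMeas R)
    {f : Finset V → ℝ} {C : ℝ} (hf : ∀ S, |f S| ≤ C) :
    BM fun p : Dat V ↦ pf G θ σ D (past n D R p.1) p.2 f :=
  ⟨measurable_pf_past n D hR f, C, fun _ ↦ pf_abs hp _ _ _ hf⟩

/-- Orthogonality on the sample space. -/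
lemma orth_glob (hG : G.IsTree) [G.LocallyFinite] (hp : Par θ) {r v : V} {n : ℕ} {D : Finset V}
    (hD : Sub G D v) {R : Rule V} (hR : RMeas R) {f : Finset V → ℝ} {C : ℝ}
    (hf : ∀ S, |f S| ≤ C) {φ : Dat V → ℝ} (hφ : BM φ)
    (hdep : ∀ T, Dep (fun y ↦ φ (T, y)) (past n D R T)) :
    ∫ ω, φ (vis σ ω) * f (conf D ω.1) ∂Pm G θ r =
      ∫ ω, φ (vis σ ω) * pf G θ σ D (past n D R (vis σ ω).1) (vis σ ω).2 f ∂Pm G θ r := by
  have hob : ∀ S : Finset V, Measurable fun z : Dat V ↦ ((z.2, obs σ S z.1) : Dat V) :=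
    fun S ↦ measurable_snd.prodMk ((measurable_obs S).comp measurable_fst)
  set h1 : Finset V → Dat V → ℝ := fun S z ↦ φ (z.2, obs σ S z.1) * f S with h1def
  set h2 : Finset V → Dat V → ℝ :=
    fun S z ↦ φ (z.2, obs σ S z.1) * pf G θ σ D (past n D R z.2) (obs σ S z.1) f with h2def
  have hh1 : ∀ S, BM (h1 S) := fun S ↦
    BM.mul (f := fun z : Dat V ↦ φ (z.2, obs σ S z.1)) (g := fun _ ↦ f S)
      (BM.comp (f := φ) (g := fun z : Dat V ↦ ((z.2, obs σ S z.1) : Dat V)) hφ (hob S))
      (BM.const (f S))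
  have hh2 : ∀ S, BM (h2 S) := fun S ↦
    BM.mul (f := fun z : Dat V ↦ φ (z.2, obs σ S z.1))
      (g := fun z ↦ pf G θ σ D (past n D R z.2) (obs σ S z.1) f)
      (BM.comp (f := φ) (g := fun z : Dat V ↦ ((z.2, obs σ S z.1) : Dat V)) hφ (hob S))
      (BM.comp (f := fun p : Dat V ↦ pf G θ σ D (past n D R p.1) p.2 f)
        (g := fun z : Dat V ↦ ((z.2, obs σ S z.1) : Dat V)) (bm_pf_past hp n D hR hf) (hob S))
  have eφ : ∀ ω : Om V, φ (vis σ ω) = φ (ω.2.2, obs σ (conf D ω.1) ω.2.1) := fun ω ↦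
    hdep ω.2.2 _ _ fun i hi ↦ Yv_eq_obs (mem_past.1 hi).2.1 ω
  have e1 : (fun ω : Om V ↦ φ (vis σ ω) * f (conf D ω.1)) = fun ω ↦ h1 (conf D ω.1) ω.2 := by
    funext ω
    rw [eφ ω, h1def]
  have e2 : (fun ω : Om V ↦ φ (vis σ ω) *
      pf G θ σ D (past n D R (vis σ ω).1) (vis σ ω).2 f) = fun ω ↦ h2 (conf D ω.1) ω.2 := by
    funext ω
    have : pf G θ σ D (past n D R (vis σ ω).1) (vis σ ω).2 f =
        pf G θ σ D (past n D R ω.2.2) (obs σ (conf D ω.1) ω.2.1) f :=
      pf_congr _ fun i hi ↦ Yv_eq_obs (mem_past.1 hi).2.1 ω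
    rw [eφ ω, this, h2def]
  rw [e1, e2, gint hG hp hD h1 hh1, gint hG hp hD h2 hh2]
  simp only [h1def, h2def]
  congr 1
  funext T
  have := orth (G := G) (σ := σ) hp D (past n D R T) hf
    (hφ.comp (measurable_const.prodMk measurable_id : Measurable fun y ↦ (T, y))) (hdep T)
  refine Eq.trans ?_ this
  refine sum_congr rfl fun S _ ↦ ?_
  rw [integral_mul_const]
  ring

variable [G.LocallyFinite]

/-- The window of the `n`-th finite model. -/
noncomputable def win (G : SimpleGraph V) [G.LocallyFinite] (r : V) (n : ℕ) : Finset (Ix V) :=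
  range n ×ˢ ball G r n

lemma win_mono (hG : G.IsTree) (r : V) {m n : ℕ} (h : m ≤ n) : win G r m ⊆ win G r n :=
  product_subset_product (range_subset_range.2 h) (ball_mono hG r h)

lemma mem_win (hG : G.IsTree) (r : V) (i : Ix V) :
    ∀ᶠ n in atTop, i ∈ win G r n := by
  refine eventually_atTop.2 ⟨max (i.1 + 1) (G.dist r i.2), fun n hn ↦ ?_⟩
  exact mem_product.2 ⟨Finset.mem_range.2 (by omega), (mem_ball hG).2 (by omega)⟩

/-- The posterior mean of `f` given the data selected by `R` in the `n`-th model. -/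
noncomputable def Mn (G : SimpleGraph V) [G.LocallyFinite] (θ : ℝ) (σ : Sch) (r : V)
    (R : Rule V) (f : Finset V → ℝ) (n : ℕ) (p : Dat V) : ℝ :=
  pf G θ σ (ball G r n) (past n (ball G r n) R p.1) p.2 f

/-- The infinite-volume posterior mean of `f` given the data selected by `R`. -/
noncomputable def ML (G : SimpleGraph V) [G.LocallyFinite] (θ : ℝ) (σ : Sch) (r : V)
    (R : Rule V) (f : Finset V → ℝ) (p : Dat V) : ℝ :=
  limsup (fun n ↦ Mn G θ σ r R f n p) atTop

lemma Mn_abs (hp : Par θ) (r : V) (R : Rule V) {f : Finset V → ℝ} {C : ℝ} (hf : ∀ S, |f S| ≤ C)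
    (n : ℕ) (p : Dat V) : |Mn G θ σ r R f n p| ≤ C := pf_abs hp _ _ _ hf

lemma measurable_Mn (r : V) {R : Rule V} (hR : RMeas R) (f : Finset V → ℝ) (n : ℕ) :
    Measurable (Mn G θ σ r R f n) := measurable_pf_past n _ hR f

lemma measurable_ML (r : V) {R : Rule V} (hR : RMeas R) (f : Finset V → ℝ) :
    Measurable (ML G θ σ r R f) := Measurable.limsup fun n ↦ measurable_Mn r hR f n

lemma bm_Mn_vis (hp : Par θ) (r : V) {R : Rule V} (hR : RMeas R) {f : Finset V → ℝ} {C : ℝ}
    (hf : ∀ S, |f S| ≤ C) (n : ℕ) : BM fun ω : Om V ↦ Mn G θ σ r R f n (vis σ ω) :=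
  BM.comp (f := Mn G θ σ r R f n) ⟨measurable_Mn r hR f n, C, Mn_abs hp r R hf n⟩
    (measurable_vis σ)

lemma past_congr {n : ℕ} {D : Finset V} {R R' : Rule V} {T : Ix V → ℝ}
    (h : ∀ i, R T i ↔ R' T i) : past n D R T = past n D R' T := by
  ext i
  simp [mem_past, h]

lemma Mn_mskW (r : V) (R : Rule V) (f : Finset V → ℝ) (n : ℕ) (p : Dat V) :
    Mn G θ σ r R f n (mskW (win G r n) R p) = Mn G θ σ r R f n p := by
  refine pf_congr _ fun i hi ↦ ?_
  obtain ⟨h1, h2, h3⟩ := mem_past.1 hi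
  have : i ∈ win G r n := mem_product.2 ⟨Finset.mem_range.2 h1, h2⟩
  simp only [mskW]
  rw [if_pos ⟨this, h3⟩]

lemma Mn_msk (r : V) (R : Rule V) {R' : Rule V} (f : Finset V → ℝ) (n : ℕ) {p : Dat V}
    (h : ∀ i, R p.1 i → R' p.1 i) : Mn G θ σ r R f n (msk R' p) = Mn G θ σ r R f n p := by
  refine pf_congr _ fun i hi ↦ ?_
  have h3 : R p.1 i := (mem_past.1 hi).2.2
  simp only [msk]
  rw [if_pos (h i h3)]

lemma ML_msk (r : V) (R : Rule V) {R' : Rule V} (f : Finset V → ℝ) {p : Dat V}
    (h : ∀ i, R p.1 i → R' p.1 i) : ML G θ σ r R f (msk R' p) = ML G θ σ r R f p := by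
  simp only [ML, Mn_msk r R f _ h]

/-- The finite-volume posterior mean is a conditional expectation. -/
lemma Mn_eq_condExp (hG : G.IsTree) (hp : Par θ) (r : V) {R : Rule V} (hR : RMeas R)
    {f : Finset V → ℝ} {C : ℝ} (hf : ∀ S, |f S| ≤ C) {A : Finset V} (hA : Loc f A) {n : ℕ}
    (hn : A ⊆ ball G r n) :
    (fun ω ↦ Mn G θ σ r R f n (vis σ ω)) =ᵐ[Pm G θ r] (Pm G θ r)[fun ω : Om V ↦ f (conf A ω.1) |
      MeasurableSpace.comap (fun ω ↦ mskW (win G r n) R (vis σ ω)) inferInstance] := by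
  have := Pm_prob (G := G) hp r
  have hm : Measurable fun ω : Om V ↦ mskW (win G r n) R (vis σ ω) :=
    (measurable_mskW _ hR).comp (measurable_vis σ)
  refine ae_eq_condExp_of_forall_setIntegral_eq hm.comap_le ((bm_fconf hf A).integrable _)
    (fun B _ _ ↦ ((bm_Mn_vis hp r hR hf n).integrable _).integrableOn) ?_ ?_
  · intro B hB _
    obtain ⟨B', hB', rfl⟩ := hB
    set φ : Dat V → ℝ := fun p ↦ B'.indicator (fun _ ↦ 1) (mskW (win G r n) R p)
    have hφ : BM φ := ⟨(measurable_const.indicator hB').comp (measurable_mskW _ hR), 1, fun p ↦ by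
      simp only [φ]; by_cases h : mskW (win G r n) R p ∈ B' <;> simp [h]⟩
    have hdep : ∀ T, Dep (fun y ↦ φ (T, y)) (past n (ball G r n) R T) := by
      intro T y y' h
      simp only [φ]
      congr 1
      refine Prod.ext rfl (funext fun i ↦ ?_)
      simp only [mskW]
      split_ifs with hc
      · exact h i (mem_past.2 ⟨Finset.mem_range.1 (mem_product.1 hc.1).1,
          (mem_product.1 hc.1).2, hc.2⟩)
      · rfl
    have hB2 : MeasurableSet ((fun ω ↦ mskW (win G r n) R (vis σ ω)) ⁻¹' B') := hm hB'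
    rw [← integral_indicator hB2, ← integral_indicator hB2]
    have := (orth_glob hG hp (r := r) (σ := σ) (sub_ball hG r n) hR hf hφ hdep).symm
    refine Eq.trans (integral_congr_ae (.of_forall fun ω ↦ ?_))
      (this.trans (integral_congr_ae (.of_forall fun ω ↦ ?_)))
    · simp only [φ, Set.indicator, Set.mem_preimage, ite_mul, one_mul, zero_mul]; rfl
    · simp only [φ, Set.indicator, Set.mem_preimage, ite_mul, one_mul, zero_mul,
        hA.eq_conf hn ω.1]
      rfl
  · refine StronglyMeasurable.aestronglyMeasurable (Measurable.stronglyMeasurable ?_)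
    have e : (fun ω ↦ Mn G θ σ r R f n (vis σ ω)) =
        (fun p ↦ Mn G θ σ r R f n p) ∘ (fun ω ↦ mskW (win G r n) R (vis σ ω)) :=
      funext fun ω ↦ (Mn_mskW r R f n _).symm
    rw [e]
    exact (measurable_Mn r hR f n).comp (comap_measurable _)

/-- The data in growing windows. -/
noncomputable def filt (hG : G.IsTree) (σ : Sch) (r : V) (R : Rule V) (hR : RMeas R) :
    Filtration ℕ (inferInstance : MeasurableSpace (Om V)) where
  seq n := MeasurableSpace.comap (fun ω ↦ mskW (win G r n) R (vis σ ω)) inferInstance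
  mono' m n hmn := by
    change MeasurableSpace.comap (fun ω ↦ mskW (win G r m) R (vis σ ω)) _ ≤
      MeasurableSpace.comap (fun ω ↦ mskW (win G r n) R (vis σ ω)) _
    classical
    set c : Dat V → Dat V := fun p ↦ (p.1, fun i ↦ if i ∈ win G r m then p.2 i else 0)
    have hc : Measurable c := measurable_fst.prodMk (measurable_pi_iff.2 fun i ↦
      Measurable.ite (MeasurableSet.const _) (by fun_prop) measurable_const)
    have e : (fun ω ↦ mskW (win G r m) R (vis σ ω)) =
        c ∘ fun ω ↦ mskW (win G r n) R (vis σ ω) := by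
      funext ω
      refine Prod.ext rfl (funext fun i ↦ ?_)
      simp only [c, mskW, Function.comp_apply]
      by_cases h : i ∈ win G r m
      · simp [h, win_mono hG r hmn h]
      · simp [h]
    rw [e]
    exact (hc.comp (comap_measurable _)).comap_le
  le' n := ((measurable_mskW _ hR).comp (measurable_vis σ)).comap_le

lemma iSup_filt (hG : G.IsTree) (r : V) {R : Rule V} (hR : RMeas R) :
    ⨆ n, filt hG σ r R hR n =
      MeasurableSpace.comap (fun ω : Om V ↦ msk R (vis σ ω)) inferInstance := by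
  classical
  apply le_antisymm
  · refine iSup_le fun n ↦ ?_
    set c : Dat V → Dat V := fun p ↦ (p.1, fun i ↦ if i ∈ win G r n then p.2 i else 0)
    have hc : Measurable c := measurable_fst.prodMk (measurable_pi_iff.2 fun i ↦
      Measurable.ite (MeasurableSet.const _) (by fun_prop) measurable_const)
    have e : (fun ω ↦ mskW (win G r n) R (vis σ ω)) = c ∘ fun ω : Om V ↦ msk R (vis σ ω) := by
      funext ω
      refine Prod.ext rfl (funext fun i ↦ ?_)
      simp only [c, mskW, msk, Function.comp_apply]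
      by_cases h : i ∈ win G r n <;> simp [h]
    change MeasurableSpace.comap (fun ω ↦ mskW (win G r n) R (vis σ ω)) _ ≤ _
    rw [e]
    exact (hc.comp (comap_measurable _)).comap_le
  · refine Measurable.comap_le ?_
    set m' : MeasurableSpace (Om V) := ⨆ n, filt hG σ r R hR n
    have h1 : ∀ n, @Measurable _ _ m' inferInstance
        (fun ω : Om V ↦ mskW (win G r n) R (vis σ ω)) := fun n ↦
      (comap_measurable _).mono (le_iSup (fun n ↦ filt hG σ r R hR n) n) le_rfl
    refine @Measurable.prodMk (Om V) m' (Ix V → ℝ) (Ix V → ℝ) _ _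
      (fun ω : Om V ↦ (msk R (vis σ ω)).1) (fun ω ↦ (msk R (vis σ ω)).2) ?_ ?_
    · have e : (fun ω : Om V ↦ (msk R (vis σ ω)).1) =
          Prod.fst ∘ fun ω ↦ mskW (win G r 0) R (vis σ ω) := rfl
      rw [e]
      exact measurable_fst.comp (h1 0)
    · refine measurable_pi_iff.2 fun i ↦ ?_
      obtain ⟨n, hn⟩ := (mem_win hG r i).exists
      have e : (fun ω : Om V ↦ (msk R (vis σ ω)).2 i) =
          (fun q : Dat V ↦ q.2 i) ∘ fun ω ↦ mskW (win G r n) R (vis σ ω) := by
        funext ω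
        simp [msk, mskW, hn]
      rw [e]
      exact ((measurable_pi_apply i).comp measurable_snd).comp (h1 n)

/-- Martingale convergence of posterior means, and identification of the limit. -/
lemma tendsto_Mn (hG : G.IsTree) (hp : Par θ) (r : V) {R : Rule V} (hR : RMeas R)
    {f : Finset V → ℝ} {C : ℝ} (hf : ∀ S, |f S| ≤ C) {A : Finset V} (hA : Loc f A) :
    (∀ᵐ ω ∂Pm G θ r, Tendsto (fun n ↦ Mn G θ σ r R f n (vis σ ω)) atTop
      (𝓝 (ML G θ σ r R f (vis σ ω)))) ∧
    (fun ω ↦ ML G θ σ r R f (vis σ ω)) =ᵐ[Pm G θ r] (Pm G θ r)[fun ω : Om V ↦ f (conf A ω.1) |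
      MeasurableSpace.comap (fun ω ↦ msk R (vis σ ω)) inferInstance] := by
  have := Pm_prob (G := G) hp r
  set N := A.sup (G.dist r)
  have key : ∀ n, N ≤ n → (fun ω ↦ Mn G θ σ r R f n (vis σ ω)) =ᵐ[Pm G θ r]
      (Pm G θ r)[fun ω : Om V ↦ f (conf A ω.1) | filt hG σ r R hR n] := fun n hn ↦
    Mn_eq_condExp hG hp r hR hf hA fun x hx ↦
      (mem_ball hG).2 ((le_sup (f := G.dist r) hx).trans hn)
  have hl := tendsto_ae_condExp (μ := Pm G θ r) (ℱ := filt hG σ r R hR)
    (fun ω : Om V ↦ f (conf A ω.1))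
  rw [iSup_filt hG r hR] at hl
  have key' : ∀ᵐ ω ∂Pm G θ r, ∀ n, N ≤ n → Mn G θ σ r R f n (vis σ ω) =
      (Pm G θ r)[fun ω : Om V ↦ f (conf A ω.1) | filt hG σ r R hR n] ω :=
    ae_all_iff.2 fun n ↦ by
      by_cases hn : N ≤ n
      · filter_upwards [key n hn] with ω hω _ using hω
      · exact .of_forall fun ω h ↦ absurd h hn
  have hlim : ∀ᵐ ω ∂Pm G θ r, Tendsto (fun n ↦ Mn G θ σ r R f n (vis σ ω)) atTop
      (𝓝 ((Pm G θ r)[fun ω : Om V ↦ f (conf A ω.1) |
        MeasurableSpace.comap (fun ω ↦ msk R (vis σ ω)) inferInstance] ω)) := by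
    filter_upwards [hl, key'] with ω h1 h2
    refine h1.congr' ?_
    filter_upwards [eventually_ge_atTop N] with n hn
    exact (h2 n hn).symm
  refine ⟨?_, ?_⟩
  · filter_upwards [hlim] with ω h
    rwa [ML, h.limsup_eq]
  · filter_upwards [hlim] with ω h
    rw [ML, h.limsup_eq]

lemma abs_ML (hG : G.IsTree) (hp : Par θ) (r : V) {R : Rule V} (hR : RMeas R)
    {f : Finset V → ℝ} {C : ℝ} (hf : ∀ S, |f S| ≤ C) {A : Finset V} (hA : Loc f A) :
    ∀ᵐ ω ∂Pm G θ r, |ML G θ σ r R f (vis σ ω)| ≤ C := by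
  filter_upwards [(tendsto_Mn hG hp r hR hf hA).1] with ω hω
  exact le_of_tendsto' (continuous_abs.continuousAt.tendsto.comp hω) fun k ↦
    Mn_abs hp r R hf k _

lemma clock_inj {u v : ℝ} (hu0 : 0 ≤ u) (hu1 : u < 1) (hv0 : 0 ≤ v) (hv1 : v < 1)
    (h : clock u = clock v) : u = v := by
  have h1 : 1 - u ≠ 0 := by linarith
  have h2 : 1 - v ≠ 0 := by linarith
  rw [clock, if_pos ⟨hu0, hu1⟩, clock, if_pos ⟨hv0, hv1⟩, div_eq_div_iff h1 h2] at h
  linarith

lemma ae_mem_u01 : ∀ᵐ u ∂u01, 0 ≤ u ∧ u < 1 := by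
  rw [u01]
  filter_upwards [ae_restrict_mem measurableSet_Icc,
    ae_restrict_of_ae (Measure.ae_ne volume (1:ℝ))] with u hu hne
  exact ⟨hu.1, lt_of_le_of_ne hu.2 hne⟩

omit [G.LocallyFinite] in
/-- Almost surely no two indices are revealed at the same time. -/
lemma ae_injOn [Countable V] (σ : Sch) :
    ∀ᵐ T : Ix V → ℝ ∂W01 V, Function.Injective (tm σ T) := by
  have key : ∀ x y : Ix V, x ≠ y → ∀ᵐ T : Ix V → ℝ ∂W01 V, tm σ T x ≠ tm σ T y := by
    intro x y hxy
    have hm : MeasurableSet {T : Ix V → ℝ | tm σ T x = tm σ T y} :=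
      measurableSet_eq_fun (measurable_tm σ x) (measurable_tm σ y)
    have : ∫ T, {T : Ix V → ℝ | tm σ T x = tm σ T y}.indicator (fun _ ↦ (1:ℝ)) T ∂W01 V = 0 := by
      rw [W01, integral_resample (fun _ ↦ u01) ⟨measurable_const.indicator hm, 1, fun T ↦ by
        by_cases h : tm σ T x = tm σ T y <;> simp [Set.indicator, h]⟩ x]
      apply integral_eq_zero_of_ae
      refine .of_forall fun T ↦ integral_eq_zero_of_ae ?_
      by_cases hex : ∃ u0, (0 ≤ u0 ∧ u0 < 1) ∧ σ.a x.1 + σ.c x.1 * clock u0 = tm σ T y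
      · obtain ⟨u0, hu0, he⟩ := hex
        have hne : ∀ᵐ t ∂u01, t ≠ u0 := by
          rw [u01]; exact ae_restrict_of_ae (Measure.ae_ne volume _)
        filter_upwards [hne, ae_mem_u01] with t ht ht'
        simp only [Set.indicator, Pi.zero_apply, Set.mem_setOf_eq]
        rw [if_neg]
        intro h
        simp only [tm, Function.update_self, Function.update_of_ne (Ne.symm hxy)] at h
        refine ht (clock_inj ht'.1 ht'.2 hu0.1 hu0.2 ?_)
        have h' : σ.c x.1 * clock t = σ.c x.1 * clock u0 := by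
          simp only [tm] at he; linarith
        exact mul_left_cancel₀ (σ.c_pos _).ne' h'
      · filter_upwards [ae_mem_u01] with t ht'
        simp only [Set.indicator, Pi.zero_apply, Set.mem_setOf_eq]
        rw [if_neg]
        intro h
        simp only [tm, Function.update_self, Function.update_of_ne (Ne.symm hxy)] at h
        exact hex ⟨t, ht', h⟩
    rw [integral_indicator_const _ hm, smul_eq_mul, mul_one,
      measureReal_eq_zero_iff] at this
    rw [ae_iff]
    simpa using this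
  have h2 : ∀ᵐ T : Ix V → ℝ ∂W01 V, ∀ p : {p : Ix V × Ix V // p.1 ≠ p.2},
      tm σ T p.1.1 ≠ tm σ T p.1.2 := ae_all_iff.2 fun p ↦ key _ _ p.2
  filter_upwards [h2] with T hT x y e
  by_contra hne
  exact hT ⟨(x, y), hne⟩ e

omit [G.LocallyFinite] in
lemma measurable_UU2 (n : ℕ) (D : Finset V) :
    Measurable fun p : Dat V ↦ UU G θ σ n D p.1 p.2 := by
  refine measurable_pi_iff.2 fun j ↦ ?_
  have h1 : Measurable fun p : Dat V ↦ mm G θ σ n D p.1 p.2 j :=
    measurable_pf_past n D (rmeas_rJ σ j) _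
  unfold UU cdf1
  fun_prop

/-- Law of the finite-volume innovations together with the labels. -/
lemma law_glob [Countable V] (hG : G.IsTree) (hp : Par θ) {r v : V} {n : ℕ} {D : Finset V}
    (hD : Sub G D v) {φ : Dat V → ℝ} (hφ : BM φ)
    (hdep : ∀ T, Dep (fun u ↦ φ (T, u)) (range n ×ˢ D)) :
    ∫ ω, φ (ω.2.2, UU G θ σ n D ω.2.2 (Yv σ ω)) ∂Pm G θ r =
      ∫ T, ∫ u, φ (T, u) ∂W01 V ∂W01 V := by
  set h1 : Finset V → Dat V → ℝ :=
    fun S z ↦ φ (z.2, UU G θ σ n D z.2 (obs σ S z.1)) with h1def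
  have e : (fun ω : Om V ↦ φ (ω.2.2, UU G θ σ n D ω.2.2 (Yv σ ω))) =
      fun ω ↦ h1 (conf D ω.1) ω.2 := by
    funext ω
    rw [h1def]
    exact hdep ω.2.2 _ _ fun j hj ↦ UU_dep n D _
      (fun i hi ↦ Yv_eq_obs (mem_past.1 hi).2.1 ω) (Yv_eq_obs (mem_product.1 hj).2 ω)
  have hm : ∀ S : Finset V, Measurable fun z : Dat V ↦
      ((z.2, UU G θ σ n D z.2 (obs σ S z.1)) : Dat V) := fun S ↦
    Measurable.prodMk measurable_snd (Measurable.comp (g := fun p : Dat V ↦ UU G θ σ n D p.1 p.2)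
      (f := fun z : Dat V ↦ ((z.2, obs σ S z.1) : Dat V)) (measurable_UU2 n D)
      (measurable_snd.prodMk ((measurable_obs S).comp measurable_fst)))
  rw [e, gint hG hp hD h1 (fun S ↦ BM.comp hφ (hm S))]
  apply integral_congr_ae
  filter_upwards [ae_injOn σ] with T hT
  exact law_UU hG hp hD hT.injOn
    (hφ.comp (measurable_const.prodMk measurable_id : Measurable fun u ↦ (T, u))) (hdep T)

end Vale.Agent.P161.Crit
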