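import Mathlib
import Vale.Agent.P161.Crit.Global
import Vale.Agent.P161.Crit.Geo

/-!
Splitting the finite-volume posterior across an edge: side posteriors and covariances.
-/

namespace Vale.Agent.P161.Crit

open Finset

variable {V : Type*} [DecidableEq V] {G : SimpleGraph V} {θ : ℝ} {σ : Sch}

/-- The attenuation of a correlation across an edge. -/
noncomputable def psi (θ a : ℝ) : ℝ := (1 - a ^ 2) / (1 - θ ^ 2 * a ^ 2)

/-- Posterior covariance. -/
noncomputable def cv (G : SimpleGraph V) (θ : ℝ) (σ : Sch) (D : Finset V) (P : Finset (Ix V))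
    (y : Ix V → ℝ) (f g : Finset V → ℝ) : ℝ :=
  pf G θ σ D P y (fun S ↦ f S * g S) - pf G θ σ D P y f * pf G θ σ D P y g

open Classical in
/-- The indices on the side of `x` of the edge `xp`. -/
noncomputable def sideI (G : SimpleGraph V) (P : Finset (Ix V)) (x p : V) : Finset (Ix V) :=
  P.filter fun i ↦ OnSide G x p i.2

/-- The posterior mean of the spin at `x` on its side of the edge `xp`. -/
noncomputable def sd (G : SimpleGraph V) (θ : ℝ) (σ : Sch) (D : Finset V) (P : Finset (Ix V))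
    (y : Ix V → ℝ) (x p : V) : ℝ :=
  pf G θ σ (sideF G D x p) (sideI G P x p) y fun S ↦ sg S x

omit [DecidableEq V] in
lemma mem_sideI {P : Finset (Ix V)} {x p : V} {i : Ix V} :
    i ∈ sideI G P x p ↔ i ∈ P ∧ OnSide G x p i.2 := by simp [sideI]

/-! ### Elementary facts on posterior means -/

lemma pS_add (D : Finset V) (P : Finset (Ix V)) (y : Ix V → ℝ) (f g : Finset V → ℝ) :
    pS G θ σ D P y (fun S ↦ f S + g S) = pS G θ σ D P y f + pS G θ σ D P y g := by
  simp only [pS, mul_add, sum_add_distrib]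

lemma pS_smul (D : Finset V) (P : Finset (Ix V)) (y : Ix V → ℝ) (c : ℝ) (f : Finset V → ℝ) :
    pS G θ σ D P y (fun S ↦ c * f S) = c * pS G θ σ D P y f := by
  rw [pS, pS, mul_sum]; exact sum_congr rfl fun S _ ↦ by ring

lemma pf_const (hp : Par θ) (D : Finset V) (P : Finset (Ix V)) (y : Ix V → ℝ) (c : ℝ) :
    pf G θ σ D P y (fun _ ↦ c) = c := by
  have h := pS_smul (G := G) (θ := θ) (σ := σ) D P y c (fun _ ↦ 1)
  simp only [mul_one] at h
  rw [pf, h, mul_div_assoc, div_self (den_pos hp D P y).ne', mul_one]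

lemma pf_add (D : Finset V) (P : Finset (Ix V)) (y : Ix V → ℝ) (f g : Finset V → ℝ) :
    pf G θ σ D P y (fun S ↦ f S + g S) = pf G θ σ D P y f + pf G θ σ D P y g := by
  simp only [pf, pS_add, add_div]

lemma pf_smul (D : Finset V) (P : Finset (Ix V)) (y : Ix V → ℝ) (c : ℝ) (f : Finset V → ℝ) :
    pf G θ σ D P y (fun S ↦ c * f S) = c * pf G θ σ D P y f := by
  simp only [pf, pS_smul, mul_div_assoc]

lemma pf_le (hp : Par θ) {D : Finset V} {P : Finset (Ix V)} {y : Ix V → ℝ} {f g : Finset V → ℝ}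
    (h : ∀ S ∈ D.powerset, f S ≤ g S) : pf G θ σ D P y f ≤ pf G θ σ D P y g := by
  refine div_le_div_of_nonneg_right (sum_le_sum fun S hS ↦ ?_) (den_pos hp D P y).le
  exact mul_le_mul_of_nonneg_left (mul_le_mul_of_nonneg_left (h S hS) (lik_pos σ P y S).le)
    (tw_pos hp.nonneg hp.lt_one D S).le

lemma cv_comm (D : Finset V) (P : Finset (Ix V)) (y : Ix V → ℝ) (f g : Finset V → ℝ) :
    cv G θ σ D P y f g = cv G θ σ D P y g f := by
  simp only [cv, mul_comm]

lemma cv_self (hp : Par θ) (D : Finset V) (P : Finset (Ix V)) (y : Ix V → ℝ) (x : V) :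
    cv G θ σ D P y (fun S ↦ sg S x) (fun S ↦ sg S x) =
      1 - pf G θ σ D P y (fun S ↦ sg S x) ^ 2 := by
  simp only [cv, sg_mul_self, pf_const hp, sq]

lemma abs_pf_spin (hp : Par θ) (D : Finset V) (P : Finset (Ix V)) (y : Ix V → ℝ) (x : V) :
    |pf G θ σ D P y (fun S ↦ sg S x)| ≤ 1 :=
  pf_abs hp D P y fun S ↦ (sg_abs S x).le

lemma abs_sd (hp : Par θ) (D : Finset V) (P : Finset (Ix V)) (y : Ix V → ℝ) (x p : V) :
    |sd G θ σ D P y x p| ≤ 1 :=
  abs_pf_spin hp _ _ _ x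

/-- A covariance with a spin is at most the sup norm times the variance of the spin. -/
lemma abs_cv_le (hp : Par θ) (D : Finset V) (P : Finset (Ix V)) (y : Ix V → ℝ) (x : V)
    {h : Finset V → ℝ} {C : ℝ} (hC : ∀ S, |h S| ≤ C) :
    |cv G θ σ D P y h (fun S ↦ sg S x)| ≤ C * (1 - pf G θ σ D P y (fun S ↦ sg S x) ^ 2) := by
  set m := pf G θ σ D P y (fun S ↦ sg S x)
  have hm := abs_le.1 (abs_pf_spin (G := G) (σ := σ) hp D P y x)
  have e : cv G θ σ D P y h (fun S ↦ sg S x) = pf G θ σ D P y (fun S ↦ h S * (sg S x - m)) := by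
    have e1 : (fun S : Finset V ↦ h S * (sg S x - m)) = fun S ↦ h S * sg S x + (-m) * h S := by
      funext S; ring
    rw [e1, pf_add, pf_smul, cv]; ring
  have e2 : C * (1 - m ^ 2) = pf G θ σ D P y (fun S ↦ C * (1 + (-m) * sg S x)) := by
    rw [pf_smul, pf_add, pf_smul, pf_const hp]; ring
  have key : ∀ S, |h S * (sg S x - m)| ≤ C * (1 + (-m) * sg S x) := by
    intro S
    rw [abs_mul]
    refine mul_le_mul (hC S) (le_of_eq ?_) (abs_nonneg _) ((abs_nonneg _).trans (hC S))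
    rcases abs_eq (zero_le_one' ℝ) |>.1 (sg_abs S x) with e | e <;> rw [e]
    · rw [abs_of_nonneg (by linarith [hm.2])]; ring
    · rw [abs_of_nonpos (by linarith [hm.1])]; ring
  rw [e, e2, abs_le]
  refine ⟨?_, pf_le hp fun S _ ↦ (abs_le.1 (key S)).2⟩
  have := pf_le (G := G) (σ := σ) (D := D) (P := P) (y := y) hp (f := fun S ↦
    (-1 : ℝ) * (C * (1 + (-m) * sg S x))) (g := fun S ↦ h S * (sg S x - m))
    (fun S _ ↦ by linarith [(abs_le.1 (key S)).1])
  rw [pf_smul] at this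
  linarith

lemma abs_cv_le' (hp : Par θ) (D : Finset V) (P : Finset (Ix V)) (y : Ix V → ℝ) (x : V)
    {h : Finset V → ℝ} {C : ℝ} (hC : ∀ S, |h S| ≤ C) :
    |cv G θ σ D P y h (fun S ↦ sg S x)| ≤ C := by
  refine (abs_cv_le hp D P y x hC).trans ?_
  exact mul_le_of_le_one_right ((abs_nonneg _).trans (hC ∅)) (by nlinarith)

/-! ### Splitting across an edge -/

lemma edges_split (hG : G.IsTree) {D : Finset V} {x p : V} (hx : x ∈ D) (hp : p ∈ D)
    (h : G.Adj x p) :
    edges G D = insert s(x, p) (edges G (sideF G D x p) ∪ edges G (sideF G D p x)) ∧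
      s(x, p) ∉ edges G (sideF G D x p) ∪ edges G (sideF G D p x) ∧
      Disjoint (edges G (sideF G D x p)) (edges G (sideF G D p x)) := by
  refine ⟨?_, ?_, ?_⟩
  · ext e
    induction e with
    | _ u v =>
      simp only [mem_insert, mem_union, mem_edges, mem_sideF, onSide_comm hG h, Sym2.eq_iff]
      constructor
      · rintro ⟨hu, hv, hadj⟩
        by_cases hus : OnSide G x p u <;> by_cases hvs : OnSide G x p v
        · exact Or.inr (Or.inl ⟨⟨hu, hus⟩, ⟨hv, hvs⟩, hadj⟩)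
        · exact Or.inl (Or.inl (cross_unique hG h hus hvs hadj))
        · obtain ⟨a, c⟩ := cross_unique hG h hvs hus hadj.symm
          exact Or.inl (Or.inr ⟨c, a⟩)
        · exact Or.inr (Or.inr ⟨⟨hu, hus⟩, ⟨hv, hvs⟩, hadj⟩)
      · rintro ((⟨rfl, rfl⟩ | ⟨rfl, rfl⟩) | ⟨⟨hu, -⟩, ⟨hv, -⟩, ha⟩ | ⟨⟨hu, -⟩, ⟨hv, -⟩, ha⟩)
        · exact ⟨hx, hp, h⟩
        · exact ⟨hp, hx, h.symm⟩
        · exact ⟨hu, hv, ha⟩
        · exact ⟨hu, hv, ha⟩
  · simp only [mem_union, mem_edges, mem_sideF]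
    rintro (⟨-, ⟨-, h2⟩, -⟩ | ⟨⟨-, h1⟩, -, -⟩)
    · exact not_onSide_other x p h2
    · exact not_onSide_other p x h1
  · rw [Finset.disjoint_left]
    intro e
    induction e with
    | _ u v =>
      simp only [mem_edges, mem_sideF, onSide_comm hG h]
      tauto

lemma tw_split (hG : G.IsTree) (θ : ℝ) {D : Finset V} {x p : V} (hx : x ∈ D) (hp : p ∈ D)
    (h : G.Adj x p) (S : Finset V) :
    tw G θ D S = tw G θ (sideF G D x p) S * tw G θ (sideF G D p x) S *
      (1 + θ * (sg S x * sg S p)) := by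
  obtain ⟨e1, e2, e3⟩ := edges_split hG hx hp h
  rw [tw, e1, prod_insert e2, prod_union e3, pw_mk, tw, tw]
  ring

lemma lik_split (D : Finset V) (hG : G.IsTree) {x p : V} (h : G.Adj x p) (P : Finset (Ix V))
    (hP : ∀ i ∈ P, i.2 ∈ D) (y : Ix V → ℝ) (S : Finset V) :
    lik σ P y S = lik σ (sideI G P x p) y (S ∩ sideF G D x p) *
      lik σ (sideI G P p x) y (S ∩ sideF G D p x) := by
  classical
  rw [lik, ← prod_filter_mul_prod_filter_not P (fun i ↦ OnSide G x p i.2)]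
  have e : sideI G P p x = P.filter fun i ↦ ¬ OnSide G x p i.2 := by
    ext i; simp [mem_sideI, onSide_comm hG h]
  rw [e, lik, lik, sideI]
  congr 1 <;> refine prod_congr rfl fun i hi ↦ ?_
  · rw [sg_congr (S := S ∩ sideF G D x p) (T := S) (x := i.2)
      (by simp [mem_sideF, hP i (mem_filter.1 hi).1, (mem_filter.1 hi).2])]
  · rw [sg_congr (S := S ∩ sideF G D p x) (T := S) (x := i.2)
      (by simp [mem_sideF, hP i (mem_filter.1 hi).1, onSide_comm hG h, (mem_filter.1 hi).2])]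

lemma sum_powerset_split {A B D : Finset V} (hd : Disjoint A B) (hu : A ∪ B = D)
    (F : Finset V → Finset V → ℝ) :
    ∑ S ∈ D.powerset, F (S ∩ A) (S ∩ B) = ∑ SA ∈ A.powerset, ∑ SB ∈ B.powerset, F SA SB := by
  rw [← sum_product']
  refine sum_nbij' (fun S ↦ (S ∩ A, S ∩ B)) (fun q ↦ q.1 ∪ q.2) ?_ ?_ ?_ ?_ ?_
  · intro S _; simp
  · intro q hq
    simp only [mem_product, Finset.mem_powerset] at hq
    exact Finset.mem_powerset.2 (hu ▸ union_subset_union hq.1 hq.2)
  · intro S hS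
    rw [Finset.mem_powerset] at hS
    simp only [← inter_union_distrib_left, hu, inter_eq_left.2 hS]
  · intro q hq
    simp only [mem_product, Finset.mem_powerset] at hq
    have h1 := Finset.disjoint_left.1 hd
    refine Prod.ext ?_ ?_ <;> ext z <;> simp only [mem_inter, mem_union]
    · exact ⟨fun ⟨hz, hA⟩ ↦ hz.resolve_right fun hb ↦ h1 hA (hq.2 hb),
        fun hz ↦ ⟨Or.inl hz, hq.1 hz⟩⟩
    · exact ⟨fun ⟨hz, hB⟩ ↦ hz.resolve_left fun ha ↦ h1 (hq.1 ha) hB,
        fun hz ↦ ⟨Or.inr hz, hq.2 hz⟩⟩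
  · intro S _; rfl

variable (hG : G.IsTree) {D : Finset V} {x p : V} (hx : x ∈ D) (hp' : p ∈ D) (hxp : G.Adj x p)
  {P : Finset (Ix V)} (hP : ∀ i ∈ P, i.2 ∈ D) (y : Ix V → ℝ)
include hG hx hp' hxp hP

/-- The posterior sum factorises across an edge. -/
lemma pS_edge {f g : Finset V → ℝ} (hf : Loc f (sideF G D x p)) (hg : Loc g (sideF G D p x)) :
    pS G θ σ D P y (fun S ↦ f S * g S) =
      pS G θ σ (sideF G D x p) (sideI G P x p) y f * pS G θ σ (sideF G D p x) (sideI G P p x) y g +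
      θ * (pS G θ σ (sideF G D x p) (sideI G P x p) y (fun S ↦ f S * sg S x) *
        pS G θ σ (sideF G D p x) (sideI G P p x) y (fun S ↦ g S * sg S p)) := by
  set A := sideF G D x p with hA
  set B := sideF G D p x with hB
  have hu : A ∪ B = D := by
    ext z; simp only [hA, hB, mem_union, mem_sideF, onSide_comm hG hxp]; tauto
  set F : Finset V → Finset V → ℝ := fun SA SB ↦
    tw G θ A SA * (lik σ (sideI G P x p) y SA * f SA) *
      (tw G θ B SB * (lik σ (sideI G P p x) y SB * g SB)) * (1 + θ * (sg SA x * sg SB p))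
  have e : pS G θ σ D P y (fun S ↦ f S * g S) = ∑ S ∈ D.powerset, F (S ∩ A) (S ∩ B) := by
    refine sum_congr rfl fun S _ ↦ ?_
    have hxA : x ∈ A := mem_sideF.2 ⟨hx, onSide_self hxp⟩
    have hpB : p ∈ B := mem_sideF.2 ⟨hp', onSide_self hxp.symm⟩
    simp only [F]
    rw [tw_split hG θ hx hp' hxp, lik_split D hG hxp P hP, ← hA, ← hB, ← hf S, ← hg S,
      tw_congr θ (D := A) (S := S ∩ A) (T := S) (fun z hz ↦ by simp [hz]),
      tw_congr θ (D := B) (S := S ∩ B) (T := S) (fun z hz ↦ by simp [hz]),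
      sg_congr (S := S ∩ A) (T := S) (x := x) (by simp [hxA]),
      sg_congr (S := S ∩ B) (T := S) (x := p) (by simp [hpB])]
    ring
  rw [e, sum_powerset_split (hB ▸ hA ▸ sideF_disjoint hG hxp) hu F, pS, pS, pS, pS, sum_mul_sum,
    sum_mul_sum]
  simp only [mul_sum, ← sum_add_distrib]
  exact sum_congr rfl fun SA _ ↦ sum_congr rfl fun SB _ ↦ by simp only [F]; ring

lemma pf_edge (hp : Par θ) {f g : Finset V → ℝ} (hf : Loc f (sideF G D x p))
    (hg : Loc g (sideF G D p x)) :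
    pf G θ σ D P y (fun S ↦ f S * g S) * (1 + θ * (sd G θ σ D P y x p * sd G θ σ D P y p x)) =
      pf G θ σ (sideF G D x p) (sideI G P x p) y f * pf G θ σ (sideF G D p x) (sideI G P p x) y g +
      θ * (pf G θ σ (sideF G D x p) (sideI G P x p) y (fun S ↦ f S * sg S x) *
        pf G θ σ (sideF G D p x) (sideI G P p x) y (fun S ↦ g S * sg S p)) := by
  have h1 := pS_edge (θ := θ) (σ := σ) hG hx hp' hxp hP y hf hg
  have h2 := pS_edge (θ := θ) (σ := σ) hG hx hp' hxp hP y (f := fun _ ↦ (1:ℝ)) (g := fun _ ↦ (1:ℝ))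
    (fun _ ↦ rfl) (fun _ ↦ rfl)
  simp only [one_mul] at h2
  have d0 := den_pos (G := G) (σ := σ) hp D P y
  have dA := den_pos (G := G) (σ := σ) hp (sideF G D x p) (sideI G P x p) y
  have dB := den_pos (G := G) (σ := σ) hp (sideF G D p x) (sideI G P p x) y
  simp only [pf, sd, h1]
  set ZA := pS G θ σ (sideF G D x p) (sideI G P x p) y fun _ ↦ 1
  set ZB := pS G θ σ (sideF G D p x) (sideI G P p x) y fun _ ↦ 1
  set NA := pS G θ σ (sideF G D x p) (sideI G P x p) y fun S ↦ sg S x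
  set NB := pS G θ σ (sideF G D p x) (sideI G P p x) y fun S ↦ sg S p
  rw [h2] at d0 ⊢
  have hne : ZA * ZB + θ * NA * NB ≠ 0 := by rw [mul_assoc]; exact d0.ne'
  field_simp

omit hG hx hp' hxp hP in
lemma one_add_sd_pos (hp : Par θ) :
    1 - θ ≤ 1 + θ * (sd G θ σ D P y x p * sd G θ σ D P y p x) := by
  have h : |sd G θ σ D P y x p * sd G θ σ D P y p x| ≤ 1 := by
    rw [abs_mul]; exact mul_le_one₀ (abs_sd hp _ _ _ _ _) (abs_nonneg _) (abs_sd hp _ _ _ _ _)
  nlinarith [abs_le.1 h, hp.nonneg]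

/-- A covariance crossing the edge is attenuated by `θ ψ(a)`. -/
lemma cv_step (hp : Par θ) {g : Finset V → ℝ} (hg : Loc g (sideF G D p x)) :
    cv G θ σ D P y g (fun S ↦ sg S x) =
      θ * psi θ (sd G θ σ D P y x p) * cv G θ σ D P y g (fun S ↦ sg S p) := by
  have hxA : x ∈ sideF G D x p := mem_sideF.2 ⟨hx, onSide_self hxp⟩
  have hpB : p ∈ sideF G D p x := mem_sideF.2 ⟨hp', onSide_self hxp.symm⟩
  have hlx : Loc (fun S ↦ sg S x) (sideF G D x p) := fun S ↦ sg_congr (by simp [hxA])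
  have hlp : Loc (fun S ↦ sg S p) (sideF G D p x) := fun S ↦ sg_congr (by simp [hpB])
  have hl1 : ∀ A : Finset V, Loc (fun _ : Finset V ↦ (1:ℝ)) A := fun _ _ ↦ rfl
  have hlgp : Loc (fun S ↦ g S * sg S p) (sideF G D p x) := fun S ↦ by
    change g S * sg S p = g (S ∩ sideF G D p x) * sg (S ∩ sideF G D p x) p
    rw [hg S, sg_congr (S := S ∩ sideF G D p x) (T := S) (x := p) (by simp [hpB])]
  have E1 := pf_edge (σ := σ) hG hx hp' hxp hP y hp hlx (hl1 _)
  have E2 := pf_edge (σ := σ) hG hx hp' hxp hP y hp hlx hg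
  have E3 := pf_edge (σ := σ) hG hx hp' hxp hP y hp (hl1 _) hg
  have E4 := pf_edge (σ := σ) hG hx hp' hxp hP y hp (hl1 _) hlp
  have E5 := pf_edge (σ := σ) hG hx hp' hxp hP y hp (hl1 _) hlgp
  simp only [one_mul, mul_one, sg_mul_self, pf_const hp] at E1 E2 E3 E4 E5
  have ecomm : pf G θ σ D P y (fun S ↦ g S * sg S x) = pf G θ σ D P y (fun S ↦ sg S x * g S) := by
    simp only [mul_comm]
  have egp : pf G θ σ (sideF G D p x) (sideI G P p x) y (fun S ↦ g S * sg S p * sg S p) =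
      pf G θ σ (sideF G D p x) (sideI G P p x) y g := by
    simp only [mul_assoc, sg_mul_self, mul_one]
  simp only [egp, ← sd.eq_def] at E1 E2 E3 E4 E5
  simp only [cv, ecomm]
  set a := sd G θ σ D P y x p
  set b := sd G θ σ D P y p x
  set q := pf G θ σ (sideF G D p x) (sideI G P p x) y g
  set Q := pf G θ σ (sideF G D p x) (sideI G P p x) y fun S ↦ g S * sg S p
  have hZ : 0 < 1 + θ * (a * b) :=
    lt_of_lt_of_le (by linarith [hp.lt_one]) (one_add_sd_pos y hp)
  have ha := abs_le.1 (abs_sd (G := G) (σ := σ) hp D P y x p)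
  have hden : 0 < 1 - θ ^ 2 * a ^ 2 := by
    nlinarith [mul_le_mul_of_nonneg_left (show a ^ 2 ≤ 1 by nlinarith) (sq_nonneg θ), hp.nonneg,
      hp.lt_one]
  rw [eq_div_iff hZ.ne' |>.2 E1, eq_div_iff hZ.ne' |>.2 E2, eq_div_iff hZ.ne' |>.2 E3,
    eq_div_iff hZ.ne' |>.2 E4, eq_div_iff hZ.ne' |>.2 E5, psi]
  have hx' : (a * q + θ * Q) / (1 + θ * (a * b)) -
      (q + θ * (a * Q)) / (1 + θ * (a * b)) * ((a + θ * b) / (1 + θ * (a * b))) =
      θ * (1 - a ^ 2) * ((Q - q * b) / (1 + θ * (a * b)) ^ 2) := by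
    field_simp; ring
  have hp'' : (Q + θ * (a * q)) / (1 + θ * (a * b)) -
      (q + θ * (a * Q)) / (1 + θ * (a * b)) * ((b + θ * a) / (1 + θ * (a * b))) =
      (1 - θ ^ 2 * a ^ 2) * ((Q - q * b) / (1 + θ * (a * b)) ^ 2) := by
    field_simp; ring
  rw [hx', hp'']
  field_simp

/-- Removing the far side of an edge changes a near posterior mean by a small covariance. -/
lemma pf_cut (hp : Par θ) {g : Finset V → ℝ} (hg : Loc g (sideF G D p x)) :
    |pf G θ σ D P y g - pf G θ σ (sideF G D p x) (sideI G P p x) y g| ≤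
      θ / (1 - θ) * |cv G θ σ (sideF G D p x) (sideI G P p x) y g (fun S ↦ sg S p)| := by
  have E3 := pf_edge (σ := σ) hG hx hp' hxp hP y hp (f := fun _ ↦ (1:ℝ)) (fun _ ↦ rfl) hg
  simp only [one_mul, pf_const hp, ← sd.eq_def] at E3
  simp only [cv, ← sd.eq_def]
  set a := sd G θ σ D P y x p
  set b := sd G θ σ D P y p x
  set q := pf G θ σ (sideF G D p x) (sideI G P p x) y g
  set Q := pf G θ σ (sideF G D p x) (sideI G P p x) y fun S ↦ g S * sg S p
  have hZ0 := one_add_sd_pos (G := G) (x := x) (p := p) (D := D) (P := P) (σ := σ) y hp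
  have hZ : 0 < 1 + θ * (a * b) := lt_of_lt_of_le (by linarith [hp.lt_one]) hZ0
  have e : pf G θ σ D P y g - q = θ * a * (Q - q * b) / (1 + θ * (a * b)) := by
    rw [eq_div_iff hZ.ne']; linear_combination E3
  rw [e, abs_div, abs_mul, abs_mul, abs_of_pos hZ, abs_of_nonneg hp.nonneg, div_mul_eq_mul_div]
  have ha : |a| ≤ 1 := abs_sd hp D P y x p
  refine div_le_div₀ (mul_nonneg hp.nonneg (abs_nonneg _)) ?_ (by linarith [hp.lt_one]) hZ0
  exact mul_le_mul_of_nonneg_right (mul_le_of_le_one_right hp.nonneg ha) (abs_nonneg _)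

/-- The side posterior in terms of the two spins and their product. -/
lemma sd_rel (hp : Par θ) :
    (pf G θ σ D P y (fun S ↦ sg S x) + pf G θ σ D P y (fun S ↦ sg S x * sg S p)) *
        (1 + θ * sd G θ σ D P y x p) =
      (sd G θ σ D P y x p + θ) * (1 + pf G θ σ D P y (fun S ↦ sg S p)) ∧
    (pf G θ σ D P y (fun S ↦ sg S x) - pf G θ σ D P y (fun S ↦ sg S x * sg S p)) *
        (1 - θ * sd G θ σ D P y x p) =
      (sd G θ σ D P y x p - θ) * (1 - pf G θ σ D P y (fun S ↦ sg S p)) := by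
  have hxA : x ∈ sideF G D x p := mem_sideF.2 ⟨hx, onSide_self hxp⟩
  have hpB : p ∈ sideF G D p x := mem_sideF.2 ⟨hp', onSide_self hxp.symm⟩
  have hlx : Loc (fun S ↦ sg S x) (sideF G D x p) := fun S ↦ sg_congr (by simp [hxA])
  have hlp : Loc (fun S ↦ sg S p) (sideF G D p x) := fun S ↦ sg_congr (by simp [hpB])
  have hl1 : ∀ A : Finset V, Loc (fun _ : Finset V ↦ (1:ℝ)) A := fun _ _ ↦ rfl
  have E1 := pf_edge (σ := σ) hG hx hp' hxp hP y hp hlx (hl1 _)
  have E2 := pf_edge (σ := σ) hG hx hp' hxp hP y hp hlx hlp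
  have E4 := pf_edge (σ := σ) hG hx hp' hxp hP y hp (hl1 _) hlp
  simp only [one_mul, mul_one, sg_mul_self, pf_const hp, ← sd.eq_def] at E1 E2 E4
  set a := sd G θ σ D P y x p
  set b := sd G θ σ D P y p x
  have hZ : 1 + θ * (a * b) ≠ 0 :=
    (lt_of_lt_of_le (by linarith [hp.lt_one]) (one_add_sd_pos y hp)).ne'
  constructor <;> refine mul_right_cancel₀ hZ ?_
  · linear_combination (1 + θ * a) * E1 + (1 + θ * a) * E2 - (a + θ) * E4
  · linear_combination (1 - θ * a) * E1 - (1 - θ * a) * E2 + (a - θ) * E4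

end Vale.Agent.P161.Crit
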