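import Mathlib
import Vale.Agent.P161.Crit.Cavity

/-!
Covariances along paths, elementary bounds for the attenuation and the side posterior, and the
behaviour under a global flip.
-/

namespace Vale.Agent.P161.Crit

open Finset

variable {V : Type*} [DecidableEq V] {G : SimpleGraph V} {θ : ℝ} {σ : Sch}

/-! ### The attenuation -/

lemma psi_den_pos (hp : Par θ) {a : ℝ} (ha : |a| ≤ 1) : 0 < 1 - θ ^ 2 * a ^ 2 := by
  have h : a ^ 2 ≤ 1 := by rw [← sq_abs]; nlinarith [abs_nonneg a]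
  nlinarith [mul_le_mul_of_nonneg_left h (sq_nonneg θ), hp.nonneg, hp.lt_one]

lemma psi_nonneg (hp : Par θ) {a : ℝ} (ha : |a| ≤ 1) : 0 ≤ psi θ a := by
  refine div_nonneg ?_ (psi_den_pos hp ha).le
  rw [← sq_abs]; nlinarith [abs_nonneg a]

lemma psi_le_exp (hp : Par θ) {a : ℝ} (ha : |a| ≤ 1) :
    psi θ a ≤ Real.exp (-((1 - θ ^ 2) * a ^ 2)) := by
  have hd := psi_den_pos hp ha
  refine le_trans ?_ (Real.add_one_le_exp _)
  rw [psi, div_le_iff₀ hd]
  have h : a ^ 2 ≤ 1 := by rw [← sq_abs]; nlinarith [abs_nonneg a]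
  nlinarith [mul_nonneg (mul_nonneg (sub_nonneg.2 (show θ ^ 2 ≤ 1 by nlinarith [hp.nonneg, hp.lt_one]))
    (sq_nonneg θ)) (mul_nonneg (sq_nonneg a) (sq_nonneg a))]

lemma psi_le_one (hp : Par θ) {a : ℝ} (ha : |a| ≤ 1) : psi θ a ≤ 1 :=
  (psi_le_exp hp ha).trans (Real.exp_le_one_iff.2 (neg_nonpos.2
    (mul_nonneg (by nlinarith [hp.nonneg, hp.lt_one]) (sq_nonneg a))))

lemma abs_psi_sub (hp : Par θ) {a a' : ℝ} (ha : |a| ≤ 1) (ha' : |a'| ≤ 1) :
    |psi θ a - psi θ a'| ≤ 1 / (1 - θ ^ 2) * ((|a| + |a'|) * |a - a'|) := by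
  have hd := psi_den_pos hp ha
  have hd' := psi_den_pos hp ha'
  have hκ : 0 < 1 - θ ^ 2 := by nlinarith [hp.nonneg, hp.lt_one]
  have h1 : ∀ b : ℝ, |b| ≤ 1 → 1 - θ ^ 2 ≤ 1 - θ ^ 2 * b ^ 2 := fun b hb ↦ by
    have : b ^ 2 ≤ 1 := by rw [← sq_abs]; nlinarith [abs_nonneg b]
    nlinarith [mul_le_mul_of_nonneg_left this (sq_nonneg θ)]
  have e : psi θ a - psi θ a' = (1 - θ ^ 2) * ((a' - a) * (a' + a)) /
      ((1 - θ ^ 2 * a ^ 2) * (1 - θ ^ 2 * a' ^ 2)) := by
    unfold psi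
    rw [div_sub_div _ _ hd.ne' hd'.ne']
    congr 1
    ring
  rw [e, abs_div, abs_mul, abs_mul, abs_of_pos hκ, abs_of_pos (mul_pos hd hd'),
    div_le_iff₀ (mul_pos hd hd'), abs_sub_comm a' a]
  have h3 : |a' + a| ≤ |a| + |a'| := (abs_add_le _ _).trans (by rw [add_comm])
  calc (1 - θ ^ 2) * (|a - a'| * |a' + a|) ≤ (1 - θ ^ 2) * (|a - a'| * (|a| + |a'|)) := by gcongr
    _ = 1 / (1 - θ ^ 2) * ((|a| + |a'|) * |a - a'|) * ((1 - θ ^ 2) * (1 - θ ^ 2)) := by
        field_simp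
    _ ≤ _ := mul_le_mul_of_nonneg_left (mul_le_mul (h1 a ha) (h1 a' ha') hκ.le hd.le) (by positivity)

/-! ### The side posterior as a function of the two spins -/

lemma side_aux (hp : Par θ) {a a' mx mx' mp mp' M M' : ℝ} (ha : |a| ≤ 1) (ha' : |a'| ≤ 1)
    (hm : -(1 / 2) ≤ mp)
    (h1 : (mx + M) * (1 + θ * a) = (a + θ) * (1 + mp))
    (h1' : (mx' + M') * (1 + θ * a') = (a' + θ) * (1 + mp')) :
    |a - a'| ≤ 8 / (1 - θ) ^ 2 * (|mx - mx'| + |mp - mp'| + |M - M'|) := by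
  have hθ1 : 0 < 1 - θ := by linarith [hp.lt_one]
  set W := |mx - mx'| + |mp - mp'| + |M - M'| with hW
  have hW0 : 0 ≤ W := by positivity
  have e : (a - a') * ((1 - θ ^ 2) * (1 + mp)) =
      ((mx - mx') + (M - M')) * ((1 + θ * a) * (1 + θ * a')) -
        (a' + θ) * (1 + θ * a) * (mp - mp') := by
    linear_combination (-(1 + θ * a')) * h1 + (1 + θ * a) * h1'
  have b1 : ∀ x : ℝ, |x| ≤ 1 → |1 + θ * x| ≤ 2 := fun x hx ↦ by
    have h : |θ * x| ≤ 1 := by
      rw [abs_mul, abs_of_nonneg hp.nonneg]; exact mul_le_one₀ hp.lt_one.le (abs_nonneg _) hx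
    calc |1 + θ * x| ≤ |(1:ℝ)| + |θ * x| := abs_add_le _ _
      _ ≤ 2 := by rw [abs_one]; linarith
  have b2 : |a' + θ| ≤ 2 := by
    refine (abs_add_le _ _).trans ?_
    rw [abs_of_nonneg hp.nonneg]; linarith [hp.lt_one]
  have hlow : (1 - θ) ^ 2 * (1 / 2) ≤ (1 - θ ^ 2) * (1 + mp) :=
    mul_le_mul (by nlinarith [hp.nonneg]) (by linarith) (by norm_num) (by nlinarith [hp.nonneg])
  have h3 : |a - a'| * ((1 - θ) ^ 2 * (1 / 2)) ≤ 4 * W := by
    refine (mul_le_mul_of_nonneg_left (hlow.trans (le_abs_self _)) (abs_nonneg _)).trans ?_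
    rw [← abs_mul, e]
    refine (abs_sub _ _).trans ?_
    rw [abs_mul, abs_mul ((a' + θ) * _)]
    calc |mx - mx' + (M - M')| * |(1 + θ * a) * (1 + θ * a')| +
          |(a' + θ) * (1 + θ * a)| * |mp - mp'|
        ≤ (|mx - mx'| + |M - M'|) * (2 * 2) + 2 * 2 * |mp - mp'| := by
          rw [abs_mul, abs_mul]
          gcongr
          · exact abs_add_le _ _
          · exact b1 a ha
          · exact b1 a' ha'
          · exact b1 a ha
      _ = 4 * W := by rw [hW]; ring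
  rw [div_mul_eq_mul_div, le_div_iff₀ (by positivity)]
  linarith

/-- If two triples satisfy the side relations, the side posteriors differ by at most a multiple
of the differences. -/
lemma side_lipschitz (hp : Par θ) {a a' mx mx' mp mp' M M' : ℝ} (ha : |a| ≤ 1) (ha' : |a'| ≤ 1)
    (h1 : (mx + M) * (1 + θ * a) = (a + θ) * (1 + mp))
    (h2 : (mx - M) * (1 - θ * a) = (a - θ) * (1 - mp))
    (h1' : (mx' + M') * (1 + θ * a') = (a' + θ) * (1 + mp'))
    (h2' : (mx' - M') * (1 - θ * a') = (a' - θ) * (1 - mp')) :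
    |a - a'| ≤ 8 / (1 - θ) ^ 2 * (|mx - mx'| + |mp - mp'| + |M - M'|) := by
  by_cases hm : -(1 / 2) ≤ mp
  · exact side_aux hp ha ha' hm h1 h1'
  · have := side_aux hp (a := -a) (a' := -a') (mx := -mx) (mx' := -mx') (mp := -mp) (mp' := -mp')
      (M := M) (M' := M') (by rwa [abs_neg]) (by rwa [abs_neg]) (by linarith [not_le.1 hm])
      (by linear_combination -h2) (by linear_combination -h2')
    simp only [← neg_sub', abs_neg] at this
    exact this

/-- The same at the symmetric point. -/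
lemma side_small (hp : Par θ) {a mx mp M : ℝ} (ha : |a| ≤ 1)
    (h1 : (mx + M) * (1 + θ * a) = (a + θ) * (1 + mp))
    (h2 : (mx - M) * (1 - θ * a) = (a - θ) * (1 - mp)) :
    |a| ≤ 8 / (1 - θ) ^ 2 * (|mx| + |mp| + |M - θ|) := by
  have := side_lipschitz hp (a' := 0) (mx' := 0) (mp' := 0) (M' := θ) ha (by simp) h1 h2
    (by ring) (by ring)
  simpa using this

/-! ### Products along paths -/

/-- The product of attenuations from `o` to `w`. -/
noncomputable def prodPsi (G : SimpleGraph V) (θ : ℝ) (σ : Sch) (D : Finset V) (P : Finset (Ix V))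
    (y : Ix V → ℝ) (o w : V) (k : ℕ) : ℝ :=
  ∏ i ∈ range k, psi θ (sd G θ σ D P y (up G o w i) (up G o w (i + 1)))

lemma prodPsi_mem (hp : Par θ) (D : Finset V) (P : Finset (Ix V)) (y : Ix V → ℝ) (o w : V) (k : ℕ) :
    0 ≤ prodPsi G θ σ D P y o w k ∧ prodPsi G θ σ D P y o w k ≤ 1 :=
  ⟨prod_nonneg fun _ _ ↦ psi_nonneg hp (abs_sd hp _ _ _ _ _),
    prod_le_one (fun _ _ ↦ psi_nonneg hp (abs_sd hp _ _ _ _ _))
      fun _ _ ↦ psi_le_one hp (abs_sd hp _ _ _ _ _)⟩

lemma up_mem (hG : G.IsTree) {D : Finset V} {v o w : V} (hD : Sub G D v) (ho : o ∈ D) (hw : w ∈ D) :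
    ∀ i, i ≤ G.dist o w → up G o w i ∈ D := by
  intro i
  induction i with
  | zero => intro _; exact hw
  | succ i ih =>
    intro hi
    have hne := up_ne hG (o := o) (w := w) (i := i) (by omega)
    obtain ⟨z, hz, hadj, hd⟩ := (hD.reroot hG ho).2 _ (ih (by omega)) hne
    obtain ⟨h1, h2⟩ := par_spec hG hne
    rw [up_succ, closer_unique hG h1 h2 hadj hd]
    exact hz

/-- The covariance with a spin at distance `k` in product form. -/
lemma cv_path (hG : G.IsTree) (hp : Par θ) {D : Finset V} {v o : V} (hD : Sub G D v) (ho : o ∈ D)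
    {P : Finset (Ix V)} (hP : ∀ i ∈ P, i.2 ∈ D) (y : Ix V → ℝ) {g : Finset V → ℝ} {B : Finset V}
    (hg : Loc g B) (hBD : B ⊆ D) :
    ∀ (k : ℕ) (w : V), G.dist o w = k → w ∈ D →
      (∀ z ∈ B, ∀ i < k, ¬ OnSide G (up G o w i) (up G o w (i + 1)) z) →
      cv G θ σ D P y g (fun S ↦ sg S w) =
        θ ^ k * prodPsi G θ σ D P y o w k * cv G θ σ D P y g (fun S ↦ sg S o) := by
  intro k
  induction k with
  | zero =>
    intro w hw _ _
    obtain rfl : o = w := (hG.connected o w).dist_eq_zero_iff.mp hw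
    simp [prodPsi]
  | succ k ih =>
    intro w hw hwD hB
    have hmem := up_mem hG hD ho hwD
    have hadj := up_adj hG (o := o) (w := w) (i := 0) (by omega)
    rw [up_zero] at hadj
    have hd1 : G.dist o (up G o w 1) = k := by rw [dist_up hG 1 (by omega)]; omega
    have hshift : ∀ i, up G o (up G o w 1) i = up G o w (i + 1) := fun i ↦ by
      simp only [up, Function.iterate_succ_apply, Function.iterate_zero, id]
    have hgB : Loc g (sideF G D (up G o w 1) w) := by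
      intro S
      rw [hg S, hg (S ∩ sideF G D (up G o w 1) w), inter_assoc]
      congr 2
      refine (inter_eq_right.2 fun z hz ↦ mem_sideF.2 ⟨hBD hz, ?_⟩).symm
      rw [onSide_comm hG hadj]
      exact hB z hz 0 (by omega)
    rw [cv_step hG hwD (hmem 1 (by omega)) hadj hP y hp hgB, ih (up G o w 1) hd1 (hmem 1 (by omega))
      (fun z hz i hi ↦ by rw [hshift, hshift]; exact hB z hz (i + 1) (by omega)),
      prodPsi, prodPsi, prod_range_succ' _ k]
    simp only [hshift, up_zero]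
    ring

/-- Covariances of spins decay at least like `θ ^ dist`. -/
lemma abs_cv_spin (hG : G.IsTree) (hp : Par θ) {D : Finset V} {v o w : V} (hD : Sub G D v)
    (ho : o ∈ D) (hw : w ∈ D) {P : Finset (Ix V)} (hP : ∀ i ∈ P, i.2 ∈ D) (y : Ix V → ℝ) :
    |cv G θ σ D P y (fun S ↦ sg S o) (fun S ↦ sg S w)| ≤ θ ^ G.dist o w := by
  have h := cv_path (σ := σ) hG hp hD ho hP y (loc_sg o) (B := {o}) (by simpa using ho) _ w rfl hw
    (fun z hz i hi ↦ by
      rw [Finset.mem_singleton] at hz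
      subst hz
      rw [← onSide_comm hG (up_adj hG hi)]
      exact onSide_up_right hG hi)
  obtain ⟨h0, h1⟩ := prodPsi_mem (G := G) (σ := σ) hp D P y o w (G.dist o w)
  rw [h, abs_mul, abs_of_nonneg (mul_nonneg (pow_nonneg hp.nonneg _) h0)]
  refine (mul_le_of_le_one_right (mul_nonneg (pow_nonneg hp.nonneg _) h0) ?_).trans
    (mul_le_of_le_one_right (pow_nonneg hp.nonneg _) h1)
  exact abs_cv_le' hp D P y o fun S ↦ (sg_abs S o).le

/-! ### Global flip -/

lemma sg_sdiff {D S : Finset V} {x : V} (hx : x ∈ D) : sg (D \ S) x = -sg S x := by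
  by_cases h : x ∈ S <;> simp [sg, hx, h]

lemma c11_neg (y : ℝ) : c11 (-y) = -c11 y := by
  unfold c11
  simp only [max_def, min_def]
  split_ifs <;> linarith

lemma pS_flip {D : Finset V} {P : Finset (Ix V)} (hP : ∀ i ∈ P, i.2 ∈ D) (y : Ix V → ℝ)
    (f : Finset V → ℝ) :
    pS G θ σ D P (-y) f = pS G θ σ D P y fun S ↦ f (D \ S) := by
  unfold pS
  refine sum_nbij' (fun S ↦ D \ S) (fun S ↦ D \ S) (fun S _ ↦ ?_) (fun S _ ↦ ?_) (fun S hS ↦ ?_)
    (fun S hS ↦ ?_) fun S hS ↦ ?_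
  · simp
  · simp
  · exact Finset.sdiff_sdiff_eq_self (Finset.mem_powerset.1 hS)
  · exact Finset.sdiff_sdiff_eq_self (Finset.mem_powerset.1 hS)
  · simp only [Finset.sdiff_sdiff_eq_self (Finset.mem_powerset.1 hS)]
    congr 1
    · unfold tw
      congr 1
      refine prod_congr rfl fun e he ↦ ?_
      induction e with
      | _ u v =>
        obtain ⟨hu, hv, -⟩ := mem_edges.1 he
        simp [sg_sdiff hu, sg_sdiff hv]
    · congr 1
      refine prod_congr rfl fun i hi ↦ ?_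
      rw [Pi.neg_apply, c11_neg, sg_sdiff (hP i hi)]
      ring

lemma pS_flip_one {D : Finset V} {P : Finset (Ix V)} (hP : ∀ i ∈ P, i.2 ∈ D) (y : Ix V → ℝ) :
    pS G θ σ D P (-y) (fun _ ↦ 1) = pS G θ σ D P y fun _ ↦ 1 :=
  pS_flip hP y _

lemma pf_spin_flip {D : Finset V} {P : Finset (Ix V)} (hP : ∀ i ∈ P, i.2 ∈ D) (y : Ix V → ℝ)
    {x : V} (hx : x ∈ D) :
    pf G θ σ D P (-y) (fun S ↦ sg S x) = -pf G θ σ D P y fun S ↦ sg S x := by
  have e : (pS G θ σ D P y fun S ↦ sg (D \ S) x) = -pS G θ σ D P y fun S ↦ sg S x := by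
    rw [← neg_one_mul, ← pS_smul]
    exact sum_congr rfl fun S _ ↦ by simp only [sg_sdiff hx]; ring
  rw [pf, pf, pS_flip_one hP, pS_flip hP, e, neg_div]

/-- The side posterior is odd in the observations. -/
lemma sd_flip {D : Finset V} {P : Finset (Ix V)} (hP : ∀ i ∈ P, i.2 ∈ D) {x p : V} (hx : x ∈ D)
    (h : G.Adj x p) (y : Ix V → ℝ) : sd G θ σ D P (-y) x p = -sd G θ σ D P y x p :=
  pf_spin_flip (fun i hi ↦ mem_sideF.2 ⟨hP i (mem_sideI.1 hi).1, (mem_sideI.1 hi).2⟩) y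
    (mem_sideF.2 ⟨hx, onSide_self h⟩)

end Vale.Agent.P161.Crit
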