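import Mathlib
import Vale.Agent.P161.Crit.PathCov

/-!
Independence of the two sides of an edge for functions even in the observations.
-/

namespace Vale.Agent.P161.Crit

open Finset MeasureTheory

section Piece

variable {ι X : Type*} [MeasurableSpace X] (μ : Measure X) [IsProbabilityMeasure μ]

open Classical in
/-- Splice two families along a set of indices. -/
noncomputable def spl (S : Set ι) (x x' : ι → X) (i : ι) : X := if i ∈ S then x i else x' i

lemma measurable_spl (S : Set ι) : Measurable fun q : (ι → X) × (ι → X) ↦ spl S q.1 q.2 := by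
  refine measurable_pi_iff.2 fun i ↦ ?_
  by_cases h : i ∈ S
  · simp only [spl, if_pos h]; fun_prop
  · simp only [spl, if_neg h]; fun_prop

/-- Splicing two independent copies gives a copy. -/
lemma map_spl (S : Set ι) :
    ((Measure.infinitePi fun _ : ι ↦ μ).prod (Measure.infinitePi fun _ : ι ↦ μ)).map
      (fun q ↦ spl S q.1 q.2) = Measure.infinitePi fun _ : ι ↦ μ := by
  classical
  refine Measure.eq_infinitePi _ fun s t ht ↦ ?_
  rw [Measure.map_apply (measurable_spl S) (MeasurableSet.pi s.countable_toSet fun i _ ↦ ht i)]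
  have e : (fun q : (ι → X) × (ι → X) ↦ spl S q.1 q.2) ⁻¹' (s : Set ι).pi t =
      (Set.pi (s.filter (· ∈ S) : Finset ι) t) ×ˢ (Set.pi (s.filter (· ∉ S) : Finset ι) t) := by
    ext q
    simp only [Set.mem_preimage, Set.mem_pi, Set.mem_prod, Finset.mem_coe, Finset.mem_filter, spl]
    refine ⟨fun h ↦ ⟨fun i hi ↦ ?_, fun i hi ↦ ?_⟩, fun h i hi ↦ ?_⟩
    · simpa [hi.2] using h i hi.1
    · simpa [hi.2] using h i hi.1
    · split_ifs with hS
      · exact h.1 i ⟨hi, hS⟩
      · exact h.2 i ⟨hi, hS⟩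
  rw [e, Measure.prod_prod, Measure.infinitePi_pi _ (fun i _ ↦ ht i),
    Measure.infinitePi_pi _ (fun i _ ↦ ht i), prod_filter_mul_prod_filter_not]

lemma integral_spl (S : Set ι) {h : (ι → X) → ℝ} (hh : BM h) :
    ∫ x, ∫ x', h (spl S x x') ∂Measure.infinitePi (fun _ : ι ↦ μ)
        ∂Measure.infinitePi (fun _ : ι ↦ μ) = ∫ x, h x ∂Measure.infinitePi fun _ : ι ↦ μ := by
  conv_rhs => rw [← map_spl μ S]
  rw [integral_map (measurable_spl S).aemeasurable hh.1.aestronglyMeasurable,
    integral_prod _ ((hh.comp (measurable_spl S)).integrable _)]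

/-- Functions of disjoint sets of coordinates are independent. -/
lemma integral_mul_dep {S : Set ι} {h k : (ι → X) → ℝ} (hh : BM h) (hk : BM k)
    (hS : ∀ x x', (∀ i ∈ S, x i = x' i) → h x = h x')
    (hSc : ∀ x x', (∀ i ∉ S, x i = x' i) → k x = k x') :
    ∫ x, h x * k x ∂Measure.infinitePi (fun _ : ι ↦ μ) =
      (∫ x, h x ∂Measure.infinitePi fun _ : ι ↦ μ) *
        ∫ x, k x ∂Measure.infinitePi fun _ : ι ↦ μ := by
  rw [← integral_spl μ S (hh.mul hk)]
  have e : ∀ x x', h (spl S x x') * k (spl S x x') = h x * k x' := fun x x' ↦ by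
    rw [hS (spl S x x') x fun i hi ↦ by simp [spl, hi],
      hSc (spl S x x') x' fun i hi ↦ by simp [spl, hi]]
  simp only [e, integral_const_mul, integral_mul_const]

end Piece

variable {V : Type*}

lemma u11_neg : u11.map (fun y : ℝ ↦ -y) = u11 := by
  rw [u11, Measure.map_smul]
  congr 1
  ext A hA
  rw [Measure.map_apply measurable_neg hA, Measure.restrict_apply hA,
    Measure.restrict_apply (measurable_neg hA)]
  have e : (fun y : ℝ ↦ -y) ⁻¹' A ∩ Set.Icc (-1) 1 = (fun y : ℝ ↦ -y) ⁻¹' (A ∩ Set.Icc (-1) 1) := by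
    ext z
    simp only [Set.mem_inter_iff, Set.mem_preimage, Set.mem_Icc]
    constructor <;> rintro ⟨h1, h2, h3⟩ <;> exact ⟨h1, by linarith, by linarith⟩
  rw [e]
  exact Measure.measure_preimage_neg volume _

lemma integral_W11_neg {h : (Ix V → ℝ) → ℝ} (hh : BM h) :
    ∫ y, h (-y) ∂W11 V = ∫ y, h y ∂W11 V := by
  have hm : Measurable fun y : Ix V → ℝ ↦ -y := measurable_neg
  have : (W11 V).map (fun y : Ix V → ℝ ↦ -y) = W11 V := by
    have := Measure.infinitePi_map_pi (fun _ : Ix V ↦ u11) (f := fun _ ↦ fun y : ℝ ↦ -y)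
      (fun _ ↦ measurable_neg)
    simp only [u11_neg] at this
    exact this
  conv_rhs => rw [← this]
  rw [integral_map hm.aemeasurable hh.1.aestronglyMeasurable]

variable [DecidableEq V] {G : SimpleGraph V} {θ : ℝ} {σ : Sch}

/-- A rule deciding each index from its own label. -/
def RLocal (R : Rule V) : Prop := ∀ T T' : Ix V → ℝ, ∀ i, T i = T' i → (R T i ↔ R T' i)

omit [DecidableEq V] in
lemma rlocal_rT (σ : Sch) (t : ℝ) : RLocal (V := V) (rT σ t) := fun T T' i h ↦ by
  simp only [rT, tm, h]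

/-- A function of the labels on the window over `A` and of the observations selected there. -/
def RDep (n : ℕ) (A : Finset V) (R : Rule V) (f : Dat V → ℝ) : Prop :=
  ∀ p p' : Dat V, (∀ i ∈ (range n ×ˢ A : Finset (Ix V)), p.1 i = p'.1 i) →
    (∀ i ∈ past n A R p.1, p.2 i = p'.2 i) → f p = f p'

omit [DecidableEq V] in
lemma RDep.mono {n : ℕ} {A B : Finset V} {R : Rule V} {f : Dat V → ℝ} (h : RDep n A R f)
    (hAB : A ⊆ B) : RDep n B R f := fun p p' h1 h2 ↦
  h p p' (fun i hi ↦ h1 i (mem_product.2 ⟨(mem_product.1 hi).1, hAB (mem_product.1 hi).2⟩))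
    fun i hi ↦ h2 i (mem_past.2 ⟨(mem_past.1 hi).1, hAB (mem_past.1 hi).2.1, (mem_past.1 hi).2.2⟩)

omit [DecidableEq V] in
lemma measurable_neg_snd : Measurable fun p : Dat V ↦ ((p.1, -p.2) : Dat V) :=
  measurable_fst.prodMk measurable_snd.neg

omit [DecidableEq V] in
lemma bm_section {f : Dat V → ℝ} (hf : BM f) (T : Ix V → ℝ) : BM fun y ↦ f (T, y) :=
  hf.comp (g := fun y ↦ ((T, y) : Dat V)) (measurable_const.prodMk measurable_id)

variable [G.LocallyFinite]

/-- Expectations of functions of the visible data in finite volume. -/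
lemma int_vis (hG : G.IsTree) (hp : Par θ) {r v : V} {n : ℕ} {D : Finset V} (hD : Sub G D v)
    {R : Rule V} (_hR : RMeas R) {φ : Dat V → ℝ} (hφ : BM φ)
    (hd : ∀ T, Dep (fun y ↦ φ (T, y)) (past n D R T)) :
    ∫ ω, φ (vis σ ω) ∂Pm G θ r =
      ∫ T, ∫ y, φ (T, y) * pS G θ σ D (past n D R T) y (fun _ ↦ 1) ∂W11 V ∂W01 V := by
  have hob : ∀ S : Finset V, Measurable fun z : Dat V ↦ ((z.2, obs σ S z.1) : Dat V) :=
    fun S ↦ measurable_snd.prodMk ((measurable_obs S).comp measurable_fst)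
  set h1 : Finset V → Dat V → ℝ := fun S z ↦ φ (z.2, obs σ S z.1) with h1def
  have e1 : (fun ω : Om V ↦ φ (vis σ ω)) = fun ω ↦ h1 (conf D ω.1) ω.2 := by
    funext ω
    exact hd ω.2.2 _ _ fun i hi ↦ Yv_eq_obs (mem_past.1 hi).2.1 ω
  rw [e1, gint hG hp hD h1 fun S ↦ hφ.comp (hob S)]
  congr 1
  funext T
  have e2 : ∀ S, ∫ w, φ (T, obs σ S w) ∂W01 V =
      ∫ y, φ (T, y) * lik σ (past n D R T) y S ∂W11 V := fun S ↦
    integral_obs S _ _ (bm_section hφ T) (hd T)
  simp only [h1def, e2, ← integral_const_mul]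
  rw [← integral_finsetSum _ fun S _ ↦ (((bm_section hφ T).mul (bm_lik _ S)).integrable _).const_mul _]
  congr 1
  funext y
  rw [pS, mul_sum]
  exact sum_congr rfl fun S _ ↦ by ring

omit [G.LocallyFinite] in
lemma RDep.dep_y {n : ℕ} {A : Finset V} {R : Rule V} {f : Dat V → ℝ} (h : RDep n A R f)
    (T : Ix V → ℝ) : Dep (fun y ↦ f (T, y)) (past n A R T) := fun _ _ hy ↦
  h _ _ (fun _ _ ↦ rfl) hy

omit [DecidableEq V] [G.LocallyFinite] in
lemma sideI_past (D : Finset V) (n : ℕ) (R : Rule V) (T : Ix V → ℝ) (x p : V) :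
    sideI G (past n D R T) x p = past n (sideF G D x p) R T := by
  ext i
  simp only [mem_sideI, mem_past, mem_sideF]
  tauto

lemma past_local {R : Rule V} (hR : RLocal R) {n : ℕ} {A : Finset V} {T T' : Ix V → ℝ}
    (h : ∀ i ∈ (range n ×ˢ A : Finset (Ix V)), T i = T' i) : past n A R T = past n A R T' := by
  ext i
  simp only [mem_past]
  refine and_congr_right fun h1 ↦ and_congr_right fun h2 ↦ ?_
  exact hR T T' i (h i (mem_product.2 ⟨Finset.mem_range.2 h1, h2⟩))

/-- The two sides of an edge are independent for functions even in the observations. -/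
lemma cut (hG : G.IsTree) (hp : Par θ) {r v x p : V} {n : ℕ} {D : Finset V} (hD : Sub G D v)
    (hx : x ∈ D) (hp' : p ∈ D) (hxp : G.Adj x p) {R : Rule V} (hR : RMeas R) (hRl : RLocal R)
    {f g : Dat V → ℝ} (hf : BM f) (hg : BM g) (hfd : RDep n (sideF G D x p) R f)
    (hgd : RDep n (sideF G D p x) R g) (heven : ∀ q : Dat V, g (q.1, -q.2) = g q) :
    ∫ ω, f (vis σ ω) * g (vis σ ω) ∂Pm G θ r =
      (∫ ω, f (vis σ ω) ∂Pm G θ r) * ∫ ω, g (vis σ ω) ∂Pm G θ r := by
  classical
  set A := sideF G D x p with hA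
  set B := sideF G D p x with hB
  have hSA : Sub G A x := sub_sideF hG hD hx hxp
  have hSB : Sub G B p := sub_sideF hG hD hp' hxp.symm
  have hAD : A ⊆ D := sideF_subset D x p
  have hBD : B ⊆ D := sideF_subset D p x
  have hPD : ∀ T, ∀ i ∈ past n D R T, i.2 ∈ D := fun T i hi ↦ (mem_past.1 hi).2.1
  have hfD := hfd.mono hAD
  have hgD := hgd.mono hBD
  set SA : Set (Ix V) := {i | i.2 ∈ A}
  have hAB : ∀ i : Ix V, i.2 ∈ B → i ∉ SA := fun i hi hi' ↦
    Finset.disjoint_left.1 (sideF_disjoint hG hxp) hi' hi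
  have key : ∀ T, ∫ y, f (T, y) * g (T, y) * pS G θ σ D (past n D R T) y (fun _ ↦ 1) ∂W11 V =
      (∫ y, f (T, y) * pS G θ σ A (past n A R T) y (fun _ ↦ 1) ∂W11 V) *
        ∫ y, g (T, y) * pS G θ σ B (past n B R T) y (fun _ ↦ 1) ∂W11 V := by
    intro T
    have hf1 := (bm_section hf T).mul (bm_pS (G := G) (θ := θ) (σ := σ) A (past n A R T) fun _ ↦ 1)
    have hg1 := (bm_section hg T).mul (bm_pS (G := G) (θ := θ) (σ := σ) B (past n B R T) fun _ ↦ 1)
    have hf2 := (bm_section hf T).mul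
      (bm_pS (G := G) (θ := θ) (σ := σ) A (past n A R T) fun S ↦ (1:ℝ) * sg S x)
    have hg2 := (bm_section hg T).mul
      (bm_pS (G := G) (θ := θ) (σ := σ) B (past n B R T) fun S ↦ (1:ℝ) * sg S p)
    have e : ∀ y, f (T, y) * g (T, y) * pS G θ σ D (past n D R T) y (fun _ ↦ 1) =
        (f (T, y) * pS G θ σ A (past n A R T) y (fun _ ↦ 1)) *
          (g (T, y) * pS G θ σ B (past n B R T) y (fun _ ↦ 1)) +
        θ * ((f (T, y) * pS G θ σ A (past n A R T) y (fun S ↦ 1 * sg S x)) *
          (g (T, y) * pS G θ σ B (past n B R T) y (fun S ↦ 1 * sg S p))) := by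
      intro y
      have h := pS_edge (σ := σ) (θ := θ) hG hx hp' hxp (hPD T) y (f := fun _ ↦ (1:ℝ))
        (g := fun _ ↦ (1:ℝ)) (fun _ ↦ rfl) (fun _ ↦ rfl)
      rw [sideI_past, sideI_past, ← hA, ← hB] at h
      simp only [mul_one] at h ⊢
      simp only [one_mul] at h ⊢
      rw [h]; ring
    have dA : ∀ (k : Finset V → ℝ) y y', (∀ i ∈ SA, y i = y' i) →
        f (T, y) * pS G θ σ A (past n A R T) y k = f (T, y') * pS G θ σ A (past n A R T) y' k := by
      intro k y y' h
      have h' : ∀ i ∈ past n A R T, y i = y' i := fun i hi ↦ h i (mem_past.1 hi).2.1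
      rw [show f (T, y) = f (T, y') from hfd.dep_y T y y' h']
      congr 1
      exact sum_congr rfl fun S _ ↦ by
        rw [lik, lik, prod_congr rfl fun i hi ↦ by rw [h' i hi]]
    have dB : ∀ (k : Finset V → ℝ) y y', (∀ i ∉ SA, y i = y' i) →
        g (T, y) * pS G θ σ B (past n B R T) y k = g (T, y') * pS G θ σ B (past n B R T) y' k := by
      intro k y y' h
      have h' : ∀ i ∈ past n B R T, y i = y' i := fun i hi ↦ h i (hAB i (mem_past.1 hi).2.1)
      rw [show g (T, y) = g (T, y') from hgd.dep_y T y y' h']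
      congr 1
      exact sum_congr rfl fun S _ ↦ by
        rw [lik, lik, prod_congr rfl fun i hi ↦ by rw [h' i hi]]
    simp only [e]
    rw [integral_add ((hf1.mul hg1).integrable _) (((hf2.mul hg2).integrable _).const_mul θ),
      integral_const_mul, W11, integral_mul_dep u11 hf1 hg1 (dA _) (dB _),
      integral_mul_dep u11 hf2 hg2 (dA _) (dB _)]
    have hz : ∫ y, g (T, y) * pS G θ σ B (past n B R T) y (fun S ↦ 1 * sg S p)
        ∂Measure.infinitePi (fun _ : Ix V ↦ u11) = 0 := by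
      have h := integral_W11_neg hg2
      have e2 : ∀ y, g (T, -y) * pS G θ σ B (past n B R T) (-y) (fun S ↦ 1 * sg S p) =
          -(g (T, y) * pS G θ σ B (past n B R T) y (fun S ↦ 1 * sg S p)) := by
        intro y
        rw [show g (T, -y) = g (T, y) from heven (T, y),
          pS_flip (fun i hi ↦ (mem_past.1 hi).2.1), ← mul_neg]
        congr 1
        rw [← neg_one_mul, ← pS_smul]
        have hpB : p ∈ B := mem_sideF.2 ⟨hp', onSide_self hxp.symm⟩
        exact sum_congr rfl fun S _ ↦ by simp only [sg_sdiff hpB]; ring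
      simp only [e2, integral_neg, W11] at h
      linarith
    rw [hz]
    ring
  have hgm : ∀ {h : Dat V → ℝ}, BM h → ∀ E : Finset V, Sub G E v ∨ E = A ∨ E = B →
      Measurable fun T ↦ ∫ y, h (T, y) * pS G θ σ E (past n E R T) y (fun _ ↦ 1) ∂W11 V := by
    intro h hh E _
    have hm : Measurable fun q : Dat V ↦ h q * pS G θ σ E (past n E R q.1) q.2 (fun _ ↦ 1) := by
      refine hh.1.mul ?_
      simp only [pS, lik, past, prod_filter]
      refine Finset.measurable_sum _ fun S _ ↦ measurable_const.mul (Measurable.mul ?_ measurable_const)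
      refine Finset.measurable_prod _ fun i _ ↦ ?_
      refine Measurable.ite ((hR i).preimage measurable_fst) ?_ measurable_const
      have := measurable_c11
      fun_prop
    exact hm.stronglyMeasurable.integral_prod_right'.measurable
  have bnd : ∀ {h : Dat V → ℝ}, BM h → ∀ {E : Finset V} {w : V}, Sub G E w →
      ∃ C, ∀ T, |∫ y, h (T, y) * pS G θ σ E (past n E R T) y (fun _ ↦ 1) ∂W11 V| ≤ C := by
    intro h hh E w hE
    obtain ⟨C, hC⟩ := hh.2
    refine ⟨C * ∑ S ∈ E.powerset, tw G θ E S, fun T ↦ ?_⟩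
    have h1 : ∀ S, ∫ y, lik σ (past n E R T) y S ∂W11 V = 1 := fun S ↦ by
      have := integral_obs (σ := σ) S (past n E R T) (fun _ ↦ (1:ℝ)) (BM.const 1) (fun _ _ _ ↦ rfl)
      simpa using this.symm
    have hint := (bm_pS (G := G) (θ := θ) (σ := σ) E (past n E R T) fun _ ↦ 1)
    refine (abs_integral_le_integral_abs).trans ?_
    calc ∫ y, |h (T, y) * pS G θ σ E (past n E R T) y (fun _ ↦ 1)| ∂W11 V
        ≤ ∫ y, C * pS G θ σ E (past n E R T) y (fun _ ↦ 1) ∂W11 V := by
          refine integral_mono (((bm_section hh T).mul hint).integrable _).norm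
            ((hint.integrable _).const_mul C) fun y ↦ ?_
          rw [abs_mul, abs_of_pos (den_pos hp E _ y)]
          exact mul_le_mul_of_nonneg_right (hC _) (den_pos hp E _ y).le
      _ = C * ∑ S ∈ E.powerset, tw G θ E S := by
          rw [integral_const_mul]
          congr 1
          simp only [pS, mul_one]
          rw [integral_finsetSum _ fun S _ ↦ ((bm_lik _ S).integrable _).const_mul _]
          simp only [integral_const_mul, h1, mul_one]
  have hdepT : ∀ {h : Dat V → ℝ} {E : Finset V}, RDep n E R h → ∀ T T' : Ix V → ℝ,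
      (∀ i : Ix V, i.2 ∈ E → T i = T' i) →
      ∫ y, h (T, y) * pS G θ σ E (past n E R T) y (fun _ ↦ 1) ∂W11 V =
        ∫ y, h (T', y) * pS G θ σ E (past n E R T') y (fun _ ↦ 1) ∂W11 V := by
    intro h E hh T T' e
    have e' : ∀ i ∈ (range n ×ˢ E : Finset (Ix V)), T i = T' i := fun i hi ↦
      e i (mem_product.1 hi).2
    simp only [past_local hRl e', hh (T, _) (T', _) e' (fun _ _ ↦ rfl)]
  rw [int_vis hG hp hD hR (hf.mul hg) (fun T y y' h ↦ by
    simp only [show f (T, y) = f (T, y') from hfD.dep_y T y y' h,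
      show g (T, y) = g (T, y') from hgD.dep_y T y y' h])]
  refine (integral_congr_ae (.of_forall key)).trans ?_
  rw [W01, integral_mul_dep u01 (S := SA) ⟨hgm hf A (Or.inr (Or.inl rfl)), bnd hf hSA⟩
      ⟨hgm hg B (Or.inr (Or.inr rfl)), bnd hg hSB⟩
      (fun T T' e ↦ hdepT hfd T T' fun i hi ↦ e i hi)
      (fun T T' e ↦ hdepT hgd T T' fun i hi ↦ e i (hAB i hi)), ← W01,
    ← int_vis hG hp hSA hR hf hfd.dep_y, ← int_vis hG hp hSB hR hg hgd.dep_y]

end Vale.Agent.P161.Crit
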