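import Mathlib
import Vale.Agent.P161.Crit.Cavity

/-!
Chronological telescoping in finite volume: increments, their form and their orthogonality.
-/

namespace Vale.Agent.P161.Crit

open Finset MeasureTheory

variable {V : Type*} [DecidableEq V] {G : SimpleGraph V} {θ : ℝ} {σ : Sch}

open Classical in
/-- The indices of the window revealed during `[t, t')`. -/
noncomputable def during (σ : Sch) (n : ℕ) (D : Finset V) (t t' : ℝ) (T : Ix V → ℝ) :
    Finset (Ix V) :=
  (range n ×ˢ D).filter fun i ↦ t ≤ tm σ T i ∧ tm σ T i < t'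

/-- The innovation factor of an increment. -/
noncomputable def xi (s m y : ℝ) : ℝ := s * c11 y / (1 + s * m * c11 y)

omit [DecidableEq V] in
lemma mem_during {n : ℕ} {D : Finset V} {t t' : ℝ} {T : Ix V → ℝ} {i : Ix V} :
    i ∈ during σ n D t t' T ↔ i.1 < n ∧ i.2 ∈ D ∧ t ≤ tm σ T i ∧ tm σ T i < t' := by
  simp [during, and_assoc]

lemma past_rC {n : ℕ} {D : Finset V} {T : Ix V → ℝ} {j : Ix V} (hj1 : j.1 < n) (hj2 : j.2 ∈ D) :
    past n D (rC σ j) T = insert j (past n D (rJ σ j) T) := by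
  ext i
  simp only [mem_insert, mem_past, rC, rJ]
  constructor
  · rintro ⟨h1, h2, h | h⟩
    · exact Or.inr ⟨h1, h2, h⟩
    · exact Or.inl h
  · rintro (rfl | ⟨h1, h2, h⟩)
    · exact ⟨hj1, hj2, Or.inr rfl⟩
    · exact ⟨h1, h2, Or.inl h⟩

omit [DecidableEq V] in
lemma notMem_past_rJ (n : ℕ) (D : Finset V) (T : Ix V → ℝ) (j : Ix V) :
    j ∉ past n D (rJ σ j) T := fun h ↦ lt_irrefl _ (mem_past.1 h).2.2

/-- Telescoping in chronological order. -/
lemma telescope {α : Type*} [AddCommGroup α] {n : ℕ} {D : Finset V} {T : Ix V → ℝ}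
    (hT : Set.InjOn (tm σ T) (range n ×ˢ D : Finset (Ix V))) (F : Finset (Ix V) → α) :
    ∀ (t t' : ℝ), t ≤ t' →
      F (past n D (rT σ t') T) - F (past n D (rT σ t) T) =
        ∑ j ∈ during σ n D t t' T, (F (past n D (rC σ j) T) - F (past n D (rJ σ j) T)) := by
  classical
  intro t t'
  induction hc : (during σ n D t t' T).card generalizing t' with
  | zero =>
    intro _
    rw [Finset.card_eq_zero] at hc
    have e : past n D (rT σ t') T = past n D (rT σ t) T := by
      ext i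
      simp only [mem_past, rT]
      refine and_congr_right fun h1 ↦ and_congr_right fun h2 ↦ ⟨fun h ↦ ?_, fun h ↦ by linarith⟩
      by_contra hn
      have : i ∈ during σ n D t t' T := mem_during.2 ⟨h1, h2, not_lt.1 hn, h⟩
      rw [hc] at this
      exact Finset.notMem_empty _ this
    rw [e, hc, sub_self, sum_empty]
  | succ c ih =>
    intro htt
    obtain ⟨j, hj, hmax⟩ := exists_max_image (during σ n D t t' T) (tm σ T)
      (card_pos.1 (by omega))
    obtain ⟨hj1, hj2, hj3, hj4⟩ := mem_during.1 hj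
    have hjW : j ∈ (range n ×ˢ D : Finset (Ix V)) := mem_product.2 ⟨Finset.mem_range.2 hj1, hj2⟩
    have e1 : past n D (rT σ t') T = past n D (rC σ j) T := by
      ext i
      simp only [mem_past, rT, rC]
      refine and_congr_right fun h1 ↦ and_congr_right fun h2 ↦ ⟨fun h ↦ ?_, ?_⟩
      · by_cases hit : t ≤ tm σ T i
        · rcases lt_or_eq_of_le (hmax i (mem_during.2 ⟨h1, h2, hit, h⟩)) with h' | h'
          · exact Or.inl h'
          · exact Or.inr (hT (mem_product.2 ⟨Finset.mem_range.2 h1, h2⟩) hjW h')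
        · exact Or.inl ((not_le.1 hit).trans_le hj3)
      · rintro (h | rfl)
        · exact h.trans hj4
        · exact hj4
    have e2 : during σ n D t (tm σ T j) T = (during σ n D t t' T).erase j := by
      ext i
      simp only [mem_during, mem_erase]
      constructor
      · rintro ⟨h1, h2, h3, h4⟩
        exact ⟨fun e ↦ lt_irrefl _ (e ▸ h4), h1, h2, h3, h4.trans hj4⟩
      · rintro ⟨hne, h1, h2, h3, h4⟩
        refine ⟨h1, h2, h3, lt_of_le_of_ne (hmax i (mem_during.2 ⟨h1, h2, h3, h4⟩)) fun e ↦ hne ?_⟩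
        exact hT (mem_product.2 ⟨Finset.mem_range.2 h1, h2⟩) hjW e
    have hrec := ih (tm σ T j) (by rw [e2, card_erase_of_mem hj]; omega) hj3
    rw [e2] at hrec
    rw [e1, ← add_sum_erase _ _ hj, ← hrec]
    change F (past n D (rC σ j) T) - F (past n D (rT σ t) T) =
      F (past n D (rC σ j) T) - F (past n D (rJ σ j) T) +
        (F (past n D (rT σ (tm σ T j)) T) - F (past n D (rT σ t) T))
    rw [show past n D (rT σ (tm σ T j)) T = past n D (rJ σ j) T from rfl]
    abel

/-- One more observation moves a posterior mean by covariance times innovation. -/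
lemma pf_insert (hp : Par θ) (D : Finset V) {P : Finset (Ix V)} {j : Ix V} (hj : j ∉ P)
    (y : Ix V → ℝ) (f : Finset V → ℝ) :
    pf G θ σ D (insert j P) y f - pf G θ σ D P y f =
      cv G θ σ D P y f (fun S ↦ sg S j.2) *
        xi (σ.s j.1) (pf G θ σ D P y fun S ↦ sg S j.2) (y j) := by
  have e : ∀ g : Finset V → ℝ, pS G θ σ D (insert j P) y g =
      pS G θ σ D P y g + σ.s j.1 * c11 (y j) * pS G θ σ D P y (fun S ↦ g S * sg S j.2) := by
    intro g
    rw [pS, pS, pS, mul_sum, ← sum_add_distrib]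
    exact sum_congr rfl fun S _ ↦ by rw [lik, prod_insert hj, lik]; ring
  have hZ' := den_pos (G := G) (σ := σ) hp D (insert j P) y
  have hZ := den_pos (G := G) (σ := σ) hp D P y
  rw [e] at hZ'
  simp only [one_mul] at hZ'
  simp only [cv, xi, pf, e, one_mul]
  set A := pS G θ σ D P y f
  set B := pS G θ σ D P y fun S ↦ f S * sg S j.2
  set M := pS G θ σ D P y fun S ↦ sg S j.2
  set Z := pS G θ σ D P y fun _ ↦ 1
  set q := σ.s j.1 * c11 (y j)
  rw [show σ.s j.1 * (M / Z) * c11 (y j) = q * M / Z by ring]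
  rw [show 1 + q * M / Z = (Z + q * M) / Z by field_simp]
  field_simp
  ring

lemma xi_den {s m : ℝ} (hs : 0 ≤ s) (hs' : s ≤ 1 / 2) (hm : |m| ≤ 1) (y : ℝ) :
    1 / 2 ≤ 1 + s * m * c11 y := by
  have h : |s * m * c11 y| ≤ 1 / 2 := by
    rw [abs_mul, abs_mul, abs_of_nonneg hs]
    calc s * |m| * |c11 y| ≤ 1 / 2 * 1 * 1 := by
          gcongr
          exact c11_abs y
      _ = 1 / 2 := by ring
  linarith [(abs_le.1 h).1]

lemma abs_xi_le {s m : ℝ} (hs : 0 ≤ s) (hs' : s ≤ 1 / 2) (hm : |m| ≤ 1) (y : ℝ) :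
    |xi s m y| ≤ 2 * s := by
  have h := xi_den hs hs' hm y
  rw [xi, abs_div, abs_of_pos (show 0 < 1 + s * m * c11 y by linarith), div_le_iff₀ (by linarith),
    abs_mul, abs_of_nonneg hs]
  nlinarith [mul_le_mul_of_nonneg_left (c11_abs y) hs]

lemma abs_xi_sub {s m m' y y' : ℝ} (hs : 0 ≤ s) (hs' : s ≤ 1 / 2) (hm : |m| ≤ 1) (hm' : |m'| ≤ 1) :
    |xi s m y - xi s m' y'| ≤ 4 * (s * |y - y'| + s ^ 2 * |m - m'|) := by
  have h := xi_den hs hs' hm y
  have h' := xi_den hs hs' hm' y'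
  have e : xi s m y - xi s m' y' = (s * (c11 y - c11 y') + s ^ 2 * c11 y * c11 y' * (m' - m)) /
      ((1 + s * m * c11 y) * (1 + s * m' * c11 y')) := by
    rw [xi, xi, div_sub_div _ _ (by linarith) (by linarith)]
    congr 1
    ring
  have hden : 1 / 4 ≤ (1 + s * m * c11 y) * (1 + s * m' * c11 y') := by nlinarith
  rw [e, abs_div, abs_of_pos (show 0 < (1 + s * m * c11 y) * (1 + s * m' * c11 y') by linarith),
    div_le_iff₀ (by linarith)]
  have hnum : |s * (c11 y - c11 y') + s ^ 2 * c11 y * c11 y' * (m' - m)| ≤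
      s * |y - y'| + s ^ 2 * |m - m'| := by
    refine (abs_add_le _ _).trans (add_le_add ?_ ?_)
    · rw [abs_mul, abs_of_nonneg hs]; exact mul_le_mul_of_nonneg_left (abs_c11_sub _ _) hs
    · rw [abs_mul, abs_mul, abs_mul, abs_of_nonneg (sq_nonneg s), abs_sub_comm m' m]
      refine mul_le_mul_of_nonneg_right ?_ (abs_nonneg _)
      exact (mul_le_of_le_one_right (by positivity) (c11_abs y')).trans
        (mul_le_of_le_one_right (sq_nonneg s) (c11_abs y))
  nlinarith [mul_le_mul_of_nonneg_left hden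
    (show 0 ≤ 4 * (s * |y - y'| + s ^ 2 * |m - m'|) by positivity)]

variable [G.LocallyFinite]

/-- Increments are orthogonal to the past. -/
lemma orth_incr (hG : G.IsTree) (hp : Par θ) {r v : V} {n : ℕ} {D : Finset V} (hD : Sub G D v)
    (j : Ix V) {f : Finset V → ℝ} {C : ℝ} (hf : ∀ S, |f S| ≤ C) {φ : Dat V → ℝ} (hφ : BM φ)
    (hdep : ∀ T, Dep (fun y ↦ φ (T, y)) (past n D (rJ σ j) T)) :
    ∫ ω, φ (vis σ ω) * (pf G θ σ D (past n D (rC σ j) (vis σ ω).1) (vis σ ω).2 f -
      pf G θ σ D (past n D (rJ σ j) (vis σ ω).1) (vis σ ω).2 f) ∂Pm G θ r = 0 := by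
  have := Pm_prob (G := G) hp r
  have hdC : ∀ T, Dep (fun y ↦ φ (T, y)) (past n D (rC σ j) T) := fun T y y' h ↦
    hdep T y y' fun i hi ↦
      h i (mem_past.2 ⟨(mem_past.1 hi).1, (mem_past.1 hi).2.1, Or.inl (mem_past.1 hi).2.2⟩)
  have h1 := orth_glob (σ := σ) hG hp (r := r) hD (rmeas_rC σ j) hf hφ hdC
  have h2 := orth_glob (σ := σ) hG hp (r := r) hD (rmeas_rJ σ j) hf hφ hdep
  have b1 : BM fun ω : Om V ↦ φ (vis σ ω) *
      pf G θ σ D (past n D (rC σ j) (vis σ ω).1) (vis σ ω).2 f :=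
    (hφ.mul (bm_pf_past hp n D (rmeas_rC σ j) hf)).comp (measurable_vis σ)
  have b2 : BM fun ω : Om V ↦ φ (vis σ ω) *
      pf G θ σ D (past n D (rJ σ j) (vis σ ω).1) (vis σ ω).2 f :=
    (hφ.mul (bm_pf_past hp n D (rmeas_rJ σ j) hf)).comp (measurable_vis σ)
  simp only [mul_sub]
  rw [integral_sub (b1.integrable _) (b2.integrable _), ← h1, ← h2, sub_self]

end Vale.Agent.P161.Crit
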