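import Mathlib
import Vale.Agent.P161.Decode
import Vale.Agent.P161.Source
import Vale.Agent.P161.Crit.Global

/-!
Infinite-volume innovations and their law; splitting one uniform variable per vertex.
-/

namespace Vale.Agent.P161.Crit

open Finset MeasureTheory Filter Topology

variable {V : Type*} [DecidableEq V] {G : SimpleGraph V} [G.LocallyFinite] {θ : ℝ} {σ : Sch}

/-- The infinite-volume innovations. -/
noncomputable def Uinf (G : SimpleGraph V) [G.LocallyFinite] (θ : ℝ) (σ : Sch) (r : V)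
    (p : Dat V) (j : Ix V) : ℝ :=
  cdf1 (σ.s j.1 * ML G θ σ r (rJ σ j) (fun S ↦ sg S j.2) p) (p.2 j)

/-- The source read off a sample: labels and innovations. -/
noncomputable def Zv (G : SimpleGraph V) [G.LocallyFinite] (θ : ℝ) (σ : Sch) (r : V) (ω : Om V) :
    Dat V :=
  (ω.2.2, Uinf G θ σ r (vis σ ω))

lemma measurable_Uinf (r : V) : Measurable (Uinf (V := V) G θ σ r) := by
  refine measurable_pi_iff.2 fun j ↦ ?_
  have h1 := measurable_ML (G := G) (θ := θ) (σ := σ) r (rmeas_rJ σ j) fun S ↦ sg S j.2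
  unfold Uinf cdf1
  fun_prop

lemma measurable_Zv (r : V) : Measurable (Zv (V := V) G θ σ r) :=
  (measurable_snd.comp measurable_snd).prodMk ((measurable_Uinf r).comp (measurable_vis σ))

lemma ae_tendsto_UU [Countable V] (hG : G.IsTree) (hp : Par θ) (r : V) :
    ∀ᵐ ω ∂Pm G θ r, ∀ j : Ix V, Tendsto
      (fun n ↦ UU G θ σ n (ball G r n) ω.2.2 (Yv σ ω) j) atTop
      (𝓝 (Uinf G θ σ r (vis σ ω) j)) := by
  refine ae_all_iff.2 fun j ↦ ?_
  filter_upwards [(tendsto_Mn (σ := σ) hG hp r (rmeas_rJ σ j) (fun S ↦ (sg_abs S j.2).le)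
    (loc_sg j.2)).1] with ω hω
  change Tendsto (fun n ↦ cdf1 (σ.s j.1 * Mn G θ σ r (rJ σ j) (fun S ↦ sg S j.2) n (vis σ ω))
    (Yv σ ω j)) atTop _
  have hc : Continuous fun m : ℝ ↦ cdf1 (σ.s j.1 * m) (Yv σ ω j) := by unfold cdf1; fun_prop
  exact (hc.tendsto _).comp hω

/-- Flatten a pair of fields. -/
def zipD (p : Dat V) (i : Ix V) : ℝ × ℝ := (p.1 i, p.2 i)

omit [DecidableEq V] in
lemma measurable_zipD : Measurable (zipD (V := V)) :=
  measurable_pi_iff.2 fun i ↦
    ((measurable_pi_apply i).comp measurable_fst).prodMk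
      ((measurable_pi_apply i).comp measurable_snd)

omit [DecidableEq V] in
lemma measurable_unzipD : Measurable fun (q : Ix V → ℝ × ℝ) ↦
    ((fun i ↦ (q i).1, fun i ↦ (q i).2) : Dat V) :=
  (measurable_pi_iff.2 fun i ↦ measurable_fst.comp (measurable_pi_apply i)).prodMk
    (measurable_pi_iff.2 fun i ↦ measurable_snd.comp (measurable_pi_apply i))

omit [DecidableEq V] in
lemma ext_dat {μ ν : Measure (Dat V)} [IsFiniteMeasure μ] [IsFiniteMeasure ν]
    (h : ∀ (I : Finset (Ix V)) (ψ : BoundedContinuousFunction (I → ℝ × ℝ) ℝ),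
      ∫ p, ψ (I.restrict (zipD p)) ∂μ = ∫ p, ψ (I.restrict (zipD p)) ∂ν) : μ = ν := by
  have h1 : μ.map zipD = ν.map zipD := by
    refine ext_restrict fun I ↦ ?_
    refine ext_of_forall_integral_eq_of_IsFiniteMeasure fun ψ ↦ ?_
    rw [integral_map (measurable_restrict I).aemeasurable ψ.continuous.aestronglyMeasurable,
      integral_map (measurable_restrict I).aemeasurable ψ.continuous.aestronglyMeasurable,
      integral_map (f := fun q : Ix V → ℝ × ℝ ↦ ψ (I.restrict q)) measurable_zipD.aemeasurable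
        (ψ.continuous.measurable.comp (measurable_restrict I)).aestronglyMeasurable,
      integral_map (f := fun q : Ix V → ℝ × ℝ ↦ ψ (I.restrict q)) measurable_zipD.aemeasurable
        (ψ.continuous.measurable.comp (measurable_restrict I)).aestronglyMeasurable]
    exact h I ψ
  have h2 := congrArg (fun m ↦ Measure.map
    (fun (q : Ix V → ℝ × ℝ) ↦ ((fun i ↦ (q i).1, fun i ↦ (q i).2) : Dat V)) m) h1
  rw [Measure.map_map measurable_unzipD measurable_zipD,
    Measure.map_map measurable_unzipD measurable_zipD] at h2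
  have e : (fun (q : Ix V → ℝ × ℝ) ↦ ((fun i ↦ (q i).1, fun i ↦ (q i).2) : Dat V)) ∘ zipD
      = id := rfl
  rwa [e, Measure.map_id, Measure.map_id] at h2

/-- The source read off a sample is i.i.d. uniform. -/
lemma map_Zv [Countable V] (hG : G.IsTree) (hp : Par θ) (r : V) :
    (Pm G θ r).map (Zv G θ σ r) = (W01 V).prod (W01 V) := by
  have := Pm_prob (G := G) hp r
  refine ext_dat fun I ψ ↦ ?_
  set φ : Dat V → ℝ := fun p ↦ ψ (I.restrict (zipD p))
  have hφ : BM φ := ⟨ψ.continuous.measurable.comp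
    ((measurable_restrict I).comp measurable_zipD), ‖ψ‖, fun p ↦ ψ.norm_coe_le_norm _⟩
  rw [integral_map (measurable_Zv r).aemeasurable hφ.1.aestronglyMeasurable]
  have hlim : Tendsto (fun n ↦ ∫ ω, φ (ω.2.2, UU G θ σ n (ball G r n) ω.2.2 (Yv σ ω)) ∂Pm G θ r)
      atTop (𝓝 (∫ ω, φ (Zv G θ σ r ω) ∂Pm G θ r)) := by
    refine tendsto_integral_of_dominated_convergence (fun _ ↦ ‖ψ‖) (fun n ↦ ?_) (integrable_const _)
      (fun n ↦ .of_forall fun ω ↦ ψ.norm_coe_le_norm _) ?_
    · exact (Measurable.comp (g := φ)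
        (f := fun ω : Om V ↦ ((ω.2.2, UU G θ σ n (ball G r n) ω.2.2 (Yv σ ω)) : Dat V)) hφ.1
        ((measurable_snd.comp measurable_snd).prodMk
          (Measurable.comp (g := fun p : Dat V ↦ UU G θ σ n (ball G r n) p.1 p.2) (f := vis σ)
            (measurable_UU2 n _) (measurable_vis σ)))).aestronglyMeasurable
    · filter_upwards [ae_tendsto_UU (σ := σ) hG hp r] with ω hω
      refine (ψ.continuous.tendsto _).comp (tendsto_pi_nhds.2 fun i ↦ ?_)
      exact tendsto_const_nhds.prodMk_nhds (hω i)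
  refine tendsto_nhds_unique hlim (tendsto_const_nhds.congr' ?_)
  have hev : ∀ᶠ n in atTop, ∀ i ∈ I, i ∈ win G r n :=
    I.eventually_all.2 fun i _ ↦ mem_win hG r i
  filter_upwards [hev] with n hn
  rw [law_glob hG hp (r := r) (sub_ball hG r n) hφ (fun T u u' h ↦ by
    simp only [φ]
    congr 1
    funext i
    exact Prod.ext rfl (h i.1 (hn i.1 i.2))), integral_prod _ (hφ.integrable _)]

/-- Encode two families of labels into one. -/
noncomputable def split2 (p : (V → ℝ) × (Ix V → ℝ)) : Dat V :=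
  (fun i ↦ p.2 (2 * i.1, i.2), fun i ↦ p.2 (2 * i.1 + 1, i.2))

omit [DecidableEq V] in
lemma measurable_split2 : Measurable (split2 (V := V)) :=
  (measurable_pi_iff.2 fun i ↦ ((measurable_pi_apply (2 * i.1, i.2)).comp measurable_snd)).prodMk
    (measurable_pi_iff.2 fun i ↦ ((measurable_pi_apply (2 * i.1 + 1, i.2)).comp measurable_snd))

lemma map_split2 [Countable V] : ((T01 V).prod (W01 V)).map split2 = (W01 V).prod (W01 V) := by
  have h : ((T01 V).prod (W01 V)).map split2 = (W01 V).map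
      (fun w : Ix V → ℝ ↦ ((fun i ↦ w (2 * i.1, i.2), fun i ↦ w (2 * i.1 + 1, i.2)) : Dat V)) := by
    have e : (split2 (V := V)) =
        (fun w : Ix V → ℝ ↦ ((fun i ↦ w (2 * i.1, i.2), fun i ↦ w (2 * i.1 + 1, i.2)) : Dat V)) ∘
          Prod.snd := rfl
    rw [e, ← Measure.map_map ((measurable_pi_iff.2 fun i ↦ measurable_pi_apply _).prodMk
      (measurable_pi_iff.2 fun i ↦ measurable_pi_apply _)) measurable_snd, Measure.map_snd_prod]
    simp
  have hm : Measurable
      (fun w : Ix V → ℝ ↦ ((fun i ↦ w (2 * i.1, i.2), fun i ↦ w (2 * i.1 + 1, i.2)) : Dat V)) :=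
    (measurable_pi_iff.2 fun i ↦ measurable_pi_apply _).prodMk
      (measurable_pi_iff.2 fun i ↦ measurable_pi_apply _)
  rw [h]
  set e0 : Ix V → Ix V := fun i ↦ (2 * i.1, i.2)
  set e1 : Ix V → Ix V := fun i ↦ (2 * i.1 + 1, i.2)
  have hi0 : Function.Injective e0 := fun a b h ↦ by
    simp only [e0, Prod.mk.injEq] at h
    exact Prod.ext (by omega) h.2
  have hi1 : Function.Injective e1 := fun a b h ↦ by
    simp only [e1, Prod.mk.injEq] at h
    exact Prod.ext (by omega) h.2
  set E : Ix V ⊕ Ix V → Ix V := Sum.elim e0 e1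
  have hE : Function.Injective E := hi0.sumElim hi1 fun a b h ↦ by
    simp only [e0, e1, Prod.mk.injEq] at h
    omega
  have hmE : Measurable fun (w : Ix V → ℝ) k ↦ w (E k) :=
    measurable_pi_iff.2 fun k ↦ measurable_pi_apply _
  have hmap : (W01 V).map (fun w k ↦ w (E k)) =
      Measure.infinitePi fun _ : Ix V ⊕ Ix V ↦ u01 := by
    classical
    refine Measure.eq_infinitePi _ fun s t ht ↦ ?_
    rw [Measure.map_apply hmE (MeasurableSet.pi s.countable_toSet fun i _ ↦ ht i)]
    set t' : Ix V → Set ℝ := fun i ↦ ⋂ k ∈ s.filter (fun k ↦ E k = i), t k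
    have e : (fun (w : Ix V → ℝ) k ↦ w (E k)) ⁻¹' (s : Set (Ix V ⊕ Ix V)).pi t =
        Set.pi (s.image E : Finset (Ix V)) t' := by
      ext w
      simp only [Set.mem_preimage, Set.mem_pi, Finset.mem_coe, t', Set.mem_iInter,
        Finset.mem_filter, Finset.mem_image]
      exact ⟨fun h i _ k hk ↦ by rw [← hk.2]; exact h k hk.1,
        fun h k hk ↦ h (E k) ⟨k, hk, rfl⟩ k ⟨hk, rfl⟩⟩
    have ht' : ∀ i ∈ s.image E, MeasurableSet (t' i) := fun i _ ↦
      Finset.measurableSet_biInter _ fun k _ ↦ ht k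
    rw [e, W01, Measure.infinitePi_pi _ ht', Finset.prod_image hE.injOn]
    refine Finset.prod_congr rfl fun k hk ↦ ?_
    have : s.filter (fun k' ↦ E k' = E k) = {k} := by
      ext k'
      simp only [Finset.mem_filter, Finset.mem_singleton]
      exact ⟨fun h ↦ hE h.2, fun h ↦ ⟨h ▸ hk, by rw [h]⟩⟩
    simp only [t', this, Finset.mem_singleton, Set.iInter_iInter_eq_left]
  set el : Dat V → Ix V ⊕ Ix V → ℝ := fun p ↦ Sum.elim p.1 p.2
  have hel : Measurable el := measurable_pi_iff.2 fun k ↦ by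
    cases k with
    | inl i => exact (measurable_pi_apply i).comp measurable_fst
    | inr i => exact (measurable_pi_apply i).comp measurable_snd
  have hel' : ((W01 V).prod (W01 V)).map el = Measure.infinitePi fun _ : Ix V ⊕ Ix V ↦ u01 := by
    classical
    refine Measure.eq_infinitePi _ fun s t ht ↦ ?_
    rw [Measure.map_apply hel (MeasurableSet.pi s.countable_toSet fun i _ ↦ ht i)]
    have e : el ⁻¹' (s : Set (Ix V ⊕ Ix V)).pi t =
        (Set.pi (s.toLeft : Set (Ix V)) fun i ↦ t (.inl i)) ×ˢ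
          (Set.pi (s.toRight : Set (Ix V)) fun i ↦ t (.inr i)) := by
      ext p
      simp [el, Set.mem_pi]
    rw [e, Measure.prod_prod, W01, Measure.infinitePi_pi _ (fun i _ ↦ ht _),
      Measure.infinitePi_pi _ (fun i _ ↦ ht _)]
    conv_rhs => rw [← s.toLeft_disjSum_toRight, Finset.prod_disjSum]
  have hinv : Measurable fun (q : Ix V ⊕ Ix V → ℝ) ↦
      ((fun i ↦ q (.inl i), fun i ↦ q (.inr i)) : Dat V) :=
    (measurable_pi_iff.2 fun i ↦ measurable_pi_apply _).prodMk
      (measurable_pi_iff.2 fun i ↦ measurable_pi_apply _)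
  have := congrArg (Measure.map fun (q : Ix V ⊕ Ix V → ℝ) ↦
      ((fun i ↦ q (.inl i), fun i ↦ q (.inr i)) : Dat V)) (hmap.trans hel'.symm)
  rw [Measure.map_map hinv hmE, Measure.map_map hinv hel] at this
  have e : (fun (q : Ix V ⊕ Ix V → ℝ) ↦ ((fun i ↦ q (.inl i), fun i ↦ q (.inr i)) : Dat V)) ∘ el
      = id := rfl
  rw [e, Measure.map_id] at this
  exact this

/-- A measurable map from i.i.d. uniform variables at the vertices to labels and innovations,
commuting with every permutation of the vertices. -/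
lemma exists_split2 (V : Type*) [DecidableEq V] [Countable V] :
    ∃ Q : (V → unitInterval) → Dat V, Measurable Q ∧
      (Measure.infinitePi fun _ : V ↦ (volume : Measure unitInterval)).map Q =
        (W01 V).prod (W01 V) ∧
      ∀ (e : V → V) (U : V → unitInterval), Q (fun x ↦ U (e x)) =
        (fun i ↦ (Q U).1 (i.1, e i.2), fun i ↦ (Q U).2 (i.1, e i.2)) := by
  obtain ⟨Q, hQ, hlaw, he⟩ := exists_split V
  refine ⟨split2 ∘ Q, measurable_split2.comp hQ, ?_, fun e U ↦ ?_⟩
  · rw [← Measure.map_map measurable_split2 hQ, hlaw, map_split2]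
  · simp only [Function.comp_apply, he e U]
    rfl

end Vale.Agent.P161.Crit
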