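import Mathlib
import Vale.Agent.P161.Invariance
import Vale.Agent.P161.Crit.Zv

/-!
Automorphism invariance of the clock model.
-/

namespace Vale.Agent.P161.Crit

open Finset MeasureTheory Filter

variable {V : Type*} [DecidableEq V] {G : SimpleGraph V} {θ : ℝ} {σ : Sch}

/-- Translate a pair of fields by an automorphism. -/
def moveD (g : G ≃g G) (p : Dat V) : Dat V :=
  (fun i ↦ p.1 ((eIdx g).symm i), fun i ↦ p.2 ((eIdx g).symm i))

/-- Translate a sample by an automorphism. -/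
def moveO (g : G ≃g G) (ω : Om V) : Om V := (fun x ↦ ω.1 (g.symm x), moveD g ω.2)

/-- The rule `R'` is the translate of `R`. -/
def RMap (g : G ≃g G) (R R' : Rule V) : Prop :=
  ∀ T i, R' (fun k ↦ T ((eIdx g).symm k)) (eIdx g i) ↔ R T i

omit [DecidableEq V] in
lemma measurable_moveD (g : G ≃g G) : Measurable (moveD g) :=
  (measurable_pi_iff.2 fun _ ↦ (measurable_pi_apply _).comp measurable_fst).prodMk
    (measurable_pi_iff.2 fun _ ↦ (measurable_pi_apply _).comp measurable_snd)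

omit [DecidableEq V] in
lemma tm_move (g : G ≃g G) (T : Ix V → ℝ) (i : Ix V) :
    tm σ (fun k ↦ T ((eIdx g).symm k)) (eIdx g i) = tm σ T i := by
  simp only [tm, Equiv.symm_apply_apply]
  rfl

omit [DecidableEq V] in
lemma rmap_rT (g : G ≃g G) (t : ℝ) : RMap g (rT σ t) (rT σ t) := fun T i ↦ by
  simp only [rT, tm_move]

omit [DecidableEq V] in
lemma rmap_rJ (g : G ≃g G) (j : Ix V) : RMap g (rJ σ j) (rJ σ (eIdx g j)) := fun T i ↦ by
  simp only [rJ, tm_move]

omit [DecidableEq V] in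
lemma rmap_rC (g : G ≃g G) (j : Ix V) : RMap g (rC σ j) (rC σ (eIdx g j)) := fun T i ↦ by
  simp only [rC, tm_move, EmbeddingLike.apply_eq_iff_eq]

lemma vis_move (g : G ≃g G) (ω : Om V) : vis σ (moveO g ω) = moveD g (vis σ ω) := rfl

variable [G.LocallyFinite]

lemma Pm_invariant (hG : G.IsTree) (hp : Par θ) (r : V) (g : G ≃g G) :
    MeasurePreserving (moveO g) (Pm G θ r) (Pm G θ r) := by
  have := isingM_prob (G := G) hp.nonneg hp.lt_one.le r
  have h1 : MeasurePreserving (fun (τ : V → Bool) (x : V) ↦ τ (g.symm x))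
      (isingM G θ r) (isingM G θ r) :=
    ⟨measurable_moveσ g, isingM_invariant hG hp.nonneg hp.lt_one.le r g⟩
  have h2 : MeasurePreserving (fun (w : Ix V → ℝ) (i : Ix V) ↦ w ((eIdx g).symm i))
      (W01 V) (W01 V) :=
    ⟨measurable_pi_iff.2 fun _ ↦ measurable_pi_apply _, infinitePi_reindex u01 (eIdx g).symm⟩
  exact h1.prod (h2.prod h2)

lemma conf_move (g : G ≃g G) {f f' : Finset V → ℝ} {A : Finset V}
    (hf : ∀ S, f' (S.map g.toEquiv.toEmbedding) = f S) (τ : V → Bool) :
    f' (conf (A.map g.toEquiv.toEmbedding) fun x ↦ τ (g.symm x)) = f (conf A τ) := by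
  rw [conf_map, hf]

/-- Infinite-volume posterior means are equivariant, almost surely. -/
lemma ML_move (hG : G.IsTree) (hp : Par θ) (r : V) (g : G ≃g G) {R R' : Rule V}
    (hR : RMeas R) (hR' : RMeas R') (hRR : RMap g R R') {f f' : Finset V → ℝ} {C : ℝ}
    (hf : ∀ S, |f S| ≤ C) (hf' : ∀ S, |f' S| ≤ C) {A : Finset V} (hA : Loc f A)
    (hA' : Loc f' (A.map g.toEquiv.toEmbedding))
    (hff : ∀ S, f' (S.map g.toEquiv.toEmbedding) = f S) :
    ∀ᵐ ω ∂Pm G θ r, ML G θ σ r R' f' (moveD g (vis σ ω)) = ML G θ σ r R f (vis σ ω) := by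
  have := Pm_prob (G := G) hp r
  set μ := Pm G θ r
  have hm : Measurable fun ω : Om V ↦ msk R (vis σ ω) :=
    (measurable_msk hR).comp (measurable_vis σ)
  have hms : ∀ p : Dat V, msk R' (moveD g p) = moveD g (msk R p) := by
    intro p
    refine Prod.ext rfl (funext fun i ↦ ?_)
    have := hRR p.1 ((eIdx g).symm i)
    rw [Equiv.apply_symm_apply] at this
    simp only [msk, moveD]
    classical
    exact if_congr this rfl rfl
  set h' : Om V → ℝ := fun ω ↦ ML G θ σ r R' f' (moveD g (vis σ ω))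
  have hb : ∀ᵐ ω ∂μ, |h' ω| ≤ C := by
    have := (Pm_invariant hG hp r g).quasiMeasurePreserving.ae
      (abs_ML (σ := σ) hG hp r hR' hf' hA')
    simpa [h', vis_move] using this
  have hh : Measurable h' :=
    (measurable_ML r hR' f').comp ((measurable_moveD g).comp (measurable_vis σ))
  have e := (tendsto_Mn (σ := σ) hG hp r hR hf hA).2
  have e' := (tendsto_Mn (σ := σ) hG hp r hR' hf' hA').2
  refine (ae_eq_condExp_of_forall_setIntegral_eq hm.comap_le ((bm_fconf hf A).integrable _)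
    (fun B _ _ ↦ (Integrable.of_bound hh.aestronglyMeasurable C hb).integrableOn) ?_ ?_).trans e.symm
  · intro B hB _
    obtain ⟨B', hB', rfl⟩ := hB
    set B'' : Set (Dat V) := (moveD g.symm) ⁻¹' B'
    have hB'' : MeasurableSet B'' := measurable_moveD g.symm hB'
    have hinv : ∀ p : Dat V, moveD g.symm (moveD g p) = p := fun p ↦ by
      refine Prod.ext (funext fun i ↦ ?_) (funext fun i ↦ ?_) <;>
        simp [moveD]
    have hset : (fun ω : Om V ↦ msk R (vis σ ω)) ⁻¹' B' =
        moveO g ⁻¹' ((fun ω : Om V ↦ msk R' (vis σ ω)) ⁻¹' B'') := by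
      ext ω
      simp only [Set.mem_preimage, B'', vis_move, hms, hinv]
    have hm' : Measurable fun ω : Om V ↦ msk R' (vis σ ω) :=
      (measurable_msk hR').comp (measurable_vis σ)
    have hmp := Pm_invariant hG hp r g
    have hMem : Measurable (moveO g) := hmp.measurable
    have lhs : ∫ ω in (fun ω : Om V ↦ msk R (vis σ ω)) ⁻¹' B', h' ω ∂μ =
        ∫ ω in (fun ω : Om V ↦ msk R' (vis σ ω)) ⁻¹' B'', ML G θ σ r R' f' (vis σ ω) ∂μ := by
      conv_rhs => rw [show μ = μ.map (moveO g) from hmp.map_eq.symm]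
      have hML : Measurable fun ω : Om V ↦ ML G θ σ r R' f' (vis σ ω) :=
        (measurable_ML r hR' f').comp (measurable_vis σ)
      rw [setIntegral_map (hm' hB'') hML.aestronglyMeasurable hMem.aemeasurable, ← hset]
      rfl
    have rhs : ∫ ω in (fun ω : Om V ↦ msk R (vis σ ω)) ⁻¹' B', f (conf A ω.1) ∂μ =
        ∫ ω in (fun ω : Om V ↦ msk R' (vis σ ω)) ⁻¹' B'',
          f' (conf (A.map g.toEquiv.toEmbedding) ω.1) ∂μ := by
      conv_rhs => rw [show μ = μ.map (moveO g) from hmp.map_eq.symm]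
      rw [setIntegral_map (hm' hB'') (bm_fconf hf' _).1.aestronglyMeasurable hMem.aemeasurable,
        ← hset]
      simp only [moveO, conf_move g hff]
    rw [lhs, rhs]
    calc ∫ ω in (fun ω : Om V ↦ msk R' (vis σ ω)) ⁻¹' B'', ML G θ σ r R' f' (vis σ ω) ∂μ
        = ∫ ω in (fun ω : Om V ↦ msk R' (vis σ ω)) ⁻¹' B'',
            (μ[fun ω : Om V ↦ f' (conf (A.map g.toEquiv.toEmbedding) ω.1) |
              MeasurableSpace.comap (fun ω ↦ msk R' (vis σ ω)) inferInstance]) ω ∂μ :=
          setIntegral_congr_ae (hm' hB'') (e'.mono fun ω h _ ↦ h)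
      _ = _ := setIntegral_condExp hm'.comap_le ((bm_fconf hf' _).integrable _)
          ⟨B'', hB'', rfl⟩
  · refine StronglyMeasurable.aestronglyMeasurable (Measurable.stronglyMeasurable ?_)
    have e2 : h' = (fun p ↦ ML G θ σ r R' f' (moveD g p)) ∘ fun ω : Om V ↦ msk R (vis σ ω) := by
      funext ω
      simp only [Function.comp_apply, ← hms, ML_msk r R' f' (fun i h ↦ h), h']
    rw [e2]
    exact ((measurable_ML r hR' f').comp (measurable_moveD g)).comp (comap_measurable _)

omit [G.LocallyFinite] in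
lemma map_singleton' (g : G ≃g G) (x : V) :
    ({x} : Finset V).map g.toEquiv.toEmbedding = {g x} := map_singleton _ _

lemma Zv_move [Countable V] (hG : G.IsTree) (hp : Par θ) (r : V) (g : G ≃g G) :
    ∀ᵐ ω ∂Pm G θ r, Zv G θ σ r (moveO g ω) = moveD g (Zv G θ σ r ω) := by
  have key : ∀ j : Ix V, ∀ᵐ ω ∂Pm G θ r,
      ML G θ σ r (rJ σ (eIdx g j)) (fun S ↦ sg S (g j.2)) (moveD g (vis σ ω)) =
        ML G θ σ r (rJ σ j) (fun S ↦ sg S j.2) (vis σ ω) := fun j ↦
    ML_move hG hp r g (rmeas_rJ σ j) (rmeas_rJ σ _) (rmap_rJ g j) (fun S ↦ (sg_abs S _).le)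
      (fun S ↦ (sg_abs S _).le) (loc_sg j.2) (by rw [map_singleton']; exact loc_sg (g j.2))
      (fun S ↦ sg_map g S j.2)
  filter_upwards [ae_all_iff.2 key] with ω hω
  refine Prod.ext rfl (funext fun i ↦ ?_)
  change Uinf G θ σ r (vis σ (moveO g ω)) i = Uinf G θ σ r (vis σ ω) ((eIdx g).symm i)
  rw [vis_move]
  unfold Uinf
  have h := hω ((eIdx g).symm i)
  simp only [Equiv.apply_symm_apply] at h
  simp only [eIdx_symm_apply, RelIso.apply_symm_apply] at h
  rw [eIdx_symm_apply]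
  simp only at h ⊢
  rw [h]
  rfl

end Vale.Agent.P161.Crit
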