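import Mathlib
import Vale.Agent.P161.Crit.Invariance
import Vale.Agent.P161.Crit.Cut

/-!
Given the data selected by a closed rule, the other innovations are fresh.
-/

namespace Vale.Agent.P161.Crit

open Finset MeasureTheory Filter Topology

variable {V : Type*} [DecidableEq V] {G : SimpleGraph V} {θ : ℝ} {σ : Sch}

/-- The source as a function of the visible data. -/
noncomputable def zof (G : SimpleGraph V) [G.LocallyFinite] (θ : ℝ) (σ : Sch) (r : V)
    (p : Dat V) : Dat V :=
  (p.1, Uinf G θ σ r p)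

/-- Replace the innovations not selected by the rule. -/
noncomputable def spc (R : Rule V) (q : Dat V × (Ix V → ℝ)) : Dat V :=
  (q.1.1, spl {i | R q.1.1 i} q.1.2 q.2)

/-- Average over the innovations not selected by the rule. -/
noncomputable def av (R : Rule V) (h : Dat V → ℝ) (z : Dat V) : ℝ :=
  ∫ u, h (spc R (z, u)) ∂W01 V

omit [DecidableEq V] in
lemma measurable_spc {R : Rule V} (hR : RMeas R) : Measurable (spc R) := by
  classical
  refine (measurable_fst.comp measurable_fst).prodMk (measurable_pi_iff.2 fun i ↦ ?_)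
  simp only [spl, Set.mem_ofPred_eq]
  exact Measurable.ite ((hR i).preimage (measurable_fst.comp measurable_fst)) (by fun_prop)
    (by fun_prop)

omit [DecidableEq V] in
lemma bm_av {R : Rule V} (hR : RMeas R) {h : Dat V → ℝ} (hh : BM h) : BM (av R h) :=
  (hh.comp (measurable_spc hR)).avg (W01 V)

omit [DecidableEq V] in
lemma av_congr (R : Rule V) (h : Dat V → ℝ) {z z' : Dat V} (h1 : z.1 = z'.1)
    (h2 : ∀ i, R z.1 i → z.2 i = z'.2 i) : av R h z = av R h z' := by
  obtain ⟨T, U⟩ := z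
  obtain ⟨T', U'⟩ := z'
  simp only at h1 h2
  subst h1
  unfold av spc
  congr 1
  funext u
  congr 1
  refine Prod.ext rfl (funext fun i ↦ ?_)
  simp only [spl]
  split_ifs with hi
  · exact h2 i hi
  · rfl

omit [DecidableEq V] in
lemma av_spc (R : Rule V) (h : Dat V → ℝ) (z : Dat V) (u : Ix V → ℝ) :
    av R h (spc R (z, u)) = av R h z :=
  av_congr R h rfl fun i hi ↦ by simp [spc, spl] at hi ⊢; simp [hi]

omit [DecidableEq V] in
lemma av_mul_av (R : Rule V) (a b : Dat V → ℝ) (z : Dat V) :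
    av R (fun w ↦ a w * av R b w) z = av R a z * av R b z := by
  conv_lhs => rw [av]
  simp only [av_spc]
  rw [integral_mul_const]
  rfl

variable [G.LocallyFinite]

lemma measurable_zof (r : V) : Measurable (zof G θ σ r) :=
  measurable_fst.prodMk (measurable_Uinf r)

omit [G.LocallyFinite] in
lemma measurable_step2 (n : ℕ) (D : Finset V) : Measurable fun q : Dat V × (Ix V → ℝ) ↦
    step G θ σ n D q.1.1 q.1.2 q.2 := by
  refine measurable_pi_iff.2 fun j ↦ ?_
  have h1 : Measurable fun p : Dat V ↦ mm G θ σ n D p.1 p.2 j :=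
    measurable_pf_past n D (rmeas_rJ σ j) _
  unfold step
  exact measurable_qf.comp ((measurable_const.mul (h1.comp
    ((measurable_fst.comp measurable_fst).prodMk measurable_snd))).prodMk
      ((measurable_pi_apply j).comp (measurable_snd.comp measurable_fst)))

omit [G.LocallyFinite] in
lemma measurable_FF2 (n : ℕ) (D : Finset V) :
    Measurable fun p : Dat V ↦ FF G θ σ n D p.1 p.2 := by
  classical
  have hit : ∀ m : ℕ, Measurable fun p : Dat V ↦ (step G θ σ n D p.1 p.2)^[m] 0 := by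
    intro m
    induction m with
    | zero =>
      exact (measurable_const : Measurable fun _ : Dat V ↦ (0 : Ix V → ℝ))
    | succ m ih =>
      set g : Dat V × (Ix V → ℝ) → Ix V → ℝ := fun q ↦ step G θ σ n D q.1.1 q.1.2 q.2 with hg
      set it : Dat V → Ix V → ℝ := fun p ↦ (step G θ σ n D p.1 p.2)^[m] 0 with hit
      have e : (fun p : Dat V ↦ (step G θ σ n D p.1 p.2)^[m + 1] 0) = fun p ↦ g (p, it p) :=
        funext fun p ↦ Function.iterate_succ_apply' _ _ _
      have hgm : Measurable g := measurable_step2 n D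
      rw [e]
      exact Measurable.comp (g := g) (f := fun p ↦ (p, it p)) hgm (measurable_id.prodMk ih)
  refine measurable_pi_iff.2 fun j ↦ ?_
  set M := (range n ×ˢ D : Finset (Ix V)).card + 1 with hM
  have e : (fun p : Dat V ↦ FF G θ σ n D p.1 p.2 j) =
      fun p : Dat V ↦ ((step G θ σ n D p.1 p.2)^[M] 0) j := by
    funext p
    have hle : (past n D (rJ σ j) p.1).card ≤ (range n ×ˢ D : Finset (Ix V)).card :=
      card_le_card fun i hi ↦ mem_product.2
        ⟨Finset.mem_range.2 (mem_past.1 hi).1, (mem_past.1 hi).2.1⟩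
    exact step_iterate_stable n D p.1 p.2 0 _ j rfl _ M (Nat.lt_succ_self _) (by omega)
  rw [e]
  exact (measurable_pi_apply j).comp (hit M)

/-- Labels, selected observations and innovations as one field. -/
def tri (T y U : Ix V → ℝ) (i : Ix V) : ℝ × ℝ × ℝ := (T i, y i, U i)

omit [DecidableEq V] [G.LocallyFinite] in
lemma measurable_tri {α : Type*} [MeasurableSpace α] {f g h : α → Ix V → ℝ} (hf : Measurable f)
    (hg : Measurable g) (hh : Measurable h) : Measurable fun a ↦ tri (f a) (g a) (h a) :=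
  measurable_pi_iff.2 fun i ↦ ((measurable_pi_apply i).comp hf).prodMk
    (((measurable_pi_apply i).comp hg).prodMk ((measurable_pi_apply i).comp hh))

variable [Countable V]

/-- Given the data selected by a closed rule, the other innovations are fresh. -/
lemma law_spc (hG : G.IsTree) (hp : Par θ) (r : V) {R : Rule V} (hR : RMeas R)
    (hdown : Down σ R) :
    ((Pm G θ r).prod (W01 V)).map (fun x ↦
        tri x.1.2.2 (msk R (vis σ x.1)).2 (Zv G θ σ r x.1).2) =
      ((Pm G θ r).prod (W01 V)).map (fun x ↦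
        tri x.1.2.2 (msk R (vis σ x.1)).2 (spc R (Zv G θ σ r x.1, x.2)).2) := by
  classical
  have := Pm_prob (G := G) hp r
  set μ := (Pm G θ r).prod (W01 V) with hμ
  have hT : Measurable fun x : Om V × (Ix V → ℝ) ↦ x.1.2.2 :=
    (measurable_snd.comp measurable_snd).comp measurable_fst
  have hy : Measurable fun x : Om V × (Ix V → ℝ) ↦ (msk R (vis σ x.1)).2 :=
    measurable_snd.comp ((measurable_msk hR).comp ((measurable_vis σ).comp measurable_fst))
  have hA : Measurable fun x : Om V × (Ix V → ℝ) ↦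
      tri x.1.2.2 (msk R (vis σ x.1)).2 (Zv G θ σ r x.1).2 :=
    measurable_tri hT hy (measurable_snd.comp ((measurable_Zv r).comp measurable_fst))
  have hB : Measurable fun x : Om V × (Ix V → ℝ) ↦
      tri x.1.2.2 (msk R (vis σ x.1)).2 (spc R (Zv G θ σ r x.1, x.2)).2 :=
    measurable_tri hT hy (measurable_snd.comp ((measurable_spc hR).comp
      (((measurable_Zv r).comp measurable_fst).prodMk measurable_snd)))
  refine ext_restrict fun I ↦ ext_of_forall_integral_eq_of_IsFiniteMeasure fun ψ ↦ ?_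
  set Ψ : (Ix V → ℝ × ℝ × ℝ) → ℝ := fun q ↦ ψ (I.restrict q) with hΨ
  have hΨm : Measurable Ψ := ψ.continuous.measurable.comp (measurable_restrict I)
  rw [integral_map (measurable_restrict I).aemeasurable ψ.continuous.aestronglyMeasurable,
    integral_map (measurable_restrict I).aemeasurable ψ.continuous.aestronglyMeasurable,
    integral_map hA.aemeasurable hΨm.aestronglyMeasurable,
    integral_map hB.aemeasurable hΨm.aestronglyMeasurable]
  -- the finite-volume versions
  set Un : ℕ → Om V → Ix V → ℝ := fun n ω ↦ UU G θ σ n (ball G r n) ω.2.2 (Yv σ ω) with hUn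
  have hUnm : ∀ n, Measurable (Un n) := fun n ↦
    Measurable.comp (g := fun p : Dat V ↦ UU G θ σ n (ball G r n) p.1 p.2) (f := vis σ)
      (measurable_UU2 n _) (measurable_vis σ)
  set An : ℕ → Om V × (Ix V → ℝ) → ℝ := fun n x ↦
    Ψ (tri x.1.2.2 (msk R (vis σ x.1)).2 (Un n x.1)) with hAn
  set Bn : ℕ → Om V × (Ix V → ℝ) → ℝ := fun n x ↦
    Ψ (tri x.1.2.2 (msk R (vis σ x.1)).2 (spc R (((x.1.2.2, Un n x.1) : Dat V), x.2)).2) with hBn
  have hAnm : ∀ n, Measurable (An n) := fun n ↦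
    hΨm.comp (measurable_tri hT hy ((hUnm n).comp measurable_fst))
  have hBnm : ∀ n, Measurable (Bn n) := fun n ↦
    hΨm.comp (measurable_tri hT hy (measurable_snd.comp ((measurable_spc hR).comp
      ((hT.prodMk ((hUnm n).comp measurable_fst)).prodMk measurable_snd))))
  have hconv : ∀ᵐ x ∂μ, ∀ j : Ix V,
      Tendsto (fun n ↦ Un n x.1 j) atTop (𝓝 ((Zv G θ σ r x.1).2 j)) :=
    Measure.quasiMeasurePreserving_fst.ae (ae_tendsto_UU (σ := σ) hG hp r)
  have limA : Tendsto (fun n ↦ ∫ x, An n x ∂μ) atTop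
      (𝓝 (∫ x, Ψ (tri x.1.2.2 (msk R (vis σ x.1)).2 (Zv G θ σ r x.1).2) ∂μ)) := by
    refine tendsto_integral_of_dominated_convergence (fun _ ↦ ‖ψ‖)
      (fun n ↦ (hAnm n).aestronglyMeasurable) (integrable_const _)
      (fun n ↦ .of_forall fun x ↦ ψ.norm_coe_le_norm _) ?_
    filter_upwards [hconv] with x hx
    exact (ψ.continuous.tendsto _).comp (tendsto_pi_nhds.2 fun i ↦
      tendsto_const_nhds.prodMk_nhds (tendsto_const_nhds.prodMk_nhds (hx i)))
  have limB : Tendsto (fun n ↦ ∫ x, Bn n x ∂μ) atTop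
      (𝓝 (∫ x, Ψ (tri x.1.2.2 (msk R (vis σ x.1)).2 (spc R (Zv G θ σ r x.1, x.2)).2) ∂μ)) := by
    refine tendsto_integral_of_dominated_convergence (fun _ ↦ ‖ψ‖)
      (fun n ↦ (hBnm n).aestronglyMeasurable) (integrable_const _)
      (fun n ↦ .of_forall fun x ↦ ψ.norm_coe_le_norm _) ?_
    filter_upwards [hconv] with x hx
    refine (ψ.continuous.tendsto _).comp (tendsto_pi_nhds.2 fun i ↦
      tendsto_const_nhds.prodMk_nhds (tendsto_const_nhds.prodMk_nhds ?_))
    simp only [spc, spl, Set.mem_ofPred_eq, Zv]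
    split_ifs
    · exact hx i
    · exact tendsto_const_nhds
  refine tendsto_nhds_unique limA (limB.congr' ?_)
  have hev : ∀ᶠ n in atTop, ∀ i ∈ I, i ∈ win G r n :=
    I.eventually_all.2 fun i _ ↦ mem_win hG r i
  filter_upwards [hev] with n hn
  set D := ball G r n with hD
  set Φ : Dat V → ℝ := fun p ↦
    Ψ (tri p.1 (msk R ((p.1, FF G θ σ n D p.1 p.2) : Dat V)).2 p.2) with hΦ
  have hΦm : Measurable Φ := hΨm.comp (measurable_tri measurable_fst
    (measurable_snd.comp ((measurable_msk hR).comp (measurable_fst.prodMk (measurable_FF2 n D))))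
    measurable_snd)
  have hΦb : BM Φ := ⟨hΦm, ‖ψ‖, fun p ↦ ψ.norm_coe_le_norm _⟩
  set Φ' : Dat V → ℝ := fun p ↦ ∫ u, Φ (spc R (p, u)) ∂W01 V with hΦ'
  have hΦ'b : BM Φ' := (hΦb.comp (measurable_spc hR)).avg (W01 V)
  have hwin : ∀ i : Ix V, i ∈ win G r n ↔ i.1 < n ∧ i.2 ∈ D := fun i ↦ by
    simp [win, hD]
  have hdep : ∀ T, Dep (fun u ↦ Φ (T, u)) (range n ×ˢ D) := by
    intro T u u' h
    simp only [hΦ, hΨ]
    congr 1
    funext i
    have hi : i.1 ∈ (range n ×ˢ D : Finset (Ix V)) := hn i.1 i.2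
    have hF : FF G θ σ n D T u i.1 = FF G θ σ n D T u' i.1 :=
      FF_congr (R := fun _ _ ↦ True) (fun _ _ _ _ _ ↦ trivial)
        (fun k hk ↦ h k (mem_product.2
          ⟨Finset.mem_range.2 (mem_past.1 hk).1, (mem_past.1 hk).2.1⟩)) i.1
        (mem_past.2 ⟨((hwin i.1).1 hi).1, ((hwin i.1).1 hi).2, trivial⟩)
    simp only [Finset.restrict, tri, msk, hF, h i.1 hi]
  have hdep' : ∀ T, Dep (fun u ↦ Φ' (T, u)) (range n ×ˢ D) := by
    intro T u u' h
    simp only [hΦ']
    congr 1
    funext w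
    exact hdep T _ _ fun i hi ↦ by simp [spl, h i hi]
  have hA2 : ∫ x, An n x ∂μ = ∫ T, ∫ u, Φ (T, u) ∂W01 V ∂W01 V := by
    rw [← law_glob (σ := σ) hG hp (r := r) (sub_ball hG r n) hΦb hdep, hμ]
    rw [integral_prod _ ((show BM (An n) from ⟨hAnm n, ‖ψ‖, fun x ↦ ψ.norm_coe_le_norm _⟩).integrable _)]
    congr 1
    funext ω
    simp only [hAn, hΦ, hD, vis]
    rw [funext (FF_UU hp n (ball G r n) ω.2.2 (Yv_abs σ ω))]
    simp [hUn]
  have hB2 : ∫ x, Bn n x ∂μ = ∫ T, ∫ u, Φ (T, u) ∂W01 V ∂W01 V := by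
    have e : ∀ T, ∫ u, Φ' (T, u) ∂W01 V = ∫ u, Φ (T, u) ∂W01 V := fun T ↦
      integral_spl u01 {i | R T i} (bm_section hΦb T)
    rw [← funext e, ← law_glob (σ := σ) hG hp (r := r) (sub_ball hG r n) hΦ'b hdep', hμ]
    rw [integral_prod _ ((show BM (Bn n) from ⟨hBnm n, ‖ψ‖, fun x ↦ ψ.norm_coe_le_norm _⟩).integrable _)]
    congr 1
    funext ω
    simp only [hΦ']
    congr 1
    funext w
    simp only [hBn, hΦ, hΨ]
    congr 1
    funext i
    have hi := (hwin i.1).1 (hn i.1 i.2)
    refine Prod.ext rfl (Prod.ext ?_ rfl)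
    change (if R ω.2.2 i.1 then Yv σ ω i.1 else 0) =
      if R ω.2.2 i.1 then FF G θ σ n D ω.2.2 (spl {i | R ω.2.2 i} (Un n ω) w) i.1 else 0
    by_cases hRi : R ω.2.2 i.1
    · have hF : FF G θ σ n D ω.2.2 (spl {i | R ω.2.2 i} (Un n ω) w) i.1 =
          FF G θ σ n D ω.2.2 (Un n ω) i.1 :=
        FF_congr hdown (fun k hk ↦ by simp [spl, (mem_past.1 hk).2.2]) i.1
          (mem_past.2 ⟨hi.1, hi.2, hRi⟩)
      simp only [if_pos hRi]
      rw [hF]
      exact (FF_UU hp n D ω.2.2 (Yv_abs σ ω) i.1).symm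
    · simp only [if_neg hRi]
  rw [hA2, hB2]

/-- A quantity read from the selected data sees only the selected innovations. -/
lemma integral_msk_av (hG : G.IsTree) (hp : Par θ) (r : V) {R : Rule V} (hR : RMeas R)
    (hdown : Down σ R) {φ h : Dat V → ℝ} (hφ : BM φ) (hh : BM h)
    (hφR : ∀ p, φ (msk R p) = φ p) :
    ∫ ω, φ (vis σ ω) * h (Zv G θ σ r ω) ∂Pm G θ r =
      ∫ ω, φ (vis σ ω) * av R h (Zv G θ σ r ω) ∂Pm G θ r := by
  have := Pm_prob (G := G) hp r
  set Φ : (Ix V → ℝ × ℝ × ℝ) → ℝ := fun x ↦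
    φ (fun i ↦ (x i).1, fun i ↦ (x i).2.1) * h (fun i ↦ (x i).1, fun i ↦ (x i).2.2) with hΦ
  have hm : ∀ f : ℝ × ℝ × ℝ → ℝ, Measurable f →
      Measurable fun (x : Ix V → ℝ × ℝ × ℝ) (i : Ix V) ↦ f (x i) := fun f hf ↦
    measurable_pi_iff.2 fun i ↦ hf.comp (measurable_pi_apply i)
  have hΦb : BM Φ :=
    (hφ.comp ((hm _ measurable_fst).prodMk (hm _ (measurable_fst.comp measurable_snd)))).mul
      (hh.comp ((hm _ measurable_fst).prodMk (hm _ (measurable_snd.comp measurable_snd))))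
  have hZ := measurable_Zv (G := G) (θ := θ) (σ := σ) r
  have hv := measurable_vis (V := V) σ
  have hmy : Measurable fun x : Om V × (Ix V → ℝ) ↦ (msk R (vis σ x.1)).2 :=
    measurable_snd.comp ((measurable_msk hR).comp (hv.comp measurable_fst))
  have hT : Measurable fun x : Om V × (Ix V → ℝ) ↦ x.1.2.2 :=
    (measurable_snd.comp measurable_snd).comp measurable_fst
  have hA : BM fun x : Om V × (Ix V → ℝ) ↦ φ (vis σ x.1) * h (Zv G θ σ r x.1) :=
    (hφ.comp (hv.comp measurable_fst)).mul (hh.comp (hZ.comp measurable_fst))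
  have hB : BM fun x : Om V × (Ix V → ℝ) ↦ φ (vis σ x.1) * h (spc R (Zv G θ σ r x.1, x.2)) :=
    (hφ.comp (hv.comp measurable_fst)).mul
      (hh.comp ((measurable_spc hR).comp ((hZ.comp measurable_fst).prodMk measurable_snd)))
  have key := congrArg (fun m ↦ ∫ x, Φ x ∂m) (law_spc (σ := σ) hG hp r hR hdown)
  have hm1 : Measurable fun x : Om V × (Ix V → ℝ) ↦
      tri x.1.2.2 (msk R (vis σ x.1)).2 (Zv G θ σ r x.1).2 :=
    measurable_tri hT hmy (measurable_snd.comp (hZ.comp measurable_fst))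
  have hm2 : Measurable fun x : Om V × (Ix V → ℝ) ↦
      tri x.1.2.2 (msk R (vis σ x.1)).2 (spc R (Zv G θ σ r x.1, x.2)).2 :=
    measurable_tri hT hmy (measurable_snd.comp ((measurable_spc hR).comp
      ((hZ.comp measurable_fst).prodMk measurable_snd)))
  rw [integral_map hm1.aemeasurable hΦb.1.aestronglyMeasurable,
    integral_map hm2.aemeasurable hΦb.1.aestronglyMeasurable] at key
  have e : ∀ (ω : Om V) (U : Ix V → ℝ),
      Φ (tri ω.2.2 (msk R (vis σ ω)).2 U) = φ (vis σ ω) * h (ω.2.2, U) := by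
    intro ω U
    simp only [hΦ, tri]
    rw [← hφR (vis σ ω)]
    rfl
  simp only [e] at key
  have key' : ∫ ω, ∫ _u, φ (vis σ ω) * h (Zv G θ σ r ω) ∂W01 V ∂Pm G θ r =
      ∫ ω, ∫ u, φ (vis σ ω) * h (spc R (Zv G θ σ r ω, u)) ∂W01 V ∂Pm G θ r := by
    rw [← integral_prod _ (hA.integrable _), ← integral_prod _ (hB.integrable _)]
    exact key
  simp only [integral_const_mul, integral_const, probReal_univ, one_smul] at key'
  exact key'

end Vale.Agent.P161.Crit
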