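import Mathlib
import Vale.Agent.P161.Crit.Splice

/-!
Two copies of the visible data, independent given the source.
-/

namespace Vale.Agent.P161.Crit

open Finset MeasureTheory Filter ProbabilityTheory

variable {V : Type*} [DecidableEq V] [Countable V] {G : SimpleGraph V} [G.LocallyFinite] {θ : ℝ}
  {σ : Sch}

/-- The law of the visible data given the source. -/
noncomputable def kap (G : SimpleGraph V) [G.LocallyFinite] (σ : Sch) (hp : Par θ) (r : V) :
    ProbabilityTheory.Kernel (Dat V) (Dat V) :=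
  haveI := Pm_prob (G := G) hp r
  condDistrib (vis σ) (Zv G θ σ r) (Pm G θ r)

/-- Two conditionally independent copies of the visible data given the source. -/
noncomputable def P2 (G : SimpleGraph V) [G.LocallyFinite] (σ : Sch) (hp : Par θ) (r : V) :
    Measure (Dat V × Dat V) :=
  (((Pm G θ r).map (Zv G θ σ r)) ⊗ₘ (kap G σ hp r ×ₖ kap G σ hp r)).map Prod.snd

instance kap_markov (hp : Par θ) (r : V) : IsMarkovKernel (kap G σ hp r) := by
  unfold kap
  infer_instance

/-- The mean of a function of the visible data given the source. -/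
noncomputable def Kz (G : SimpleGraph V) [G.LocallyFinite] (σ : Sch) (hp : Par θ) (r : V)
    (φ : Dat V → ℝ) (z : Dat V) : ℝ :=
  ∫ p, φ p ∂kap G σ hp r z

lemma bm_Kz (hp : Par θ) (r : V) {φ : Dat V → ℝ} (hφ : BM φ) : BM (Kz G σ hp r φ) := by
  obtain ⟨hm, C, hC⟩ := hφ
  refine ⟨hm.stronglyMeasurable.integral_kernel.measurable, C, fun z ↦ ?_⟩
  have := norm_integral_le_of_norm_le_const (μ := kap G σ hp r z) (C := C) (f := φ)
    (.of_forall fun p ↦ hC p)
  simpa [Kz, Real.norm_eq_abs] using this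

omit [DecidableEq V] [Countable V] in
/-- Two bounded functions with the same integrals against bounded tests agree almost surely. -/
lemma ae_eq_of_test {μ : Measure (Dat V)} [IsFiniteMeasure μ] {a b : Dat V → ℝ} (ha : BM a)
    (hb : BM b) (h : ∀ t : Dat V → ℝ, BM t → ∫ z, t z * a z ∂μ = ∫ z, t z * b z ∂μ) :
    a =ᵐ[μ] b := by
  have hd := ha.sub hb
  have h1 := h _ hd
  have h0 : ∫ z, (a z - b z) * (a z - b z) ∂μ = 0 := by
    simp only [mul_sub (_ - _)]
    rw [integral_sub ((hd.mul ha).integrable μ) ((hd.mul hb).integrable μ), h1, sub_self]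
  have := (integral_eq_zero_iff_of_nonneg (f := fun z ↦ (a z - b z) * (a z - b z))
    (fun z ↦ mul_self_nonneg _) ((hd.mul hd).integrable μ)).1 h0
  filter_upwards [this] with z hz
  simp only [Pi.zero_apply, mul_self_eq_zero, sub_eq_zero] at hz
  exact hz

lemma compProd_kap (hp : Par θ) (r : V) :
    ((Pm G θ r).map (Zv G θ σ r)) ⊗ₘ kap G σ hp r =
      (Pm G θ r).map fun ω ↦ (Zv G θ σ r ω, vis σ ω) := by
  have := Pm_prob (G := G) hp r
  exact compProd_map_condDistrib (measurable_vis σ).aemeasurable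

/-- The defining property of the conditional mean. -/
lemma integral_Kz (hp : Par θ) (r : V) {t φ : Dat V → ℝ} (ht : BM t) (hφ : BM φ) :
    ∫ ω, t (Zv G θ σ r ω) * φ (vis σ ω) ∂Pm G θ r =
      ∫ z, t z * Kz G σ hp r φ z ∂(Pm G θ r).map (Zv G θ σ r) := by
  have := Pm_prob (G := G) hp r
  have hF : BM fun x : Dat V × Dat V ↦ t x.1 * φ x.2 :=
    (ht.comp measurable_fst).mul (hφ.comp measurable_snd)
  have hm : Measurable fun ω : Om V ↦ (Zv G θ σ r ω, vis σ ω) :=
    (measurable_Zv r).prodMk (measurable_vis σ)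
  have h := Measure.integral_compProd (μ := (Pm G θ r).map (Zv G θ σ r)) (κ := kap G σ hp r)
    (hF.integrable _)
  rw [compProd_kap hp r, integral_map hm.aemeasurable hF.1.aestronglyMeasurable] at h
  rw [h]
  simp only [integral_const_mul, Kz]

lemma integral_P2 (hp : Par θ) (r : V) {F : Dat V × Dat V → ℝ} (hF : BM F) :
    ∫ q, F q ∂P2 G σ hp r =
      ∫ z, ∫ p, ∫ p', F (p, p') ∂kap G σ hp r z ∂kap G σ hp r z
        ∂(Pm G θ r).map (Zv G θ σ r) := by
  have := Pm_prob (G := G) hp r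
  rw [P2, integral_map measurable_snd.aemeasurable hF.1.aestronglyMeasurable,
    Measure.integral_compProd ((hF.comp measurable_snd).integrable _)]
  refine integral_congr_ae (.of_forall fun z ↦ ?_)
  simp only [Kernel.prod_apply]
  exact integral_prod _ (hF.integrable _)

variable (hG : G.IsTree) (hp : Par θ) (r : V)
include hG hp

lemma P2_prob : IsProbabilityMeasure (P2 G σ hp r) := by
  have := Pm_prob (G := G) hp r
  have : IsProbabilityMeasure ((Pm G θ r).map (Zv G θ σ r)) :=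
    Measure.isProbabilityMeasure_map (measurable_Zv r).aemeasurable
  exact Measure.isProbabilityMeasure_map measurable_snd.aemeasurable

lemma integral_P2_prod {φ ψ : Dat V → ℝ} (hφ : BM φ) (hψ : BM ψ) :
    ∫ q, φ q.1 * ψ q.2 ∂P2 G σ hp r =
      ∫ z, (∫ p, φ p ∂kap G σ hp r z) * ∫ p, ψ p ∂kap G σ hp r z
        ∂(Pm G θ r).map (Zv G θ σ r) := by
  rw [integral_P2 hp r ((hφ.comp measurable_fst).mul (hψ.comp measurable_snd))]
  simp only [integral_const_mul, integral_mul_const]

lemma integral_P2_fst {φ : Dat V → ℝ} (hφ : BM φ) :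
    ∫ q, φ q.1 ∂P2 G σ hp r = ∫ ω, φ (vis σ ω) ∂Pm G θ r := by
  have h := integral_P2_prod (G := G) (σ := σ) hG hp r hφ (BM.const 1)
  simp only [mul_one, integral_const, probReal_univ, one_smul] at h
  have h2 := integral_Kz (G := G) (σ := σ) hp r (BM.const 1) hφ
  simp only [one_mul] at h2
  rw [h, h2]
  rfl

lemma P2_fst : (P2 G σ hp r).map Prod.fst = (Pm G θ r).map (vis σ) := by
  have := Pm_prob (G := G) hp r
  have := P2_prob (σ := σ) (G := G) hG hp r
  refine Measure.ext fun A hA ↦ (measureReal_eq_measureReal_iff (by finiteness) (by finiteness)).1 ?_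
  have hb : BM (A.indicator fun _ ↦ (1:ℝ)) := ⟨measurable_const.indicator hA, 1, fun p ↦ by
    by_cases h : p ∈ A <;> simp [h]⟩
  have h1 := integral_map (μ := P2 G σ hp r) measurable_fst.aemeasurable
    hb.1.aestronglyMeasurable
  have h2 := integral_map (μ := Pm G θ r) (measurable_vis σ).aemeasurable hb.1.aestronglyMeasurable
  rw [integral_P2_fst hG hp r hb, ← h2] at h1
  simpa only [integral_indicator_const _ hA, smul_eq_mul, mul_one] using h1

lemma P2_swap : (P2 G σ hp r).map Prod.swap = P2 G σ hp r := by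
  have := P2_prob (σ := σ) (G := G) hG hp r
  have : IsFiniteMeasure ((P2 G σ hp r).map Prod.swap) := Measure.isFiniteMeasure_map _ _
  refine Measure.ext_prod fun {A B} hA hB ↦
    (measureReal_eq_measureReal_iff (by finiteness) (by finiteness)).1 ?_
  have hb : ∀ {A : Set (Dat V)}, MeasurableSet A → BM (A.indicator fun _ ↦ (1:ℝ)) := fun {A} hA ↦
    ⟨measurable_const.indicator hA, 1, fun p ↦ by by_cases h : p ∈ A <;> simp [h]⟩
  have e : ∀ q : Dat V × Dat V, (A ×ˢ B).indicator (fun _ ↦ (1:ℝ)) q =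
      A.indicator (fun _ ↦ (1:ℝ)) q.1 * B.indicator (fun _ ↦ (1:ℝ)) q.2 := fun q ↦ by
    by_cases h1 : q.1 ∈ A <;> by_cases h2 : q.2 ∈ B <;> simp [Set.indicator, h1, h2]
  rw [measureReal_def, Measure.map_apply measurable_swap (hA.prod hB), ← measureReal_def,
    Set.preimage_swap_prod]
  have e' : ∀ q : Dat V × Dat V, (B ×ˢ A).indicator (fun _ ↦ (1:ℝ)) q =
      B.indicator (fun _ ↦ (1:ℝ)) q.1 * A.indicator (fun _ ↦ (1:ℝ)) q.2 := fun q ↦ by
    by_cases h1 : q.1 ∈ B <;> by_cases h2 : q.2 ∈ A <;> simp [Set.indicator, h1, h2]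
  have i1 : ∫ q, (B ×ˢ A).indicator (fun _ ↦ (1:ℝ)) q ∂P2 G σ hp r =
      ∫ q, (A ×ˢ B).indicator (fun _ ↦ (1:ℝ)) q ∂P2 G σ hp r := by
    simp only [e, e', integral_P2_prod hG hp r (hb hA) (hb hB), integral_P2_prod hG hp r (hb hB) (hb hA)]
    simp only [mul_comm]
  simpa only [integral_indicator_const _ (hA.prod hB), integral_indicator_const _ (hB.prod hA),
    smul_eq_mul, mul_one] using i1

lemma Kz_zof {t φ : Dat V → ℝ} (ht : BM t) (hφ : BM φ) :
    Kz G σ hp r (fun p ↦ t (zof G θ σ r p) * φ p) =ᵐ[(Pm G θ r).map (Zv G θ σ r)]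
      fun z ↦ t z * Kz G σ hp r φ z := by
  have := Pm_prob (G := G) hp r
  have hb : BM fun p ↦ t (zof G θ σ r p) * φ p := (ht.comp (measurable_zof r)).mul hφ
  refine ae_eq_of_test (bm_Kz hp r hb) (ht.mul (bm_Kz hp r hφ)) fun s hs ↦ ?_
  rw [← integral_Kz hp r hs hb]
  simp only [← mul_assoc]
  rw [← integral_Kz hp r (hs.mul ht) hφ]
  rfl

lemma Kz_of_zof {t : Dat V → ℝ} (ht : BM t) :
    Kz G σ hp r (fun p ↦ t (zof G θ σ r p)) =ᵐ[(Pm G θ r).map (Zv G θ σ r)] t := by
  have h := Kz_zof (G := G) (σ := σ) hG hp r ht (BM.const (1:ℝ))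
  simpa [Kz] using h

/-- The two copies share labels and innovations. -/
lemma P2_same : ∀ᵐ q ∂P2 G σ hp r, q.1.1 = q.2.1 ∧
    ∀ j, Uinf G θ σ r q.1 j = Uinf G θ σ r q.2 j := by
  have := Pm_prob (G := G) hp r
  have := P2_prob (σ := σ) (G := G) hG hp r
  have key : ∀ f : Dat V → ℝ, Measurable f →
      ∀ᵐ q ∂P2 G σ hp r, f (zof G θ σ r q.1) = f (zof G θ σ r q.2) := by
    intro f hf
    set t : Dat V → ℝ := fun z ↦ Real.arctan (f z) with ht
    have htb : BM t := ⟨Real.measurable_arctan.comp hf, Real.pi / 2, fun z ↦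
      abs_le.2 ⟨(Real.neg_pi_div_two_lt_arctan _).le, (Real.arctan_lt_pi_div_two _).le⟩⟩
    set a : Dat V → ℝ := fun p ↦ t (zof G θ σ r p) with ha
    have hab : BM a := htb.comp (measurable_zof r)
    have hK := Kz_of_zof (G := G) (σ := σ) hG hp r htb
    have hb1 : BM fun q : Dat V × Dat V ↦ a q.1 := hab.comp measurable_fst
    have hb2 : BM fun q : Dat V × Dat V ↦ a q.2 := hab.comp measurable_snd
    have i12 : ∫ q, a q.1 * a q.2 ∂P2 G σ hp r =
        ∫ z, t z * t z ∂(Pm G θ r).map (Zv G θ σ r) := by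
      rw [integral_P2_prod hG hp r hab hab]
      refine integral_congr_ae ?_
      filter_upwards [hK] with z hz
      change Kz G σ hp r a z * Kz G σ hp r a z = _
      rw [hz]
    have i11 : ∫ q, a q.1 * a q.1 ∂P2 G σ hp r =
        ∫ z, t z * t z ∂(Pm G θ r).map (Zv G θ σ r) := by
      rw [integral_P2_fst hG hp r (hab.mul hab), integral_map (measurable_Zv r).aemeasurable
        (htb.mul htb).1.aestronglyMeasurable]
      rfl
    have i22 : ∫ q, a q.2 * a q.2 ∂P2 G σ hp r = ∫ q, a q.1 * a q.1 ∂P2 G σ hp r := by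
      conv_lhs => rw [← P2_swap hG hp r,
        integral_map measurable_swap.aemeasurable (hb2.mul hb2).1.aestronglyMeasurable]
      rfl
    have h0 : ∫ q, (a q.1 - a q.2) * (a q.1 - a q.2) ∂P2 G σ hp r = 0 := by
      have e : ∀ q : Dat V × Dat V, (a q.1 - a q.2) * (a q.1 - a q.2) =
          (a q.1 * a q.1 + a q.2 * a q.2) - 2 * (a q.1 * a q.2) := fun q ↦ by ring
      simp only [e]
      rw [integral_sub (((hb1.mul hb1).add (hb2.mul hb2)).integrable _)
          (((hb1.mul hb2).integrable _).const_mul 2),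
        integral_add ((hb1.mul hb1).integrable _) ((hb2.mul hb2).integrable _),
        integral_const_mul, i22, i11, i12]
      ring
    filter_upwards [(integral_eq_zero_iff_of_nonneg
      (f := fun q : Dat V × Dat V ↦ (a q.1 - a q.2) * (a q.1 - a q.2)) (fun q ↦ mul_self_nonneg _)
      (((hb1.sub hb2).mul (hb1.sub hb2)).integrable _)).1 h0] with q hq
    simp only [Pi.zero_apply, mul_self_eq_zero, sub_eq_zero] at hq
    exact Real.arctan_injective hq
  have h1 := ae_all_iff.2 fun i : Ix V ↦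
    key (fun z ↦ z.1 i) ((measurable_pi_apply i).comp measurable_fst)
  have h2 := ae_all_iff.2 fun i : Ix V ↦
    key (fun z ↦ z.2 i) ((measurable_pi_apply i).comp measurable_snd)
  filter_upwards [h1, h2] with q hq1 hq2
  exact ⟨funext hq1, hq2⟩

lemma map_moveD_nu (g : G ≃g G) :
    ((Pm G θ r).map (Zv G θ σ r)).map (moveD g) = (Pm G θ r).map (Zv G θ σ r) := by
  rw [Measure.map_map (measurable_moveD g) (measurable_Zv r)]
  conv_rhs => rw [← (Pm_invariant hG hp r g).map_eq,
    Measure.map_map (measurable_Zv r) (Pm_invariant hG hp r g).measurable]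
  refine Measure.map_congr ?_
  filter_upwards [Zv_move (σ := σ) hG hp r g] with ω hω
  exact hω.symm

lemma Kz_move (g : G ≃g G) {φ : Dat V → ℝ} (hφ : BM φ) :
    Kz G σ hp r (fun p ↦ φ (moveD g p)) =ᵐ[(Pm G θ r).map (Zv G θ σ r)]
      fun z ↦ Kz G σ hp r φ (moveD g z) := by
  have := Pm_prob (G := G) hp r
  have hg := measurable_moveD g
  have hg' := measurable_moveD g.symm
  refine ae_eq_of_test (bm_Kz hp r (hφ.comp hg)) ((bm_Kz hp r hφ).comp hg) fun t ht ↦ ?_
  rw [← integral_Kz hp r ht (hφ.comp hg)]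
  have hinv : ∀ z : Dat V, moveD g.symm (moveD g z) = z := fun z ↦ by
    refine Prod.ext (funext fun i ↦ ?_) (funext fun i ↦ ?_) <;> simp [moveD]
  have hmp := Pm_invariant hG hp r g
  have step1 : ∫ ω, t (Zv G θ σ r ω) * φ (moveD g (vis σ ω)) ∂Pm G θ r =
      ∫ ω, t (moveD g.symm (Zv G θ σ r ω)) * φ (vis σ ω) ∂Pm G θ r := by
    conv_rhs => rw [← hmp.map_eq]
    have hb : BM fun ω : Om V ↦ t (moveD g.symm (Zv G θ σ r ω)) * φ (vis σ ω) :=
      (ht.comp (hg'.comp (measurable_Zv r))).mul (hφ.comp (measurable_vis σ))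
    rw [integral_map hmp.measurable.aemeasurable hb.1.aestronglyMeasurable]
    refine integral_congr_ae ?_
    filter_upwards [Zv_move (σ := σ) hG hp r g] with ω hω
    simp only [hω, hinv, vis_move]
  rw [step1, integral_Kz hp r (ht.comp hg') hφ]
  conv_lhs => rw [← map_moveD_nu (σ := σ) hG hp r g]
  rw [integral_map hg.aemeasurable
    ((ht.comp hg').mul (bm_Kz hp r hφ)).1.aestronglyMeasurable]
  simp only [hinv]

lemma P2_move (g : G ≃g G) :
    (P2 G σ hp r).map (Prod.map (moveD g) (moveD g)) = P2 G σ hp r := by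
  have := P2_prob (σ := σ) (G := G) hG hp r
  have hg := measurable_moveD g
  have hgg : Measurable (Prod.map (moveD g) (moveD g)) := hg.prodMap hg
  have : IsFiniteMeasure ((P2 G σ hp r).map (Prod.map (moveD g) (moveD g))) :=
    Measure.isFiniteMeasure_map _ _
  refine Measure.ext_prod fun {A B} hA hB ↦
    (measureReal_eq_measureReal_iff (by finiteness) (by finiteness)).1 ?_
  have hb : ∀ {A : Set (Dat V)}, MeasurableSet A → BM (A.indicator fun _ ↦ (1:ℝ)) := fun {A} hA ↦
    ⟨measurable_const.indicator hA, 1, fun p ↦ by by_cases h : p ∈ A <;> simp [h]⟩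
  have hAB : BM fun q : Dat V × Dat V ↦
      A.indicator (fun _ ↦ (1:ℝ)) q.1 * B.indicator (fun _ ↦ (1:ℝ)) q.2 :=
    ((hb hA).comp measurable_fst).mul ((hb hB).comp measurable_snd)
  have e : ∀ q : Dat V × Dat V, (A ×ˢ B).indicator (fun _ ↦ (1:ℝ)) q =
      A.indicator (fun _ ↦ (1:ℝ)) q.1 * B.indicator (fun _ ↦ (1:ℝ)) q.2 := fun q ↦ by
    by_cases h1 : q.1 ∈ A <;> by_cases h2 : q.2 ∈ B <;> simp [Set.indicator, h1, h2]
  have i1 : ∫ q, (A ×ˢ B).indicator (fun _ ↦ (1:ℝ)) q
        ∂(P2 G σ hp r).map (Prod.map (moveD g) (moveD g)) =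
      ∫ q, (A ×ˢ B).indicator (fun _ ↦ (1:ℝ)) q ∂P2 G σ hp r := by
    simp only [e]
    rw [integral_map hgg.aemeasurable hAB.1.aestronglyMeasurable]
    simp only [Prod.map_fst, Prod.map_snd]
    rw [integral_P2_prod hG hp r ((hb hA).comp hg) ((hb hB).comp hg),
      integral_P2_prod hG hp r (hb hA) (hb hB)]
    conv_rhs => rw [← map_moveD_nu (σ := σ) hG hp r g]
    rw [integral_map hg.aemeasurable]
    · refine integral_congr_ae ?_
      filter_upwards [Kz_move (σ := σ) hG hp r g (hb hA), Kz_move (σ := σ) hG hp r g (hb hB)]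
        with z h1 h2
      simp only [Kz] at h1 h2
      rw [h1, h2]
    · exact ((bm_Kz hp r (hb hA)).mul (bm_Kz hp r (hb hB))).1.aestronglyMeasurable
  simpa only [integral_indicator_const _ (hA.prod hB), smul_eq_mul, mul_one] using i1

lemma integral_av {R : Rule V} (hR : RMeas R) (hdown : Down σ R) {h : Dat V → ℝ} (hh : BM h) :
    ∫ z, h z ∂(Pm G θ r).map (Zv G θ σ r) = ∫ z, av R h z ∂(Pm G θ r).map (Zv G θ σ r) := by
  have h1 := integral_msk_av (σ := σ) hG hp r hR hdown (BM.const 1) hh (fun _ ↦ rfl)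
  simp only [one_mul] at h1
  rw [integral_map (measurable_Zv r).aemeasurable hh.1.aestronglyMeasurable,
    integral_map (measurable_Zv r).aemeasurable (bm_av hR hh).1.aestronglyMeasurable, h1]

/-- The conditional mean of the selected data sees only the selected innovations. -/
lemma Kz_av {R : Rule V} (hR : RMeas R) (hdown : Down σ R) {φ : Dat V → ℝ} (hφ : BM φ)
    (hφR : ∀ p, φ (msk R p) = φ p) :
    Kz G σ hp r φ =ᵐ[(Pm G θ r).map (Zv G θ σ r)] av R (Kz G σ hp r φ) := by
  have := Pm_prob (G := G) hp r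
  set k := Kz G σ hp r φ with hk
  have hkb : BM k := bm_Kz hp r hφ
  refine ae_eq_of_test hkb (bm_av hR hkb) fun t ht ↦ ?_
  have hat := bm_av hR ht
  have hak := bm_av hR hkb
  calc ∫ z, t z * k z ∂(Pm G θ r).map (Zv G θ σ r)
      = ∫ ω, φ (vis σ ω) * t (Zv G θ σ r ω) ∂Pm G θ r := by
        rw [← integral_Kz hp r ht hφ]
        simp only [mul_comm]
    _ = ∫ ω, φ (vis σ ω) * av R t (Zv G θ σ r ω) ∂Pm G θ r :=
        integral_msk_av hG hp r hR hdown hφ ht hφR
    _ = ∫ z, av R t z * k z ∂(Pm G θ r).map (Zv G θ σ r) := by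
        rw [← integral_Kz hp r hat hφ]
        simp only [mul_comm]
    _ = ∫ z, k z * av R t z ∂(Pm G θ r).map (Zv G θ σ r) := by simp only [mul_comm]
    _ = ∫ z, av R (fun w ↦ k w * av R t w) z ∂(Pm G θ r).map (Zv G θ σ r) :=
        integral_av hG hp r hR hdown (hkb.mul hat)
    _ = ∫ z, av R (fun w ↦ t w * av R k w) z ∂(Pm G θ r).map (Zv G θ σ r) := by
        simp only [av_mul_av, mul_comm]
    _ = _ := (integral_av hG hp r hR hdown (ht.mul hak)).symm

/-- A quantity centred given the data selected by a closed rule stays centred given both copies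
of those data. -/
lemma immersion {R : Rule V} (hR : RMeas R) (hdown : Down σ R) {φ φ' X : Dat V → ℝ} (hφ : BM φ)
    (hφ' : BM φ') (hX : BM X) (hφR : ∀ p, φ (msk R p) = φ p) (hφ'R : ∀ p, φ' (msk R p) = φ' p)
    (hcent : ∀ ψ : Dat V → ℝ, BM ψ →
      ∫ ω, ψ (msk R (vis σ ω)) * X (vis σ ω) ∂Pm G θ r = 0) :
    ∫ q, φ q.1 * φ' q.2 * X q.1 ∂P2 G σ hp r = 0 := by
  have := Pm_prob (G := G) hp r
  set a := av R (Kz G σ hp r φ') with ha
  have hab : BM a := bm_av hR (bm_Kz hp r hφ')
  have haR : ∀ p : Dat V, a (zof G θ σ r (msk R p)) = a (zof G θ σ r p) := by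
    intro p
    refine av_congr R _ rfl fun i hi ↦ ?_
    replace hi : R p.1 i := hi
    change Uinf G θ σ r (msk R p) i = Uinf G θ σ r p i
    simp only [Uinf]
    rw [ML_msk r (rJ σ i) _ fun k hk ↦ hdown p.1 k i hi hk]
    simp only [msk, if_pos hi]
  have e : ∀ q : Dat V × Dat V, φ q.1 * φ' q.2 * X q.1 = (φ q.1 * X q.1) * φ' q.2 := fun q ↦ by
    ring
  simp only [e]
  rw [integral_P2_prod hG hp r (hφ.mul hX) hφ']
  calc ∫ z, (∫ p, φ p * X p ∂kap G σ hp r z) * ∫ p, φ' p ∂kap G σ hp r z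
        ∂(Pm G θ r).map (Zv G θ σ r)
      = ∫ z, a z * Kz G σ hp r (fun p ↦ φ p * X p) z ∂(Pm G θ r).map (Zv G θ σ r) := by
        refine integral_congr_ae ?_
        filter_upwards [Kz_av (σ := σ) hG hp r hR hdown hφ' hφ'R] with z hz
        simp only [ha, ← hz, Kz]
        ring
    _ = ∫ ω, a (Zv G θ σ r ω) * (φ (vis σ ω) * X (vis σ ω)) ∂Pm G θ r :=
        (integral_Kz hp r hab (hφ.mul hX)).symm
    _ = ∫ ω, (fun p ↦ a (zof G θ σ r p) * φ p) (msk R (vis σ ω)) * X (vis σ ω) ∂Pm G θ r := by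
        simp only [haR, hφR]
        simp only [mul_assoc]
        rfl
    _ = 0 := hcent _ ((hab.comp (measurable_zof r)).mul hφ)

/-- Equal observations in both copies are functions of the source. -/
lemma decode (j : Ix V) (h : ∀ᵐ q ∂P2 G σ hp r, q.1.2 j = q.2.2 j) :
    ∃ f : Dat V → ℝ, Measurable f ∧
      ∀ᵐ ω ∂Pm G θ r, Yv σ ω j = f (Zv G θ σ r ω) := by
  have := Pm_prob (G := G) hp r
  set y : Dat V → ℝ := fun p ↦ c11 (p.2 j) with hy
  have hyb : BM y := ⟨measurable_c11.comp ((measurable_pi_apply j).comp measurable_snd), 1,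
    fun p ↦ c11_abs _⟩
  set k := Kz G σ hp r y with hk
  have hkb : BM k := bm_Kz hp r hyb
  refine ⟨k, hkb.1, ?_⟩
  have i1 : ∫ z, k z * k z ∂(Pm G θ r).map (Zv G θ σ r) =
      ∫ ω, y (vis σ ω) * y (vis σ ω) ∂Pm G θ r := by
    rw [← integral_P2_fst hG hp r (hyb.mul hyb)]
    refine (integral_P2_prod hG hp r hyb hyb).symm.trans (integral_congr_ae ?_)
    filter_upwards [h] with q hq
    simp only [hy, hq]
  have i2 : ∫ ω, k (Zv G θ σ r ω) * y (vis σ ω) ∂Pm G θ r =
      ∫ z, k z * k z ∂(Pm G θ r).map (Zv G θ σ r) := integral_Kz hp r hkb hyb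
  have i3 : ∫ ω, k (Zv G θ σ r ω) * k (Zv G θ σ r ω) ∂Pm G θ r =
      ∫ z, k z * k z ∂(Pm G θ r).map (Zv G θ σ r) :=
    (integral_map (measurable_Zv r).aemeasurable (hkb.mul hkb).1.aestronglyMeasurable).symm
  have bY : BM fun ω : Om V ↦ y (vis σ ω) := hyb.comp (measurable_vis σ)
  have bK : BM fun ω : Om V ↦ k (Zv G θ σ r ω) := hkb.comp (measurable_Zv r)
  have h0 : ∫ ω, (y (vis σ ω) - k (Zv G θ σ r ω)) * (y (vis σ ω) - k (Zv G θ σ r ω))
      ∂Pm G θ r = 0 := by
    have e : ∀ ω : Om V, (y (vis σ ω) - k (Zv G θ σ r ω)) * (y (vis σ ω) - k (Zv G θ σ r ω)) =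
        (y (vis σ ω) * y (vis σ ω) + k (Zv G θ σ r ω) * k (Zv G θ σ r ω)) -
          2 * (k (Zv G θ σ r ω) * y (vis σ ω)) := fun ω ↦ by ring
    simp only [e]
    rw [integral_sub (((bY.mul bY).add (bK.mul bK)).integrable _)
        (((bK.mul bY).integrable _).const_mul 2),
      integral_add ((bY.mul bY).integrable _) ((bK.mul bK).integrable _),
      integral_const_mul, i2, i3, i1]
    ring
  filter_upwards [(integral_eq_zero_iff_of_nonneg
    (f := fun ω : Om V ↦ (y (vis σ ω) - k (Zv G θ σ r ω)) * (y (vis σ ω) - k (Zv G θ σ r ω)))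
    (fun ω ↦ mul_self_nonneg _) (((bY.sub bK).mul (bY.sub bK)).integrable _)).1 h0] with ω hω
  simp only [Pi.zero_apply, mul_self_eq_zero, sub_eq_zero] at hω
  rw [← hω]
  exact (c11_of_mem (Yv_abs σ ω j)).symm

/-- A function of what is revealed strictly before `τ`, labels included. -/
def Strict (σ : Sch) (τ : ℝ) (φ : Dat V → ℝ) : Prop :=
  ∀ p p' : Dat V, (∀ i, rT σ τ p.1 i ↔ rT σ τ p'.1 i) →
    (∀ i, rT σ τ p.1 i → p.1 i = p'.1 i ∧ p.2 i = p'.2 i) → φ p = φ p'

/-- The same for a pair of copies. -/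
def Strict2 (σ : Sch) (τ : ℝ) (F : Dat V × Dat V → ℝ) : Prop :=
  ∀ q q' : Dat V × Dat V, (∀ i, rT σ τ q.1.1 i ↔ rT σ τ q'.1.1 i) →
    (∀ i, rT σ τ q.2.1 i ↔ rT σ τ q'.2.1 i) →
    (∀ i, rT σ τ q.1.1 i → q.1.1 i = q'.1.1 i ∧ q.1.2 i = q'.1.2 i) →
    (∀ i, rT σ τ q.2.1 i → q.2.1 i = q'.2.1 i ∧ q.2.2 i = q'.2.2 i) → F q = F q'

/-- The hazard bound for the revelation time of an index of level `k`. -/
noncomputable def hw (σ : Sch) (k : ℕ) (τ : ℝ) : ℝ := 1 / (σ.c k + max (τ - σ.a k) 0)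

section Labels

omit hG hp

/-- The labels of level `k` that are not revealed before `τ`. -/
def late (σ : Sch) (k : ℕ) (τ : ℝ) : Set ℝ := {u | τ ≤ σ.a k + σ.c k * clock u}

omit [DecidableEq V] [Countable V] in
lemma measurableSet_late (k : ℕ) (τ : ℝ) : MeasurableSet (late σ k τ) :=
  measurableSet_le measurable_const (measurable_const.add (measurable_clock.const_mul _))

omit [DecidableEq V] [Countable V] in
lemma hw_nonneg (k : ℕ) (τ : ℝ) : 0 ≤ hw σ k τ :=
  div_nonneg zero_le_one (add_nonneg (σ.c_pos k).le (le_max_right _ _))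

omit [DecidableEq V] [Countable V] in
lemma hw_anti (k : ℕ) {τ τ' : ℝ} (h : τ ≤ τ') : hw σ k τ' ≤ hw σ k τ :=
  one_div_le_one_div_of_le (add_pos_of_pos_of_nonneg (σ.c_pos k) (le_max_right _ _))
    ((add_le_add_iff_left _).2 (max_le_max (by linarith) le_rfl))

omit [DecidableEq V] [Countable V] in
lemma late_real (k : ℕ) (τ : ℝ) : u01.real (late σ k τ) = σ.c k * hw σ k τ := by
  set m := max (τ - σ.a k) 0 with hm
  have hm0 : 0 ≤ m := le_max_right _ _
  have hc := σ.c_pos k
  have hcm : 0 < σ.c k + m := by linarith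
  set b := m / (σ.c k + m) with hb
  have hb0 : 0 ≤ b := div_nonneg hm0 hcm.le
  have hb1 : b ≤ 1 := (div_le_one hcm).2 (by linarith)
  have e : late σ k τ =ᵐ[u01] Set.Icc b 1 := by
    filter_upwards [ae_mem_u01] with u hu
    refine propext ?_
    change τ ≤ σ.a k + σ.c k * clock u ↔ b ≤ u ∧ u ≤ 1
    rw [clock, if_pos hu, mul_div_assoc']
    have h1 : 0 < 1 - u := by linarith [hu.2]
    have iff1 : τ ≤ σ.a k + σ.c k * u / (1 - u) ↔ m * (1 - u) ≤ σ.c k * u := by
      rw [← sub_le_iff_le_add', le_div_iff₀ h1]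
      constructor
      · intro h
        rw [hm, max_mul_of_nonneg _ _ h1.le, zero_mul]
        exact max_le h (mul_nonneg hc.le hu.1)
      · intro h
        exact le_trans (mul_le_mul_of_nonneg_right (le_max_left _ _) h1.le) h
    rw [iff1, hb, div_le_iff₀ hcm]
    constructor
    · intro h; exact ⟨by nlinarith, hu.2.le⟩
    · intro h; nlinarith [h.1]
  rw [measureReal_congr e, measureReal_def, u01, Measure.restrict_apply measurableSet_Icc,
    Set.inter_eq_left.2 (Set.Icc_subset_Icc hb0 le_rfl), Real.volume_Icc,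
    ENNReal.toReal_ofReal (by linarith), hw, ← hm, hb]
  field_simp
  ring

omit [DecidableEq V] [Countable V] in
lemma window_le (k : ℕ) (τ : ℝ) {h : ℝ} (hh : 0 ≤ h) :
    u01.real (late σ k τ \ late σ k (τ + h)) ≤ h * hw σ k τ * u01.real (late σ k τ) := by
  have hsub : late σ k (τ + h) ⊆ late σ k τ := fun u (hu : τ + h ≤ _) ↦
    le_trans (by linarith : τ ≤ τ + h) hu
  have hu := measureReal_sdiff_add_inter (μ := u01) (s := late σ k τ)
    (measurableSet_late (σ := σ) k (τ + h))
  rw [Set.inter_eq_right.2 hsub] at hu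
  rw [show u01.real (late σ k τ \ late σ k (τ + h)) =
      u01.real (late σ k τ) - u01.real (late σ k (τ + h)) by linarith, late_real, late_real, hw, hw]
  set m := max (τ - σ.a k) 0 with hm
  set m' := max (τ + h - σ.a k) 0 with hm'
  have hc := σ.c_pos k
  have h1 : 0 < σ.c k + m := add_pos_of_pos_of_nonneg hc (le_max_right _ _)
  have h2 : 0 < σ.c k + m' := add_pos_of_pos_of_nonneg hc (le_max_right _ _)
  have h3 : σ.c k + m ≤ σ.c k + m' :=
    (add_le_add_iff_left _).2 (max_le_max (by linarith) le_rfl)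
  have h4 : m' - m ≤ h := by
    have : m' ≤ m + h :=
      max_le (by linarith [le_max_left (τ - σ.a k) 0]) (by linarith [le_max_right (τ - σ.a k) 0])
    linarith
  calc σ.c k * (1 / (σ.c k + m)) - σ.c k * (1 / (σ.c k + m'))
      = σ.c k * (m' - m) / ((σ.c k + m) * (σ.c k + m')) := by field_simp; ring
    _ ≤ σ.c k * h / ((σ.c k + m) * (σ.c k + m)) := by gcongr
    _ = _ := by field_simp

open Classical in
/-- A label with revelation time at least `τ`, if there is one. -/
noncomputable def uOff (σ : Sch) (τ : ℝ) (i : Ix V) : ℝ :=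
  if h : ∃ u : ℝ, τ ≤ σ.a i.1 + σ.c i.1 * clock u then h.choose else 0

open Classical in
/-- Keep only what is revealed strictly before `τ`. -/
noncomputable def red (σ : Sch) (τ : ℝ) (p : Dat V) : Dat V :=
  (fun i ↦ if rT σ τ p.1 i then p.1 i else uOff σ τ i,
    fun i ↦ if rT σ τ p.1 i then p.2 i else 0)

omit [DecidableEq V] [Countable V] in
lemma rT_red (τ : ℝ) (p : Dat V) (i : Ix V) : rT σ τ (red σ τ p).1 i ↔ rT σ τ p.1 i := by
  by_cases h : rT σ τ p.1 i
  · have e : (red σ τ p).1 i = p.1 i := by simp [red, h]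
    simp only [rT, tm, e]
  · have he : ∃ u : ℝ, τ ≤ σ.a i.1 + σ.c i.1 * clock u := ⟨p.1 i, not_lt.1 h⟩
    have e : (red σ τ p).1 i = he.choose := by simp [red, h, uOff, he]
    refine iff_of_false ?_ h
    simp only [rT, tm, e, not_lt]
    exact he.choose_spec

omit [DecidableEq V] [Countable V] in
lemma measurable_red (τ : ℝ) : Measurable (red (V := V) σ τ) := by
  classical
  exact (measurable_pi_iff.2 fun i ↦ Measurable.ite ((rmeas_rT σ τ i).preimage measurable_fst)
    ((measurable_pi_apply i).comp measurable_fst) measurable_const).prodMk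
    (measurable_pi_iff.2 fun i ↦ Measurable.ite ((rmeas_rT σ τ i).preimage measurable_fst)
    ((measurable_pi_apply i).comp measurable_snd) measurable_const)

omit [DecidableEq V] [Countable V] in
lemma red_msk (τ : ℝ) (p : Dat V) : red σ τ (msk (rT σ τ) p) = red σ τ p := by
  refine Prod.ext rfl (funext fun i ↦ ?_)
  by_cases h : rT σ τ p.1 i <;> simp [red, msk, h]

omit [DecidableEq V] [Countable V] in
lemma strict2_red {τ : ℝ} {F : Dat V × Dat V → ℝ} (hS : Strict2 σ τ F) (q : Dat V × Dat V) :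
    F (red σ τ q.1, red σ τ q.2) = F q :=
  hS _ _ (fun i ↦ rT_red τ q.1 i) (fun i ↦ rT_red τ q.2 i)
    (fun i hi ↦ by simp [red, (rT_red τ q.1 i).1 hi])
    (fun i hi ↦ by simp [red, (rT_red τ q.2 i).1 hi])

open Classical in
/-- Resample the label of `j` among the labels not revealed before `τ`. -/
noncomputable def stj (σ : Sch) (τ : ℝ) (j : Ix V) (T : Ix V → ℝ) (v : ℝ) : Ix V → ℝ :=
  if T j ∈ late σ j.1 τ ∧ v ∈ late σ j.1 τ then Function.update T j v else T

omit [Countable V] in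
lemma measurable_stj (τ : ℝ) (j : Ix V) :
    Measurable fun x : (Ix V → ℝ) × ℝ ↦ stj σ τ j x.1 x.2 := by
  classical
  refine Measurable.ite ?_ (measurable_update_prod j) measurable_fst
  exact ((measurableSet_late (σ := σ) j.1 τ).preimage
    ((measurable_pi_apply j).comp measurable_fst)).inter
    ((measurableSet_late (σ := σ) j.1 τ).preimage measurable_snd)

omit [Countable V] in
lemma stj_fired {τ : ℝ} (j : Ix V) {T : Ix V → ℝ} (v : ℝ) {i : Ix V} (h : rT σ τ T i) :
    stj σ τ j T v i = T i := by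
  unfold stj
  split_ifs with hc
  · refine Function.update_of_ne ?_ _ _
    rintro rfl
    exact not_le.2 h hc.1
  · rfl

omit [Countable V] in
lemma rT_stj (τ : ℝ) (j : Ix V) (T : Ix V → ℝ) (v : ℝ) (i : Ix V) :
    rT σ τ (stj σ τ j T v) i ↔ rT σ τ T i := by
  unfold stj
  split_ifs with hc
  · by_cases hij : i = j
    · subst hij
      have h1 : τ ≤ σ.a i.1 + σ.c i.1 * clock v := hc.2
      have h2 : τ ≤ σ.a i.1 + σ.c i.1 * clock (T i) := hc.1
      simp only [rT, tm, Function.update_self]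
      exact iff_of_false (not_lt.2 h1) (not_lt.2 h2)
    · simp only [rT, tm, Function.update_of_ne hij]
  · rfl

omit [Countable V] in
lemma red_stj (τ : ℝ) (j : Ix V) (T y : Ix V → ℝ) (v : ℝ) :
    red σ τ ((stj σ τ j T v, y) : Dat V) = red σ τ (T, y) := by
  refine Prod.ext (funext fun i ↦ ?_) (funext fun i ↦ ?_)
  all_goals
    simp only [red]
    by_cases h : rT σ τ T i
    · simp [h, (rT_stj τ j T v i).2 h, stj_fired j v h]
    · simp [h, mt (rT_stj τ j T v i).1 h]

omit [Countable V] in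
/-- Resampling preserves the law of the labels. -/
lemma integral_stj (τ : ℝ) (j : Ix V) {f : (Ix V → ℝ) → ℝ} (hf : BM f) :
    ∫ T, ∫ v, f (stj σ τ j T v) ∂u01 ∂W01 V = ∫ T, f T ∂W01 V := by
  have hg : BM fun T ↦ ∫ v, f (stj σ τ j T v) ∂u01 :=
    (hf.comp (measurable_stj τ j)).avg u01
  rw [W01, integral_resample (fun _ ↦ u01) hg j, integral_resample (fun _ ↦ u01) hf j]
  congr 1
  funext T
  set L := late σ j.1 τ with hL
  set I : ℝ → ℝ := L.indicator fun _ ↦ 1 with hI
  set φ : ℝ → ℝ := fun w ↦ f (Function.update T j w) with hφ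
  have hIb : BM I := ⟨measurable_const.indicator (measurableSet_late _ _), 1, fun w ↦ by
    by_cases h : w ∈ L <;> simp [hI, h]⟩
  have hφb : BM φ := hf.comp
    ((measurable_update_prod j).comp (measurable_const.prodMk measurable_id) :
      Measurable fun w ↦ Function.update T j w)
  have e : ∀ w v, f (stj σ τ j (Function.update T j w) v) =
      (φ w - I w * φ w * I v) + I w * (I v * φ v) := by
    intro w v
    have hw' : Function.update T j w j = w := Function.update_self ..
    simp only [hI, hφ]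
    by_cases h1 : w ∈ L <;> by_cases h2 : v ∈ L
    · rw [stj, if_pos ⟨by rw [hw']; exact h1, h2⟩, Function.update_idem]; simp [h1, h2]
    all_goals
      rw [stj, if_neg (by rw [hw']; simp [← hL, h1, h2])]
      simp [h1, h2]
  simp only [e]
  have i1 : ∀ w, ∫ v, (φ w - I w * φ w * I v) + I w * (I v * φ v) ∂u01 =
      (φ w - I w * φ w * ∫ v, I v ∂u01) + I w * ∫ v, I v * φ v ∂u01 := by
    intro w
    rw [integral_add ((integrable_const _).sub' ((hIb.integrable _).const_mul _))
      (((hIb.mul hφb).integrable _).const_mul _), integral_sub (integrable_const _)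
      ((hIb.integrable _).const_mul _), integral_const_mul, integral_const_mul, integral_const,
      probReal_univ, one_smul]
  simp only [i1]
  rw [integral_add ((hφb.integrable _).sub' (((hIb.mul hφb).integrable _).mul_const _))
    ((hIb.integrable _).mul_const _), integral_sub (hφb.integrable _)
    (((hIb.mul hφb).integrable _).mul_const _), integral_mul_const, integral_mul_const]
  ring

omit [Countable V] in
lemma integral_stj_prod (τ : ℝ) (j : Ix V) {f : Dat V → ℝ} (hf : BM f) :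
    ∫ z, ∫ v, f (stj σ τ j z.1 v, z.2) ∂u01 ∂(W01 V).prod (W01 V) =
      ∫ z, f z ∂(W01 V).prod (W01 V) := by
  have hm : Measurable fun x : Dat V × ℝ ↦ ((stj σ τ j x.1.1 x.2, x.1.2) : Dat V) :=
    ((measurable_stj τ j).comp ((measurable_fst.comp measurable_fst).prodMk measurable_snd)).prodMk
      (measurable_snd.comp measurable_fst)
  have hH : BM fun z : Dat V ↦ ∫ v, f (stj σ τ j z.1 v, z.2) ∂u01 := (hf.comp hm).avg u01
  rw [integral_prod _ (hH.integrable _), integral_prod _ (hf.integrable _),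
    ← integral_stj (σ := σ) τ j (f := fun T ↦ ∫ U, f (T, U) ∂W01 V) (hf.avg (W01 V))]
  congr 1
  funext T
  have hh : BM fun x : (Ix V → ℝ) × ℝ ↦ f (stj σ τ j T x.2, x.1) :=
    hf.comp (((measurable_stj τ j).comp (measurable_const.prodMk measurable_snd)).prodMk
      measurable_fst)
  exact integral_integral_swap (hh.integrable _)

omit [G.LocallyFinite] [Countable V] in
lemma past_rJ_stj (n : ℕ) (D : Finset V) {τ : ℝ} (j : Ix V) (T : Ix V → ℝ) (v : ℝ) {i : Ix V}
    (hi : rT σ τ T i) : past n D (rJ σ i) (stj σ τ j T v) = past n D (rJ σ i) T := by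
  ext k
  simp only [mem_past, rJ]
  refine and_congr_right fun _ ↦ and_congr_right fun _ ↦ ?_
  have ei : tm σ (stj σ τ j T v) i = tm σ T i := by simp only [tm, stj_fired j v hi]
  rw [ei]
  constructor
  · intro hk
    have hkf : rT σ τ T k := (rT_stj τ j T v k).1 (hk.trans hi)
    simpa only [tm, stj_fired j v hkf] using hk
  · intro hk
    have hkf : rT σ τ T k := hk.trans hi
    simpa only [tm, stj_fired j v hkf] using hk

lemma Uinf_stj (r : V) {τ : ℝ} (j : Ix V) (T y : Ix V → ℝ) (v : ℝ) {i : Ix V}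
    (hi : rT σ τ T i) :
    Uinf G θ σ r ((stj σ τ j T v, y) : Dat V) i = Uinf G θ σ r (T, y) i := by
  simp only [Uinf, ML, Mn, past_rJ_stj _ _ j T v hi]

omit [Countable V] in
lemma red_vis_stj (τ : ℝ) (j : Ix V) (ω : Om V) (v : ℝ) :
    red σ τ (vis σ ((ω.1, (ω.2.1, stj σ τ j ω.2.2 v)) : Om V)) = red σ τ (vis σ ω) := by
  have e : vis σ ((ω.1, (ω.2.1, stj σ τ j ω.2.2 v)) : Om V) =
      (stj σ τ j ω.2.2 v, Yv σ ω) := Prod.ext rfl rfl
  rw [e, red_stj]
  rfl

lemma av_Zv_stj (r : V) (τ : ℝ) (j : Ix V) (h : Dat V → ℝ) (ω : Om V) (v : ℝ) :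
    av (rT σ τ) h (Zv G θ σ r ((ω.1, (ω.2.1, stj σ τ j ω.2.2 v)) : Om V)) =
      av (rT σ τ) h (stj σ τ j (Zv G θ σ r ω).1 v, (Zv G θ σ r ω).2) := by
  refine av_congr _ h rfl fun i hi ↦ ?_
  have hi' : rT σ τ ω.2.2 i := (rT_stj τ j ω.2.2 v i).1 hi
  exact Uinf_stj (G := G) (θ := θ) r j ω.2.2 (Yv σ ω) v hi'

end Labels

/-- Resampling preserves the sampling law. -/
lemma integral_stO (τ : ℝ) (j : Ix V) {f : Om V → ℝ} (hf : BM f) :
    ∫ ω, ∫ v, f (ω.1, (ω.2.1, stj σ τ j ω.2.2 v)) ∂u01 ∂Pm G θ r = ∫ ω, f ω ∂Pm G θ r := by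
  have := isingM_prob (G := G) hp.nonneg hp.lt_one.le r
  have hm : Measurable fun x : Om V × ℝ ↦
      ((x.1.1, (x.1.2.1, stj σ τ j x.1.2.2 x.2)) : Om V) :=
    (measurable_fst.comp measurable_fst).prodMk
      (((measurable_fst.comp measurable_snd).comp measurable_fst).prodMk
        ((measurable_stj τ j).comp
          (((measurable_snd.comp measurable_snd).comp measurable_fst).prodMk measurable_snd)))
  have hH : BM fun ω : Om V ↦ ∫ v, f (ω.1, (ω.2.1, stj σ τ j ω.2.2 v)) ∂u01 :=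
    (hf.comp hm).avg u01
  rw [Pm, integral_prod _ (hH.integrable _), integral_prod _ (hf.integrable _)]
  congr 1
  funext s
  have hfs : BM fun z : Dat V ↦ f (s, z) := hf.comp (measurable_const.prodMk measurable_id)
  have hHs : BM fun z : Dat V ↦ ∫ v, f (s, (z.1, stj σ τ j z.2 v)) ∂u01 :=
    hH.comp (g := fun z : Dat V ↦ ((s, z) : Om V)) (measurable_const.prodMk measurable_id)
  rw [integral_prod _ (hHs.integrable _), integral_prod _ (hfs.integrable _)]
  congr 1
  funext w
  exact integral_stj τ j (hfs.comp (measurable_const.prodMk measurable_id) :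
    BM fun T : Ix V → ℝ ↦ f (s, (w, T)))

/-- The conditional mean of a function of the strict past does not see the label of `j` among
the unrevealed ones. -/
lemma av_Kz_stj (τ : ℝ) (j : Ix V) {φ : Dat V → ℝ} (hφ : BM φ) :
    ∀ᵐ x ∂((W01 V).prod (W01 V)).prod u01,
      av (rT σ τ) (Kz G σ hp r fun p ↦ φ (red σ τ p)) (stj σ τ j x.1.1 x.2, x.1.2) =
        av (rT σ τ) (Kz G σ hp r fun p ↦ φ (red σ τ p)) x.1 := by
  have := Pm_prob (G := G) hp r
  have hR : RMeas (V := V) (rT σ τ) := rmeas_rT σ τ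
  set ψ : Dat V → ℝ := fun p ↦ φ (red σ τ p) with hψ
  have hψb : BM ψ := hφ.comp (measurable_red τ)
  set k := Kz G σ hp r ψ with hk
  have hkb : BM k := bm_Kz hp r hψb
  set a := av (rT σ τ) k with ha
  have hab : BM a := bm_av hR hkb
  have hka : k =ᵐ[(Pm G θ r).map (Zv G θ σ r)] a :=
    Kz_av hG hp r hR (down_rT σ τ) hψb fun p ↦ by simp only [hψ, red_msk]
  have hm : Measurable fun x : Dat V × ℝ ↦ ((stj σ τ j x.1.1 x.2, x.1.2) : Dat V) :=
    ((measurable_stj τ j).comp ((measurable_fst.comp measurable_fst).prodMk measurable_snd)).prodMk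
      (measurable_snd.comp measurable_fst)
  set A : Dat V × ℝ → ℝ := fun x ↦ a (stj σ τ j x.1.1 x.2, x.1.2) with hA
  set B : Dat V × ℝ → ℝ := fun x ↦ a x.1 with hB
  have hAb : BM A := hab.comp hm
  have hBb : BM B := hab.comp measurable_fst
  set ν := (W01 V).prod (W01 V) with hν
  have iA : ∫ x, A x * A x ∂ν.prod u01 = ∫ z, a z * a z ∂ν := by
    rw [integral_prod _ ((hAb.mul hAb).integrable _), ← integral_stj_prod (σ := σ) τ j (hab.mul hab)]
  have iB : ∫ x, B x * B x ∂ν.prod u01 = ∫ z, a z * a z ∂ν := by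
    rw [integral_prod _ ((hBb.mul hBb).integrable _)]
    simp [hB]
  set b : Dat V → ℝ := fun z ↦ ∫ v, A (z, v) ∂u01 with hb
  have hbb : BM b := hAb.avg u01
  have hpull : ∀ ω, ∫ v, A (Zv G θ σ r ω, v) * ψ (vis σ ω) ∂u01 =
      b (Zv G θ σ r ω) * ψ (vis σ ω) := fun ω ↦ integral_mul_const _ _
  have hpt : ∀ ω v, a (Zv G θ σ r ((ω.1, (ω.2.1, stj σ τ j ω.2.2 v)) : Om V)) *
      ψ (vis σ ((ω.1, (ω.2.1, stj σ τ j ω.2.2 v)) : Om V)) =
      A (Zv G θ σ r ω, v) * ψ (vis σ ω) := by
    intro ω v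
    have h1 := av_Zv_stj (G := G) (θ := θ) (σ := σ) r τ j k ω v
    have h2 := red_vis_stj (σ := σ) τ j ω v
    rw [ha, hA, hψ]
    simp only [h1, h2]
    rfl
  have key : ∫ z, k z * b z ∂(Pm G θ r).map (Zv G θ σ r) =
      ∫ z, k z * a z ∂(Pm G θ r).map (Zv G θ σ r) := by
    calc ∫ z, k z * b z ∂(Pm G θ r).map (Zv G θ σ r)
        = ∫ ω, b (Zv G θ σ r ω) * ψ (vis σ ω) ∂Pm G θ r := by
          rw [integral_Kz hp r hbb hψb, ← hk]
          exact integral_congr_ae (.of_forall fun z ↦ mul_comm _ _)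
      _ = ∫ ω, ∫ v, (fun w : Om V ↦ a (Zv G θ σ r w) * ψ (vis σ w))
            (ω.1, (ω.2.1, stj σ τ j ω.2.2 v)) ∂u01 ∂Pm G θ r := by
          refine integral_congr_ae (.of_forall fun ω ↦ ?_)
          simp only []
          rw [← hpull ω]
          refine integral_congr_ae (.of_forall fun v ↦ ?_)
          exact (hpt ω v).symm
      _ = ∫ ω, a (Zv G θ σ r ω) * ψ (vis σ ω) ∂Pm G θ r :=
          integral_stO hG hp r τ j ((hab.comp (measurable_Zv r)).mul
            (hψb.comp (measurable_vis σ)))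
      _ = _ := by
          rw [integral_Kz hp r hab hψb, ← hk]
          exact integral_congr_ae (.of_forall fun z ↦ mul_comm _ _)
  have iAB : ∫ x, B x * A x ∂ν.prod u01 = ∫ z, a z * a z ∂ν := by
    rw [integral_prod _ ((hBb.mul hAb).integrable _)]
    simp only [hB, integral_const_mul]
    rw [hν, ← map_Zv (σ := σ) hG hp r]
    refine Eq.trans ?_ (key.trans ?_)
    · refine integral_congr_ae ?_
      filter_upwards [hka] with z hz
      rw [hz]
    · refine integral_congr_ae ?_
      filter_upwards [hka] with z hz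
      rw [hz]
  have h0 : ∫ x, (A x - B x) * (A x - B x) ∂ν.prod u01 = 0 := by
    have e : ∀ x, (A x - B x) * (A x - B x) = (A x * A x + B x * B x) - 2 * (B x * A x) :=
      fun x ↦ by ring
    simp only [e]
    rw [integral_sub (((hAb.mul hAb).add (hBb.mul hBb)).integrable _)
        (((hBb.mul hAb).integrable _).const_mul 2),
      integral_add ((hAb.mul hAb).integrable _) ((hBb.mul hBb).integrable _),
      integral_const_mul, iA, iB, iAB]
    ring
  filter_upwards [(integral_eq_zero_iff_of_nonneg (f := fun x ↦ (A x - B x) * (A x - B x))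
    (fun x ↦ mul_self_nonneg _) (((hAb.sub hBb).mul (hAb.sub hBb)).integrable _)).1 h0] with x hx
  simp only [Pi.zero_apply, mul_self_eq_zero, sub_eq_zero] at hx
  exact hx

/-- Among unrevealed labels, the label of `j` is independent of both strict pasts. -/
lemma integral_P2_label (τ : ℝ) (j : Ix V) {g : ℝ → ℝ} (hg : BM g)
    (hg0 : ∀ u, u ∉ late σ j.1 τ → g u = 0) {φ φ' : Dat V → ℝ} (hφ : BM φ) (hφ' : BM φ') :
    u01.real (late σ j.1 τ) *
        ∫ q, g (q.1.1 j) * φ (red σ τ q.1) * φ' (red σ τ q.2) ∂P2 G σ hp r =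
      (∫ v, g v ∂u01) *
        ∫ q, (late σ j.1 τ).indicator (fun _ ↦ (1:ℝ)) (q.1.1 j) * φ (red σ τ q.1) *
          φ' (red σ τ q.2) ∂P2 G σ hp r := by
  have := Pm_prob (G := G) hp r
  set I : ℝ → ℝ := (late σ j.1 τ).indicator fun _ ↦ 1 with hI
  have hIb : BM I := ⟨measurable_const.indicator (measurableSet_late _ _), 1, fun w ↦ by
    by_cases h : w ∈ late σ j.1 τ <;> simp [hI, h]⟩
  set ψ : Dat V → ℝ := fun p ↦ φ (red σ τ p) with hψ
  set ψ' : Dat V → ℝ := fun p ↦ φ' (red σ τ p) with hψ'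
  have hψb : BM ψ := hφ.comp (measurable_red τ)
  have hψb' : BM ψ' := hφ'.comp (measurable_red τ)
  set R : Rule V := rT σ τ
  have hR : RMeas R := rmeas_rT σ τ
  set a := av R (Kz G σ hp r ψ) with ha
  set b := av R (Kz G σ hp r ψ') with hb
  have hab : BM a := bm_av hR (bm_Kz hp r hψb)
  have hbb : BM b := bm_av hR (bm_Kz hp r hψb')
  set ν := (W01 V).prod (W01 V) with hν
  have step1 : ∀ {f : ℝ → ℝ}, BM f →
      ∫ q, f (q.1.1 j) * φ (red σ τ q.1) * φ' (red σ τ q.2) ∂P2 G σ hp r =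
        ∫ z, f (z.1 j) * (a z * b z) ∂ν := by
    intro f hf
    have ht : BM fun z : Dat V ↦ f (z.1 j) :=
      hf.comp ((measurable_pi_apply j).comp measurable_fst)
    rw [integral_P2_prod hG hp r (ht.mul hψb) hψb', hν, ← map_Zv (σ := σ) hG hp r]
    refine integral_congr_ae ?_
    filter_upwards [Kz_zof hG hp r ht hψb,
      Kz_av hG hp r hR (down_rT σ τ) hψb (fun p ↦ by simp only [hψ, R, red_msk]),
      Kz_av hG hp r hR (down_rT σ τ) hψb' (fun p ↦ by simp only [hψ', R, red_msk])]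
      with z h1 h2 h3
    change Kz G σ hp r (fun p ↦ f (p.1 j) * ψ p) z * Kz G σ hp r ψ' z = _
    rw [show Kz G σ hp r (fun p ↦ f (p.1 j) * ψ p) z =
      f (z.1 j) * Kz G σ hp r ψ z from h1, h2, h3, ha, hb]
    ring
  rw [step1 hg, step1 hIb]
  have hm : Measurable fun x : Dat V × ℝ ↦ ((stj σ τ j x.1.1 x.2, x.1.2) : Dat V) :=
    ((measurable_stj τ j).comp ((measurable_fst.comp measurable_fst).prodMk measurable_snd)).prodMk
      (measurable_snd.comp measurable_fst)
  have hX : BM fun z : Dat V ↦ g (z.1 j) * (a z * b z) :=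
    (hg.comp ((measurable_pi_apply j).comp measurable_fst)).mul (hab.mul hbb)
  have hIX : BM fun z : Dat V ↦ I (z.1 j) * (a z * b z) :=
    (hIb.comp ((measurable_pi_apply j).comp measurable_fst)).mul (hab.mul hbb)
  have key : ∫ z, g (z.1 j) * (a z * b z) ∂ν =
      ∫ z, ((∫ v, g v ∂u01) * (I (z.1 j) * (a z * b z)) +
        (1 - u01.real (late σ j.1 τ)) * (g (z.1 j) * (a z * b z))) ∂ν := by
    conv_lhs => rw [← integral_stj_prod (σ := σ) τ j hX]
    refine integral_congr_ae ?_
    filter_upwards [Measure.ae_ae_of_ae_prod (av_Kz_stj (σ := σ) hG hp r τ j hφ),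
      Measure.ae_ae_of_ae_prod (av_Kz_stj (σ := σ) hG hp r τ j hφ')] with z h1 h2
    have e : ∀ v, g (stj σ τ j z.1 v j) = I (z.1 j) * g v + g (z.1 j) * (1 - I v) := by
      intro v
      simp only [stj, hI]
      by_cases c1 : z.1 j ∈ late σ j.1 τ
      · by_cases c2 : v ∈ late σ j.1 τ
        · simp [c1, c2]
        · simp [c1, c2, hg0 v c2]
      · simp [c1, hg0 _ c1]
    have e2 : ∀ᵐ v ∂u01, g ((stj σ τ j z.1 v, z.2).1 j) *
        (a (stj σ τ j z.1 v, z.2) * b (stj σ τ j z.1 v, z.2)) =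
        (I (z.1 j) * g v + g (z.1 j) * (1 - I v)) * (a z * b z) := by
      filter_upwards [h1, h2] with v hv1 hv2
      rw [← e v]
      exact congrArg₂ (· * ·) rfl (congrArg₂ (· * ·) hv1 hv2)
    rw [integral_congr_ae e2, integral_mul_const,
      integral_add ((hg.integrable _).const_mul _)
        (((integrable_const (1:ℝ)).sub' (hIb.integrable _)).const_mul _),
      integral_const_mul, integral_const_mul, integral_sub (integrable_const _) (hIb.integrable _),
      integral_const, probReal_univ, one_smul]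
    simp only [hI, integral_indicator_const _ (measurableSet_late _ _), smul_eq_mul, mul_one]
    ring
  rw [integral_add ((hIX.integrable _).const_mul _) ((hX.integrable _).const_mul _),
    integral_const_mul, integral_const_mul] at key
  linarith

/-- The next revelation is conditionally independent of the past of both copies. -/
lemma hazard (j : Ix V) (τ h : ℝ) (hh : 0 ≤ h) {F : Dat V × Dat V → ℝ} (hF : BM F)
    (hF0 : ∀ q, 0 ≤ F q) (hS : Strict2 σ τ F) :
    ∫ q, {q : Dat V × Dat V | τ ≤ tm σ q.1.1 j ∧ tm σ q.1.1 j < τ + h}.indicator F q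
        ∂P2 G σ hp r ≤ h * hw σ j.1 τ * ∫ q, F q ∂P2 G σ hp r := by
  have hSt := hS
  have := P2_prob (σ := σ) hG hp r
  set W : Set ℝ := late σ j.1 τ \ late σ j.1 (τ + h) with hWdef
  set L : Set ℝ := late σ j.1 τ with hLdef
  have hW : MeasurableSet W := (measurableSet_late _ _).diff (measurableSet_late _ _)
  have hL : MeasurableSet L := measurableSet_late _ _
  set c : Dat V × Dat V → ℝ := fun q ↦ q.1.1 j with hc
  have hcm : Measurable c :=
    (measurable_pi_apply j).comp (measurable_fst.comp measurable_fst)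
  set Pr : Dat V × Dat V → Dat V × Dat V := fun q ↦ (red σ τ q.1, red σ τ q.2) with hPr
  have hPm : Measurable Pr :=
    ((measurable_red τ).comp measurable_fst).prodMk ((measurable_red τ).comp measurable_snd)
  set m : Set ℝ → Measure (Dat V × Dat V) :=
    fun S ↦ ((P2 G σ hp r).restrict (c ⁻¹' S)).map Pr with hm
  have hmf : ∀ S, IsFiniteMeasure (m S) := fun S ↦ by
    simp only [hm]; infer_instance
  have hindR : ∀ {A : Set ℝ}, MeasurableSet A → BM (A.indicator fun _ ↦ (1:ℝ)) := fun {A} hA ↦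
    ⟨measurable_const.indicator hA, 1, fun p ↦ by by_cases h : p ∈ A <;> simp [h]⟩
  have hind : ∀ {A : Set (Dat V)}, MeasurableSet A → BM (A.indicator fun _ ↦ (1:ℝ)) :=
    fun {A} hA ↦
    ⟨measurable_const.indicator hA, 1, fun p ↦ by by_cases h : p ∈ A <;> simp [h]⟩
  have hrect : ∀ (S : Set ℝ), MeasurableSet S → ∀ (A B : Set (Dat V)), MeasurableSet A →
      MeasurableSet B → (m S).real (A ×ˢ B) = ∫ q, S.indicator (fun _ ↦ (1:ℝ)) (q.1.1 j) *
        A.indicator (fun _ ↦ (1:ℝ)) (red σ τ q.1) * B.indicator (fun _ ↦ (1:ℝ)) (red σ τ q.2)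
          ∂P2 G σ hp r := by
    intro S hS A B hA hB
    simp only [hm]
    rw [measureReal_def, Measure.map_apply hPm (hA.prod hB),
      Measure.restrict_apply (hPm (hA.prod hB)), ← measureReal_def,
      ← integral_indicator_one ((hPm (hA.prod hB)).inter (hcm hS))]
    refine integral_congr_ae (.of_forall fun q ↦ ?_)
    by_cases h1 : q.1.1 j ∈ S <;> by_cases h2 : red σ τ q.1 ∈ A <;>
      by_cases h3 : red σ τ q.2 ∈ B <;> simp [Set.indicator, hc, hPr, h1, h2, h3]
  have heq : ENNReal.ofReal (u01.real L) • m W = ENNReal.ofReal (u01.real W) • m L := by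
    have := hmf W
    have := hmf L
    have : IsFiniteMeasure (ENNReal.ofReal (u01.real L) • m W) :=
      Measure.smul_finite _ ENNReal.ofReal_ne_top
    have : IsFiniteMeasure (ENNReal.ofReal (u01.real W) • m L) :=
      Measure.smul_finite _ ENNReal.ofReal_ne_top
    refine Measure.ext_prod fun {A B} hA hB ↦
      (measureReal_eq_measureReal_iff (by finiteness) (by finiteness)).1 ?_
    rw [measureReal_ennreal_smul_apply, measureReal_ennreal_smul_apply,
      ENNReal.toReal_ofReal measureReal_nonneg, ENNReal.toReal_ofReal measureReal_nonneg,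
      hrect W hW A B hA hB, hrect L hL A B hA hB]
    have h1 := integral_P2_label (σ := σ) hG hp r τ j (g := W.indicator fun _ ↦ (1:ℝ)) (hindR hW)
      (fun u hu ↦ Set.indicator_of_notMem (fun h ↦ hu h.1) _) (hind hA) (hind hB)
    rw [integral_indicator_const _ hW, smul_eq_mul, mul_one] at h1
    exact h1
  have hint : ∀ S, MeasurableSet S → ∫ q, F q ∂m S = ∫ q, (c ⁻¹' S).indicator F q ∂P2 G σ hp r := by
    intro S hS
    simp only [hm]
    rw [integral_map hPm.aemeasurable hF.1.aestronglyMeasurable, ← integral_indicator (hcm hS)]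
    refine integral_congr_ae (.of_forall fun q ↦ ?_)
    simp only [Set.indicator, hPr, strict2_red hSt q]
  have h1 := congrArg (fun ν ↦ ∫ q, F q ∂ν) heq
  simp only [integral_smul_measure, ENNReal.toReal_ofReal measureReal_nonneg, smul_eq_mul,
    hint W hW, hint L hL] at h1
  have hset : {q : Dat V × Dat V | τ ≤ tm σ q.1.1 j ∧ tm σ q.1.1 j < τ + h} = c ⁻¹' W := by
    ext q
    simp only [hWdef, hLdef, late, hc, tm, Set.mem_preimage, Set.mem_sdiff,
      Set.mem_ofPred_eq, not_le]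
  rw [hset]
  have hle : ∫ q, (c ⁻¹' L).indicator F q ∂P2 G σ hp r ≤ ∫ q, F q ∂P2 G σ hp r :=
    integral_mono ((hF.integrable _).indicator (hcm hL)) (hF.integrable _)
      (Set.indicator_le_self' fun q _ ↦ hF0 q)
  have hL0 : 0 < u01.real L := by
    rw [hLdef, late_real]
    exact mul_pos (σ.c_pos _) (one_div_pos.2 (add_pos_of_pos_of_nonneg (σ.c_pos _) (le_max_right _ _)))
  refine le_of_mul_le_mul_left ?_ hL0
  rw [h1]
  calc u01.real W * ∫ q, (c ⁻¹' L).indicator F q ∂P2 G σ hp r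
      ≤ u01.real W * ∫ q, F q ∂P2 G σ hp r := mul_le_mul_of_nonneg_left hle measureReal_nonneg
    _ ≤ h * hw σ j.1 τ * u01.real L * ∫ q, F q ∂P2 G σ hp r :=
        mul_le_mul_of_nonneg_right (window_le _ _ hh) (integral_nonneg hF0)
    _ = _ := by ring

/-- Converting a value at the revelation time of `j` into values at fixed times. -/
lemma conversion (j : Ix V) {t0 t t' : ℝ} (_ht0 : 0 ≤ t0) (ht : t0 < t)
    {F : ℝ → Dat V × Dat V → ℝ}
    {Fj : Dat V × Dat V → ℝ} {C : ℝ} (hFm : Measurable fun z : ℝ × (Dat V × Dat V) ↦ F z.1 z.2)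
    (hFC : ∀ τ q, 0 ≤ F τ q ∧ F τ q ≤ C) (hS : ∀ τ, Strict2 σ τ (F τ)) (_hFj : Measurable Fj)
    (hlim : ∀ᵐ q ∂P2 G σ hp r, t ≤ tm σ q.1.1 j → tm σ q.1.1 j < t' →
      ∀ᶠ τ in nhdsWithin (tm σ q.1.1 j) (Set.Iio (tm σ q.1.1 j)), F τ q = Fj q) :
    ∫ q, {q : Dat V × Dat V | t ≤ tm σ q.1.1 j ∧ tm σ q.1.1 j < t'}.indicator Fj q
        ∂P2 G σ hp r ≤
      hw σ j.1 t0 * ∫ τ in Set.Ioo t0 t', ∫ q, F τ q ∂P2 G σ hp r := by
  have := P2_prob (σ := σ) hG hp r
  set μ := P2 G σ hp r
  set s : Dat V × Dat V → ℝ := fun q ↦ tm σ q.1.1 j with hs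
  have hsm : Measurable s := (measurable_tm σ j).comp (measurable_fst.comp measurable_fst)
  set J : Set ℝ := Set.Ioo t0 t' with hJ
  have hJfin : IsFiniteMeasure (volume.restrict J) := ⟨by simp [hJ]⟩
  set δ : ℕ → ℝ := fun n ↦ 1 / ((n : ℝ) + 1) with hδ
  have hδ0 : ∀ n, 0 < δ n := fun n ↦ by simp only [hδ]; positivity
  set E : Set (Dat V × Dat V) := {q | t ≤ s q ∧ s q < t'} with hE
  have hEm : MeasurableSet E :=
    (measurableSet_le measurable_const hsm).inter (measurableSet_lt hsm measurable_const)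
  set Wn : ℕ → ℝ → Set (Dat V × Dat V) := fun n τ ↦ {q | τ ≤ s q ∧ s q < τ + δ n} with hWn
  set H : ℕ → ℝ × (Dat V × Dat V) → ℝ := fun n x ↦ (Wn n x.1).indicator (F x.1) x.2 with hH
  have hHm : ∀ n, Measurable (H n) := fun n ↦ by
    have e : H n = {x : ℝ × (Dat V × Dat V) | x.1 ≤ s x.2 ∧ s x.2 < x.1 + δ n}.indicator
        fun x ↦ F x.1 x.2 := by
      funext x
      by_cases hx : x.1 ≤ s x.2 ∧ s x.2 < x.1 + δ n <;> simp [hH, hWn, Set.indicator, hx]
    rw [e]
    exact hFm.indicator ((measurableSet_le measurable_fst (hsm.comp measurable_snd)).inter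
      (measurableSet_lt (hsm.comp measurable_snd) (measurable_fst.add measurable_const)))
  have hH0 : ∀ n x, 0 ≤ H n x ∧ H n x ≤ C := fun n x ↦ by
    by_cases hx : x.2 ∈ Wn n x.1
    · simpa [hH, hx] using hFC x.1 x.2
    · simpa [hH, hx] using (hFC x.1 x.2).1.trans (hFC x.1 x.2).2
  set B : ℕ → Dat V × Dat V → ℝ := fun n q ↦ (δ n)⁻¹ * ∫ τ in J, H n (τ, q) with hB
  have hBm : ∀ n, Measurable (B n) := fun n ↦
    (((hHm n).comp measurable_swap).stronglyMeasurable.integral_prod_right'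
      (ν := volume.restrict J)).measurable.const_mul _
  have hwin : ∀ n q, (fun τ ↦ H n (τ, q)) = (Set.Ioc (s q - δ n) (s q)).indicator (F · q) := by
    intro n q
    funext τ
    by_cases hx : τ ≤ s q ∧ s q < τ + δ n
    · have : s q - δ n < τ := by linarith [hx.2]
      simp [hH, hWn, hx, this]
    · have : ¬ (s q - δ n < τ ∧ τ ≤ s q) := fun h' ↦ hx ⟨h'.2, by linarith [h'.1]⟩
      simp [hH, hWn, hx, this]
  have hB0 : ∀ n q, 0 ≤ B n q ∧ B n q ≤ C := by
    intro n q
    refine ⟨mul_nonneg (inv_nonneg.2 (hδ0 n).le) (integral_nonneg fun τ ↦ (hH0 n _).1), ?_⟩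
    have hC : 0 ≤ C := (hFC 0 q).1.trans (hFC 0 q).2
    have hfin : volume (J ∩ Set.Ioc (s q - δ n) (s q)) < ⊤ :=
      lt_of_le_of_lt (measure_mono Set.inter_subset_right) measure_Ioc_lt_top
    have h1 := norm_setIntegral_le_of_norm_le_const (μ := volume) (C := C) hfin
      (f := (F · q)) fun τ _ ↦ by
        rw [Real.norm_eq_abs, abs_of_nonneg (hFC τ q).1]; exact (hFC τ q).2
    have h2 : volume.real (J ∩ Set.Ioc (s q - δ n) (s q)) ≤ δ n := by
      refine (measureReal_mono Set.inter_subset_right measure_Ioc_lt_top.ne).trans ?_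
      rw [Real.volume_real_Ioc_of_le (by linarith [hδ0 n])]
      linarith
    simp only [hB, hwin n q]
    rw [setIntegral_indicator measurableSet_Ioc, inv_mul_le_iff₀ (hδ0 n), mul_comm (δ n)]
    exact (le_abs_self _).trans (h1.trans (mul_le_mul_of_nonneg_left h2 hC))
  have hev : ∀ᶠ n in atTop, δ n < t - t0 :=
    tendsto_one_div_add_atTop_nhds_zero_nat.eventually_lt_const (by linarith)
  have hpt : ∀ᵐ q ∂μ, Tendsto (fun n ↦ E.indicator (B n) q) atTop (nhds (E.indicator Fj q)) := by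
    filter_upwards [hlim] with q hq
    by_cases hqE : q ∈ E
    · simp only [Set.indicator_of_mem hqE]
      obtain ⟨l, hl, hsub⟩ := mem_nhdsLT_iff_exists_Ioo_subset.1 (hq hqE.1 hqE.2)
      have hl' : l < s q := hl
      refine tendsto_const_nhds.congr' ?_
      filter_upwards [hev,
        tendsto_one_div_add_atTop_nhds_zero_nat.eventually_lt_const (sub_pos.2 hl')] with n h1 h2
      change δ n < s q - l at h2
      have hIJ : J ∩ Set.Ioc (s q - δ n) (s q) = Set.Ioc (s q - δ n) (s q) := by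
        refine Set.inter_eq_right.2 fun τ hτ ↦ ⟨?_, lt_of_le_of_lt hτ.2 hqE.2⟩
        linarith [hτ.1, hqE.1]
      have hc : ∫ τ in Set.Ioo (s q - δ n) (s q), F τ q =
          ∫ _τ in Set.Ioo (s q - δ n) (s q), Fj q :=
        setIntegral_congr_fun measurableSet_Ioo fun τ hτ ↦
          hsub ⟨by linarith [hτ.1], hτ.2⟩
      simp only [hB, hwin n q]
      rw [setIntegral_indicator measurableSet_Ioc, hIJ, integral_Ioc_eq_integral_Ioo, hc,
        setIntegral_const, Real.volume_real_Ioo_of_le (by linarith [hδ0 n]), smul_eq_mul,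
        show s q - (s q - δ n) = δ n by ring, inv_mul_cancel_left₀ (hδ0 n).ne']
    · simp only [Set.indicator_of_notMem hqE]
      exact tendsto_const_nhds
  have hDC : Tendsto (fun n ↦ ∫ q, E.indicator (B n) q ∂μ) atTop
      (nhds (∫ q, E.indicator Fj q ∂μ)) := by
    refine tendsto_integral_of_dominated_convergence (fun _ ↦ C)
      (fun n ↦ ((hBm n).indicator hEm).aestronglyMeasurable) (integrable_const _)
      (fun n ↦ .of_forall fun q ↦ ?_) hpt
    rw [Real.norm_eq_abs]
    by_cases hqE : q ∈ E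
    · rw [Set.indicator_of_mem hqE, abs_of_nonneg (hB0 n q).1]; exact (hB0 n q).2
    · rw [Set.indicator_of_notMem hqE, abs_zero]; exact (hFC 0 q).1.trans (hFC 0 q).2
  refine le_of_tendsto hDC (.of_forall fun n ↦ ?_)
  have hBi : Integrable (B n) μ := Integrable.of_bound (hBm n).aestronglyMeasurable C
    (.of_forall fun q ↦ by rw [Real.norm_eq_abs, abs_of_nonneg (hB0 n q).1]; exact (hB0 n q).2)
  have hHi : Integrable (H n) ((volume.restrict J).prod μ) :=
    Integrable.of_bound (hHm n).aestronglyMeasurable C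
      (.of_forall fun x ↦ by rw [Real.norm_eq_abs, abs_of_nonneg (hH0 n x).1]; exact (hH0 n x).2)
  have hFb : ∀ τ, BM (F τ) := fun τ ↦
    ⟨hFm.comp (measurable_const.prodMk measurable_id), C, fun q ↦ by
      rw [abs_of_nonneg (hFC τ q).1]; exact (hFC τ q).2⟩
  have hFi : Integrable (fun τ ↦ ∫ q, F τ q ∂μ) (volume.restrict J) := by
    have : Integrable (fun x : ℝ × (Dat V × Dat V) ↦ F x.1 x.2) ((volume.restrict J).prod μ) :=
      Integrable.of_bound hFm.aestronglyMeasurable C (.of_forall fun x ↦ by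
        rw [Real.norm_eq_abs, abs_of_nonneg (hFC x.1 x.2).1]; exact (hFC x.1 x.2).2)
    exact this.integral_prod_left
  calc ∫ q, E.indicator (B n) q ∂μ
      ≤ ∫ q, B n q ∂μ := integral_mono (hBi.indicator hEm) hBi
        (Set.indicator_le_self' fun q _ ↦ (hB0 n q).1)
    _ = (δ n)⁻¹ * ∫ τ in J, ∫ q, H n (τ, q) ∂μ := by
        simp only [hB]
        rw [integral_const_mul]
        congr 1
        exact (integral_integral_swap hHi).symm
    _ ≤ (δ n)⁻¹ * ∫ τ in J, δ n * (hw σ j.1 t0 * ∫ q, F τ q ∂μ) := by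
        refine mul_le_mul_of_nonneg_left (setIntegral_mono_on hHi.integral_prod_left
          ((hFi.const_mul _).const_mul _) measurableSet_Ioo fun τ hτ ↦ ?_)
          (inv_nonneg.2 (hδ0 n).le)
        refine (hazard hG hp r j τ (δ n) (hδ0 n).le (hFb τ) (fun q ↦ (hFC τ q).1) (hS τ)).trans ?_
        rw [mul_assoc]
        exact mul_le_mul_of_nonneg_left (mul_le_mul_of_nonneg_right (hw_anti _ hτ.1.le)
          (integral_nonneg fun q ↦ (hFC τ q).1)) (hδ0 n).le
    _ = _ := by
        rw [integral_const_mul, integral_const_mul, inv_mul_cancel_left₀ (hδ0 n).ne']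

end Vale.Agent.P161.Crit
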