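import Mathlib
import Vale.Agent.P161.Crit.PathCov
import Vale.Agent.P161.Crit.Invariance
import Vale.Agent.P161.Crit.Telescope

/-!
Infinite-volume spin means, side posteriors and covariances given what is revealed before a time.
-/

namespace Vale.Agent.P161.Crit

open Finset MeasureTheory Filter Topology

variable {V : Type*} [DecidableEq V] {G : SimpleGraph V} [G.LocallyFinite] {θ : ℝ} {σ : Sch}

/-- The finite-volume posterior at time `τ`. -/
noncomputable def MT (G : SimpleGraph V) [G.LocallyFinite] (θ : ℝ) (σ : Sch) (r : V) (n : ℕ)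
    (τ : ℝ) (f : Finset V → ℝ) (p : Dat V) : ℝ :=
  Mn G θ σ r (rT σ τ) f n p

/-- The infinite-volume posterior at time `τ`. -/
noncomputable def MTL (G : SimpleGraph V) [G.LocallyFinite] (θ : ℝ) (σ : Sch) (r : V)
    (τ : ℝ) (f : Finset V → ℝ) (p : Dat V) : ℝ :=
  ML G θ σ r (rT σ τ) f p

/-- All posterior means of products of at most three spins converge. -/
def Conv (G : SimpleGraph V) [G.LocallyFinite] (θ : ℝ) (σ : Sch) (r : V) (R : Rule V) (p : Dat V) :
    Prop :=
  ∀ f : Finset V → ℝ, (∃ x, f = fun S ↦ sg S x) ∨ (∃ x y, f = fun S ↦ sg S x * sg S y) ∨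
    (∃ x y z, f = fun S ↦ sg S x * sg S y * sg S z) →
    Tendsto (fun n ↦ Mn G θ σ r R f n p) atTop (𝓝 (ML G θ σ r R f p))

/-- The infinite-volume covariance of `f` with the spin at `w`. -/
noncomputable def cL (G : SimpleGraph V) [G.LocallyFinite] (θ : ℝ) (σ : Sch) (r : V) (R : Rule V)
    (f : Finset V → ℝ) (w : V) (p : Dat V) : ℝ :=
  ML G θ σ r R (fun S ↦ f S * sg S w) p - ML G θ σ r R f p * ML G θ σ r R (fun S ↦ sg S w) p

/-- The infinite-volume posterior mean of the spin at `x` on its side of the edge `xq`. -/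
noncomputable def aL (G : SimpleGraph V) [G.LocallyFinite] (θ : ℝ) (σ : Sch) (r : V) (R : Rule V)
    (x q : V) (p : Dat V) : ℝ :=
  if 0 ≤ ML G θ σ r R (fun S ↦ sg S q) p then
    ((ML G θ σ r R (fun S ↦ sg S x) p + ML G θ σ r R (fun S ↦ sg S x * sg S q) p) -
        θ * (1 + ML G θ σ r R (fun S ↦ sg S q) p)) /
      ((1 + ML G θ σ r R (fun S ↦ sg S q) p) -
        θ * (ML G θ σ r R (fun S ↦ sg S x) p + ML G θ σ r R (fun S ↦ sg S x * sg S q) p))
  else
    ((ML G θ σ r R (fun S ↦ sg S x) p - ML G θ σ r R (fun S ↦ sg S x * sg S q) p) +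
        θ * (1 - ML G θ σ r R (fun S ↦ sg S q) p)) /
      ((1 - ML G θ σ r R (fun S ↦ sg S q) p) +
        θ * (ML G θ σ r R (fun S ↦ sg S x) p - ML G θ σ r R (fun S ↦ sg S x * sg S q) p))

/-- The product of attenuations from `o` to `w` in infinite volume. -/
noncomputable def piL (G : SimpleGraph V) [G.LocallyFinite] (θ : ℝ) (σ : Sch) (r : V) (R : Rule V)
    (o w : V) (k : ℕ) (p : Dat V) : ℝ :=
  ∏ i ∈ range k, psi θ (aL G θ σ r R (up G o w i) (up G o w (i + 1)) p)

/-- The local squared discrepancy of the two copies at `x`. -/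
noncomputable def gam (G : SimpleGraph V) [G.LocallyFinite] (θ : ℝ) (σ : Sch) (r : V) (R : Rule V)
    (x : V) (q : Dat V × Dat V) : ℝ :=
  (ML G θ σ r R (fun S ↦ sg S x) q.1 - ML G θ σ r R (fun S ↦ sg S x) q.2) ^ 2 +
    ∑ y ∈ G.neighborFinset x,
      ((ML G θ σ r R (fun S ↦ sg S x * sg S y) q.1 -
          ML G θ σ r R (fun S ↦ sg S x * sg S y) q.2) ^ 2 +
        (ML G θ σ r R (fun S ↦ sg S y) q.1 - ML G θ σ r R (fun S ↦ sg S y) q.2) ^ 2)

lemma abs_ML_all (hp : Par θ) (r : V) (R : Rule V) {f : Finset V → ℝ} {C : ℝ}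
    (hf : ∀ S, |f S| ≤ C) (p : Dat V) : |ML G θ σ r R f p| ≤ C := by
  have hb : ∀ n, |Mn G θ σ r R f n p| ≤ C := fun n ↦ Mn_abs hp r R hf n p
  have hu : IsBoundedUnder (· ≤ ·) atTop fun n ↦ Mn G θ σ r R f n p :=
    isBoundedUnder_of ⟨C, fun n ↦ (abs_le.1 (hb n)).2⟩
  have hl : IsBoundedUnder (· ≥ ·) atTop fun n ↦ Mn G θ σ r R f n p :=
    isBoundedUnder_of ⟨-C, fun n ↦ (abs_le.1 (hb n)).1⟩
  rw [abs_le]
  exact ⟨le_limsup_of_frequently_le (Frequently.of_forall fun n ↦ (abs_le.1 (hb n)).1) hu,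
    limsup_le_of_le (hl.isCoboundedUnder_flip) (.of_forall fun n ↦ (abs_le.1 (hb n)).2)⟩

lemma abs_sg3 (x y z : V) (S : Finset V) : |sg S x * sg S y * sg S z| ≤ 1 := by
  simp [abs_mul, sg_abs]

lemma abs_sg2 (x y : V) (S : Finset V) : |sg S x * sg S y| ≤ 1 := by
  simp [abs_mul, sg_abs]

lemma loc_sg3 (x y z : V) : Loc (fun S ↦ sg S x * sg S y * sg S z) {x, y, z} := fun S ↦ by
  change sg S x * sg S y * sg S z =
    sg (S ∩ {x, y, z}) x * sg (S ∩ {x, y, z}) y * sg (S ∩ {x, y, z}) z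
  rw [sg_congr (S := S ∩ {x, y, z}) (T := S) (x := x) (by simp),
    sg_congr (S := S ∩ {x, y, z}) (T := S) (x := y) (by simp),
    sg_congr (S := S ∩ {x, y, z}) (T := S) (x := z) (by simp)]

lemma ae_conv [Countable V] (hG : G.IsTree) (hp : Par θ) (r : V) {R : Rule V} (hR : RMeas R) :
    ∀ᵐ ω ∂Pm G θ r, Conv G θ σ r R (vis σ ω) := by
  have h1 := ae_all_iff.2 fun x : V ↦
    (tendsto_Mn (σ := σ) hG hp r hR (fun S ↦ (sg_abs S x).le) (loc_sg x)).1
  have h2 := ae_all_iff.2 fun x : V × V ↦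
    (tendsto_Mn (σ := σ) hG hp r hR (abs_sg2 x.1 x.2) (loc_sg_mul x.1 x.2)).1
  have h3 := ae_all_iff.2 fun x : V × V × V ↦
    (tendsto_Mn (σ := σ) hG hp r hR (abs_sg3 x.1 x.2.1 x.2.2) (loc_sg3 x.1 x.2.1 x.2.2)).1
  filter_upwards [h1, h2, h3] with ω a b c
  rintro f (⟨x, rfl⟩ | ⟨x, y, rfl⟩ | ⟨x, y, z, rfl⟩)
  · exact a x
  · exact b (x, y)
  · exact c (x, y, z)

section Pointwise

variable {r : V} {R : Rule V} {p : Dat V} (hc : Conv G θ σ r R p)
include hc

lemma conv_one (x : V) :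
    Tendsto (fun n ↦ Mn G θ σ r R (fun S ↦ sg S x) n p) atTop
      (𝓝 (ML G θ σ r R (fun S ↦ sg S x) p)) := hc _ (Or.inl ⟨x, rfl⟩)

lemma conv_two (x y : V) :
    Tendsto (fun n ↦ Mn G θ σ r R (fun S ↦ sg S x * sg S y) n p) atTop
      (𝓝 (ML G θ σ r R (fun S ↦ sg S x * sg S y) p)) := hc _ (Or.inr (Or.inl ⟨x, y, rfl⟩))

lemma tendsto_cv_one (x w : V) :
    Tendsto (fun n ↦ cv G θ σ (ball G r n) (past n (ball G r n) R p.1) p.2 (fun S ↦ sg S x)
      fun S ↦ sg S w) atTop (𝓝 (cL G θ σ r R (fun S ↦ sg S x) w p)) :=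
  (conv_two hc x w).sub ((conv_one hc x).mul (conv_one hc w))

lemma tendsto_cv_two (x y w : V) :
    Tendsto (fun n ↦ cv G θ σ (ball G r n) (past n (ball G r n) R p.1) p.2
      (fun S ↦ sg S x * sg S y) fun S ↦ sg S w) atTop
      (𝓝 (cL G θ σ r R (fun S ↦ sg S x * sg S y) w p)) :=
  (hc _ (Or.inr (Or.inr ⟨x, y, w, rfl⟩))).sub ((conv_two hc x y).mul (conv_one hc w))

/-- The finite-volume side posteriors converge. -/
lemma tendsto_sd (hG : G.IsTree) (hp : Par θ) {x q : V} (h : G.Adj x q) :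
    Tendsto (fun n ↦ sd G θ σ (ball G r n) (past n (ball G r n) R p.1) p.2 x q) atTop
      (𝓝 (aL G θ σ r R x q p)) := by
  set N := max (G.dist r x) (G.dist r q)
  have hrel : ∀ n, N ≤ n →
      (Mn G θ σ r R (fun S ↦ sg S x) n p + Mn G θ σ r R (fun S ↦ sg S x * sg S q) n p) *
        (1 + θ * sd G θ σ (ball G r n) (past n (ball G r n) R p.1) p.2 x q) =
      (sd G θ σ (ball G r n) (past n (ball G r n) R p.1) p.2 x q + θ) *
        (1 + Mn G θ σ r R (fun S ↦ sg S q) n p) ∧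
      (Mn G θ σ r R (fun S ↦ sg S x) n p - Mn G θ σ r R (fun S ↦ sg S x * sg S q) n p) *
        (1 - θ * sd G θ σ (ball G r n) (past n (ball G r n) R p.1) p.2 x q) =
      (sd G θ σ (ball G r n) (past n (ball G r n) R p.1) p.2 x q - θ) *
        (1 - Mn G θ σ r R (fun S ↦ sg S q) n p) := fun n hn ↦
    sd_rel hG ((mem_ball hG).2 ((le_max_left _ _).trans hn))
      ((mem_ball hG).2 ((le_max_right _ _).trans hn)) h past_snd p.2 hp
  set a := fun n ↦ sd G θ σ (ball G r n) (past n (ball G r n) R p.1) p.2 x q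
  set mx := fun n ↦ Mn G θ σ r R (fun S ↦ sg S x) n p
  set mq := fun n ↦ Mn G θ σ r R (fun S ↦ sg S q) n p
  set M := fun n ↦ Mn G θ σ r R (fun S ↦ sg S x * sg S q) n p
  have ha : ∀ n, |a n| ≤ 1 := fun n ↦ abs_sd hp _ _ _ _ _
  have hm : ∀ n, |mq n| ≤ 1 := fun n ↦ Mn_abs hp r R (fun S ↦ (sg_abs S q).le) n p
  have b1 : ∀ᶠ n in atTop, |mx n + M n| ≤ 1 + mq n ∧ |mx n - M n| ≤ 1 - mq n := by
    filter_upwards [eventually_ge_atTop N] with n hn
    obtain ⟨e1, e2⟩ := hrel n hn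
    obtain ⟨a1, a2⟩ := abs_le.1 (ha n)
    obtain ⟨m1, m2⟩ := abs_le.1 (hm n)
    have p1 : 0 < 1 + θ * a n := by nlinarith [hp.nonneg, hp.lt_one]
    have p2 : 0 < 1 - θ * a n := by nlinarith [hp.nonneg, hp.lt_one]
    constructor
    · rw [← mul_le_mul_iff_of_pos_right p1, ← abs_of_pos p1, ← abs_mul, e1, abs_mul,
        abs_of_nonneg (show 0 ≤ 1 + mq n by linarith), abs_of_pos p1, mul_comm (1 + mq n)]
      refine mul_le_mul_of_nonneg_right ?_ (by linarith)
      rw [abs_le]; constructor <;> nlinarith [hp.nonneg, hp.lt_one]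
    · rw [← mul_le_mul_iff_of_pos_right p2, ← abs_of_pos p2, ← abs_mul, e2, abs_mul,
        abs_of_nonneg (show 0 ≤ 1 - mq n by linarith), abs_of_pos p2, mul_comm (1 - mq n)]
      refine mul_le_mul_of_nonneg_right ?_ (by linarith)
      rw [abs_le]; constructor <;> nlinarith [hp.nonneg, hp.lt_one]
  have tx := conv_one hc x
  have tq := conv_one hc q
  have tM := conv_two hc x q
  have B1 := le_of_tendsto_of_tendsto ((tx.add tM).abs) (tq.const_add 1) (b1.mono fun n h ↦ h.1)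
  have B2 := le_of_tendsto_of_tendsto ((tx.sub tM).abs) (tq.const_sub 1) (b1.mono fun n h ↦ h.2)
  unfold aL
  have hθ := hp.nonneg
  have h1θ := hp.lt_one
  split_ifs with hs
  · have hden : (1 + ML G θ σ r R (fun S ↦ sg S q) p) - θ * (ML G θ σ r R (fun S ↦ sg S x) p +
        ML G θ σ r R (fun S ↦ sg S x * sg S q) p) ≠ 0 := by
      refine (ne_of_gt ?_)
      nlinarith [mul_le_mul_of_nonneg_left ((le_abs_self _).trans B1) hθ]
    have t1 := ((tx.add tM).sub ((tq.const_add 1).const_mul θ)).div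
      ((tq.const_add 1).sub ((tx.add tM).const_mul θ)) hden
    refine t1.congr' ?_
    filter_upwards [eventually_ge_atTop N,
      ((tq.const_add 1).sub ((tx.add tM).const_mul θ)).eventually_ne hden] with n hn hne
    simp only [Pi.div_apply]
    rw [div_eq_iff hne]
    linear_combination (hrel n hn).1
  · have hden : (1 - ML G θ σ r R (fun S ↦ sg S q) p) + θ * (ML G θ σ r R (fun S ↦ sg S x) p -
        ML G θ σ r R (fun S ↦ sg S x * sg S q) p) ≠ 0 := by
      refine (ne_of_gt ?_)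
      nlinarith [mul_le_mul_of_nonneg_left ((neg_le_abs _).trans B2) hθ, not_le.1 hs]
    have t1 := ((tx.sub tM).add ((tq.const_sub 1).const_mul θ)).div
      ((tq.const_sub 1).add ((tx.sub tM).const_mul θ)) hden
    refine t1.congr' ?_
    filter_upwards [eventually_ge_atTop N,
      ((tq.const_sub 1).add ((tx.sub tM).const_mul θ)).eventually_ne hden] with n hn hne
    simp only [Pi.div_apply]
    rw [div_eq_iff hne]
    linear_combination (hrel n hn).2

lemma abs_aL (hG : G.IsTree) (hp : Par θ) {x q : V} (h : G.Adj x q) :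
    |aL G θ σ r R x q p| ≤ 1 :=
  le_of_tendsto' (tendsto_sd hc hG hp h).abs fun n ↦ abs_sd hp _ _ _ _ _

lemma aL_small (hG : G.IsTree) (hp : Par θ) {x q : V} (h : G.Adj x q) :
    |aL G θ σ r R x q p| ≤ 8 / (1 - θ) ^ 2 * (|ML G θ σ r R (fun S ↦ sg S x) p| +
      |ML G θ σ r R (fun S ↦ sg S q) p| +
      |ML G θ σ r R (fun S ↦ sg S x * sg S q) p - θ|) := by
  refine le_of_tendsto_of_tendsto (tendsto_sd hc hG hp h).abs
    ((((conv_one hc x).abs.add (conv_one hc q).abs).add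
      ((conv_two hc x q).sub_const θ).abs).const_mul _) ?_
  filter_upwards [eventually_ge_atTop (max (G.dist r x) (G.dist r q))] with n hn
  obtain ⟨h1, h2⟩ := sd_rel (σ := σ) hG ((mem_ball hG).2 ((le_max_left _ _).trans hn))
    ((mem_ball hG).2 ((le_max_right _ _).trans hn)) h (past_snd (R := R) (T := p.1) (n := n)) p.2 hp
  exact side_small hp (abs_sd hp _ _ _ _ _) h1 h2

lemma aL_sub_sq_le (hG : G.IsTree) (hp : Par θ) {p' : Dat V} (hc' : Conv G θ σ r R p') {x q : V}
    (h : G.Adj x q) :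
    (aL G θ σ r R x q p - aL G θ σ r R x q p') ^ 2 ≤
      3 * (8 / (1 - θ) ^ 2) ^ 2 * gam G θ σ r R x (p, p') ∧
    (aL G θ σ r R x q p - aL G θ σ r R x q p') ^ 2 ≤
      3 * (8 / (1 - θ) ^ 2) ^ 2 * gam G θ σ r R q (p, p') := by
  set dx := |ML G θ σ r R (fun S ↦ sg S x) p - ML G θ σ r R (fun S ↦ sg S x) p'|
  set dq := |ML G θ σ r R (fun S ↦ sg S q) p - ML G θ σ r R (fun S ↦ sg S q) p'|
  set dM := |ML G θ σ r R (fun S ↦ sg S x * sg S q) p - ML G θ σ r R (fun S ↦ sg S x * sg S q) p'|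
  have hl : |aL G θ σ r R x q p - aL G θ σ r R x q p'| ≤ 8 / (1 - θ) ^ 2 * (dx + dq + dM) := by
    refine le_of_tendsto_of_tendsto ((tendsto_sd hc hG hp h).sub (tendsto_sd hc' hG hp h)).abs
      (((((conv_one hc x).sub (conv_one hc' x)).abs.add
        ((conv_one hc q).sub (conv_one hc' q)).abs).add
        ((conv_two hc x q).sub (conv_two hc' x q)).abs).const_mul _) ?_
    filter_upwards [eventually_ge_atTop (max (G.dist r x) (G.dist r q))] with n hn
    have hx' := (mem_ball hG (v := r)).2 ((le_max_left _ _).trans hn)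
    have hq' := (mem_ball hG (v := r)).2 ((le_max_right _ _).trans hn)
    obtain ⟨h1, h2⟩ := sd_rel (σ := σ) hG hx' hq' h (past_snd (R := R) (T := p.1) (n := n)) p.2 hp
    obtain ⟨h3, h4⟩ := sd_rel (σ := σ) hG hx' hq' h (past_snd (R := R) (T := p'.1) (n := n)) p'.2 hp
    exact side_lipschitz hp (abs_sd hp _ _ _ _ _) (abs_sd hp _ _ _ _ _) h1 h2 h3 h4
  have hsq : (aL G θ σ r R x q p - aL G θ σ r R x q p') ^ 2 ≤
      3 * (8 / (1 - θ) ^ 2) ^ 2 * (dx ^ 2 + dq ^ 2 + dM ^ 2) := by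
    rw [← sq_abs]
    refine (pow_le_pow_left₀ (abs_nonneg _) hl 2).trans ?_
    rw [mul_pow, mul_comm 3 _, mul_assoc]
    refine mul_le_mul_of_nonneg_left ?_ (sq_nonneg _)
    nlinarith [sq_nonneg (dx - dq), sq_nonneg (dx - dM), sq_nonneg (dq - dM)]
  have term : ∀ {a c : V}, G.Adj a c →
      (ML G θ σ r R (fun S ↦ sg S a) p - ML G θ σ r R (fun S ↦ sg S a) p') ^ 2 +
        ((ML G θ σ r R (fun S ↦ sg S a * sg S c) p -
            ML G θ σ r R (fun S ↦ sg S a * sg S c) p') ^ 2 +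
          (ML G θ σ r R (fun S ↦ sg S c) p - ML G θ σ r R (fun S ↦ sg S c) p') ^ 2) ≤
        gam G θ σ r R a (p, p') := fun {a c} hac ↦ by
    refine add_le_add le_rfl ?_
    exact single_le_sum (f := fun z ↦
        (ML G θ σ r R (fun S ↦ sg S a * sg S z) p -
            ML G θ σ r R (fun S ↦ sg S a * sg S z) p') ^ 2 +
          (ML G θ σ r R (fun S ↦ sg S z) p - ML G θ σ r R (fun S ↦ sg S z) p') ^ 2)
      (fun z _ ↦ by positivity) ((SimpleGraph.mem_neighborFinset G a c).2 hac)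
  simp only [dx, dq, dM, sq_abs] at hsq
  refine ⟨hsq.trans (mul_le_mul_of_nonneg_left ?_ (by positivity)),
    hsq.trans (mul_le_mul_of_nonneg_left ?_ (by positivity))⟩
  · linarith [term h]
  · have := term h.symm
    have e : (fun S : Finset V ↦ sg S q * sg S x) = fun S ↦ sg S x * sg S q := by
      funext S; ring
    rw [e] at this
    linarith

lemma tendsto_prodPsi (hG : G.IsTree) (hp : Par θ) (o w : V) {k : ℕ} (hk : k ≤ G.dist o w) :
    Tendsto (fun n ↦ prodPsi G θ σ (ball G r n) (past n (ball G r n) R p.1) p.2 o w k) atTop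
      (𝓝 (piL G θ σ r R o w k p)) := by
  refine tendsto_finset_prod _ fun i hi ↦ ?_
  have hadj := up_adj hG (o := o) (w := w) (i := i) (by have := Finset.mem_range.1 hi; omega)
  have ha := abs_aL hc hG hp hadj
  have hd := psi_den_pos hp ha
  have t := tendsto_sd hc hG hp hadj
  exact ((t.pow 2).const_sub 1).div (((t.pow 2).const_mul (θ ^ 2)).const_sub 1) hd.ne'

lemma piL_mem (hG : G.IsTree) (hp : Par θ) (o w : V) {k : ℕ} (hk : k ≤ G.dist o w) :
    0 ≤ piL G θ σ r R o w k p ∧ piL G θ σ r R o w k p ≤ 1 :=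
  ⟨ge_of_tendsto' (tendsto_prodPsi hc hG hp o w hk) fun n ↦ (prodPsi_mem hp _ _ _ _ _ _).1,
    le_of_tendsto' (tendsto_prodPsi hc hG hp o w hk) fun n ↦ (prodPsi_mem hp _ _ _ _ _ _).2⟩

/-- Covariance with a distant spin: the case of a single spin. -/
lemma cL_one (hG : G.IsTree) (hp : Par θ) (o w : V) :
    cL G θ σ r R (fun S ↦ sg S o) w p = θ ^ G.dist o w * piL G θ σ r R o w (G.dist o w) p *
      (1 - ML G θ σ r R (fun S ↦ sg S o) p ^ 2) := by
  refine tendsto_nhds_unique (tendsto_cv_one hc o w)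
    ((((tendsto_prodPsi hc hG hp o w le_rfl).const_mul _).mul
      (((conv_one hc o).pow 2).const_sub 1)).congr' ?_)
  filter_upwards [eventually_ge_atTop (max (G.dist r o) (G.dist r w))] with n hn
  have ho := (mem_ball hG (v := r)).2 ((le_max_left _ _).trans hn)
  have hw := (mem_ball hG (v := r)).2 ((le_max_right _ _).trans hn)
  rw [cv_path hG hp (sub_ball hG r n) ho past_snd p.2 (loc_sg o) (B := {o}) (by simpa using ho) _ w
    rfl hw (fun z hz i hi ↦ by
      rw [Finset.mem_singleton] at hz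
      subst hz
      rw [← onSide_comm hG (up_adj hG hi)]
      exact onSide_up_right hG hi), cv_self hp]
  rfl

/-- Covariance with a distant spin: the case of an edge, based at its end `o` nearer to `w`. -/
lemma cL_two (hG : G.IsTree) (hp : Par θ) {o e w : V} (he : G.Adj e o)
    (hside : ∀ i < G.dist o w, ¬ OnSide G (up G o w i) (up G o w (i + 1)) e) :
    cL G θ σ r R (fun S ↦ sg S e * sg S o) w p = θ ^ G.dist o w *
      piL G θ σ r R o w (G.dist o w) p *
      (ML G θ σ r R (fun S ↦ sg S e) p -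
        ML G θ σ r R (fun S ↦ sg S e * sg S o) p * ML G θ σ r R (fun S ↦ sg S o) p) := by
  refine tendsto_nhds_unique (tendsto_cv_two hc e o w)
    ((((tendsto_prodPsi hc hG hp o w le_rfl).const_mul _).mul
      ((conv_one hc e).sub ((conv_two hc e o).mul (conv_one hc o)))).congr' ?_)
  filter_upwards [eventually_ge_atTop (max (G.dist r o + 1) (G.dist r w))] with n hn
  have ho := (mem_ball hG (v := r)).2 ((Nat.le_succ _).trans ((le_max_left _ _).trans hn))
  have hw := (mem_ball hG (v := r)).2 ((le_max_right _ _).trans hn)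
  have he' : e ∈ ball G r n := by
    have := hG.connected.dist_triangle (u := r) (v := o) (w := e)
    rw [SimpleGraph.dist_eq_one_iff_adj.2 he.symm] at this
    exact (mem_ball hG).2 (by have := (le_max_left _ _).trans hn; omega)
  rw [cv_path hG hp (sub_ball hG r n) ho past_snd p.2 (loc_sg_mul e o) (B := {e, o})
    (by simp [Finset.subset_iff, ho, he']) _ w rfl hw (fun z hz i hi ↦ by
      rcases Finset.mem_insert.1 hz with rfl | hz
      · exact hside i hi
      · rw [Finset.mem_singleton] at hz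
        subst hz
        rw [← onSide_comm hG (up_adj hG hi)]
        exact onSide_up_right hG hi)]
  simp only [cv, mul_assoc, sg_mul_self, mul_one]
  rfl

/-- The two ways of factorising a two-point covariance. -/
lemma var_piL_symm (hG : G.IsTree) (hp : Par θ) (hθ : 0 < θ) (o w : V) :
    (1 - ML G θ σ r R (fun S ↦ sg S o) p ^ 2) * piL G θ σ r R o w (G.dist o w) p =
      (1 - ML G θ σ r R (fun S ↦ sg S w) p ^ 2) * piL G θ σ r R w o (G.dist o w) p := by
  have h1 := cL_one hc hG hp o w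
  have h2 := cL_one hc hG hp w o
  have e : cL G θ σ r R (fun S ↦ sg S o) w p = cL G θ σ r R (fun S ↦ sg S w) o p := by
    simp only [cL]
    rw [show (fun S : Finset V ↦ sg S o * sg S w) = fun S ↦ sg S w * sg S o by funext S; ring]
    ring
  rw [SimpleGraph.dist_comm (u := w) (v := o)] at h2
  have h3 : θ ^ G.dist o w ≠ 0 := (pow_pos hθ _).ne'
  apply mul_left_cancel₀ h3
  linear_combination e - h1 + h2

omit hc in
lemma var_mem (hp : Par θ) (x : V) : 0 ≤ 1 - ML G θ σ r R (fun S ↦ sg S x) p ^ 2 ∧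
    1 - ML G θ σ r R (fun S ↦ sg S x) p ^ 2 ≤ 1 := by
  have h := abs_ML_all (G := G) (σ := σ) hp r R (fun S ↦ (sg_abs S x).le) p
  rw [← sq_le_one_iff_abs_le_one] at h
  constructor <;> nlinarith [sq_nonneg (ML G θ σ r R (fun S ↦ sg S x) p)]

/-- The centre of an edge covariance is dominated by the variance of the nearer spin. -/
lemma abs_centre_le (_hG : G.IsTree) (hp : Par θ) (e o : V) :
    |ML G θ σ r R (fun S ↦ sg S e) p -
        ML G θ σ r R (fun S ↦ sg S e * sg S o) p * ML G θ σ r R (fun S ↦ sg S o) p| ≤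
      1 - ML G θ σ r R (fun S ↦ sg S o) p ^ 2 := by
  refine le_of_tendsto_of_tendsto'
    (((conv_one hc e).sub ((conv_two hc e o).mul (conv_one hc o))).abs)
    (((conv_one hc o).pow 2).const_sub 1) fun n ↦ ?_
  have h := abs_cv_le (σ := σ) hp (ball G r n) (past n (ball G r n) R p.1) p.2 o
    (G := G) (h := fun S ↦ sg S e * sg S o) (C := 1) (abs_sg2 e o)
  simp only [cv, mul_assoc, sg_mul_self, mul_one, one_mul] at h
  exact h

end Pointwise

end Vale.Agent.P161.Crit
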