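import Mathlib
import Vale.Agent.P161.Crit.Limits
import Vale.Agent.P161.Crit.Copies
import Vale.Agent.P161.Crit.Util.TreeAut

/-!
The discrepancy of the two copies: invariance, monotonicity and increments.
-/

namespace Vale.Agent.P161.Crit

open Finset MeasureTheory Filter

variable {V : Type*} [DecidableEq V] [Countable V] {G : SimpleGraph V} [G.LocallyFinite] {θ : ℝ}
  {σ : Sch}

/-- The expected local discrepancy at time `τ`. -/
noncomputable def gamE (G : SimpleGraph V) [G.LocallyFinite] (σ : Sch) (hp : Par θ) (r : V)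
    (τ : ℝ) : ℝ :=
  ∫ q, gam G θ σ r (rT σ τ) r q ∂P2 G σ hp r

/-- The expected squared change, over a time interval, of the discrepancy of a posterior mean. -/
noncomputable def incr2 (G : SimpleGraph V) [G.LocallyFinite] (σ : Sch) (hp : Par θ) (r : V)
    (t t' : ℝ) (f : Finset V → ℝ) : ℝ :=
  ∫ q, ((ML G θ σ r (rT σ t') f q.1 - ML G θ σ r (rT σ t') f q.2) -
    (ML G θ σ r (rT σ t) f q.1 - ML G θ σ r (rT σ t) f q.2)) ^ 2 ∂P2 G σ hp r

omit [DecidableEq V] [Countable V] in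
lemma msk_msk {R R' : Rule V} (h : ∀ T i, R T i → R' T i) (p : Dat V) :
    msk R (msk R' p) = msk R p := by
  classical
  refine Prod.ext rfl (funext fun i ↦ ?_)
  by_cases hi : R p.1 i
  · simp [msk, hi, h _ _ hi]
  · simp [msk, hi]

omit [Countable V] in
lemma bm_ML (hp : Par θ) (r : V) {R : Rule V} (hR : RMeas R) {f : Finset V → ℝ} {C : ℝ}
    (hf : ∀ S, |f S| ≤ C) : BM (ML G θ σ r R f) :=
  ⟨measurable_ML r hR f, C, abs_ML_all hp r R hf⟩

variable (hG : G.IsTree) (hp : Par θ) (r : V)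
include hG hp

/-- A later posterior mean minus an earlier one is centred given the earlier data. -/
lemma centred {R R' : Rule V} (hR : RMeas R) (hR' : RMeas R') (h : ∀ T i, R T i → R' T i)
    {f : Finset V → ℝ} {C : ℝ} (hf : ∀ S, |f S| ≤ C) {A : Finset V} (hA : Loc f A)
    {ψ : Dat V → ℝ} (hψ : BM ψ) :
    ∫ ω, ψ (msk R (vis σ ω)) * (ML G θ σ r R' f (vis σ ω) - ML G θ σ r R f (vis σ ω))
      ∂Pm G θ r = 0 := by
  have := Pm_prob (G := G) hp r
  have key : ∀ S : Rule V, RMeas S → (∀ T i, R T i → S T i) →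
      ∫ ω, ψ (msk R (vis σ ω)) * ML G θ σ r S f (vis σ ω) ∂Pm G θ r =
        ∫ ω, ψ (msk R (vis σ ω)) * f (conf A ω.1) ∂Pm G θ r := by
    intro S hS hsub
    have e := (tendsto_Mn (σ := σ) hG hp r hS hf hA).2
    have hm : Measurable fun ω : Om V ↦ msk S (vis σ ω) :=
      (measurable_msk hS).comp (measurable_vis σ)
    set φ : Om V → ℝ := fun ω ↦ ψ (msk R (vis σ ω))
    have hφm : StronglyMeasurable[MeasurableSpace.comap (fun ω : Om V ↦ msk S (vis σ ω))
        inferInstance] φ := by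
      have e2 : φ = (fun p ↦ ψ (msk R p)) ∘ fun ω : Om V ↦ msk S (vis σ ω) := by
        funext ω; simp only [φ, Function.comp_apply, msk_msk hsub]
      rw [e2]
      exact ((hψ.1.comp (measurable_msk hR)).comp (comap_measurable _)).stronglyMeasurable
    have hφ : BM φ := hψ.comp ((measurable_msk hR).comp (measurable_vis σ))
    have hf' : BM fun ω : Om V ↦ f (conf A ω.1) := bm_fconf hf A
    calc ∫ ω, φ ω * ML G θ σ r S f (vis σ ω) ∂Pm G θ r
        = ∫ ω, φ ω * ((Pm G θ r)[fun ω : Om V ↦ f (conf A ω.1) |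
            MeasurableSpace.comap (fun ω ↦ msk S (vis σ ω)) inferInstance]) ω ∂Pm G θ r :=
          integral_congr_ae (e.mono fun ω hω ↦ by simp only [hω])
      _ = ∫ ω, ((Pm G θ r)[φ * fun ω : Om V ↦ f (conf A ω.1) |
            MeasurableSpace.comap (fun ω ↦ msk S (vis σ ω)) inferInstance]) ω ∂Pm G θ r :=
          integral_congr_ae (condExp_mul_of_stronglyMeasurable_left hφm ((hφ.mul hf').integrable _)
            (hf'.integrable _)).symm
      _ = _ := integral_condExp hm.comap_le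
  have b1 := (hψ.comp ((measurable_msk hR).comp (measurable_vis σ))).mul
    ((bm_ML (G := G) (σ := σ) hp r hR' hf).comp (measurable_vis σ))
  have b2 := (hψ.comp ((measurable_msk hR).comp (measurable_vis σ))).mul
    ((bm_ML (G := G) (σ := σ) hp r hR hf).comp (measurable_vis σ))
  simp only [Function.comp_apply] at b1 b2
  simp only [mul_sub]
  rw [integral_sub (b1.integrable _) (b2.integrable _), key R' hR' h, key R hR fun _ _ h ↦ h,
    sub_self]

lemma ae_P2_fst {P : Dat V → Prop} (h : ∀ᵐ ω ∂Pm G θ r, P (vis σ ω))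
    (hm : MeasurableSet {p | P p}) : ∀ᵐ q ∂P2 G σ hp r, P q.1 := by
  have h' : ∀ᵐ p ∂(P2 G σ hp r).map Prod.fst, P p := by
    rw [P2_fst hG hp r, ae_map_iff (measurable_vis σ).aemeasurable hm]; exact h
  exact ae_of_ae_map measurable_fst.aemeasurable h'

lemma ae_P2_both {P : Dat V → Prop} (h : ∀ᵐ ω ∂Pm G θ r, P (vis σ ω))
    (hm : MeasurableSet {p | P p}) : ∀ᵐ q ∂P2 G σ hp r, P q.1 ∧ P q.2 := by
  have h1 := ae_P2_fst hG hp r h hm
  have h2 : ∀ᵐ q ∂(P2 G σ hp r).map Prod.swap, P q.1 := by rwa [P2_swap hG hp r]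
  exact h1.and ((ae_of_ae_map measurable_swap.aemeasurable h2).mono fun q hq ↦ hq)

omit hG [Countable V] in
lemma measurableSet_tendsto {R : Rule V} (hR : RMeas R) (f : Finset V → ℝ) :
    MeasurableSet {p : Dat V | Tendsto (fun n ↦ Mn G θ σ r R f n p) atTop
      (nhds (ML G θ σ r R f p))} := by
  have _ := hp
  exact measurableSet_tendsto_fun (fun n ↦ measurable_Mn r hR f n) (measurable_ML r hR f)

lemma ae_P2_conv {R : Rule V} (hR : RMeas R) :
    ∀ᵐ q ∂P2 G σ hp r, Conv G θ σ r R q.1 ∧ Conv G θ σ r R q.2 := by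
  refine ae_P2_both hG hp r (ae_conv hG hp r hR) ?_
  have e : {p : Dat V | Conv G θ σ r R p} =
      (⋂ x, {p | Tendsto (fun n ↦ Mn G θ σ r R (fun S ↦ sg S x) n p) atTop
        (nhds (ML G θ σ r R (fun S ↦ sg S x) p))}) ∩
      (⋂ x, ⋂ y, {p | Tendsto (fun n ↦ Mn G θ σ r R (fun S ↦ sg S x * sg S y) n p) atTop
        (nhds (ML G θ σ r R (fun S ↦ sg S x * sg S y) p))}) ∩
      (⋂ x, ⋂ y, ⋂ z, {p | Tendsto (fun n ↦ Mn G θ σ r R (fun S ↦ sg S x * sg S y * sg S z) n p)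
        atTop (nhds (ML G θ σ r R (fun S ↦ sg S x * sg S y * sg S z) p))}) := by
    ext p
    simp only [Conv, Set.mem_setOf_eq, Set.mem_inter_iff, Set.mem_iInter]
    refine ⟨fun h ↦ ⟨⟨fun x ↦ h _ (Or.inl ⟨x, rfl⟩), fun x y ↦ h _ (Or.inr (Or.inl ⟨x, y, rfl⟩))⟩,
      fun x y z ↦ h _ (Or.inr (Or.inr ⟨x, y, z, rfl⟩))⟩, ?_⟩
    rintro ⟨⟨h1, h2⟩, h3⟩ f (⟨x, rfl⟩ | ⟨x, y, rfl⟩ | ⟨x, y, z, rfl⟩)
    exacts [h1 x, h2 x y, h3 x y z]
  rw [e]
  exact ((MeasurableSet.iInter fun x ↦ measurableSet_tendsto hp r hR _).inter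
    (MeasurableSet.iInter fun x ↦ MeasurableSet.iInter fun y ↦ measurableSet_tendsto hp r hR _)).inter
    (MeasurableSet.iInter fun x ↦ MeasurableSet.iInter fun y ↦ MeasurableSet.iInter fun z ↦
      measurableSet_tendsto hp r hR _)

lemma integral_fst {φ : Dat V → ℝ} (hφ : BM φ) :
    ∫ q, φ q.1 ∂P2 G σ hp r = ∫ ω, φ (vis σ ω) ∂Pm G θ r := by
  rw [← integral_map measurable_fst.aemeasurable hφ.1.aestronglyMeasurable, P2_fst hG hp r,
    integral_map (measurable_vis σ).aemeasurable hφ.1.aestronglyMeasurable]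

lemma integral_swap2 {F : Dat V × Dat V → ℝ} (hF : BM F) :
    ∫ q, F q.swap ∂P2 G σ hp r = ∫ q, F q ∂P2 G σ hp r := by
  conv_rhs => rw [← P2_swap hG hp r]
  rw [integral_map measurable_swap.aemeasurable hF.1.aestronglyMeasurable]

omit hG in
lemma bm_diff {R : Rule V} (hR : RMeas R) {f : Finset V → ℝ} {C : ℝ} (hf : ∀ S, |f S| ≤ C) :
    BM fun q : Dat V × Dat V ↦ ML G θ σ r R f q.1 - ML G θ σ r R f q.2 :=
  ((bm_ML (G := G) (σ := σ) hp r hR hf).comp measurable_fst).sub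
    ((bm_ML (G := G) (σ := σ) hp r hR hf).comp measurable_snd)

omit hG in
lemma bm_gam {R : Rule V} (hR : RMeas R) (x : V) : BM (gam G θ σ r R x) := by
  have h : ∀ {f : Finset V → ℝ} {C : ℝ}, (∀ S, |f S| ≤ C) →
      BM fun q : Dat V × Dat V ↦ (ML G θ σ r R f q.1 - ML G θ σ r R f q.2) ^ 2 :=
    fun {f C} hf ↦ by
      simp only [sq]
      exact (bm_diff hp r hR hf).mul (bm_diff hp r hR hf)
  exact (h fun S ↦ (sg_abs S x).le).add
    (BM.sum _ fun y _ ↦ (h (abs_sg2 x y)).add (h fun S ↦ (sg_abs S y).le))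

lemma ae_move (g : G ≃g G) (τ : ℝ) {f f' : Finset V → ℝ} {A : Finset V}
    (hf : ∀ S, |f S| ≤ 1) (hf' : ∀ S, |f' S| ≤ 1) (hA : Loc f A)
    (hA' : Loc f' (A.map g.toEquiv.toEmbedding))
    (hff : ∀ S, f' (S.map g.toEquiv.toEmbedding) = f S) :
    ∀ᵐ q ∂P2 G σ hp r,
      ML G θ σ r (rT σ τ) f' (moveD g q.1) = ML G θ σ r (rT σ τ) f q.1 ∧
      ML G θ σ r (rT σ τ) f' (moveD g q.2) = ML G θ σ r (rT σ τ) f q.2 :=
  ae_P2_both hG hp r
    (P := fun p ↦ ML G θ σ r (rT σ τ) f' (moveD g p) = ML G θ σ r (rT σ τ) f p)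
    (ML_move (σ := σ) hG hp r g (rmeas_rT σ τ) (rmeas_rT σ τ) (rmap_rT g τ) hf hf' hA hA' hff)
    (measurableSet_eq_fun ((measurable_ML r (rmeas_rT σ τ) f').comp (measurable_moveD g))
      (measurable_ML r (rmeas_rT σ τ) f))

/-- The expected discrepancy is the same at every vertex. -/
lemma gam_invariant {d : ℕ} (hreg : G.IsRegularOfDegree d) (τ : ℝ) (x : V) :
    ∫ q, gam G θ σ r (rT σ τ) x q ∂P2 G σ hp r = gamE G σ hp r τ := by
  obtain ⟨g, hg, -⟩ := exists_aut hG hreg (o := r) (v := r) (o' := x) (v' := x) (by simp)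
  unfold gamE
  conv_lhs => rw [← P2_move hG hp r g]
  rw [integral_map ((measurable_moveD g).prodMap (measurable_moveD g)).aemeasurable
    (bm_gam hp r (rmeas_rT σ τ) x).1.aestronglyMeasurable]
  refine integral_congr_ae ?_
  have hR := rmeas_rT (V := V) σ τ
  have k1 := ae_all_iff.2 fun a : V ↦ ae_move (σ := σ) hG hp r g τ
    (f := fun S ↦ sg S a) (f' := fun S ↦ sg S (g a)) (fun S ↦ (sg_abs S a).le)
    (fun S ↦ (sg_abs S (g a)).le) (loc_sg a) (by rw [map_singleton']; exact loc_sg (g a))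
    (fun S ↦ sg_map g S a)
  have k2 := ae_all_iff.2 fun a : V × V ↦ ae_move (σ := σ) hG hp r g τ
    (f := fun S ↦ sg S a.1 * sg S a.2) (f' := fun S ↦ sg S (g a.1) * sg S (g a.2))
    (abs_sg2 a.1 a.2) (abs_sg2 (g a.1) (g a.2)) (loc_sg_mul a.1 a.2)
    (by rw [map_insert, map_singleton]; exact loc_sg_mul (g a.1) (g a.2))
    (fun S ↦ by simp only [sg_map])
  filter_upwards [k1, k2] with q h1 h2
  have hN : G.neighborFinset x = (G.neighborFinset r).map g.toEquiv.toEmbedding := by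
    ext z
    simp only [SimpleGraph.mem_neighborFinset, mem_map_equiv, ← hg]
    conv_lhs => rw [show z = g (g.symm z) by simp, g.map_adj_iff]
    rfl
  simp only [gam, Prod.map_fst, Prod.map_snd, hN, sum_map]
  rw [← hg, (h1 r).1, (h1 r).2]
  refine congrArg _ (sum_congr rfl fun y _ ↦ ?_)
  obtain ⟨a1, a2⟩ := h2 (r, y)
  rw [show g.toEquiv.toEmbedding y = g y from rfl, a1, a2, (h1 y).1, (h1 y).2]

/-- Squared discrepancies increase by their squared increments. -/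
lemma diff_sq (f : Finset V → ℝ) {C : ℝ} (hf : ∀ S, |f S| ≤ C) {A : Finset V} (hA : Loc f A)
    {t t' : ℝ} (h : t ≤ t') :
    ∫ q, (ML G θ σ r (rT σ t') f q.1 - ML G θ σ r (rT σ t') f q.2) ^ 2 ∂P2 G σ hp r -
      ∫ q, (ML G θ σ r (rT σ t) f q.1 - ML G θ σ r (rT σ t) f q.2) ^ 2 ∂P2 G σ hp r =
      incr2 G σ hp r t t' f := by
  have := P2_prob (σ := σ) hG hp r
  set m := ML G θ σ r (rT σ t) f
  set m' := ML G θ σ r (rT σ t') f
  have bm1 : BM m := bm_ML hp r (rmeas_rT σ t) hf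
  have bm2 : BM m' := bm_ML hp r (rmeas_rT σ t') hf
  have hcent : ∀ ψ : Dat V → ℝ, BM ψ →
      ∫ ω, ψ (msk (rT σ t) (vis σ ω)) * (m' (vis σ ω) - m (vis σ ω)) ∂Pm G θ r = 0 :=
    fun ψ hψ ↦ centred hG hp r (rmeas_rT σ t) (rmeas_rT σ t')
      (fun T i hi ↦ lt_of_lt_of_le hi h) hf hA hψ
  have e1 := immersion (σ := σ) hG hp r (R := rT σ t) (rmeas_rT σ t) (down_rT σ t) (φ := m)
    (φ' := fun _ ↦ 1) (X := fun p ↦ m' p - m p) bm1 (BM.const 1) (bm2.sub bm1)
    (fun p ↦ ML_msk r _ f fun i hi ↦ hi) (fun _ ↦ rfl) hcent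
  have e2 := immersion (σ := σ) hG hp r (R := rT σ t) (rmeas_rT σ t) (down_rT σ t)
    (φ := fun _ ↦ 1) (φ' := m) (X := fun p ↦ m' p - m p) (BM.const 1) bm1 (bm2.sub bm1)
    (fun _ ↦ rfl) (fun p ↦ ML_msk r _ f fun i hi ↦ hi) hcent
  have b1 : BM fun q : Dat V × Dat V ↦ (m q.1 - m q.2) * (m' q.1 - m q.1) :=
    ((bm1.comp measurable_fst).sub (bm1.comp measurable_snd)).mul
      ((bm2.comp measurable_fst).sub (bm1.comp measurable_fst))
  have k1 : ∫ q, (m q.1 - m q.2) * (m' q.1 - m q.1) ∂P2 G σ hp r = 0 := by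
    simp only [one_mul, mul_one] at e1 e2
    have i1 : BM fun q : Dat V × Dat V ↦ m q.1 * (m' q.1 - m q.1) :=
      (bm1.comp measurable_fst).mul ((bm2.comp measurable_fst).sub (bm1.comp measurable_fst))
    have i2 : BM fun q : Dat V × Dat V ↦ m q.2 * (m' q.1 - m q.1) :=
      (bm1.comp measurable_snd).mul ((bm2.comp measurable_fst).sub (bm1.comp measurable_fst))
    simp only [sub_mul]
    rw [integral_sub (i1.integrable _) (i2.integrable _), e1, e2, sub_self]
  have k2 : ∫ q, (m q.1 - m q.2) * (m' q.2 - m q.2) ∂P2 G σ hp r = 0 := by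
    have := integral_swap2 (σ := σ) hG hp r b1
    rw [k1] at this
    simp only [Prod.fst_swap, Prod.snd_swap] at this
    have e3 : ∀ q : Dat V × Dat V, (m q.1 - m q.2) * (m' q.2 - m q.2) =
        -((m q.2 - m q.1) * (m' q.2 - m q.2)) := fun q ↦ by ring
    simp only [e3, integral_neg, this, neg_zero]
  have b2 : BM fun q : Dat V × Dat V ↦ (m q.1 - m q.2) * (m' q.2 - m q.2) :=
    ((bm1.comp measurable_fst).sub (bm1.comp measurable_snd)).mul
      ((bm2.comp measurable_snd).sub (bm1.comp measurable_snd))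
  have d : BM fun q : Dat V × Dat V ↦ (m q.1 - m q.2) ^ 2 := by
    simp only [sq]
    exact ((bm1.comp measurable_fst).sub (bm1.comp measurable_snd)).mul
      ((bm1.comp measurable_fst).sub (bm1.comp measurable_snd))
  have d3 : BM fun q : Dat V × Dat V ↦ ((m' q.1 - m' q.2) - (m q.1 - m q.2)) ^ 2 := by
    simp only [sq]
    have := ((bm2.comp measurable_fst).sub (bm2.comp measurable_snd)).sub
      ((bm1.comp measurable_fst).sub (bm1.comp measurable_snd))
    exact this.mul this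
  have e : ∀ q : Dat V × Dat V, (m' q.1 - m' q.2) ^ 2 =
      ((m q.1 - m q.2) ^ 2 + ((m' q.1 - m' q.2) - (m q.1 - m q.2)) ^ 2) +
        (2 * ((m q.1 - m q.2) * (m' q.1 - m q.1)) - 2 * ((m q.1 - m q.2) * (m' q.2 - m q.2))) :=
    fun q ↦ by ring
  simp only [e]
  rw [integral_add ((d.add d3).integrable _) ((((BM.const 2).mul b1).sub
      ((BM.const 2).mul b2)).integrable _), integral_add (d.integrable _) (d3.integrable _),
    integral_sub (((BM.const 2).mul b1).integrable _) (((BM.const 2).mul b2).integrable _),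
    integral_const_mul, integral_const_mul, k1, k2]
  unfold incr2
  ring

/-- The increase of the expected discrepancy. -/
lemma gamE_diff {t t' : ℝ} (h : t ≤ t') :
    gamE G σ hp r t' - gamE G σ hp r t = incr2 G σ hp r t t' (fun S ↦ sg S r) +
      ∑ y ∈ G.neighborFinset r, (incr2 G σ hp r t t' (fun S ↦ sg S r * sg S y) +
        incr2 G σ hp r t t' (fun S ↦ sg S y)) := by
  have := P2_prob (σ := σ) hG hp r
  have b : ∀ (s : ℝ) {f : Finset V → ℝ}, (∀ S, |f S| ≤ 1) → Integrable (fun q : Dat V × Dat V ↦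
      (ML G θ σ r (rT σ s) f q.1 - ML G θ σ r (rT σ s) f q.2) ^ 2) (P2 G σ hp r) :=
    fun s {f} hf ↦ by
      simp only [sq]
      exact ((bm_diff hp r (rmeas_rT σ s) hf).mul (bm_diff hp r (rmeas_rT σ s) hf)).integrable _
  simp only [gamE, gam]
  rw [integral_add (b t' fun S ↦ (sg_abs S r).le) (integrable_finsetSum _ fun y _ ↦
      (b t' (abs_sg2 r y)).fun_add (b t' fun S ↦ (sg_abs S y).le)),
    integral_add (b t fun S ↦ (sg_abs S r).le) (integrable_finsetSum _ fun y _ ↦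
      (b t (abs_sg2 r y)).fun_add (b t fun S ↦ (sg_abs S y).le)),
    integral_finsetSum _ (fun y _ ↦ (b t' (abs_sg2 r y)).fun_add (b t' fun S ↦ (sg_abs S y).le)),
    integral_finsetSum _ (fun y _ ↦ (b t (abs_sg2 r y)).fun_add (b t fun S ↦ (sg_abs S y).le)),
    ← diff_sq hG hp r _ (fun S ↦ (sg_abs S r).le) (loc_sg r) h, add_sub_add_comm, ← sum_sub_distrib]
  congr 1
  refine sum_congr rfl fun y _ ↦ ?_
  rw [integral_add (b t' (abs_sg2 r y)) (b t' fun S ↦ (sg_abs S y).le),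
    integral_add (b t (abs_sg2 r y)) (b t fun S ↦ (sg_abs S y).le),
    ← diff_sq hG hp r _ (abs_sg2 r y) (loc_sg_mul r y) h,
    ← diff_sq hG hp r _ (fun S ↦ (sg_abs S y).le) (loc_sg y) h]
  ring

lemma gamE_mono {t t' : ℝ} (h : t ≤ t') : gamE G σ hp r t ≤ gamE G σ hp r t' := by
  have e := gamE_diff (σ := σ) hG hp r h
  have h0 : ∀ f, 0 ≤ incr2 G σ hp r t t' f := fun f ↦ integral_nonneg fun q ↦ sq_nonneg _
  have : 0 ≤ ∑ y ∈ G.neighborFinset r, (incr2 G σ hp r t t' (fun S ↦ sg S r * sg S y) +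
      incr2 G σ hp r t t' (fun S ↦ sg S y)) := sum_nonneg fun y _ ↦ add_nonneg (h0 _) (h0 _)
  linarith [h0 fun S ↦ sg S r]

omit hG in
lemma gamE_nonneg (τ : ℝ) : 0 ≤ gamE G σ hp r τ :=
  integral_nonneg fun q ↦ add_nonneg (sq_nonneg _) (sum_nonneg fun y _ ↦ by positivity)

end Vale.Agent.P161.Crit
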