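import Mathlib
import Vale.Agent.P161.Crit.Error

/-!
Finite-window quantities at revelation times compared with fixed times; sums over spheres.
-/

namespace Vale.Agent.P161.Crit

open Finset MeasureTheory Filter

variable {V : Type*} [DecidableEq V] {G : SimpleGraph V} [G.LocallyFinite] {θ : ℝ} {σ : Sch}

/-- A quantity depending on a set of revealed indices and on the observations there. -/
def PDep (Ψ : Finset (Ix V) → (Ix V → ℝ) → Finset (Ix V) → (Ix V → ℝ) → ℝ) : Prop :=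
  ∀ P P' : Finset (Ix V), ∀ y z y' z' : Ix V → ℝ, (∀ i ∈ P, y i = z i) → (∀ i ∈ P', y' i = z' i) →
    Ψ P y P' y' = Ψ P z P' z'

omit [DecidableEq V] in
lemma past_rT_left (n : ℕ) (D : Finset V) (T : Ix V → ℝ) (j : Ix V) :
    ∀ᶠ τ in nhdsWithin (tm σ T j) (Set.Iio (tm σ T j)),
      past n D (rT σ τ) T = past n D (rJ σ j) T := by
  have key : ∀ i ∈ (range n ×ˢ D : Finset (Ix V)),
      ∀ᶠ τ in nhdsWithin (tm σ T j) (Set.Iio (tm σ T j)), tm σ T i < τ ↔ tm σ T i < tm σ T j := by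
    intro i _
    by_cases h : tm σ T i < tm σ T j
    · filter_upwards [Ioo_mem_nhdsLT h] with τ hτ
      exact ⟨fun _ ↦ h, fun _ ↦ hτ.1⟩
    · filter_upwards [self_mem_nhdsWithin] with τ (hτ : τ < _)
      exact ⟨fun h' ↦ absurd (h'.trans hτ) h, fun h' ↦ absurd h' h⟩
  filter_upwards [(eventually_all_finset _).2 key] with τ hτ
  ext i
  simp only [mem_past, rT, rJ]
  exact and_congr_right fun h1 ↦ and_congr_right fun h2 ↦
    hτ i (mem_product.2 ⟨Finset.mem_range.2 h1, h2⟩)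

omit [DecidableEq V] in
lemma measurableSet_past_eq (n : ℕ) (D : Finset V) {R : Rule V} (hR : RMeas R)
    (P : Finset (Ix V)) : MeasurableSet {T : Ix V → ℝ | past n D R T = P} := by
  classical
  by_cases hP : P ⊆ range n ×ˢ D
  · have e : {T : Ix V → ℝ | past n D R T = P} =
        ⋂ i ∈ (range n ×ˢ D : Finset (Ix V)), {T | R T i ↔ i ∈ P} := by
      ext T
      simp only [Set.mem_setOf_eq, Set.mem_iInter]
      refine ⟨fun h i hi ↦ ?_, fun h ↦ ?_⟩
      · rw [← h, past, mem_filter]; exact ⟨fun hR ↦ ⟨hi, hR⟩, fun hh ↦ hh.2⟩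
      · ext i
        simp only [past, mem_filter]
        exact ⟨fun hh ↦ (h i hh.1).1 hh.2, fun hh ↦ ⟨hP hh, (h i (hP hh)).2 hh⟩⟩
    rw [e]
    refine MeasurableSet.biInter (Finset.countable_toSet _) fun i _ ↦ ?_
    by_cases hi : i ∈ P
    · simpa [hi] using hR i
    · simpa [hi, ← Set.compl_setOf] using (hR i).compl
  · convert MeasurableSet.empty
    ext T
    simp only [Set.mem_setOf_eq, Set.mem_empty_iff_false, iff_false]
    rintro rfl
    exact hP (filter_subset _ _)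

open Classical in
/-- A window quantity with jointly measurable time dependence. -/
lemma measurable_window (n : ℕ) (D : Finset V)
    {Ψ : Finset (Ix V) → (Ix V → ℝ) → Finset (Ix V) → (Ix V → ℝ) → ℝ}
    (hm : ∀ P P', Measurable fun z : (Ix V → ℝ) × (Ix V → ℝ) ↦ Ψ P z.1 P' z.2) :
    Measurable fun z : ℝ × (Dat V × Dat V) ↦
      Ψ (past n D (rT σ z.1) z.2.1.1) z.2.1.2 (past n D (rT σ z.1) z.2.2.1) z.2.2.2 := by
  have hset : ∀ (g : ℝ × (Dat V × Dat V) → Ix V → ℝ), Measurable g → ∀ P,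
      MeasurableSet {z : ℝ × (Dat V × Dat V) | past n D (rT σ z.1) (g z) = P} := by
    intro g hg P
    by_cases hP : P ⊆ range n ×ˢ D
    · have e : {z : ℝ × (Dat V × Dat V) | past n D (rT σ z.1) (g z) = P} =
          ⋂ i ∈ (range n ×ˢ D : Finset (Ix V)), {z | tm σ (g z) i < z.1 ↔ i ∈ P} := by
        ext z
        simp only [Set.mem_setOf_eq, Set.mem_iInter]
        refine ⟨fun h i hi ↦ ?_, fun h ↦ ?_⟩
        · rw [← h, past, mem_filter]; exact ⟨fun hR ↦ ⟨hi, hR⟩, fun hh ↦ hh.2⟩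
        · ext i
          rw [past, mem_filter]
          exact ⟨fun hh ↦ (h i hh.1).1 hh.2, fun hh ↦ ⟨hP hh, (h i (hP hh)).2 hh⟩⟩
      rw [e]
      refine MeasurableSet.biInter (Finset.countable_toSet _) fun i _ ↦ ?_
      have hlt : MeasurableSet {z : ℝ × (Dat V × Dat V) | tm σ (g z) i < z.1} :=
        measurableSet_lt ((measurable_tm σ i).comp hg) measurable_fst
      by_cases hi : i ∈ P
      · simpa [hi] using hlt
      · simp only [hi, iff_false]; exact hlt.compl
    · convert MeasurableSet.empty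
      ext z
      simp only [Set.mem_setOf_eq, Set.mem_empty_iff_false, iff_false]
      intro h; exact hP (h ▸ filter_subset _ _)
  set W := ((range n ×ˢ D : Finset (Ix V))).powerset
  have e : (fun z : ℝ × (Dat V × Dat V) ↦
      Ψ (past n D (rT σ z.1) z.2.1.1) z.2.1.2 (past n D (rT σ z.1) z.2.2.1) z.2.2.2) = fun z ↦
      ∑ P ∈ W, ∑ P' ∈ W, {z : ℝ × (Dat V × Dat V) | past n D (rT σ z.1) z.2.1.1 = P ∧
        past n D (rT σ z.1) z.2.2.1 = P'}.indicator (fun z ↦ Ψ P z.2.1.2 P' z.2.2.2) z := by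
    funext z
    rw [sum_eq_single (past n D (rT σ z.1) z.2.1.1), sum_eq_single (past n D (rT σ z.1) z.2.2.1)]
    · simp
    · intro P' _ hne; simp [Ne.symm hne]
    · intro h; exact absurd (Finset.mem_powerset.2 (filter_subset _ _)) h
    · intro P _ hne
      exact sum_eq_zero fun P' _ ↦ by simp [Ne.symm hne]
    · intro h; exact absurd (Finset.mem_powerset.2 (filter_subset _ _)) h
  rw [e]
  refine Finset.measurable_sum _ fun P _ ↦ Finset.measurable_sum _ fun P' _ ↦
    Measurable.indicator ?_ ((hset _ (by fun_prop) P).inter (hset _ (by fun_prop) P'))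
  exact (hm P P').comp (by fun_prop : Measurable fun z : ℝ × (Dat V × Dat V) ↦
    (z.2.1.2, z.2.2.2))

variable [Countable V] (hG : G.IsTree) (hp : Par θ) (r : V)
include hG hp

/-- A window quantity at the revelation time of `j` is bounded through fixed times. -/
lemma conv_window (n : ℕ) (D : Finset V) (j : Ix V) {t0 t t' B C : ℝ} (ht0 : 0 ≤ t0) (ht : t0 < t)
    (ht' : t ≤ t') {Ψ : Finset (Ix V) → (Ix V → ℝ) → Finset (Ix V) → (Ix V → ℝ) → ℝ}
    (hm : ∀ P P', Measurable fun z : (Ix V → ℝ) × (Ix V → ℝ) ↦ Ψ P z.1 P' z.2) (hd : PDep Ψ)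
    (hC : ∀ P y P' y', 0 ≤ Ψ P y P' y' ∧ Ψ P y P' y' ≤ C)
    (hB : ∀ τ, t0 < τ → τ < t' → ∫ q, Ψ (past n D (rT σ τ) q.1.1) q.1.2
      (past n D (rT σ τ) q.2.1) q.2.2 ∂P2 G σ hp r ≤ B) :
    ∫ q, {q : Dat V × Dat V | t ≤ tm σ q.1.1 j ∧ tm σ q.1.1 j < t'}.indicator
      (fun q ↦ Ψ (past n D (rJ σ j) q.1.1) q.1.2 (past n D (rJ σ j) q.2.1) q.2.2) q
      ∂P2 G σ hp r ≤ hw σ j.1 t0 * ((t' - t0) * B) := by
  classical
  have := P2_prob (σ := σ) hG hp r
  set F : ℝ → Dat V × Dat V → ℝ := fun τ q ↦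
    Ψ (past n D (rT σ τ) q.1.1) q.1.2 (past n D (rT σ τ) q.2.1) q.2.2
  have hFm : Measurable fun z : ℝ × (Dat V × Dat V) ↦ F z.1 z.2 := measurable_window n D hm
  have hS : ∀ τ, Strict2 σ τ (F τ) := by
    intro τ q q' h1 h2 h3 h4
    have e1 : past n D (rT σ τ) q.1.1 = past n D (rT σ τ) q'.1.1 := by
      ext i; simp only [mem_past, h1 i]
    have e2 : past n D (rT σ τ) q.2.1 = past n D (rT σ τ) q'.2.1 := by
      ext i; simp only [mem_past, h2 i]
    simp only [F, ← e1, ← e2]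
    exact hd _ _ _ _ _ _ (fun i hi ↦ (h3 i (mem_past.1 hi).2.2).2)
      (fun i hi ↦ (h4 i (mem_past.1 hi).2.2).2)
  have hFj : Measurable fun q : Dat V × Dat V ↦
      Ψ (past n D (rJ σ j) q.1.1) q.1.2 (past n D (rJ σ j) q.2.1) q.2.2 := by
    set W := ((range n ×ˢ D : Finset (Ix V))).powerset
    have e : (fun q : Dat V × Dat V ↦
        Ψ (past n D (rJ σ j) q.1.1) q.1.2 (past n D (rJ σ j) q.2.1) q.2.2) = fun q ↦
        ∑ P ∈ W, ∑ P' ∈ W, {q : Dat V × Dat V | past n D (rJ σ j) q.1.1 = P ∧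
          past n D (rJ σ j) q.2.1 = P'}.indicator (fun q ↦ Ψ P q.1.2 P' q.2.2) q := by
      funext q
      rw [sum_eq_single (past n D (rJ σ j) q.1.1), sum_eq_single (past n D (rJ σ j) q.2.1)]
      · simp
      · intro P' _ hne; simp [Ne.symm hne]
      · intro h; exact absurd (Finset.mem_powerset.2 (filter_subset _ _)) h
      · intro P _ hne
        exact sum_eq_zero fun P' _ ↦ by simp [Ne.symm hne]
      · intro h; exact absurd (Finset.mem_powerset.2 (filter_subset _ _)) h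
    rw [e]
    refine Finset.measurable_sum _ fun P _ ↦ Finset.measurable_sum _ fun P' _ ↦
      Measurable.indicator ((hm P P').comp
        (by fun_prop : Measurable fun q : Dat V × Dat V ↦ (q.1.2, q.2.2))) ?_
    exact ((measurableSet_past_eq n D (rmeas_rJ σ j) P).preimage
      (by fun_prop : Measurable fun q : Dat V × Dat V ↦ q.1.1)).inter
      ((measurableSet_past_eq n D (rmeas_rJ σ j) P').preimage
      (by fun_prop : Measurable fun q : Dat V × Dat V ↦ q.2.1))
  refine (conversion (σ := σ) hG hp r j ht0 ht hFm (fun τ q ↦ hC _ _ _ _) hS hFj ?_).trans ?_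
  · filter_upwards [P2_same hG hp r] with q hq _ _
    filter_upwards [past_rT_left (σ := σ) n D q.1.1 j] with τ hτ
    simp only [F, ← hq.1, hτ]
  · refine mul_le_mul_of_nonneg_left ?_ (div_nonneg zero_le_one
      (add_nonneg (σ.c_pos _).le (le_max_right _ _)))
    have hint : IntegrableOn (fun τ ↦ ∫ q, F τ q ∂P2 G σ hp r) (Set.Ioo t0 t') :=
      Integrable.of_bound hFm.stronglyMeasurable.integral_prod_right'.aestronglyMeasurable C
        (.of_forall fun τ ↦ by
          refine (norm_integral_le_of_norm_le_const (C := C) (.of_forall fun q ↦ ?_)).trans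
            (by simp)
          rw [Real.norm_eq_abs, abs_of_nonneg (hC _ _ _ _).1]
          exact (hC _ _ _ _).2)
    calc ∫ τ in Set.Ioo t0 t', ∫ q, F τ q ∂P2 G σ hp r
        ≤ ∫ _τ in Set.Ioo t0 t', B := setIntegral_mono_on hint (integrable_const B)
          measurableSet_Ioo fun τ hτ ↦ hB τ hτ.1 hτ.2
      _ = (t' - t0) * B := by
          rw [setIntegral_const, measureReal_def, Real.volume_Ioo,
            ENNReal.toReal_ofReal (by linarith), smul_eq_mul]

/-- The single-copy version. -/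
lemma conv_window₁ (n : ℕ) (D : Finset V) (j : Ix V) {t0 t t' B C : ℝ} (ht0 : 0 ≤ t0) (ht : t0 < t)
    (ht' : t ≤ t') {Ψ : Finset (Ix V) → (Ix V → ℝ) → ℝ} (hm : ∀ P, Measurable (Ψ P))
    (hd : ∀ P, Dep (Ψ P) P) (hC : ∀ P y, 0 ≤ Ψ P y ∧ Ψ P y ≤ C)
    (hB : ∀ τ, t0 < τ → τ < t' →
      ∫ ω, Ψ (past n D (rT σ τ) (vis σ ω).1) (vis σ ω).2 ∂Pm G θ r ≤ B) :
    ∫ ω, {ω : Om V | t ≤ tm σ (vis σ ω).1 j ∧ tm σ (vis σ ω).1 j < t'}.indicator
      (fun ω ↦ Ψ (past n D (rJ σ j) (vis σ ω).1) (vis σ ω).2) ω ∂Pm G θ r ≤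
      hw σ j.1 t0 * ((t' - t0) * B) := by
  classical
  have := P2_prob (σ := σ) hG hp r
  have hsum : ∀ {R : Rule V}, RMeas R →
      BM fun p : Dat V ↦ Ψ (past n D R p.1) p.2 := by
    intro R hR
    refine ⟨?_, C, fun p ↦ by rw [abs_of_nonneg (hC _ _).1]; exact (hC _ _).2⟩
    have e : (fun p : Dat V ↦ Ψ (past n D R p.1) p.2) = fun p ↦
        ∑ P ∈ ((range n ×ˢ D : Finset (Ix V))).powerset,
          {p : Dat V | past n D R p.1 = P}.indicator (fun p ↦ Ψ P p.2) p := by
      funext p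
      rw [sum_eq_single (past n D R p.1)]
      · simp
      · intro P _ hne; simp [Ne.symm hne]
      · intro h; exact absurd (Finset.mem_powerset.2 (filter_subset _ _)) h
    rw [e]
    exact Finset.measurable_sum _ fun P _ ↦ Measurable.indicator ((hm P).comp measurable_snd)
      ((measurableSet_past_eq n D hR P).preimage measurable_fst)
  have hI : MeasurableSet {p : Dat V | t ≤ tm σ p.1 j ∧ tm σ p.1 j < t'} :=
    ((measurableSet_le measurable_const (measurable_tm σ j)).inter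
      (measurableSet_lt (measurable_tm σ j) measurable_const)).preimage measurable_fst
  have bI : BM fun p : Dat V ↦ {p : Dat V | t ≤ tm σ p.1 j ∧ tm σ p.1 j < t'}.indicator
      (fun p ↦ Ψ (past n D (rJ σ j) p.1) p.2) p :=
    ⟨(hsum (rmeas_rJ σ j)).1.indicator hI, C, fun p ↦ by
      dsimp only
      by_cases h : t ≤ tm σ p.1 j ∧ tm σ p.1 j < t'
      · rw [Set.indicator_of_mem (s := {p : Dat V | t ≤ tm σ p.1 j ∧ tm σ p.1 j < t'}) h,
          abs_of_nonneg (hC _ _).1]
        exact (hC _ _).2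
      · rw [Set.indicator_of_notMem (s := {p : Dat V | t ≤ tm σ p.1 j ∧ tm σ p.1 j < t'}) h,
          abs_zero]
        exact (hC ∅ p.2).1.trans (hC ∅ p.2).2⟩
  have h := conv_window (σ := σ) hG hp r n D j ht0 ht ht' (B := B) (C := C)
    (Ψ := fun P y _ _ ↦ Ψ P y) (fun P _ ↦ (hm P).comp measurable_fst)
    (fun P _ y z _ _ h _ ↦ hd P y z h) (fun P y _ _ ↦ hC P y) (fun τ h1 h2 ↦ by
      rw [integral_fst hG hp r (hsum (rmeas_rT σ τ))]; exact hB τ h1 h2)
  exact le_of_eq_of_le (integral_fst hG hp r bI).symm h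

end Vale.Agent.P161.Crit
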