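import Mathlib
import Vale.Agent.P161.Crit.Telescope
import Vale.Agent.P161.Crit.Cut
import Vale.Agent.P161.Crit.Window

/-!
Conditional expectations of functions of the visible data in a window: their finite-volume
formula, their limits and the form of their increments.
-/

namespace Vale.Agent.P161.Crit

open Finset MeasureTheory Filter Topology

variable {V : Type*} [DecidableEq V] {G : SimpleGraph V} {θ : ℝ} {σ : Sch}

/-- The mean of `A` given the configuration and the observations on `P`. -/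
noncomputable def hA (σ : Sch) (A : Dat V → ℝ) (P : Finset (Ix V)) (p : Dat V) (S : Finset V) : ℝ :=
  ∫ w, A (p.1, spl (P : Set (Ix V)) p.2 (obs σ S w)) ∂W01 V

/-- The posterior mean of a function of the visible data. -/
noncomputable def pA (G : SimpleGraph V) (θ : ℝ) (σ : Sch) (A : Dat V → ℝ) (D : Finset V)
    (P : Finset (Ix V)) (p : Dat V) : ℝ :=
  pf G θ σ D P p.2 (hA σ A P p)

/-- The conditional expectation of `A` given the data selected by `R` in the `n`-th model. -/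
noncomputable def MA (G : SimpleGraph V) [G.LocallyFinite] (θ : ℝ) (σ : Sch) (r : V) (R : Rule V)
    (A : Dat V → ℝ) (n : ℕ) (p : Dat V) : ℝ :=
  pA G θ σ A (ball G r n) (past n (ball G r n) R p.1) p

/-- Its infinite-volume limit. -/
noncomputable def MAL (G : SimpleGraph V) [G.LocallyFinite] (θ : ℝ) (σ : Sch) (r : V) (R : Rule V)
    (A : Dat V → ℝ) (p : Dat V) : ℝ :=
  limsup (fun n ↦ MA G θ σ r R A n p) atTop

/-- The mean of `A` given the labels. -/
noncomputable def alphaA (G : SimpleGraph V) (θ : ℝ) (σ : Sch) (A : Dat V → ℝ) (E : Finset V)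
    (p : Dat V) : ℝ :=
  ∑ S ∈ E.powerset, tw G θ E S * ∫ w, A (p.1, obs σ S w) ∂W01 V

/-- An observable of the labels and the selected observations in a window over `E`. -/
structure Obsv (n : ℕ) (E : Finset V) (R : Rule V) (A : Dat V → ℝ) : Prop where
  meas : Measurable A
  abs_le : ∀ p, |A p| ≤ 1
  dep : RDep n E R A

variable {n0 : ℕ} {E : Finset V} {R0 : Rule V} {A : Dat V → ℝ}

omit [DecidableEq V] in
lemma Obsv.bm (hA' : Obsv n0 E R0 A) : BM A := ⟨hA'.meas, 1, hA'.abs_le⟩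

lemma abs_hA (hA' : Obsv n0 E R0 A) (P : Finset (Ix V)) (p : Dat V) (S : Finset V) :
    |hA σ A P p S| ≤ 1 := by
  refine (norm_integral_le_of_norm_le_const (μ := W01 V) (C := 1)
    (f := fun w ↦ A (p.1, spl (P : Set (Ix V)) p.2 (obs σ S w)))
    (.of_forall fun w ↦ hA'.abs_le _)).trans ?_
  simp

lemma hA_congr (σ : Sch) (A : Dat V → ℝ) {P : Finset (Ix V)} {p p' : Dat V} (h1 : p.1 = p'.1)
    (h2 : ∀ i ∈ P, p.2 i = p'.2 i) (S : Finset V) : hA σ A P p S = hA σ A P p' S := by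
  unfold hA
  congr 1
  funext w
  rw [h1]
  congr 2
  funext i
  simp only [spl]
  split_ifs with hi
  · exact h2 i hi
  · rfl

/-- The window observations see only the spins over `E`. -/
lemma loc_hA (hA' : Obsv n0 E R0 A) (P : Finset (Ix V)) (p : Dat V) : Loc (hA σ A P p) E := by
  intro S
  unfold hA
  congr 1
  funext w
  refine hA'.dep _ _ (fun i _ ↦ rfl) fun i hi ↦ ?_
  simp only [spl]
  split_ifs with hc
  · rfl
  · simp only [obs]
    rw [sg_congr (S := S) (T := S ∩ E) (x := i.2) (by simp [(mem_past.1 hi).2.1])]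

/-- Indices outside the window are not seen. -/
lemma hA_insert (hA' : Obsv n0 E R0 A) (P : Finset (Ix V)) {j : Ix V}
    (hj : j ∉ (range n0 ×ˢ E : Finset (Ix V))) (p : Dat V) :
    hA σ A (insert j P) p = hA σ A P p := by
  funext S
  unfold hA
  congr 1
  funext w
  refine hA'.dep _ _ (fun i _ ↦ rfl) fun i hi ↦ ?_
  have hne : i ≠ j := fun e ↦ hj (e ▸ mem_product.2
    ⟨Finset.mem_range.2 (mem_past.1 hi).1, (mem_past.1 hi).2.1⟩)
  simp [spl, hne]

lemma pA_congr (A : Dat V → ℝ) (D : Finset V) {P : Finset (Ix V)} {p p' : Dat V} (h1 : p.1 = p'.1)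
    (h2 : ∀ i ∈ P, p.2 i = p'.2 i) : pA G θ σ A D P p = pA G θ σ A D P p' := by
  rw [pA, pA, funext (hA_congr σ A h1 h2)]
  exact pf_congr _ h2

lemma abs_pA (hp : Par θ) (hA' : Obsv n0 E R0 A) (D : Finset V) (P : Finset (Ix V)) (p : Dat V) :
    |pA G θ σ A D P p| ≤ 1 :=
  pf_abs hp _ _ _ (abs_hA hA' P p)

lemma bm_alphaA (hA' : Obsv n0 E R0 A) : BM (alphaA G θ σ A E) := by
  refine BM.sum _ fun S _ ↦ (BM.const _).mul ?_
  have h : BM fun x : Dat V × (Ix V → ℝ) ↦ A (x.1.1, obs σ S x.2) :=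
    hA'.bm.comp ((measurable_fst.comp measurable_fst).prodMk
      ((measurable_obs S).comp measurable_snd))
  exact h.avg (W01 V)

lemma alphaA_congr (hA' : Obsv n0 E R0 A) {p p' : Dat V}
    (h : ∀ i ∈ (range n0 ×ˢ E : Finset (Ix V)), p.1 i = p'.1 i) :
    alphaA G θ σ A E p = alphaA G θ σ A E p' := by
  unfold alphaA
  refine sum_congr rfl fun S _ ↦ ?_
  congr 2
  funext w
  exact hA'.dep _ _ h fun i _ ↦ rfl

variable [G.LocallyFinite]

omit [G.LocallyFinite] in
lemma measurable_pA_past (n : ℕ) (D : Finset V) {R : Rule V} (hR : RMeas R)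
    (hA' : Obsv n0 E R0 A) :
    Measurable fun p : Dat V ↦ pA G θ σ A D (past n D R p.1) p := by
  classical
  have hh : ∀ S, Measurable fun p : Dat V ↦ hA σ A (past n D R p.1) p S := by
    intro S
    have hm : Measurable fun x : Dat V × (Ix V → ℝ) ↦
        ((x.1.1, spl (past n D R x.1.1 : Set (Ix V)) x.1.2 (obs σ S x.2)) : Dat V) := by
      refine (measurable_fst.comp measurable_fst).prodMk (measurable_pi_iff.2 fun i ↦ ?_)
      simp only [spl, Finset.mem_coe, mem_past]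
      refine Measurable.ite ?_ (by fun_prop) ((measurable_pi_apply i).comp
        ((measurable_obs S).comp measurable_snd))
      exact (MeasurableSet.const _).inter ((MeasurableSet.const _).inter
        ((hR i).preimage (measurable_fst.comp measurable_fst)))
    exact (hA'.bm.comp hm).avg (W01 V) |>.1
  have hlik : ∀ S, Measurable fun p : Dat V ↦ lik σ (past n D R p.1) p.2 S := by
    intro S
    simp only [lik, past, prod_filter]
    refine Finset.measurable_prod _ fun i _ ↦ ?_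
    refine Measurable.ite ((hR i).preimage measurable_fst) ?_ measurable_const
    have := measurable_c11
    fun_prop
  simp only [pA, pf, pS]
  exact (Finset.measurable_sum _ fun S _ ↦ measurable_const.mul ((hlik S).mul (hh S))).div
    (Finset.measurable_sum _ fun S _ ↦ measurable_const.mul ((hlik S).mul measurable_const))

lemma bm_MA (hp : Par θ) (r : V) {R : Rule V} (hR : RMeas R) (hA' : Obsv n0 E R0 A) (n : ℕ) :
    BM (MA G θ σ r R A n) :=
  ⟨measurable_pA_past n _ hR hA', 1, fun _ ↦ abs_pA hp hA' _ _ _⟩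

lemma measurable_MAL (r : V) {R : Rule V} (hR : RMeas R) (hA' : Obsv n0 E R0 A) :
    Measurable (MAL G θ σ r R A) :=
  Measurable.limsup fun n ↦ measurable_pA_past n _ hR hA'

lemma abs_MAL (hp : Par θ) (r : V) (R : Rule V) (hA' : Obsv n0 E R0 A) (p : Dat V) :
    |MAL G θ σ r R A p| ≤ 1 := by
  have hb : ∀ n, |MA G θ σ r R A n p| ≤ 1 := fun n ↦ abs_pA hp hA' _ _ _
  have hu : IsBoundedUnder (· ≤ ·) atTop fun n ↦ MA G θ σ r R A n p :=
    isBoundedUnder_of ⟨1, fun n ↦ (abs_le.1 (hb n)).2⟩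
  have hl : IsBoundedUnder (· ≥ ·) atTop fun n ↦ MA G θ σ r R A n p :=
    isBoundedUnder_of ⟨-1, fun n ↦ (abs_le.1 (hb n)).1⟩
  rw [abs_le]
  exact ⟨le_limsup_of_frequently_le (Frequently.of_forall fun n ↦ (abs_le.1 (hb n)).1) hu,
    limsup_le_of_le (hl.isCoboundedUnder_flip) (.of_forall fun n ↦ (abs_le.1 (hb n)).2)⟩

lemma bm_MAL (hp : Par θ) (r : V) {R : Rule V} (hR : RMeas R) (hA' : Obsv n0 E R0 A) :
    BM (MAL G θ σ r R A) :=
  ⟨measurable_MAL r hR hA', 1, abs_MAL hp r R hA'⟩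

lemma MA_msk (r : V) (R : Rule V) {R' : Rule V} (n : ℕ) {p : Dat V}
    (h : ∀ i, R p.1 i → R' p.1 i) :
    MA G θ σ r R A n (msk R' p) = MA G θ σ r R A n p := by
  refine pA_congr A _ rfl fun i hi ↦ ?_
  have h3 : R p.1 i := (mem_past.1 hi).2.2
  simp only [msk]
  rw [if_pos (h i h3)]

lemma MAL_msk (r : V) (R : Rule V) {R' : Rule V} {p : Dat V} (h : ∀ i, R p.1 i → R' p.1 i) :
    MAL G θ σ r R A (msk R' p) = MAL G θ σ r R A p := by
  simp only [MAL, MA_msk r R _ h]

omit [DecidableEq V] [G.LocallyFinite] in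
lemma win_dep (hA' : Obsv n0 E R0 A) {n : ℕ} {D : Finset V} (hn : n0 ≤ n) (hED : E ⊆ D)
    (T : Ix V → ℝ) : Dep (fun y ↦ A (T, y)) (range n ×ˢ D) := fun y y' h ↦
  hA'.dep _ _ (fun _ _ ↦ rfl) fun i hi ↦ h i (mem_product.2
    ⟨Finset.mem_range.2 ((mem_past.1 hi).1.trans_le hn), hED (mem_past.1 hi).2.1⟩)

/-- The finite-volume formula is orthogonal to the past. -/
lemma orth_A (hG : G.IsTree) (hp : Par θ) {r v : V} {n : ℕ} {D : Finset V} (hD : Sub G D v)
    (hA' : Obsv n0 E R0 A) (hn : n0 ≤ n) (hED : E ⊆ D) {R : Rule V} (hR : RMeas R)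
    {φ : Dat V → ℝ} (hφ : BM φ) (hdep : ∀ T, Dep (fun y ↦ φ (T, y)) (past n D R T)) :
    ∫ ω, φ (vis σ ω) * A (vis σ ω) ∂Pm G θ r =
      ∫ ω, φ (vis σ ω) * pA G θ σ A D (past n D R (vis σ ω).1) (vis σ ω) ∂Pm G θ r := by
  classical
  have hob : ∀ S : Finset V, Measurable fun z : Dat V ↦ ((z.2, obs σ S z.1) : Dat V) :=
    fun S ↦ measurable_snd.prodMk ((measurable_obs S).comp measurable_fst)
  have hpA : BM fun p : Dat V ↦ pA G θ σ A D (past n D R p.1) p :=
    ⟨measurable_pA_past n D hR hA', 1, fun _ ↦ abs_pA hp hA' _ _ _⟩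
  have hdW : ∀ T, ∀ i ∈ past n D R T, i ∈ (range n ×ˢ D : Finset (Ix V)) := fun T i hi ↦
    mem_product.2 ⟨Finset.mem_range.2 (mem_past.1 hi).1, (mem_past.1 hi).2.1⟩
  set h1 : Finset V → Dat V → ℝ := fun S z ↦ φ (z.2, obs σ S z.1) * A (z.2, obs σ S z.1)
    with h1def
  set h2 : Finset V → Dat V → ℝ := fun S z ↦
    φ (z.2, obs σ S z.1) * pA G θ σ A D (past n D R z.2) (z.2, obs σ S z.1) with h2def
  have hh1 : ∀ S, BM (h1 S) := fun S ↦ (hφ.comp (hob S)).mul (hA'.bm.comp (hob S))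
  have hh2 : ∀ S, BM (h2 S) := fun S ↦ (hφ.comp (hob S)).mul (hpA.comp (hob S))
  have eφ : ∀ ω : Om V, φ (vis σ ω) = φ (ω.2.2, obs σ (conf D ω.1) ω.2.1) := fun ω ↦
    hdep ω.2.2 _ _ fun i hi ↦ Yv_eq_obs (mem_past.1 hi).2.1 ω
  have eA : ∀ ω : Om V, A (vis σ ω) = A (ω.2.2, obs σ (conf D ω.1) ω.2.1) := fun ω ↦
    win_dep hA' hn hED ω.2.2 _ _ fun i hi ↦ Yv_eq_obs (mem_product.1 hi).2 ω
  have e1 : (fun ω : Om V ↦ φ (vis σ ω) * A (vis σ ω)) = fun ω ↦ h1 (conf D ω.1) ω.2 := by
    funext ω; rw [eφ ω, eA ω, h1def]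
  have e2 : (fun ω : Om V ↦ φ (vis σ ω) * pA G θ σ A D (past n D R (vis σ ω).1) (vis σ ω)) =
      fun ω ↦ h2 (conf D ω.1) ω.2 := by
    funext ω
    rw [eφ ω, h2def]
    congr 1
    exact pA_congr A D rfl fun i hi ↦ Yv_eq_obs (mem_past.1 hi).2.1 ω
  rw [e1, e2, gint hG hp hD h1 hh1, gint hG hp hD h2 hh2]
  simp only [h1def, h2def]
  congr 1
  funext T
  set P := past n D R T with hP
  have hφT : BM fun y ↦ φ (T, y) := bm_section hφ T
  have hpT : BM fun y ↦ pA G θ σ A D P (T, y) := bm_section hpA T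
  have hdp : Dep (fun y ↦ φ (T, y) * pA G θ σ A D P (T, y)) P := fun y y' h ↦ by
    simp only [show φ (T, y) = φ (T, y') from hdep T y y' h,
      pA_congr (σ := σ) (G := G) (θ := θ) A D (p := (T, y)) (p' := (T, y')) rfl h]
  have hhS : ∀ S, BM fun y : Ix V → ℝ ↦ φ (T, y) * hA σ A P (T, y) S := fun S ↦ by
    refine hφT.mul (f := fun y ↦ φ (T, y)) ?_
    have hm : Measurable fun x : (Ix V → ℝ) × (Ix V → ℝ) ↦
        ((T, spl (P : Set (Ix V)) x.1 (obs σ S x.2)) : Dat V) :=
      measurable_const.prodMk ((measurable_spl (P : Set (Ix V))).comp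
        (measurable_fst.prodMk ((measurable_obs S).comp measurable_snd)))
    exact (hA'.bm.comp hm).avg (W01 V)
  have hdS : ∀ S, Dep (fun y : Ix V → ℝ ↦ φ (T, y) * hA σ A P (T, y) S) P := fun S y y' h ↦ by
    simp only [show φ (T, y) = φ (T, y') from hdep T y y' h,
      hA_congr σ A (p := (T, y)) (p' := (T, y')) rfl h]
  have lhs : ∀ S, ∫ w, φ (T, obs σ S w) * A (T, obs σ S w) ∂W01 V =
      ∫ y, φ (T, y) * hA σ A P (T, y) S * lik σ P y S ∂W11 V := by
    intro S
    rw [← integral_obs (σ := σ) S P _ (hhS S) (hdS S)]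
    have hb : BM fun w ↦ φ (T, obs σ S w) * A (T, obs σ S w) :=
      (hφT.comp (measurable_obs S)).mul ((bm_section hA'.bm T).comp (measurable_obs S))
    rw [W01, ← integral_spl u01 (P : Set (Ix V)) hb]
    congr 1
    funext w
    rw [hA, W01, ← integral_const_mul]
    congr 1
    funext w'
    have e : obs σ S (spl (P : Set (Ix V)) w w') = spl (P : Set (Ix V)) (obs σ S w) (obs σ S w') := by
      funext i
      simp only [obs, spl]
      split_ifs <;> rfl
    rw [e]
    congr 1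
    exact hdep T _ _ fun i hi ↦ by
      have hi' : i ∈ P := hi
      simp [spl, hi']
  have rhs : ∀ S, ∫ w, φ (T, obs σ S w) * pA G θ σ A D P (T, obs σ S w) ∂W01 V =
      ∫ y, φ (T, y) * pA G θ σ A D P (T, y) * lik σ P y S ∂W11 V := fun S ↦
    integral_obs S P _ (hφT.mul hpT) hdp
  simp only [lhs, rhs, ← integral_const_mul]
  rw [← integral_finsetSum _ fun S _ ↦ (((hhS S).mul (bm_lik P S)).integrable _).const_mul _,
    ← integral_finsetSum _ fun S _ ↦ (((hφT.mul hpT).mul (bm_lik P S)).integrable _).const_mul _]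
  congr 1
  funext y
  have hsplit : pS G θ σ D P y (hA σ A P (T, y)) =
      pA G θ σ A D P (T, y) * pS G θ σ D P y (fun _ ↦ 1) := by
    rw [pA, pf, div_mul_cancel₀ _ (den_pos hp D P y).ne']
  calc ∑ S ∈ D.powerset, tw G θ D S * (φ (T, y) * hA σ A P (T, y) S * lik σ P y S)
      = φ (T, y) * pS G θ σ D P y (hA σ A P (T, y)) := by
        rw [pS, mul_sum]; exact sum_congr rfl fun S _ ↦ by ring
    _ = _ := by
        rw [hsplit, ← mul_assoc, pS, mul_sum]
        exact sum_congr rfl fun S _ ↦ by ring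

/-- The finite-volume formula is a conditional expectation. -/
lemma MA_eq_condExp (hG : G.IsTree) (hp : Par θ) (r : V) {R : Rule V} (hR : RMeas R)
    (hA' : Obsv n0 E R0 A) {n : ℕ} (hn : n0 ≤ n) (hE : E ⊆ ball G r n) :
    (fun ω ↦ MA G θ σ r R A n (vis σ ω)) =ᵐ[Pm G θ r] (Pm G θ r)[fun ω : Om V ↦ A (vis σ ω) |
      MeasurableSpace.comap (fun ω ↦ mskW (win G r n) R (vis σ ω)) inferInstance] := by
  classical
  have := Pm_prob (G := G) hp r
  have hm : Measurable fun ω : Om V ↦ mskW (win G r n) R (vis σ ω) :=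
    (measurable_mskW _ hR).comp (measurable_vis σ)
  have hMA := (bm_MA (G := G) (σ := σ) hp r hR hA' n).comp (measurable_vis σ)
  refine ae_eq_condExp_of_forall_setIntegral_eq hm.comap_le
    ((hA'.bm.comp (measurable_vis σ)).integrable _)
    (fun B _ _ ↦ (hMA.integrable _).integrableOn) ?_ ?_
  · intro B hB _
    obtain ⟨B', hB', rfl⟩ := hB
    set φ : Dat V → ℝ := fun p ↦ B'.indicator (fun _ ↦ 1) (mskW (win G r n) R p)
    have hφ : BM φ := ⟨(measurable_const.indicator hB').comp (measurable_mskW _ hR), 1, fun p ↦ by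
      simp only [φ]; by_cases h : mskW (win G r n) R p ∈ B' <;> simp [h]⟩
    have hdep : ∀ T, Dep (fun y ↦ φ (T, y)) (past n (ball G r n) R T) := by
      intro T y y' h
      simp only [φ]
      congr 1
      refine Prod.ext rfl (funext fun i ↦ ?_)
      simp only [mskW]
      split_ifs with hc
      · exact h i (mem_past.2 ⟨Finset.mem_range.1 (mem_product.1 hc.1).1,
          (mem_product.1 hc.1).2, hc.2⟩)
      · rfl
    have hB2 : MeasurableSet ((fun ω ↦ mskW (win G r n) R (vis σ ω)) ⁻¹' B') := hm hB'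
    rw [← integral_indicator hB2, ← integral_indicator hB2]
    have := (orth_A hG hp (r := r) (σ := σ) (sub_ball hG r n) hA' hn hE hR hφ hdep).symm
    refine Eq.trans (integral_congr_ae (.of_forall fun ω ↦ ?_))
      (this.trans (integral_congr_ae (.of_forall fun ω ↦ ?_)))
    · simp only [φ, Set.indicator, Set.mem_preimage, ite_mul, one_mul, zero_mul]; rfl
    · simp only [φ, Set.indicator, Set.mem_preimage, ite_mul, one_mul, zero_mul]
  · refine StronglyMeasurable.aestronglyMeasurable (Measurable.stronglyMeasurable ?_)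
    have e : (fun ω ↦ MA G θ σ r R A n (vis σ ω)) =
        (fun p ↦ MA G θ σ r R A n p) ∘ (fun ω ↦ mskW (win G r n) R (vis σ ω)) := by
      funext ω
      simp only [Function.comp_apply, MA]
      refine (pA_congr (P := past n (ball G r n) R (vis σ ω).1)
        (p := mskW (win G r n) R (vis σ ω)) (p' := vis σ ω) A (ball G r n) rfl fun i hi ↦ ?_).symm
      obtain ⟨h1, h2, h3⟩ := mem_past.1 hi
      simp only [mskW]
      rw [if_pos ⟨mem_product.2 ⟨Finset.mem_range.2 h1, h2⟩, h3⟩]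
    rw [e]
    exact (bm_MA hp r hR hA' n).1.comp (comap_measurable _)

/-- Martingale convergence, and identification of the limit. -/
lemma tendsto_MA (hG : G.IsTree) (hp : Par θ) (r : V) {R : Rule V} (hR : RMeas R)
    (hA' : Obsv n0 E R0 A) (hE : E ⊆ ball G r n0) :
    (∀ᵐ ω ∂Pm G θ r, Tendsto (fun n ↦ MA G θ σ r R A n (vis σ ω)) atTop
      (𝓝 (MAL G θ σ r R A (vis σ ω)))) ∧
    (fun ω ↦ MAL G θ σ r R A (vis σ ω)) =ᵐ[Pm G θ r] (Pm G θ r)[fun ω : Om V ↦ A (vis σ ω) |
      MeasurableSpace.comap (fun ω ↦ msk R (vis σ ω)) inferInstance] := by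
  have := Pm_prob (G := G) hp r
  have hl := tendsto_ae_condExp (μ := Pm G θ r) (ℱ := filt hG σ r R hR)
    (fun ω : Om V ↦ A (vis σ ω))
  rw [iSup_filt hG r hR] at hl
  have key : ∀ᵐ ω ∂Pm G θ r, ∀ n, n0 ≤ n → MA G θ σ r R A n (vis σ ω) =
      (Pm G θ r)[fun ω : Om V ↦ A (vis σ ω) | filt hG σ r R hR n] ω :=
    ae_all_iff.2 fun n ↦ by
      by_cases hn : n0 ≤ n
      · exact (MA_eq_condExp hG hp r hR hA' hn (hE.trans (ball_mono hG r hn))).mono
          fun ω hω _ ↦ hω
      · exact .of_forall fun ω h ↦ absurd h hn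
  have hlim : ∀ᵐ ω ∂Pm G θ r, Tendsto (fun n ↦ MA G θ σ r R A n (vis σ ω)) atTop
      (𝓝 ((Pm G θ r)[fun ω : Om V ↦ A (vis σ ω) |
        MeasurableSpace.comap (fun ω ↦ msk R (vis σ ω)) inferInstance] ω)) := by
    filter_upwards [hl, key] with ω h1 h2
    refine h1.congr' ?_
    filter_upwards [eventually_ge_atTop n0] with n hn
    exact (h2 n hn).symm
  refine ⟨?_, ?_⟩
  · filter_upwards [hlim] with ω h
    rwa [MAL, h.limsup_eq]
  · filter_upwards [hlim] with ω h
    rw [MAL, h.limsup_eq]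

/-- A later conditional mean minus an earlier one is centred given the earlier data. -/
lemma centred_MAL [Countable V] (hG : G.IsTree) (hp : Par θ) (r : V) {R R' : Rule V}
    (hR : RMeas R) (hR' : RMeas R') (h : ∀ T i, R T i → R' T i) (hA' : Obsv n0 E R0 A)
    (hE : E ⊆ ball G r n0) {ψ : Dat V → ℝ} (hψ : BM ψ) :
    ∫ ω, ψ (msk R (vis σ ω)) * (MAL G θ σ r R' A (vis σ ω) - MAL G θ σ r R A (vis σ ω))
      ∂Pm G θ r = 0 := by
  have := Pm_prob (G := G) hp r
  have key : ∀ S : Rule V, RMeas S → (∀ T i, R T i → S T i) →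
      ∫ ω, ψ (msk R (vis σ ω)) * MAL G θ σ r S A (vis σ ω) ∂Pm G θ r =
        ∫ ω, ψ (msk R (vis σ ω)) * A (vis σ ω) ∂Pm G θ r := by
    intro S hS hsub
    have e := (tendsto_MA (σ := σ) hG hp r hS hA' hE).2
    have hm : Measurable fun ω : Om V ↦ msk S (vis σ ω) :=
      (measurable_msk hS).comp (measurable_vis σ)
    set φ : Om V → ℝ := fun ω ↦ ψ (msk R (vis σ ω))
    have hφm : StronglyMeasurable[MeasurableSpace.comap (fun ω : Om V ↦ msk S (vis σ ω))
        inferInstance] φ := by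
      have e2 : φ = (fun p ↦ ψ (msk R p)) ∘ fun ω : Om V ↦ msk S (vis σ ω) := by
        funext ω; simp only [φ, Function.comp_apply, msk_msk hsub]
      rw [e2]
      exact ((hψ.1.comp (measurable_msk hR)).comp (comap_measurable _)).stronglyMeasurable
    have hφ : BM φ := hψ.comp ((measurable_msk hR).comp (measurable_vis σ))
    have hf' : BM fun ω : Om V ↦ A (vis σ ω) := hA'.bm.comp (measurable_vis σ)
    calc ∫ ω, φ ω * MAL G θ σ r S A (vis σ ω) ∂Pm G θ r
        = ∫ ω, φ ω * ((Pm G θ r)[fun ω : Om V ↦ A (vis σ ω) |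
            MeasurableSpace.comap (fun ω ↦ msk S (vis σ ω)) inferInstance]) ω ∂Pm G θ r :=
          integral_congr_ae (e.mono fun ω hω ↦ by simp only [hω])
      _ = ∫ ω, ((Pm G θ r)[φ * fun ω : Om V ↦ A (vis σ ω) |
            MeasurableSpace.comap (fun ω ↦ msk S (vis σ ω)) inferInstance]) ω ∂Pm G θ r :=
          integral_congr_ae (condExp_mul_of_stronglyMeasurable_left hφm ((hφ.mul hf').integrable _)
            (hf'.integrable _)).symm
      _ = _ := integral_condExp hm.comap_le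
  have b : ∀ {S : Rule V}, RMeas S →
      BM fun ω : Om V ↦ ψ (msk R (vis σ ω)) * MAL G θ σ r S A (vis σ ω) := fun hS ↦
    (hψ.comp ((measurable_msk hR).comp (measurable_vis σ))).mul
      ((bm_MAL (G := G) (σ := σ) hp r hS hA').comp (measurable_vis σ))
  simp only [mul_sub]
  rw [integral_sub ((b hR').integrable _) ((b hR).integrable _), key R' hR' h,
    key R hR fun _ _ h ↦ h, sub_self]

omit [G.LocallyFinite] in
/-- With the whole window revealed the posterior mean is the observable itself. -/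
lemma pA_top (hp : Par θ) (hA' : Obsv n0 E R0 A) (D : Finset V) {P : Finset (Ix V)} (p : Dat V)
    (hP : past n0 E R0 p.1 ⊆ P) : pA G θ σ A D P p = A p := by
  have e : hA σ A P p = fun _ ↦ A p := by
    funext S
    have e2 : ∀ w, A (p.1, spl (P : Set (Ix V)) p.2 (obs σ S w)) = A p := fun w ↦
      hA'.dep _ _ (fun _ _ ↦ rfl) fun i hi ↦ by simp [spl, hP hi]
    simp [hA, e2]
  rw [pA, e, pf_const hp]

omit [G.LocallyFinite] in
/-- With nothing revealed it is the mean given the labels. -/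
lemma pA_bot (hG : G.IsTree) (hA' : Obsv n0 E R0 A) {D : Finset V} {v e : V} (hD : Sub G D v)
    (hE : Sub G E e) (hED : E ⊆ D) (p : Dat V) : pA G θ σ A D ∅ p = alphaA G θ σ A E p := by
  have hv : e ∈ D := hED hE.1
  have h0 : ∀ S, hA σ A ∅ p S = hA σ A ∅ p (S ∩ E) := loc_hA hA' ∅ p
  have h1 : ∀ S, hA σ A ∅ p S = ∫ w, A (p.1, obs σ S w) ∂W01 V := fun S ↦ by
    have e : ∀ y z : Ix V → ℝ, spl ((∅ : Finset (Ix V)) : Set (Ix V)) y z = z := fun y z ↦
      funext fun i ↦ by simp [spl]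
    simp only [hA, e]
  rw [pA, pf_empty' hG hD, sum_congr rfl (fun S _ ↦ by rw [h0]),
    sum_tw_restrict hG θ hE (hD.reroot hG hv) hED (fun S ↦ hA σ A ∅ p S), alphaA]
  simp only [h1]
where
  pf_empty' {θ : ℝ} {σ : Sch} {D : Finset V} {v : V} {y : Ix V → ℝ} {f : Finset V → ℝ}
      (hG : G.IsTree) (hD : Sub G D v) :
      pf G θ σ D ∅ y f = ∑ S ∈ D.powerset, tw G θ D S * f S := by
    simp [pf, pS, lik, sum_tw hG θ hD]

omit [G.LocallyFinite] in
/-- The increment at an index outside the window. -/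
lemma pA_insert (hp : Par θ) (hA' : Obsv n0 E R0 A) (D : Finset V) {P : Finset (Ix V)} {j : Ix V}
    (hj : j ∉ P) (hjW : j ∉ (range n0 ×ˢ E : Finset (Ix V))) (p : Dat V) :
    pA G θ σ A D (insert j P) p - pA G θ σ A D P p =
      cv G θ σ D P p.2 (hA σ A P p) (fun S ↦ sg S j.2) *
        xi (σ.s j.1) (pf G θ σ D P p.2 fun S ↦ sg S j.2) (p.2 j) := by
  rw [pA, pA, hA_insert hA' P hjW]
  exact pf_insert hp D hj p.2 _

end Vale.Agent.P161.Crit
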