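import Mathlib
import Vale.Agent.P161.Crit.Model
import Vale.Agent.P161.Crit.Util.Growth

/-!
The concrete scheme: geometrically fine levels near time zero, unit levels later.
-/

namespace Vale.Agent.P161.Crit

open Finset

/-- The level scale: `2^{-(m+1)}` for the fine level `2m`. -/
noncomputable def scl (k : ℕ) : ℝ := (1 / 2 : ℝ) ^ (k / 2 + 1)

lemma scl_pos (k : ℕ) : 0 < scl k := by unfold scl; positivity

lemma scl_le (k : ℕ) : scl k ≤ 1 := pow_le_one₀ (by norm_num) (by norm_num)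

/-- The scheme used at the threshold. -/
noncomputable def sch : Sch where
  s k := if k % 2 = 0 then Real.sqrt (scl k) / 2 else 1 / 2
  a k := if k % 2 = 0 then scl k else ((k / 2 : ℕ) : ℝ) + 1
  c k := if k % 2 = 0 then scl k else 1
  s_nonneg k := by split_ifs <;> positivity
  s_le k := by
    split_ifs
    · have := Real.sqrt_le_sqrt (scl_le k); rw [Real.sqrt_one] at this; linarith
    · exact le_rfl
  a_nonneg k := by
    split_ifs
    · exact (scl_pos k).le
    · positivity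
  c_pos k := by
    split_ifs
    · exact scl_pos k
    · exact one_pos

lemma sch_even (m : ℕ) : sch.a (2 * m) = (1 / 2 : ℝ) ^ (m + 1) ∧
    sch.c (2 * m) = (1 / 2 : ℝ) ^ (m + 1) ∧ sch.s (2 * m) ^ 2 = (1 / 2 : ℝ) ^ (m + 1) / 4 := by
  have h : (2 * m) % 2 = 0 := by omega
  have h' : scl (2 * m) = (1 / 2 : ℝ) ^ (m + 1) := by
    rw [scl, show 2 * m / 2 = m by omega]
  refine ⟨by simp [sch, h, h'], by simp [sch, h, h'], ?_⟩
  have : sch.s (2 * m) = Real.sqrt (scl (2 * m)) / 2 := by simp [sch, h]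
  rw [this, div_pow, Real.sq_sqrt (scl_pos _).le, h']
  norm_num

lemma sch_odd (m : ℕ) : sch.a (2 * m + 1) = (m : ℝ) + 1 ∧ sch.c (2 * m + 1) = 1 ∧
    sch.s (2 * m + 1) = 1 / 2 := by
  have h : (2 * m + 1) % 2 = 1 := by omega
  have h2 : (2 * m + 1) / 2 = m := by omega
  simp [sch, h, h2]

/-- A level active before time `t` is weak if `t` is small. -/
lemma sch_sq_le {k : ℕ} {t : ℝ} (h : sch.a k < t) : sch.s k ^ 2 ≤ min 1 t / 4 := by
  rcases Nat.even_or_odd' k with ⟨m, rfl | rfl⟩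
  · obtain ⟨h1, -, h3⟩ := sch_even m
    rw [h1] at h
    rw [h3]
    gcongr
    exact le_min (pow_le_one₀ (by norm_num) (by norm_num)) h.le
  · obtain ⟨h1, -, h3⟩ := sch_odd m
    rw [h1] at h
    rw [h3, min_eq_left (by linarith [(Nat.cast_nonneg m : (0:ℝ) ≤ m)])]
    norm_num

/-- There is a level of strength comparable to `t` which is revealed by time `t` with probability
at least one half. -/
lemma exists_level {t : ℝ} (h0 : 0 < t) (h1 : t ≤ 1) :
    ∃ k, sch.a k + sch.c k ≤ t ∧ t / 16 ≤ sch.s k ^ 2 ∧ sch.s k ^ 2 ≤ t / 4 := by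
  obtain ⟨m, hm1, hm2⟩ := exists_nat_pow_near_of_lt_one h0 h1 (show (0:ℝ) < 1 / 2 by norm_num)
    (by norm_num)
  refine ⟨2 * (m + 1), ?_⟩
  obtain ⟨a, c, s⟩ := sch_even (m + 1)
  rw [a, c, s, pow_succ]
  refine ⟨by linarith, ?_, by linarith [pow_pos (show (0:ℝ) < 1 / 2 by norm_num) (m + 1)]⟩
  rw [pow_succ] at hm1 ⊢
  linarith

lemma sum_half_pow_le {t : ℝ} (s : Finset ℕ) (hs : ∀ m ∈ s, (1 / 2 : ℝ) ^ (m + 1) < t) (ht : 0 ≤ t) :
    ∑ m ∈ s, (1 / 2 : ℝ) ^ (m + 1) ≤ 2 * t := by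
  rcases s.eq_empty_or_nonempty with rfl | hne
  · simpa using ht
  set m0 := s.min' hne
  have hsub : s ⊆ Ico m0 (s.max' hne + 1) := fun m hm ↦
    Finset.mem_Ico.2 ⟨s.min'_le m hm, Nat.lt_succ_of_le (s.le_max' m hm)⟩
  refine (sum_le_sum_of_subset_of_nonneg hsub fun m _ _ ↦ by positivity).trans ?_
  have h := geom_sum_Ico_le_of_lt_one (x := (1 / 2 : ℝ)) (m := m0) (n := s.max' hne + 1)
    (by norm_num) (by norm_num)
  have h2 := hs m0 (s.min'_mem hne)
  simp only [pow_succ] at h2 ⊢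
  rw [← sum_mul]
  norm_num at h
  linarith

/-- The squared strengths weighted by hazard bounds. -/
lemma sum_sq_hazard (n : ℕ) {τ t' : ℝ} (hτ : 0 < τ) (ht : τ ≤ t') :
    ∑ k ∈ (range n).filter (fun k ↦ sch.a k < t'),
      sch.s k ^ 2 * (1 / (sch.c k + max (τ - sch.a k) 0)) ≤ t' / (2 * τ) + t' / 4 := by
  classical
  set F := (range n).filter fun k ↦ sch.a k < t'
  rw [← sum_filter_add_sum_filter_not F (fun k ↦ k % 2 = 0)]
  have key1 : ∀ k ∈ F.filter (fun k ↦ k % 2 = 0),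
      sch.s k ^ 2 * (1 / (sch.c k + max (τ - sch.a k) 0)) ≤ (1 / 2 : ℝ) ^ (k / 2 + 1) / (4 * τ) := by
    intro k hk
    obtain ⟨m, rfl⟩ : ∃ m, k = 2 * m := ⟨k / 2, by have := (mem_filter.1 hk).2; omega⟩
    obtain ⟨h1, h2, h3⟩ := sch_even m
    rw [h1, h2, h3, show 2 * m / 2 = m by omega, mul_one_div, div_div]
    gcongr
    · linarith [le_max_left (τ - (1 / 2 : ℝ) ^ (m + 1)) 0]
  have key2 : ∀ k ∈ F.filter (fun k ↦ ¬ k % 2 = 0),
      sch.s k ^ 2 * (1 / (sch.c k + max (τ - sch.a k) 0)) ≤ 1 / 4 := by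
    intro k hk
    obtain ⟨m, rfl⟩ : ∃ m, k = 2 * m + 1 := ⟨k / 2, by have := (mem_filter.1 hk).2; omega⟩
    obtain ⟨-, h2, h3⟩ := sch_odd m
    rw [h2, h3]
    calc (1 / 2 : ℝ) ^ 2 * (1 / (1 + max (τ - sch.a (2 * m + 1)) 0))
        ≤ (1 / 2 : ℝ) ^ 2 * 1 := by
          gcongr
          rw [div_le_one (by positivity)]
          linarith [le_max_right (τ - sch.a (2 * m + 1)) 0]
      _ = 1 / 4 := by norm_num
  refine add_le_add ((sum_le_sum key1).trans ?_) ((sum_le_sum key2).trans ?_)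
  · rw [← sum_div, ← sum_image (f := fun m ↦ (1 / 2 : ℝ) ^ (m + 1)) (g := fun k ↦ k / 2)]
    · rw [div_le_div_iff₀ (by positivity) (by positivity)]
      have := sum_half_pow_le (t := t') ((F.filter fun k ↦ k % 2 = 0).image fun k ↦ k / 2) ?_
        (by linarith)
      · nlinarith
      · intro m hm
        obtain ⟨k, hk, rfl⟩ := Finset.mem_image.1 hm
        obtain ⟨hk1, hk2⟩ := mem_filter.1 hk
        have := (mem_filter.1 hk1).2
        rwa [show k = 2 * (k / 2) by omega, (sch_even _).1] at this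
    · intro k hk l hl (e : k / 2 = l / 2)
      simp only [Finset.mem_coe, mem_filter] at hk hl
      omega
  · rw [sum_const, nsmul_eq_mul]
    have hsub : (F.filter fun k ↦ ¬ k % 2 = 0) ⊆ (range ⌊t'⌋₊).image fun m ↦ 2 * m + 1 := by
      intro k hk
      obtain ⟨m, rfl⟩ : ∃ m, k = 2 * m + 1 := ⟨k / 2, by have := (mem_filter.1 hk).2; omega⟩
      have h := (mem_filter.1 (mem_filter.1 hk).1).2
      rw [(sch_odd m).1] at h
      refine Finset.mem_image.2 ⟨m, Finset.mem_range.2 ?_, rfl⟩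
      exact Nat.lt_of_succ_le (Nat.le_floor (by push_cast; linarith))
    have hc := (card_le_card hsub).trans (card_image_le.trans (card_range _).le)
    have : ((F.filter fun k ↦ ¬ k % 2 = 0).card : ℝ) ≤ t' :=
      le_trans (by exact_mod_cast hc) (Nat.floor_le (by linarith))
    linarith

/-- Fine levels of high index contribute little. -/
lemma sum_sq_tail (m0 : ℕ) (s : Finset ℕ) (hs : ∀ k ∈ s, k % 2 = 0 ∧ 2 * m0 ≤ k) :
    ∑ k ∈ s, sch.s k ^ 2 ≤ (1 / 2 : ℝ) ^ m0 / 4 := by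
  classical
  have e : ∀ k ∈ s, sch.s k ^ 2 = (1 / 2 : ℝ) ^ (k / 2 + 1) / 4 := by
    intro k hk
    conv_lhs => rw [show k = 2 * (k / 2) by have := (hs k hk).1; omega]
    exact (sch_even _).2.2
  rw [sum_congr rfl e, ← sum_div,
    ← sum_image (f := fun m ↦ (1 / 2 : ℝ) ^ (m + 1)) (g := fun k ↦ k / 2) ?_]
  · gcongr
    set S := s.image fun k ↦ k / 2
    have hS : ∀ m ∈ S, m0 ≤ m := fun m hm ↦ by
      obtain ⟨k, hk, rfl⟩ := Finset.mem_image.1 hm
      have := (hs k hk).2; omega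
    have hsub : S ⊆ Ico m0 (S.sup id + 1) := fun m hm ↦
      Finset.mem_Ico.2 ⟨hS m hm, Nat.lt_succ_of_le (le_sup (f := id) hm)⟩
    refine (sum_le_sum_of_subset_of_nonneg hsub fun m _ _ ↦ by positivity).trans ?_
    have h := geom_sum_Ico_le_of_lt_one (x := (1 / 2 : ℝ)) (m := m0) (n := S.sup id + 1)
      (by norm_num) (by norm_num)
    simp only [pow_succ, ← sum_mul]
    norm_num at h ⊢
    linarith
  · intro k hk l hl (e : k / 2 = l / 2)
    have := (hs k hk).1; have := (hs l hl).1; omega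

end Vale.Agent.P161.Crit
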