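import Mathlib
import Vale.Agent.P161.Crit.Scheme
import Vale.Agent.P161.Crit.Zv

/-!
The spins are recovered from the observations by averaging over the unit levels.
-/

namespace Vale.Agent.P161.Crit

open Finset MeasureTheory Filter Topology ProbabilityTheory

variable {V : Type*}

/-- The observation noise at the unit levels obeys the law of large numbers. -/
lemma lln_odd (x : V) (b : Bool) :
    ∀ᵐ w ∂W01 V, Tendsto
      (fun n : ℕ ↦ (∑ k ∈ range n, qf (1 / 2 * sgB b) (w (2 * k + 1, x))) / n) atTop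
      (𝓝 (1 / 2 * sgB b / 3)) := by
  set a := 1 / 2 * sgB b with ha
  have ha1 : |a| < 1 := by rw [ha, abs_mul, sgB_abs]; norm_num
  have hq : Measurable fun t ↦ qf a t := measurable_qf.comp (measurable_const.prodMk measurable_id)
  have hind : iIndepFun (fun (i : Ix V) (w : Ix V → ℝ) ↦ qf a (w i)) (W01 V) :=
    iIndepFun_infinitePi (P := fun _ : Ix V ↦ u01) fun _ ↦ hq
  have hlaw : ∀ i : Ix V, (W01 V).map (fun w ↦ qf a (w i)) = u01.map fun t ↦ qf a t := fun i ↦ by
    have e : (fun w : Ix V → ℝ ↦ qf a (w i)) = (fun t ↦ qf a t) ∘ Function.eval i := rfl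
    rw [e, ← Measure.map_map hq (measurable_pi_apply i), W01, Measure.infinitePi_map_eval]
  have h := strong_law_ae_real (μ := W01 V) (fun k w ↦ qf a (w (2 * k + 1, x)))
    (Integrable.of_bound (hq.comp (measurable_pi_apply _)).aestronglyMeasurable 1
      (.of_forall fun w ↦ by rw [Real.norm_eq_abs]; exact qf_bound ha1 _))
    (fun i j hij ↦ hind.indepFun (by simp [hij]))
    (fun i ↦ ⟨(hq.comp (measurable_pi_apply _)).aemeasurable,
      (hq.comp (measurable_pi_apply _)).aemeasurable, (hlaw _).trans (hlaw _).symm⟩)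
  have em : ∫ w, qf a (w (2 * 0 + 1, x)) ∂W01 V = a / 3 := by
    rw [← integral_qf_id ha1, W01]
    have hm := Measure.infinitePi_map_eval (μ := fun _ : Ix V ↦ u01) (2 * 0 + 1, x)
    conv_rhs => rw [← hm, integral_map (measurable_pi_apply _).aemeasurable
      hq.aestronglyMeasurable]
  rwa [em] at h

variable [DecidableEq V] [Countable V] {G : SimpleGraph V} [G.LocallyFinite] {θ : ℝ}

/-- If the observations are functions of the source, so are the spins. -/
lemma spins_of_obs (hp : Par θ) (r : V)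
    (h : ∀ j : Ix V, ∃ f : Dat V → ℝ, Measurable f ∧
      ∀ᵐ ω ∂Pm G θ r, Yv sch ω j = f (Zv G θ sch r ω)) :
    ∃ Ψ : Dat V → V → Bool, Measurable Ψ ∧
      ∀ᵐ ω ∂Pm G θ r, ω.1 = Ψ (Zv G θ sch r ω) := by
  have := isingM_prob (G := G) hp.nonneg hp.lt_one.le r
  choose f hf hfe using h
  set av : V → ℕ → Dat V → ℝ := fun x n z ↦
    (∑ k ∈ range n, f (2 * k + 1, x) z) / n with hav
  refine ⟨fun z x ↦ decide (0 < limsup (fun n ↦ av x n z) atTop), ?_, ?_⟩
  · refine measurable_pi_iff.2 fun x ↦ measurable_to_bool ?_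
    have hm : Measurable fun z ↦ limsup (fun n ↦ av x n z) atTop :=
      Measurable.limsup fun n ↦ (Finset.measurable_sum _ fun k _ ↦ hf _).div_const _
    have e : (fun z ↦ decide (0 < limsup (fun n ↦ av x n z) atTop)) ⁻¹' {true} =
        (fun z ↦ limsup (fun n ↦ av x n z) atTop) ⁻¹' Set.Ioi 0 := by ext z; simp
    rw [e]
    exact hm measurableSet_Ioi
  · have hw : ∀ᵐ ω ∂Pm G θ r, ∀ x b, Tendsto
        (fun n : ℕ ↦ (∑ k ∈ range n, qf (1 / 2 * sgB b) (ω.2.1 (2 * k + 1, x))) / n) atTop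
        (𝓝 (1 / 2 * sgB b / 3)) := by
      have h1 : ∀ᵐ w ∂W01 V, ∀ x b, Tendsto
          (fun n : ℕ ↦ (∑ k ∈ range n, qf (1 / 2 * sgB b) (w (2 * k + 1, x))) / n) atTop
          (𝓝 (1 / 2 * sgB b / 3)) :=
        ae_all_iff.2 fun x ↦ ae_all_iff.2 fun b ↦ lln_odd x b
      exact (Measure.quasiMeasurePreserving_fst.comp
        Measure.quasiMeasurePreserving_snd).ae h1
    filter_upwards [ae_all_iff.2 hfe, hw] with ω h1 h2
    funext x
    have h3 : Tendsto (fun n ↦ av x n (Zv G θ sch r ω)) atTop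
        (𝓝 (1 / 2 * sgB (ω.1 x) / 3)) := by
      refine (h2 x (ω.1 x)).congr fun n ↦ ?_
      simp only [hav, ← h1, Yv, (sch_odd _).2.2]
    simp only [h3.limsup_eq]
    rcases hb : ω.1 x with _ | _ <;> simp [sgB]

end Vale.Agent.P161.Crit
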