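import Mathlib
import Vale.Agent.P161.Crit.Cut

/-!
Segments of a path with their hanging subtrees; independence of truncated side posteriors.
-/

namespace Vale.Agent.P161.Crit

open Finset MeasureTheory

variable {V : Type*} [DecidableEq V] {G : SimpleGraph V} {θ : ℝ} {σ : Sch}

/-- The part of `D` hanging from the path vertices `i-l+1, …, i`. -/
noncomputable def seg (G : SimpleGraph V) (D : Finset V) (o w : V) (l i : ℕ) : Finset V :=
  sideF G (sideF G D (up G o w i) (up G o w (i + 1))) (up G o w (i - l + 1)) (up G o w (i - l))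

/-- The truncated side posterior at the `i`-th vertex of the path. -/
noncomputable def ta (G : SimpleGraph V) (θ : ℝ) (σ : Sch) (n : ℕ) (D : Finset V) (R : Rule V)
    (o w : V) (l i : ℕ) (p : Dat V) : ℝ :=
  pf G θ σ (seg G D o w l i) (past n (seg G D o w l i) R p.1) p.2 fun S ↦ sg S (up G o w i)

lemma seg_subset (D : Finset V) (o w : V) (l i : ℕ) :
    seg G D o w l i ⊆ sideF G D (up G o w i) (up G o w (i + 1)) := sideF_subset _ _ _

variable (hG : G.IsTree) {D : Finset V} {v o w : V} (hD : Sub G D v) (ho : o ∈ D) (hw : w ∈ D)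
  {l i : ℕ} (hl : 1 ≤ l) (hli : l ≤ i) (hi : i < G.dist o w)
include hG hD ho hw hl hli hi

lemma up_mem_side_i {j : ℕ} (hj : j ≤ i) :
    up G o w j ∈ sideF G D (up G o w i) (up G o w (i + 1)) :=
  mem_sideF.2 ⟨up_mem hG hD ho hw j (by omega),
    onSide_up_mono hG hj hi (onSide_self (up_adj hG (by omega)))⟩

lemma up_mem_seg : up G o w i ∈ seg G D o w l i := by
  refine mem_sideF.2 ⟨up_mem_side_i hG hD ho hw hl hli hi le_rfl, ?_⟩
  rw [onSide_comm hG (up_adj hG (o := o) (w := w) (i := i - l) (by omega))]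
  intro h
  have h2 := onSide_up_mono hG (j := i - 1) (by omega) (by omega) h
  rw [show i - 1 + 1 = i by omega] at h2
  exact not_onSide_other _ _ h2

lemma sub_seg : Sub G (seg G D o w l i) (up G o w (i - l + 1)) :=
  sub_sideF hG (sub_sideF hG hD (up_mem hG hD ho hw i (by omega)) (up_adj hG hi))
    (up_mem_side_i hG hD ho hw hl hli hi (by omega))
    (up_adj hG (o := o) (w := w) (i := i - l) (by omega)).symm

omit hD ho hw hl hli in
lemma seg_subset_far (hli : l ≤ i) (hl : 1 ≤ l) :
    seg G D o w l i ⊆ sideF G D (up G o w (i - l + 1)) (up G o w (i - l)) := fun z hz ↦ by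
  obtain ⟨h1, h2⟩ := mem_sideF.1 hz
  exact mem_sideF.2 ⟨(mem_sideF.1 h1).1, h2⟩

variable [G.LocallyFinite]

omit [G.LocallyFinite] in
/-- The truncation error is exponentially small in the segment length. -/
lemma abs_sd_sub_ta (hp : Par θ) (n : ℕ) (R : Rule V) (p : Dat V) :
    |sd G θ σ D (past n D R p.1) p.2 (up G o w i) (up G o w (i + 1)) -
        ta G θ σ n D R o w l i p| ≤ θ ^ l / (1 - θ) := by
  set T1 := sideF G D (up G o w i) (up G o w (i + 1)) with hT1
  have hsub : Sub G T1 (up G o w i) :=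
    sub_sideF hG hD (up_mem hG hD ho hw i (by omega)) (up_adj hG hi)
  have hadj := up_adj hG (o := o) (w := w) (i := i - l) (by omega)
  have hm1 := up_mem_side_i hG hD ho hw hl hli hi (j := i - l) (by omega)
  have hm2 := up_mem_side_i hG hD ho hw hl hli hi (j := i - l + 1) (by omega)
  have hloc : Loc (fun S ↦ sg S (up G o w i)) (seg G D o w l i) := fun S ↦
    sg_congr (by simp [up_mem_seg hG hD ho hw hl hli hi])
  have h := pf_cut (σ := σ) hG hm1 hm2 hadj (P := past n T1 R p.1) (fun k hk ↦ (mem_past.1 hk).2.1)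
    p.2 hp hloc
  rw [sideI_past] at h
  have e : sd G θ σ D (past n D R p.1) p.2 (up G o w i) (up G o w (i + 1)) =
      pf G θ σ T1 (past n T1 R p.1) p.2 fun S ↦ sg S (up G o w i) := by
    rw [sd, sideI_past]
  rw [e]
  refine h.trans ?_
  have hsub2 := sub_seg hG hD ho hw hl hli hi
  have h2 := abs_cv_spin (σ := σ) hG hp hsub2 (up_mem_seg hG hD ho hw hl hli hi) hsub2.1
    (P := past n (seg G D o w l i) R p.1) (fun k hk ↦ (mem_past.1 hk).2.1) p.2
  have hdist : l - 1 ≤ G.dist (up G o w i) (up G o w (i - l + 1)) := by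
    have h3 := dist_up_left hG (o := o) (w := w) i hi.le
    have h4 := dist_up_left hG (o := o) (w := w) (i - l + 1) (by omega)
    have h5 := hG.connected.dist_triangle (u := w) (v := up G o w (i - l + 1)) (w := up G o w i)
    rw [SimpleGraph.dist_comm (u := up G o w (i - l + 1))] at h5
    omega
  calc θ / (1 - θ) * |cv G θ σ (seg G D o w l i) (past n (seg G D o w l i) R p.1) p.2
        (fun S ↦ sg S (up G o w i)) fun S ↦ sg S (up G o w (i - l + 1))|
      ≤ θ / (1 - θ) * θ ^ (l - 1) := by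
        refine mul_le_mul_of_nonneg_left (h2.trans ?_) (div_nonneg hp.nonneg (by linarith [hp.lt_one]))
        exact pow_le_pow_of_le_one hp.nonneg hp.lt_one.le hdist
    _ = θ ^ l / (1 - θ) := by
        rw [div_mul_eq_mul_div, ← pow_succ', show l - 1 + 1 = l by omega]

omit hG hD ho hw hl hli hi in
lemma bm_ta (hp : Par θ) (n : ℕ) {R : Rule V} (hR : RMeas R) (o w : V) (l i : ℕ) :
    BM (ta G θ σ n D R o w l i) :=
  ⟨measurable_pf_past n _ hR _, 1, fun p ↦ abs_pf_spin hp _ _ _ _⟩

omit hG hD ho hw hl hli hi in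
lemma abs_ta (hp : Par θ) (n : ℕ) (R : Rule V) (o w : V) (l i : ℕ) (p : Dat V) :
    |ta G θ σ n D R o w l i p| ≤ 1 :=
  abs_pf_spin hp _ _ _ _

omit hG hD ho hw hl hli hi in
lemma rdep_ta (n : ℕ) {R : Rule V} (hR : RLocal R) (o w : V) (l i : ℕ) :
    RDep n (seg G D o w l i) R (ta G θ σ n D R o w l i) := by
  intro p p' h1 h2
  rw [ta, ta, ← past_local hR h1]
  exact pf_congr _ h2

lemma ta_neg (n : ℕ) (R : Rule V) (p : Dat V) :
    ta G θ σ n D R o w l i (p.1, -p.2) = -ta G θ σ n D R o w l i p :=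
  pf_spin_flip (fun k hk ↦ (mem_past.1 hk).2.1) p.2 (up_mem_seg hG hD ho hw hl hli hi)

end Vale.Agent.P161.Crit
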