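import Mathlib
import Vale.Agent.P161.Crit.Segment

/-!
Exponential decay of sums of squared truncated side posteriors along a path.
-/

namespace Vale.Agent.P161.Crit

open Finset MeasureTheory

variable {V : Type*} [DecidableEq V] {G : SimpleGraph V} {θ : ℝ} {σ : Sch}

lemma exp_neg_le {x : ℝ} (h0 : 0 ≤ x) (h1 : x ≤ 1) : Real.exp (-x) ≤ 1 - x / 2 := by
  have h := Real.add_one_le_exp x
  have hpos := Real.exp_pos x
  rw [Real.exp_neg, ← one_div, div_le_iff₀ hpos]
  nlinarith

variable [G.LocallyFinite]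

/-- Independence of functions of the segments of one class. -/
lemma integral_class_prod (hG : G.IsTree) (hp : Par θ) {r v o w : V} {D : Finset V}
    (hD : Sub G D v) (ho : o ∈ D) (hw : w ∈ D) {n : ℕ} {R : Rule V} (hR : RMeas R)
    (hRl : RLocal R) {l i0 : ℕ} (hl : 1 ≤ l) (hi0 : l ≤ i0) (F : ℕ → Dat V → ℝ) :
    ∀ Q, (∀ q < Q, i0 + q * l < G.dist o w ∧ BM (F q) ∧
        RDep n (seg G D o w l (i0 + q * l)) R (F q) ∧ ∀ p : Dat V, F q (p.1, -p.2) = F q p) →
      ∫ ω, (∏ q ∈ range Q, F q (vis σ ω)) ∂Pm G θ r =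
        ∏ q ∈ range Q, ∫ ω, F q (vis σ ω) ∂Pm G θ r := by
  intro Q
  induction Q with
  | zero =>
    intro _
    have := Pm_prob (G := G) hp r
    simp
  | succ Q ih =>
    intro h
    simp only [prod_range_succ]
    rw [← ih fun q hq ↦ h q (by omega)]
    obtain ⟨hQ, hb, hd, he⟩ := h Q (by omega)
    rcases Nat.eq_zero_or_pos Q with rfl | hpos
    · have := Pm_prob (G := G) hp r
      simp
    set e := i0 + (Q - 1) * l
    have heQ : i0 + Q * l = e + l := by
      simp only [e]
      rw [add_assoc, ← Nat.succ_mul, Nat.succ_eq_add_one, show Q - 1 + 1 = Q by omega]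
    have hadj := up_adj hG (o := o) (w := w) (i := e) (by omega)
    refine cut (n := n) hG hp hD (up_mem hG hD ho hw e (by omega)) (up_mem hG hD ho hw (e + 1) (by omega))
      hadj hR hRl (f := fun p ↦ ∏ q ∈ range Q, F q p) ?_ hb ?_ ?_ he
    · refine ⟨Finset.measurable_prod _ fun q hq ↦
        (h q (by have := Finset.mem_range.1 hq; omega)).2.1.1, ?_⟩
      have hC : ∀ q, ∃ C, q < Q → ∀ p, |F q p| ≤ C := fun q ↦ by
        by_cases hq : q < Q
        · obtain ⟨C, hC⟩ := (h q (by omega)).2.1.2; exact ⟨C, fun _ ↦ hC⟩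
        · exact ⟨0, fun h' ↦ absurd h' hq⟩
      choose C hC using hC
      exact ⟨∏ q ∈ range Q, C q, fun p ↦ by
        rw [abs_prod]
        exact prod_le_prod (fun q _ ↦ abs_nonneg _) fun q hq ↦ hC q (Finset.mem_range.1 hq) p⟩
    · intro p p' h1 h2
      refine prod_congr rfl fun q hq ↦ ?_
      obtain ⟨hq1, -, hq2, -⟩ := h q (by have := Finset.mem_range.1 hq; omega)
      have hsub : seg G D o w l (i0 + q * l) ⊆ sideF G D (up G o w e) (up G o w (e + 1)) := by
        intro z hz
        obtain ⟨a, b⟩ := mem_sideF.1 (seg_subset D o w l _ hz)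
        refine mem_sideF.2 ⟨a, onSide_up_mono hG ?_ (by omega) b⟩
        have : q * l ≤ (Q - 1) * l :=
          Nat.mul_le_mul_right _ (by have := Finset.mem_range.1 hq; omega)
        omega
      exact (hq2.mono hsub) p p' h1 h2
    · have hsub : seg G D o w l (i0 + Q * l) ⊆ sideF G D (up G o w (e + 1)) (up G o w e) := by
        have := seg_subset_far (D := D) (o := o) (w := w) hG hQ (l := l) (by omega) hl
        rwa [show i0 + Q * l - l = e by omega] at this
      exact hd.mono hsub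

/-- Laplace transforms of sums of truncated squares decay exponentially in the length. -/
lemma decay_ta (hG : G.IsTree) (hp : Par θ) {r v o w : V} {D : Finset V}
    (hD : Sub G D v) (ho : o ∈ D) (hw : w ∈ D) {n : ℕ} {R : Rule V} (hR : RMeas R)
    (hRl : RLocal R) {l k : ℕ} (hl : 1 ≤ l) (hk : k ≤ G.dist o w) {τr lam μ : ℝ}
    (hτ : 0 ≤ τr) (hlam : 0 ≤ lam) (hlτ : lam * l * τr ≤ 1) (hμ0 : 0 ≤ μ)
    (hμ : ∀ i, l ≤ i → i < k →
      μ ≤ ∫ ω, min ((1 - θ ^ 2) * ta G θ σ n D R o w l i (vis σ ω) ^ 2) τr ∂Pm G θ r) :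
    ∫ ω, Real.exp (-(lam * ∑ i ∈ Ico l k,
        min ((1 - θ ^ 2) * ta G θ σ n D R o w l i (vis σ ω) ^ 2) τr)) ∂Pm G θ r ≤
      Real.exp (-(lam * μ * ((k : ℝ) - 2 * l) / 2)) := by
  have := Pm_prob (G := G) hp r
  have hκ : 0 ≤ 1 - θ ^ 2 := by nlinarith [hp.nonneg, hp.lt_one]
  set Z : ℕ → Dat V → ℝ := fun i p ↦ min ((1 - θ ^ 2) * ta G θ σ n D R o w l i p ^ 2) τr
  have hZ0 : ∀ i p, 0 ≤ Z i p := fun i p ↦ le_min (mul_nonneg hκ (sq_nonneg _)) hτ
  have hZm : ∀ i, Measurable (Z i) := fun i ↦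
    (measurable_const.mul ((bm_ta (σ := σ) hp n hR o w l i).1.pow_const 2)).min measurable_const
  set Q := (k - l) / l with hQ
  have hQk : ∀ j < l, ∀ q < Q, l + j + q * l < k := by
    intro j hj q hq
    have h1 : (q + 1) * l ≤ k - l :=
      (Nat.mul_le_mul_right l hq).trans (Nat.div_mul_le_self (k - l) l)
    rw [Nat.succ_mul] at h1
    omega
  set S : ℕ → Dat V → ℝ := fun j p ↦ ∑ q ∈ range Q, Z (l + j + q * l) p
  have hsum : ∀ p, ∑ j ∈ range l, S j p ≤ ∑ i ∈ Ico l k, Z i p := by
    intro p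
    rw [← sum_product' (range l) (range Q) fun j q ↦ Z (l + j + q * l) p]
    rw [← sum_image (f := fun i ↦ Z i p) (g := fun z : ℕ × ℕ ↦ l + z.1 + z.2 * l)
      (s := range l ×ˢ range Q) ?_]
    · refine sum_le_sum_of_subset_of_nonneg ?_ fun i _ _ ↦ hZ0 i p
      intro i hi
      simp only [mem_image, mem_product, Finset.mem_range] at hi
      obtain ⟨⟨j, q⟩, ⟨hj, hq⟩, rfl⟩ := hi
      exact Finset.mem_Ico.2 ⟨by omega, hQk j hj q hq⟩
    · rintro ⟨j, q⟩ hjq ⟨j', q'⟩ hjq' e
      simp only [Finset.mem_coe, mem_product, Finset.mem_range] at hjq hjq' e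
      have e' : j + q * l = j' + q' * l := by omega
      have h2 : (j + q * l) % l = (j' + q' * l) % l := by rw [e']
      rw [Nat.add_mul_mod_self_right, Nat.add_mul_mod_self_right, Nat.mod_eq_of_lt hjq.1,
        Nat.mod_eq_of_lt hjq'.1] at h2
      subst h2
      exact Prod.ext rfl (Nat.eq_of_mul_eq_mul_right (show 0 < l by omega) (show q * l = q' * l by omega))
  have hl0 : (0:ℝ) < l := by exact_mod_cast hl
  have hconv : ∀ p, Real.exp (-(lam * ∑ i ∈ Ico l k, Z i p)) ≤
      ∑ j ∈ range l, (1 / (l:ℝ)) * ∏ q ∈ range Q, Real.exp (-(lam * l * Z (l + j + q * l) p)) := by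
    intro p
    refine (Real.exp_le_exp.2 (neg_le_neg (mul_le_mul_of_nonneg_left (hsum p) hlam))).trans ?_
    have h := convexOn_exp.map_sum_le (t := range l) (w := fun _ ↦ 1 / (l:ℝ))
      (p := fun j ↦ -(lam * l * S j p)) (fun _ _ ↦ by positivity)
      (by rw [sum_const, card_range, nsmul_eq_mul]; field_simp) (fun _ _ ↦ Set.mem_univ _)
    simp only [smul_eq_mul] at h
    refine le_trans (le_of_eq ?_) (h.trans (le_of_eq ?_))
    · congr 1
      rw [mul_sum, ← sum_neg_distrib]
      refine sum_congr rfl fun j _ ↦ ?_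
      field_simp
    · refine sum_congr rfl fun j _ ↦ ?_
      rw [← Real.exp_sum]
      simp only [S, mul_sum, sum_neg_distrib]
  have hfac : ∀ j < l, ∀ q < Q,
      ∫ ω, Real.exp (-(lam * l * Z (l + j + q * l) (vis σ ω))) ∂Pm G θ r ≤
        Real.exp (-(lam * l * μ / 2)) := by
    intro j hj q hq
    set i := l + j + q * l
    have hb : BM fun ω : Om V ↦ Z i (vis σ ω) :=
      ⟨(hZm i).comp (measurable_vis σ), τr, fun ω ↦ by
        rw [abs_of_nonneg (hZ0 _ _)]; exact min_le_right _ _⟩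
    calc ∫ ω, Real.exp (-(lam * l * Z i (vis σ ω))) ∂Pm G θ r
        ≤ ∫ ω, (1 - lam * l * Z i (vis σ ω) / 2) ∂Pm G θ r := by
          refine integral_mono ?_ ((integrable_const _).sub
            (((hb.integrable _).const_mul _).div_const _)) fun ω ↦ exp_neg_le (by
              have := hZ0 i (vis σ ω); positivity)
              ((mul_le_mul_of_nonneg_left (min_le_right _ _) (by positivity)).trans hlτ)
          exact Integrable.of_bound ((hb.1.const_mul _).neg.exp).aestronglyMeasurable 1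
            (.of_forall fun ω ↦ by
              rw [Real.norm_eq_abs, abs_of_pos (Real.exp_pos _)]
              refine Real.exp_le_one_iff.2 (neg_nonpos.2 ?_)
              have := hZ0 i (vis σ ω); positivity)
      _ = 1 - lam * l * (∫ ω, Z i (vis σ ω) ∂Pm G θ r) / 2 := by
          rw [integral_sub (integrable_const _) (((hb.integrable _).const_mul _).div_const _),
            integral_div, integral_const_mul]
          simp
      _ ≤ 1 - lam * l * μ / 2 := by
          gcongr
          exact hμ i (by omega) (hQk j hj q hq)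
      _ ≤ _ := by linarith [Real.add_one_le_exp (-(lam * l * μ / 2))]
  set F : ℕ → ℕ → Dat V → ℝ := fun j q p ↦ Real.exp (-(lam * l * Z (l + j + q * l) p))
  have hF : ∀ j q, BM (F j q) := fun j q ↦
    ⟨((hZm _).const_mul _).neg.exp, 1, fun p ↦ by
      rw [abs_of_pos (Real.exp_pos _)]
      refine Real.exp_le_one_iff.2 (neg_nonpos.2 ?_)
      have := hZ0 (l + j + q * l) p; positivity⟩
  have hint : ∀ j, Integrable (fun ω : Om V ↦ ∏ q ∈ range Q, F j q (vis σ ω)) (Pm G θ r) := by
    intro j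
    refine Integrable.of_bound (Finset.measurable_prod _ fun q _ ↦
      (hF j q).1.comp (measurable_vis σ)).aestronglyMeasurable 1 (.of_forall fun ω ↦ ?_)
    rw [Real.norm_eq_abs, abs_prod]
    exact prod_le_one (fun q _ ↦ abs_nonneg _) fun q _ ↦ by
      rw [abs_of_pos (Real.exp_pos _)]
      refine Real.exp_le_one_iff.2 (neg_nonpos.2 ?_)
      have := hZ0 (l + j + q * l) (vis σ ω); positivity
  calc ∫ ω, Real.exp (-(lam * ∑ i ∈ Ico l k, Z i (vis σ ω))) ∂Pm G θ r
      ≤ ∫ ω, (∑ j ∈ range l, (1 / (l:ℝ)) * ∏ q ∈ range Q, F j q (vis σ ω)) ∂Pm G θ r := by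
        refine integral_mono ?_ (integrable_finsetSum _ fun j _ ↦ (hint j).const_mul _)
          fun ω ↦ hconv _
        refine Integrable.of_bound (((Finset.measurable_sum _ fun i _ ↦
          (hZm i).comp (measurable_vis σ)).const_mul _).neg.exp).aestronglyMeasurable 1
          (.of_forall fun ω ↦ ?_)
        rw [Real.norm_eq_abs, abs_of_pos (Real.exp_pos _)]
        refine Real.exp_le_one_iff.2 (neg_nonpos.2 (mul_nonneg hlam (sum_nonneg fun i _ ↦ hZ0 _ _)))
    _ = ∑ j ∈ range l, (1 / (l:ℝ)) * ∏ q ∈ range Q, ∫ ω, F j q (vis σ ω) ∂Pm G θ r := by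
        rw [integral_finsetSum _ fun j _ ↦ (hint j).const_mul _]
        refine sum_congr rfl fun j hj ↦ ?_
        rw [integral_const_mul, integral_class_prod hG hp hD ho hw hR hRl hl
          (n := n) (i0 := l + j) (by omega) (F j) Q]
        intro q hq
        refine ⟨(hQk j (Finset.mem_range.1 hj) q hq).trans_le hk, hF j q, ?_, fun p ↦ ?_⟩
        · intro p p' h1 h2
          simp only [F, Z, rdep_ta (σ := σ) (θ := θ) n hRl o w l _ p p' h1 h2]
        · simp only [F, Z, ta_neg hG hD ho hw hl (by omega)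
            ((hQk j (Finset.mem_range.1 hj) q hq).trans_le hk) n R, neg_sq]
    _ ≤ ∑ j ∈ range l, (1 / (l:ℝ)) * Real.exp (-(lam * l * μ / 2)) ^ Q := by
        refine sum_le_sum fun j hj ↦ mul_le_mul_of_nonneg_left ?_ (by positivity)
        refine (prod_le_prod (fun q _ ↦ integral_nonneg fun ω ↦ (Real.exp_pos _).le)
          fun q hq ↦ hfac j (Finset.mem_range.1 hj) q (Finset.mem_range.1 hq)).trans (le_of_eq ?_)
        simp
    _ = Real.exp (-(lam * l * μ / 2 * Q)) := by
        rw [sum_const, card_range, nsmul_eq_mul, ← Real.exp_nat_mul]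
        field_simp
    _ ≤ _ := by
        refine Real.exp_le_exp.2 (neg_le_neg ?_)
        have hQ2 : (k : ℝ) - 2 * l ≤ l * (Q : ℝ) := by
          have h := Nat.lt_mul_div_succ (k - l) (show 0 < l by omega)
          rw [← hQ, Nat.mul_succ] at h
          have h3 : k ≤ l * Q + 2 * l := by omega
          have h4 : (k : ℝ) ≤ ((l * Q + 2 * l : ℕ) : ℝ) := by exact_mod_cast h3
          push_cast at h4
          linarith
        calc lam * μ * ((k : ℝ) - 2 * l) / 2 ≤ lam * μ * (l * (Q:ℝ)) / 2 := by gcongr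
          _ = _ := by ring

end Vale.Agent.P161.Crit
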