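import Mathlib
import Vale.Agent.P161.Crit.PathCov
import Vale.Agent.P161.Crit.Cut

/-!
A lower bound for the second moment of the posterior mean of a spin.
-/

namespace Vale.Agent.P161.Crit

open Finset MeasureTheory

variable {V : Type*} [DecidableEq V] {G : SimpleGraph V} {θ : ℝ}

/-- The two-point function of the free measure on a finite subtree. -/
lemma sum_tw_sg_mul (hG : G.IsTree) (hp : Par θ) {D : Finset V} {v o w : V} (hD : Sub G D v)
    (ho : o ∈ D) (hw : w ∈ D) (σ : Sch) :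
    ∑ S ∈ D.powerset, tw G θ D S * (sg S o * sg S w) = θ ^ G.dist o w := by
  have hP : ∀ i ∈ (∅ : Finset (Ix V)), i.2 ∈ D := fun _ h ↦ absurd h (Finset.notMem_empty _)
  have hpf : ∀ f : Finset V → ℝ, pf G θ σ D ∅ 0 f = ∑ S ∈ D.powerset, tw G θ D S * f S := by
    intro f
    simp [pf, pS, lik, sum_tw hG θ hD]
  have hzero : ∀ x ∈ D, pf G θ σ D ∅ 0 (fun S ↦ sg S x) = 0 := by
    intro x hx
    have h := pf_spin_flip (G := G) (θ := θ) (σ := σ) hP 0 hx
    rw [neg_zero] at h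
    linarith
  have h := cv_path (σ := σ) hG hp hD ho hP 0 (loc_sg o) (B := {o}) (by simpa using ho) _ w rfl hw
    (fun z hz i hi ↦ by
      rw [Finset.mem_singleton] at hz
      subst hz
      rw [← onSide_comm hG (up_adj hG hi)]
      exact onSide_up_right hG hi)
  have hpsi : prodPsi G θ σ D ∅ 0 o w (G.dist o w) = 1 := by
    refine prod_eq_one fun i hi ↦ ?_
    have hi' := Finset.mem_range.1 hi
    have hsd := sd_flip (θ := θ) (σ := σ) hP (up_mem hG hD ho hw i hi'.le) (up_adj hG hi') 0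
    rw [neg_zero] at hsd
    have : sd G θ σ D ∅ 0 (up G o w i) (up G o w (i + 1)) = 0 := by linarith
    rw [this]
    simp [psi]
  simp only [hpsi, cv, hzero o ho, hzero w hw, mul_zero, sub_zero, sg_mul_self, pf_const hp,
    mul_one] at h
  rw [← hpf, h]

lemma clock_lt_one {u : ℝ} (h : 0 ≤ u ∧ u < 1 / 2) : clock u < 1 := by
  rw [clock, if_pos ⟨h.1, by linarith [h.2]⟩, div_lt_one (by linarith [h.2])]
  linarith [h.2]

lemma u01_real_half : u01.real (Set.Ico 0 (1 / 2 : ℝ)) = 1 / 2 := by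
  rw [measureReal_def, u01, Measure.restrict_apply measurableSet_Ico,
    Set.inter_eq_left.2 (show Set.Ico (0:ℝ) (1 / 2) ⊆ Set.Icc 0 1 from
      fun x hx ↦ ⟨hx.1, by linarith [hx.2]⟩), Real.volume_Ico]
  norm_num

variable {σ : Sch} [G.LocallyFinite]

omit [DecidableEq V] [G.LocallyFinite] in
lemma integral_eval_W01 {h : ℝ → ℝ} (hh : Measurable h) (i : Ix V) :
    ∫ w, h (w i) ∂W01 V = ∫ t, h t ∂u01 := by
  have e : (W01 V).map (fun w ↦ w i) = u01 :=
    Measure.infinitePi_map_eval (fun _ : Ix V ↦ u01) i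
  rw [← e, integral_map (measurable_pi_apply i).aemeasurable hh.aestronglyMeasurable]

omit [DecidableEq V] [G.LocallyFinite] in
lemma integral_eval2_W01 {f g : ℝ → ℝ} (hf : BM f) (hg : BM g) {i i' : Ix V} (h : i ≠ i') :
    ∫ w, f (w i) * g (w i') ∂W01 V = (∫ t, f t ∂u01) * ∫ t, g t ∂u01 := by
  rw [W01, integral_mul_dep u01 (S := {i}) (h := fun w ↦ f (w i)) (k := fun w ↦ g (w i'))
    (hf.comp (measurable_pi_apply i)) (hg.comp (measurable_pi_apply i'))
    (fun x x' e ↦ by rw [e i rfl])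
    (fun x x' e ↦ by rw [e i' (fun he ↦ h he.symm)]),
    ← W01, integral_eval_W01 hf.1, integral_eval_W01 hg.1]

/-- Weak observations at a fixed level, revealed early. -/
noncomputable def obsInd (k : ℕ) (u : V) (p : Dat V) : ℝ :=
  c11 (p.2 (k, u)) * (Set.Ico 0 (1 / 2 : ℝ)).indicator (fun _ ↦ (1:ℝ)) (p.1 (k, u))

omit [DecidableEq V] in
lemma bm_ind_half : BM ((Set.Ico 0 (1 / 2 : ℝ)).indicator (fun _ ↦ (1:ℝ))) :=
  ⟨measurable_const.indicator measurableSet_Ico, 1, fun t ↦ by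
    by_cases h : t ∈ Set.Ico (0:ℝ) (1 / 2)
    · rw [Set.indicator_of_mem h]; simp
    · rw [Set.indicator_of_notMem h]; simp⟩

omit [DecidableEq V] in
lemma bm_obsInd (k : ℕ) (u : V) : BM (obsInd (V := V) k u) := by
  refine BM.mul (f := fun p : Dat V ↦ c11 (p.2 (k, u))) ?_
    (bm_ind_half.comp ((measurable_pi_apply (k, u)).comp measurable_fst))
  refine ⟨measurable_c11.comp ((measurable_pi_apply (k, u)).comp measurable_snd), 1,
    fun p ↦ c11_abs _⟩

omit [DecidableEq V] in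
lemma abs_obsInd (k : ℕ) (u : V) (p : Dat V) : |obsInd k u p| ≤ 1 := by
  unfold obsInd
  by_cases h : p.1 (k, u) ∈ Set.Ico (0:ℝ) (1 / 2)
  · rw [Set.indicator_of_mem h, mul_one]; exact c11_abs _
  · rw [Set.indicator_of_notMem h]; simp

omit [G.LocallyFinite] in
lemma integral_obs_c11 (S : Finset V) (i : Ix V) :
    ∫ w, c11 (obs σ S w i) ∂W01 V = σ.s i.1 * sg S i.2 / 3 := by
  have ha := abs_s_sg σ i.1 (sg_abs S i.2)
  have e : ∀ w : Ix V → ℝ, c11 (obs σ S w i) = qf (σ.s i.1 * sg S i.2) (w i) := fun w ↦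
    c11_of_mem (obs_abs σ S w i)
  simp only [e]
  rw [integral_eval_W01 (h := qf _) (measurable_qf.comp (measurable_const.prodMk measurable_id)) i,
    integral_qf_id ha]

lemma integral_obsInd_spin (hG : G.IsTree) (hp : Par θ) {r v x u : V} {D : Finset V}
    (hD : Sub G D v) (hx : x ∈ D) (hu : u ∈ D) (k : ℕ) :
    ∫ ω, obsInd k u (vis σ ω) * sg (conf D ω.1) x ∂Pm G θ r =
      σ.s k / 6 * θ ^ G.dist u x := by
  set h : Finset V → Dat V → ℝ := fun S z ↦ c11 (obs σ S z.1 (k, u)) *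
    (Set.Ico 0 (1 / 2 : ℝ)).indicator (fun _ ↦ (1:ℝ)) (z.2 (k, u)) * sg S x with hh
  have hbm : ∀ S, BM (h S) := fun S ↦ by
    refine BM.mul (BM.mul (f := fun z : Dat V ↦ c11 (obs σ S z.1 (k, u))) ?_
      (bm_ind_half.comp ((measurable_pi_apply (k, u)).comp measurable_snd))) (BM.const _)
    exact ⟨measurable_c11.comp ((measurable_pi_apply (k, u)).comp
      ((measurable_obs S).comp measurable_fst)), 1, fun z ↦ c11_abs _⟩
  have e : (fun ω : Om V ↦ obsInd k u (vis σ ω) * sg (conf D ω.1) x) =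
      fun ω ↦ h (conf D ω.1) ω.2 := by
    funext ω
    simp only [obsInd, hh, vis]
    rw [Yv_eq_obs (D := D) hu ω]
  rw [e, gint hG hp hD h hbm]
  simp only [hh]
  simp only [integral_mul_const, integral_obs_c11]
  have e2 : ∀ T : Ix V → ℝ, ∑ S ∈ D.powerset, tw G θ D S * (σ.s k * sg S u / 3 *
      (Set.Ico 0 (1 / 2 : ℝ)).indicator (fun _ ↦ (1:ℝ)) (T (k, u)) * sg S x) =
      (σ.s k / 3 * θ ^ G.dist u x) *
        (Set.Ico 0 (1 / 2 : ℝ)).indicator (fun _ ↦ (1:ℝ)) (T (k, u)) := by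
    intro T
    rw [← sum_tw_sg_mul hG hp hD hu hx σ, mul_sum, sum_mul]
    exact sum_congr rfl fun S _ ↦ by ring
  simp only [e2]
  rw [integral_const_mul, integral_eval_W01 bm_ind_half.1, integral_indicator_const _
    measurableSet_Ico, u01_real_half, smul_eq_mul]
  ring

lemma integral_obsInd_mul (hG : G.IsTree) (hp : Par θ) {r v u u' : V} {D : Finset V}
    (hD : Sub G D v) (hu : u ∈ D) (hu' : u' ∈ D) (hne : u ≠ u') (k : ℕ) :
    ∫ ω, obsInd k u (vis σ ω) * obsInd k u' (vis σ ω) ∂Pm G θ r =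
      σ.s k ^ 2 / 36 * θ ^ G.dist u u' := by
  have hni : ((k, u) : Ix V) ≠ (k, u') := fun e ↦ hne (congrArg Prod.snd e)
  set h : Finset V → Dat V → ℝ := fun S z ↦
    (c11 (obs σ S z.1 (k, u)) * c11 (obs σ S z.1 (k, u'))) *
      ((Set.Ico 0 (1 / 2 : ℝ)).indicator (fun _ ↦ (1:ℝ)) (z.2 (k, u)) *
        (Set.Ico 0 (1 / 2 : ℝ)).indicator (fun _ ↦ (1:ℝ)) (z.2 (k, u'))) with hh
  have hc : ∀ (S : Finset V) (i : Ix V), BM fun z : Dat V ↦ c11 (obs σ S z.1 i) := fun S i ↦
    ⟨measurable_c11.comp ((measurable_pi_apply i).comp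
      ((measurable_obs S).comp measurable_fst)), 1, fun z ↦ c11_abs _⟩
  have hbm : ∀ S, BM (h S) := fun S ↦
    ((hc S _).mul (hc S _)).mul
      ((bm_ind_half.comp ((measurable_pi_apply (k, u)).comp measurable_snd)).mul
        (bm_ind_half.comp ((measurable_pi_apply (k, u')).comp measurable_snd)))
  have e : (fun ω : Om V ↦ obsInd k u (vis σ ω) * obsInd k u' (vis σ ω)) =
      fun ω ↦ h (conf D ω.1) ω.2 := by
    funext ω
    simp only [obsInd, hh, vis]
    rw [Yv_eq_obs (D := D) hu ω, Yv_eq_obs (D := D) hu' ω]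
    ring
  rw [e, gint hG hp hD h hbm]
  have hprod : ∀ S : Finset V, ∫ w, c11 (obs σ S w (k, u)) * c11 (obs σ S w (k, u')) ∂W01 V =
      σ.s k ^ 2 / 9 * (sg S u * sg S u') := by
    intro S
    have hb : ∀ a : ℝ, BM fun t : ℝ ↦ c11 (qf a t) := fun a ↦
      ⟨measurable_c11.comp (measurable_qf.comp (measurable_const.prodMk measurable_id)), 1,
        fun z ↦ c11_abs _⟩
    have h1 := integral_obs_c11 (σ := σ) S (k, u)
    have h2 := integral_obs_c11 (σ := σ) S (k, u')
    simp only [obs] at h1 h2 ⊢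
    rw [integral_eval_W01 (hb _).1] at h1 h2
    rw [integral_eval2_W01 (hb _) (hb _) hni, h1, h2]
    ring
  simp only [hh, integral_mul_const, hprod]
  have e2 : ∀ T : Ix V → ℝ, ∑ S ∈ D.powerset, tw G θ D S * (σ.s k ^ 2 / 9 * (sg S u * sg S u') *
      ((Set.Ico 0 (1 / 2 : ℝ)).indicator (fun _ ↦ (1:ℝ)) (T (k, u)) *
        (Set.Ico 0 (1 / 2 : ℝ)).indicator (fun _ ↦ (1:ℝ)) (T (k, u')))) =
      (σ.s k ^ 2 / 9 * θ ^ G.dist u u') *
        ((Set.Ico 0 (1 / 2 : ℝ)).indicator (fun _ ↦ (1:ℝ)) (T (k, u)) *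
        (Set.Ico 0 (1 / 2 : ℝ)).indicator (fun _ ↦ (1:ℝ)) (T (k, u'))) := by
    intro T
    rw [← sum_tw_sg_mul hG hp hD hu hu' σ, mul_sum, sum_mul]
    exact sum_congr rfl fun S _ ↦ by ring
  simp only [e2]
  rw [integral_const_mul, integral_eval2_W01 bm_ind_half bm_ind_half hni,
    integral_indicator_const _ measurableSet_Ico, u01_real_half, smul_eq_mul]
  ring

/-- The ball about `c` on its side of the edge `cx`. -/
noncomputable def sideBall (G : SimpleGraph V) [G.LocallyFinite] (c x : V) (K : ℕ) : Finset V :=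
  (range (K + 1)).biUnion (sideSph G c x)

lemma sum_sideBall (hG : G.IsTree) (f : V → ℝ) (c x : V) (K : ℕ) :
    ∑ u ∈ sideBall G c x K, f u = ∑ e ∈ range (K + 1), ∑ u ∈ sideSph G c x e, f u := by
  refine sum_biUnion fun a _ b _ hab ↦ Finset.disjoint_left.2 fun u hu hu' ↦ hab ?_
  rw [← ((mem_sideSph hG).1 hu).1, ((mem_sideSph hG).1 hu').1]

lemma mem_sideBall (hG : G.IsTree) {c x u : V} {K : ℕ} :
    u ∈ sideBall G c x K ↔ G.dist c u ≤ K ∧ OnSide G c x u := by
  simp only [sideBall, mem_biUnion, Finset.mem_range, mem_sideSph hG]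
  constructor
  · rintro ⟨e, he, h1, h2⟩; exact ⟨by omega, h2⟩
  · rintro ⟨h1, h2⟩; exact ⟨_, by omega, rfl, h2⟩

lemma sum_sideBall_sq (hG : G.IsTree) {d : ℕ} (hreg : G.IsRegularOfDegree d)
    (hb : ((d - 1 : ℕ) : ℝ) * θ ^ 2 = 1) {c x : V} (hcx : G.Adj c x) (K : ℕ) :
    ∑ u ∈ sideBall G c x K, θ ^ G.dist c u * θ ^ G.dist c u = (K + 1 : ℝ) := by
  rw [sum_sideBall hG]
  have : ∀ e, ∑ u ∈ sideSph G c x e, θ ^ G.dist c u * θ ^ G.dist c u = 1 := by
    intro e
    rw [sum_congr rfl (fun u hu ↦ by rw [((mem_sideSph hG).1 hu).1]), sum_const, nsmul_eq_mul,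
      card_sideSph hG hreg hcx, Nat.cast_pow, ← mul_pow, ← mul_pow, ← sq, hb, one_pow]
  simp [this]

lemma sum_sideBall_cross (hG : G.IsTree) (hp : Par θ) {d : ℕ} (hreg : G.IsRegularOfDegree d)
    (hb : ((d - 1 : ℕ) : ℝ) * θ ^ 2 = 1) {c x : V} (hcx : G.Adj c x) (K : ℕ) :
    ∀ (m : ℕ) (u : V), G.dist c u = m → m ≤ K → OnSide G c x u →
      ∑ w ∈ sideBall G c x K, θ ^ G.dist c w * θ ^ G.dist u w ≤
        (m + 1 : ℝ) * (K + 1) * θ ^ m := by
  intro m
  induction m with
  | zero =>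
    intro u hu _ _
    obtain rfl : c = u := (hG.connected c u).dist_eq_zero_iff.mp hu
    rw [sum_sideBall_sq hG hreg hb hcx]
    simp
  | succ m ih =>
    intro u hu hm hs
    have hu' : u ∈ sideSph G c x (m + 1) := (mem_sideSph hG).2 ⟨hu, hs⟩
    rw [sideSph_succ hG hcx, mem_biUnion] at hu'
    obtain ⟨q, hq, hqu⟩ := hu'
    simp only [farther, mem_filter, SimpleGraph.mem_neighborFinset] at hqu
    obtain ⟨hq1, hq2⟩ := (mem_sideSph hG).1 hq
    have hadj : G.Adj u q := hqu.1.symm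
    have hI := ih q hq1 (by omega) hq2
    classical
    rw [← sum_filter_add_sum_filter_not (sideBall G c x K) (fun w ↦ OnSide G u q w)]
    have hA : ∑ w ∈ (sideBall G c x K).filter (fun w ↦ OnSide G u q w),
        θ ^ G.dist c w * θ ^ G.dist u w ≤ θ ^ (m + 1) * (K + 1) := by
      have hc : ¬ OnSide G u q c := by unfold OnSide; omega
      have hd1 : ∀ w, OnSide G u q w → G.dist c w = m + 1 + G.dist u w := by
        intro w hw
        have := dist_cross hG hadj hw hc
        rw [SimpleGraph.dist_comm (u := w) (v := c), SimpleGraph.dist_comm (u := w) (v := u),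
          SimpleGraph.dist_comm (u := q) (v := c)] at this
        omega
      calc ∑ w ∈ (sideBall G c x K).filter (fun w ↦ OnSide G u q w),
            θ ^ G.dist c w * θ ^ G.dist u w
          = θ ^ (m + 1) * ∑ w ∈ (sideBall G c x K).filter (fun w ↦ OnSide G u q w),
              θ ^ G.dist u w * θ ^ G.dist u w := by
            rw [mul_sum]
            refine sum_congr rfl fun w hw ↦ ?_
            rw [hd1 w (mem_filter.1 hw).2, pow_add]
            ring
        _ ≤ θ ^ (m + 1) * ∑ w ∈ sideBall G u q K, θ ^ G.dist u w * θ ^ G.dist u w := by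
            refine mul_le_mul_of_nonneg_left (sum_le_sum_of_subset_of_nonneg ?_
              fun w _ _ ↦ mul_self_nonneg _) (pow_nonneg hp.nonneg _)
            intro w hw
            obtain ⟨h1, h2⟩ := mem_filter.1 hw
            have := ((mem_sideBall hG).1 h1).1
            rw [hd1 w h2] at this
            exact (mem_sideBall hG).2 ⟨by omega, h2⟩
        _ = _ := by rw [sum_sideBall_sq hG hreg hb hadj]
    have hB : ∑ w ∈ (sideBall G c x K).filter (fun w ↦ ¬ OnSide G u q w),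
        θ ^ G.dist c w * θ ^ G.dist u w ≤ θ * ((m + 1 : ℝ) * (K + 1) * θ ^ m) := by
      calc ∑ w ∈ (sideBall G c x K).filter (fun w ↦ ¬ OnSide G u q w),
            θ ^ G.dist c w * θ ^ G.dist u w
          = θ * ∑ w ∈ (sideBall G c x K).filter (fun w ↦ ¬ OnSide G u q w),
              θ ^ G.dist c w * θ ^ G.dist q w := by
            rw [mul_sum]
            refine sum_congr rfl fun w hw ↦ ?_
            have := not_onSide_eq hG hadj (mem_filter.1 hw).2
            rw [SimpleGraph.dist_comm (u := w), SimpleGraph.dist_comm (u := w)] at this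
            rw [this, pow_succ]
            ring
        _ ≤ θ * ∑ w ∈ sideBall G c x K, θ ^ G.dist c w * θ ^ G.dist q w :=
            mul_le_mul_of_nonneg_left (sum_le_sum_of_subset_of_nonneg (filter_subset _ _)
              fun w _ _ ↦ mul_nonneg (pow_nonneg hp.nonneg _) (pow_nonneg hp.nonneg _)) hp.nonneg
        _ ≤ _ := mul_le_mul_of_nonneg_left hI hp.nonneg
    refine (add_le_add hA hB).trans (le_of_eq ?_)
    push_cast
    ring

/-- At the threshold, weak observations in a subtree of depth `K` next to `x`, all revealed by time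
`t` with probability one half, give `E m_x² ≳ K s² / (1 + K² s²)`. -/
lemma second_moment_lower (hG : G.IsTree) (hp : Par θ) {d : ℕ} (_hd : 3 ≤ d)
    (hreg : G.IsRegularOfDegree d) (hb : ((d - 1 : ℕ) : ℝ) * θ ^ 2 = 1) {r v x c : V}
    {D : Finset V} (hD : Sub G D v) (hx : x ∈ D) (hcx : G.Adj c x) {K : ℕ}
    (hK : ∀ e ≤ K, sideSph G c x e ⊆ D) {n k : ℕ} (hk : k < n) {t : ℝ}
    (ht : σ.a k + σ.c k ≤ t) :
    θ ^ 2 / 64 * ((K + 1 : ℝ) * σ.s k ^ 2) / (1 + (K + 1 : ℝ) ^ 2 * σ.s k ^ 2) ≤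
      ∫ ω, pf G θ σ D (past n D (rT σ t) (vis σ ω).1) (vis σ ω).2 (fun S ↦ sg S x) ^ 2
        ∂Pm G θ r := by
  have := Pm_prob (G := G) hp r
  set A := sideBall G c x K with hA
  have hAD : A ⊆ D := Finset.biUnion_subset.2 fun e he ↦ hK e (by simp at he; omega)
  set Sf : Dat V → ℝ := fun p ↦ ∑ u ∈ A, θ ^ G.dist c u * obsInd k u p with hSf
  have hSfbm : BM Sf := BM.sum _ fun u _ ↦ (BM.const _).mul (bm_obsInd k u)
  set m : Om V → ℝ := fun ω ↦
    pf G θ σ D (past n D (rT σ t) (vis σ ω).1) (vis σ ω).2 (fun S ↦ sg S x) with hm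
  have hmbm : BM m := (bm_pf_past (G := G) (σ := σ) hp n D (rmeas_rT σ t)
    fun S ↦ (sg_abs S x).le).comp (measurable_vis σ)
  have hdep : ∀ T, Dep (fun y ↦ Sf (T, y)) (past n D (rT σ t) T) := by
    intro T y y' h
    refine sum_congr rfl fun u hu ↦ ?_
    simp only [obsInd]
    by_cases hT : T (k, u) ∈ Set.Ico (0:ℝ) (1 / 2)
    · have hlt : σ.c k * clock (T (k, u)) < σ.c k :=
        mul_lt_of_lt_one_right (σ.c_pos k) (clock_lt_one hT)
      rw [h (k, u) (mem_past.2 ⟨hk, hAD hu, by simp only [rT, tm]; linarith⟩)]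
    · simp only [Set.indicator_of_notMem hT, mul_zero]
  have hint : ∀ u, BM fun ω : Om V ↦ obsInd k u (vis σ ω) := fun u ↦
    (bm_obsInd k u).comp (measurable_vis σ)
  have hEA : ∫ ω, Sf (vis σ ω) * m ω ∂Pm G θ r = σ.s k / 6 * θ * (K + 1) := by
    rw [← orth_glob hG hp hD (rmeas_rT σ t) (fun S ↦ (sg_abs S x).le) hSfbm hdep]
    simp only [hSf, sum_mul, mul_assoc]
    rw [integral_finsetSum _ fun u _ ↦
      (((hint u).mul (bm_fconf (fun S ↦ (sg_abs S x).le) D)).integrable _).const_mul _]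
    calc ∑ u ∈ A, ∫ ω, θ ^ G.dist c u * (obsInd k u (vis σ ω) * sg (conf D ω.1) x) ∂Pm G θ r
        = ∑ u ∈ A, σ.s k / 6 * θ * (θ ^ G.dist c u * θ ^ G.dist c u) := by
          refine sum_congr rfl fun u hu ↦ ?_
          rw [integral_const_mul, integral_obsInd_spin hG hp hD hx (hAD hu)]
          have := onSide_eq hG hcx ((mem_sideBall hG).1 hu).2
          rw [SimpleGraph.dist_comm (u := u) (v := c)] at this
          rw [this, pow_succ]
          ring
      _ = _ := by rw [← mul_sum, sum_sideBall_sq hG hreg hb hcx]; ring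
  have hs2 : ∀ u ∈ A, ∀ w ∈ A,
      ∫ ω, obsInd k u (vis σ ω) * obsInd k w (vis σ ω) ∂Pm G θ r ≤
        (if u = w then 1 else 0) + σ.s k ^ 2 / 36 * θ ^ G.dist u w := by
    intro u hu w hw
    by_cases h : u = w
    · subst h
      have h1 : ∫ ω, obsInd k u (vis σ ω) * obsInd k u (vis σ ω) ∂Pm G θ r ≤ 1 := by
        refine le_trans (integral_mono (((hint u).mul (hint u)).integrable _)
          (integrable_const (1:ℝ)) fun ω ↦ ?_) (by simp)
        have := abs_le.1 (abs_obsInd k u (vis σ ω))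
        nlinarith
      have h0 : 0 ≤ σ.s k ^ 2 / 36 * θ ^ G.dist u u :=
        mul_nonneg (by positivity) (pow_nonneg hp.nonneg _)
      simp only [↓reduceIte]
      linarith
    · rw [integral_obsInd_mul hG hp hD (hAD hu) (hAD hw) h, if_neg h, zero_add]
  set L : ℝ := (K + 1 : ℝ) with hL
  have hL0 : 1 ≤ L := by simp [hL]
  have hEB : ∫ ω, Sf (vis σ ω) * Sf (vis σ ω) ∂Pm G θ r ≤ L * (1 + L ^ 2 * σ.s k ^ 2) := by
    have hbm2 : ∀ u w, BM fun ω : Om V ↦
        θ ^ G.dist c u * θ ^ G.dist c w * (obsInd k u (vis σ ω) * obsInd k w (vis σ ω)) :=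
      fun u w ↦ (BM.const _).mul ((hint u).mul (hint w))
    have e : ∀ ω : Om V, Sf (vis σ ω) * Sf (vis σ ω) = ∑ u ∈ A, ∑ w ∈ A,
        θ ^ G.dist c u * θ ^ G.dist c w * (obsInd k u (vis σ ω) * obsInd k w (vis σ ω)) := by
      intro ω
      simp only [hSf]
      rw [sum_mul_sum]
      exact sum_congr rfl fun u _ ↦ sum_congr rfl fun w _ ↦ by ring
    simp only [e]
    rw [integral_finsetSum _ fun u _ ↦ (BM.sum _ fun w _ ↦ hbm2 u w).integrable _]
    have step : ∀ u ∈ A, ∫ ω, ∑ w ∈ A,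
        θ ^ G.dist c u * θ ^ G.dist c w * (obsInd k u (vis σ ω) * obsInd k w (vis σ ω)) ∂Pm G θ r ≤
        θ ^ G.dist c u * θ ^ G.dist c u * (1 + σ.s k ^ 2 / 36 * (L * L)) := by
      intro u hu
      rw [integral_finsetSum _ fun w _ ↦ (hbm2 u w).integrable _]
      calc ∑ w ∈ A, ∫ ω,
            θ ^ G.dist c u * θ ^ G.dist c w * (obsInd k u (vis σ ω) * obsInd k w (vis σ ω))
              ∂Pm G θ r
          ≤ ∑ w ∈ A, θ ^ G.dist c u * θ ^ G.dist c w *
              ((if u = w then 1 else 0) + σ.s k ^ 2 / 36 * θ ^ G.dist u w) := by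
            refine sum_le_sum fun w hw ↦ ?_
            rw [integral_const_mul]
            exact mul_le_mul_of_nonneg_left (hs2 u hu w hw)
              (mul_nonneg (pow_nonneg hp.nonneg _) (pow_nonneg hp.nonneg _))
        _ = θ ^ G.dist c u * θ ^ G.dist c u +
              σ.s k ^ 2 / 36 * θ ^ G.dist c u *
                ∑ w ∈ A, θ ^ G.dist c w * θ ^ G.dist u w := by
            simp only [mul_add, sum_add_distrib, mul_ite, mul_one, mul_zero, sum_ite_eq, if_pos hu,
              mul_sum]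
            congr 1
            exact sum_congr rfl fun w _ ↦ by ring
        _ ≤ θ ^ G.dist c u * θ ^ G.dist c u +
              σ.s k ^ 2 / 36 * θ ^ G.dist c u * (L * L * θ ^ G.dist c u) := by
            obtain ⟨h1, h2⟩ := (mem_sideBall hG).1 hu
            refine (add_le_add_iff_left _).2 (mul_le_mul_of_nonneg_left
              ((sum_sideBall_cross hG hp hreg hb hcx K _ u rfl h1 h2).trans ?_)
              (mul_nonneg (by positivity) (pow_nonneg hp.nonneg _)))
            refine mul_le_mul_of_nonneg_right (mul_le_mul_of_nonneg_right ?_ (by linarith))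
              (pow_nonneg hp.nonneg _)
            rw [hL]
            exact_mod_cast Nat.succ_le_succ h1
        _ = _ := by ring
    refine (sum_le_sum step).trans ?_
    rw [← sum_mul, sum_sideBall_sq hG hreg hb hcx, ← hL]
    have : 0 ≤ L * (L * L * σ.s k ^ 2) := by positivity
    nlinarith
  set Q : ℝ := 1 + L ^ 2 * σ.s k ^ 2 with hQ
  have hQ0 : 0 < Q := by positivity
  set l : ℝ := θ * σ.s k / (6 * Q) with hl
  have hkey : 2 * l * (σ.s k / 6 * θ * L) - l ^ 2 * (L * Q) ≤ ∫ ω, m ω * m ω ∂Pm G θ r := by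
    have hbS : BM fun ω : Om V ↦ Sf (vis σ ω) := hSfbm.comp (measurable_vis σ)
    have h0 : 0 ≤ ∫ ω, (m ω * m ω - 2 * l * (Sf (vis σ ω) * m ω)) +
        l ^ 2 * (Sf (vis σ ω) * Sf (vis σ ω)) ∂Pm G θ r :=
      integral_nonneg fun ω ↦ by
        have : 0 ≤ (m ω - l * Sf (vis σ ω)) ^ 2 := sq_nonneg _
        simp only [Pi.zero_apply]
        nlinarith
    have i1 := (hmbm.mul hmbm).integrable (Pm G θ r)
    have i2 := ((hbS.mul hmbm).integrable (Pm G θ r)).const_mul (2 * l)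
    have i3 := ((hbS.mul hbS).integrable (Pm G θ r)).const_mul (l ^ 2)
    rw [integral_add (i1.sub' i2) i3, integral_sub i1 i2, integral_const_mul, integral_const_mul,
      hEA] at h0
    have := mul_le_mul_of_nonneg_left hEB (sq_nonneg l)
    nlinarith
  have e : 2 * l * (σ.s k / 6 * θ * L) - l ^ 2 * (L * Q) = θ ^ 2 / 36 * (L * σ.s k ^ 2) / Q := by
    rw [hl]
    field_simp
    ring
  rw [e] at hkey
  refine le_trans ?_ (hkey.trans (le_of_eq ?_))
  · refine div_le_div_of_nonneg_right (mul_le_mul_of_nonneg_right ?_ (by positivity)) hQ0.le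
    linarith [sq_nonneg θ]
  · simp only [hm, sq]

end Vale.Agent.P161.Crit
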