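import Mathlib
import Vale.Agent.P161.Crit.Decay
import Vale.Agent.P161.Crit.Lower
import Vale.Agent.P161.Crit.Scheme

/-!
Room for side subtrees inside a finite window, and the weak decay of products along paths,
uniformly in the window.
-/

namespace Vale.Agent.P161.Crit

open Finset MeasureTheory Filter

/-- The depth of side subtrees needed at scale `u`. -/
noncomputable def Kr (u : ℝ) : ℕ := ⌈4 / u ^ 16⌉₊ + 1

/-- The length beyond which products along paths are negligible. -/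
noncomputable def Kc (u : ℝ) : ℕ := ⌈8 / u ^ 20⌉₊

/-- The truncation length. -/
noncomputable def ell (u : ℝ) : ℕ := ⌈1 / u⌉₊

/-- The lower-bound constant. -/
noncomputable def cmu (θ : ℝ) : ℝ := (1 - θ ^ 2) * θ ^ 2 / 4096

lemma exists_small {θ : ℝ} (h0 : 0 ≤ θ) (h1 : θ < 1) (N : ℕ) {C : ℝ} (hC : 0 < C) :
    ∃ u1 : ℝ, 0 < u1 ∧ u1 ≤ 1 ∧ ∀ u, 0 < u → u ≤ u1 → θ ^ ell u ≤ C * u ^ N := by
  have h := tendsto_pow_const_mul_const_pow_of_lt_one N h0 h1
  obtain ⟨M, hM⟩ := eventually_atTop.1 (h.eventually (eventually_le_nhds hC))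
  refine ⟨1 / (M + 1), by positivity, by rw [div_le_one (by positivity)]; simp, fun u hu hu1 ↦ ?_⟩
  have hn : 1 / u ≤ (ell u : ℝ) := Nat.le_ceil _
  have hMu : (M : ℝ) + 1 ≤ 1 / u := by
    rw [le_div_iff₀ hu]; rw [le_div_iff₀ (by positivity)] at hu1; linarith
  have hMn : M ≤ ell u := by
    have : (M : ℝ) ≤ ell u := by linarith
    exact_mod_cast this
  have h2 := hM _ hMn
  have h3 : (1 / u) ^ N * θ ^ ell u ≤ C :=
    le_trans (mul_le_mul_of_nonneg_right (pow_le_pow_left₀ (by positivity) hn N) (pow_nonneg h0 _)) h2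
  rwa [div_pow, one_pow, div_mul_eq_mul_div, one_mul, div_le_iff₀ (pow_pos hu N)] at h3

lemma ell_bounds {u : ℝ} (h0 : 0 < u) (h1 : u ≤ 1) :
    1 ≤ ell u ∧ 1 / u ≤ (ell u : ℝ) ∧ (ell u : ℝ) ≤ 2 / u := by
  refine ⟨Nat.one_le_iff_ne_zero.2 fun h ↦ ?_, Nat.le_ceil _, ?_⟩
  · have := Nat.le_ceil (1 / u); rw [ell] at h; rw [h] at this; simp at this; linarith
  · have := (Nat.ceil_lt_add_one (show 0 ≤ 1 / u by positivity)).le
    have h2 : (1:ℝ) ≤ 1 / u := (one_le_div h0).2 h1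
    change ((⌈1 / u⌉₊ : ℕ) : ℝ) ≤ _
    rw [show 2 / u = 1 / u + 1 / u by ring]
    linarith

lemma Kr_le_Kc {u : ℝ} (h0 : 0 < u) (h1 : u ≤ 1) : Kr u + 2 ≤ Kc u := by
  have h2 : u ^ 20 ≤ u ^ 16 := pow_le_pow_of_le_one h0.le h1 (by norm_num)
  have h3 : (1:ℝ) ≤ 1 / u ^ 16 := (one_le_div (by positivity)).2 (pow_le_one₀ h0.le h1)
  have h4 := (Nat.ceil_lt_add_one (show (0:ℝ) ≤ 4 / u ^ 16 by positivity)).le
  have h5 : 8 / u ^ 16 ≤ 8 / u ^ 20 := div_le_div_of_nonneg_left (by norm_num) (by positivity) h2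
  have h6 := Nat.le_ceil (8 / u ^ 20)
  have : ((Kr u + 2 : ℕ) : ℝ) ≤ (Kc u : ℝ) := by
    simp only [Kr, Kc]
    push_cast
    have e4 : 4 / u ^ 16 = 4 * (1 / u ^ 16) := by ring
    have e8 : 8 / u ^ 16 = 8 * (1 / u ^ 16) := by ring
    linarith
  exact_mod_cast this

lemma sq_le_two_pow : ∀ n : ℕ, n ^ 2 ≤ 2 ^ (n + 1)
  | 0 => by norm_num
  | 1 => by norm_num
  | 2 => by norm_num
  | 3 => by norm_num
  | (n + 4) => by
    have := sq_le_two_pow (n + 3)
    have e : (2 : ℕ) ^ (n + 4 + 1) = 2 * 2 ^ (n + 3 + 1) := by ring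
    have h2 : (n + 4) ^ 2 ≤ 2 * (n + 3) ^ 2 := by
      simp only [sq]; nlinarith [Nat.zero_le n, Nat.zero_le (n * n)]
    rw [e]
    exact h2.trans (Nat.mul_le_mul_left 2 this)

/-- The level of strength `t = u^32` lies below `Kr u`. -/
lemma exists_level' {u : ℝ} (h0 : 0 < u) (h1 : u ≤ 1) :
    ∃ k, k < Kr u ∧ sch.a k + sch.c k ≤ u ^ 32 ∧ u ^ 32 / 16 ≤ sch.s k ^ 2 ∧
      sch.s k ^ 2 ≤ u ^ 32 / 4 := by
  have ht : 0 < u ^ 32 := by positivity
  obtain ⟨k, hk1, hk2, hk3⟩ := exists_level ht (pow_le_one₀ h0.le h1)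
  refine ⟨k, ?_, hk1, hk2, hk3⟩
  rcases Nat.even_or_odd' k with ⟨m, rfl | rfl⟩
  · obtain ⟨-, -, hs⟩ := sch_even m
    rw [hs] at hk2
    have h2 : u ^ 32 * 2 ^ (m + 1) ≤ 4 := by
      have h : u ^ 32 / 16 * 2 ^ (m + 1) ≤ (1 / 2 : ℝ) ^ (m + 1) / 4 * 2 ^ (m + 1) :=
        mul_le_mul_of_nonneg_right hk2 (by positivity)
      have e : (1 / 2 : ℝ) ^ (m + 1) * 2 ^ (m + 1) = 1 := by rw [← mul_pow]; norm_num
      linarith
    have h3 : ((2 * m : ℕ) : ℝ) ^ 2 ≤ (4 / u ^ 16) ^ 2 := by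
      rw [div_pow, ← pow_mul, le_div_iff₀ (by positivity)]
      have h4 : ((m : ℝ)) ^ 2 ≤ 2 ^ (m + 1) := by exact_mod_cast sq_le_two_pow m
      push_cast
      nlinarith
    have h5 : ((2 * m : ℕ) : ℝ) ≤ 4 / u ^ 16 :=
      (abs_le_abs_of_sq_le_sq_aux h3 (by positivity))
    have h6 : 2 * m ≤ ⌈4 / u ^ 16⌉₊ := by
      have := h5.trans (Nat.le_ceil _)
      exact_mod_cast this
    unfold Kr; omega
  · exfalso
    rw [(sch_odd m).1, (sch_odd m).2.1] at hk1
    linarith [pow_le_one₀ (n := 32) h0.le h1, (Nat.cast_nonneg m : (0:ℝ) ≤ m)]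
where
  abs_le_abs_of_sq_le_sq_aux {a b : ℝ} (h : a ^ 2 ≤ b ^ 2) (hb : 0 ≤ b) : a ≤ b :=
    (abs_le_of_sq_le_sq' h hb).2

variable {V : Type*} [DecidableEq V] {G : SimpleGraph V} [G.LocallyFinite] {θ : ℝ}

/-- The second moment of a truncated side posterior, given room below it. -/
lemma ta_lower (hG : G.IsTree) (hp : Par θ) {d : ℕ} (hd : 3 ≤ d)
    (hreg : G.IsRegularOfDegree d) (hb : ((d - 1 : ℕ) : ℝ) * θ ^ 2 = 1) {r o w : V} {n l i : ℕ}
    (ho : o ∈ ball G r n) (hw : w ∈ ball G r n) (hl : 1 ≤ l) (hli : l ≤ i) (hi : i < G.dist o w)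
    {u τ : ℝ} (hu : 0 < u) (hu1 : u ≤ 1) (hτ : u ^ 32 ≤ τ)
    (hroom : G.dist r (up G o w i) + Kr u + 2 ≤ n) :
    2 * cmu θ * u ^ 16 ≤ ∫ ω, (1 - θ ^ 2) *
      ta G θ sch n (ball G r n) (rT sch τ) o w l i (vis sch ω) ^ 2 ∂Pm G θ r := by
  have hD := sub_ball hG r n
  obtain ⟨c, hc1, hc2, hc3⟩ := exists_other hreg hd (up G o w i) (up G o w (i + 1))
    (up G o w (i - 1))
  obtain ⟨k, hk1, hk2, hk3, hk4⟩ := exists_level' hu hu1
  set K := ⌊1 / u ^ 16⌋₊ with hK
  have hKr : K + 1 ≤ Kr u := by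
    have : (K : ℝ) ≤ ⌈4 / u ^ 16⌉₊ := by
      refine (Nat.floor_le (by positivity)).trans (le_trans ?_ (Nat.le_ceil _))
      gcongr; norm_num
    have : K ≤ ⌈4 / u ^ 16⌉₊ := by exact_mod_cast this
    unfold Kr; omega
  have hsub := sub_seg hG hD ho hw hl hli hi
  have hsph : ∀ e ≤ K, sideSph G c (up G o w i) e ⊆ seg G (ball G r n) o w l i := by
    intro e he z hz
    obtain ⟨hz1, hz2⟩ := (mem_sideSph hG).1 hz
    have hzb : z ∈ ball G r n := by
      refine sideSph_subset_ball hG (r := r) (m := n) ?_ hz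
      have h1 := hG.connected.dist_triangle (u := r) (v := up G o w i) (w := c)
      rw [SimpleGraph.dist_eq_one_iff_adj.2 hc1] at h1
      omega
    refine mem_sideF.2 ⟨mem_sideF.2 ⟨hzb, onSide_nest hG hc1.symm (up_adj hG hi) hc2 hz2⟩, ?_⟩
    rw [onSide_comm hG (up_adj hG (o := o) (w := w) (i := i - l) (by omega))]
    intro h
    have h2 := onSide_up_mono hG (j := i - 1) (by omega) (by omega) h
    have ha := up_adj hG (o := o) (w := w) (i := i - 1) (by omega)
    rw [show i - 1 + 1 = i by omega] at h2 ha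
    exact onSide_disjoint hG hc1.symm ha hc3 hz2 h2
  have h := second_moment_lower (σ := sch) hG hp hd hreg hb (r := r) hsub
    (up_mem_seg hG hD ho hw hl hli hi) hc1.symm (K := K) hsph (n := n) (k := k) (by omega)
    (t := τ) (hk2.trans hτ)
  rw [integral_const_mul]
  refine le_trans ?_ (mul_le_mul_of_nonneg_left h (by nlinarith [hp.nonneg, hp.lt_one]))
  have hK1 : 1 / u ^ 16 ≤ (K + 1 : ℝ) := (Nat.lt_floor_add_one _).le
  have hK2 : (K + 1 : ℝ) ≤ 2 / u ^ 16 := by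
    have h1 : (1:ℝ) ≤ 1 / u ^ 16 := (one_le_div (by positivity)).2 (pow_le_one₀ hu.le hu1)
    have h2 := Nat.floor_le (show 0 ≤ 1 / u ^ 16 by positivity)
    rw [show 2 / u ^ 16 = 1 / u ^ 16 + 1 / u ^ 16 by ring]
    linarith
  have hnum : u ^ 16 / 16 ≤ (K + 1 : ℝ) * sch.s k ^ 2 := by
    calc u ^ 16 / 16 = 1 / u ^ 16 * (u ^ 32 / 16) := by field_simp
      _ ≤ _ := mul_le_mul hK1 hk3 (by positivity) (by positivity)
  have hden : 1 + (K + 1 : ℝ) ^ 2 * sch.s k ^ 2 ≤ 2 := by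
    have : (K + 1 : ℝ) ^ 2 * sch.s k ^ 2 ≤ (2 / u ^ 16) ^ 2 * (u ^ 32 / 4) :=
      mul_le_mul (pow_le_pow_left₀ (by positivity) hK2 2) hk4 (sq_nonneg _) (by positivity)
    have e : (2 / u ^ 16) ^ 2 * (u ^ 32 / 4) = 1 := by field_simp; norm_num
    linarith
  have hκ : 0 ≤ 1 - θ ^ 2 := by nlinarith [hp.nonneg, hp.lt_one]
  calc 2 * cmu θ * u ^ 16 = (1 - θ ^ 2) * (θ ^ 2 / 64 * (u ^ 16 / 16) / 2) := by unfold cmu; ring
    _ ≤ _ := by
      refine mul_le_mul_of_nonneg_left ?_ hκ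
      exact div_le_div₀ (by positivity) (mul_le_mul_of_nonneg_left hnum (by positivity))
        (by positivity) hden

/-- Products along long paths decay, uniformly in the window. -/
lemma pi_decay_weak (hG : G.IsTree) (hp : Par θ) {d : ℕ} (hd : 3 ≤ d)
    (hreg : G.IsRegularOfDegree d) (hb : ((d - 1 : ℕ) : ℝ) * θ ^ 2 = 1) :
    ∃ u1 : ℝ, 0 < u1 ∧ u1 ≤ 1 ∧ ∀ {r o w : V} {n : ℕ} {u τ : ℝ}, 0 < u → u ≤ u1 → u ^ 32 ≤ τ →
      o ∈ ball G r n → w ∈ ball G r n → 2 * G.dist r o + 8 * Kc u < G.dist o w →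
      ∫ ω, prodPsi G θ sch (ball G r n) (past n (ball G r n) (rT sch τ) (vis sch ω).1)
          (vis sch ω).2 o w (G.dist o w) ∂Pm G θ r ≤
        Real.exp (-(cmu θ / 64 * u ^ 17 * G.dist o w)) := by
  have hκ : 0 < 1 - θ ^ 2 := by nlinarith [hp.nonneg, hp.lt_one]
  have hθ : 0 < θ := by
    rcases lt_or_eq_of_le hp.nonneg with h | h
    · exact h
    · rw [← h] at hb; simp at hb
  have hcmu : 0 < cmu θ := by unfold cmu; positivity
  obtain ⟨u1, hu1, hu11, hsmall⟩ := exists_small hp.nonneg hp.lt_one 16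
    (C := cmu θ / 8 * (1 - θ) / 2) (by have := hp.lt_one; have : 0 < 1 - θ := by linarith
                                       positivity)
  refine ⟨u1, hu1, hu11, fun {r o w n u τ} hu hule hτ ho hw hk ↦ ?_⟩
  have := Pm_prob (G := G) hp r
  have hu1' : u ≤ 1 := hule.trans hu11
  have hD := sub_ball hG r n
  obtain ⟨hl, hl1, hl2⟩ := ell_bounds hu hu1'
  set k := G.dist o w with hkdef
  set k2 := k / 2
  set l := ell u
  have hKK := Kr_le_Kc hu hu1'
  have hlK : 2 * l ≤ Kr u := by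
    have h : ((2 * l : ℕ) : ℝ) ≤ (⌈4 / u ^ 16⌉₊ : ℝ) := by
      refine le_trans ?_ (Nat.le_ceil _)
      push_cast
      refine (mul_le_mul_of_nonneg_left hl2 zero_le_two).trans ?_
      rw [mul_div, div_le_div_iff₀ hu (by positivity)]
      nlinarith [pow_le_pow_of_le_one hu.le hu1' (show 1 ≤ 16 by norm_num)]
    have : 2 * l ≤ ⌈4 / u ^ 16⌉₊ := by exact_mod_cast h
    unfold Kr; omega
  have hrw : G.dist r w ≤ n := (mem_ball hG).1 hw
  have hkn : k ≤ G.dist r o + G.dist r w := by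
    have := hG.connected.dist_triangle (u := o) (v := r) (w := w)
    rwa [SimpleGraph.dist_comm (u := o) (v := r)] at this
  set w' := up G o w k2 with hw'
  have hw'mem : w' ∈ ball G r n := up_mem hG hD ho hw k2 (by omega)
  have hdw' : G.dist o w' = k - k2 := dist_up hG k2 (by omega)
  have hshift : ∀ i, up G o w' i = up G o w (k2 + i) := fun i ↦ by
    simp only [hw', up, ← Function.iterate_add_apply, add_comm k2 i]
  have hroom : ∀ i < k - k2, G.dist r (up G o w' i) + Kr u + 2 ≤ n := by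
    intro i hi
    rw [hshift]
    have := dist_root_up_le hG (o := o) (w := w) r (i := k2 + i) (by omega)
    omega
  set D := ball G r n
  set R : Rule V := rT sch τ
  set lam := 1 / (2 * (l:ℝ))
  have hl0 : (0:ℝ) < l := by exact_mod_cast hl
  have hlam0 : 0 ≤ lam := by positivity
  have hlam1 : lam ≤ 1 := by
    have : (1:ℝ) ≤ l := by exact_mod_cast hl
    rw [div_le_one (by positivity)]; linarith
  set err := 2 * θ ^ l / (1 - θ) with herr
  have h1θ : 0 < 1 - θ := by linarith [hp.lt_one]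
  have hpt : ∀ p : Dat V, prodPsi G θ sch D (past n D R p.1) p.2 o w k ≤
      Real.exp (lam * ((k - k2 : ℕ) : ℝ) * err) * Real.exp (-(lam * ∑ i ∈ Ico l (k - k2),
        min ((1 - θ ^ 2) * ta G θ sch n D R o w' l i p ^ 2) 1)) := by
    intro p
    rw [← Real.exp_add, prodPsi]
    set g := fun i ↦ psi θ (sd G θ sch D (past n D R p.1) p.2 (up G o w i) (up G o w (i + 1)))
    have hg0 : ∀ i, 0 ≤ g i := fun i ↦ psi_nonneg hp (abs_sd hp _ _ _ _ _)
    have hg1 : ∀ i, g i ≤ 1 := fun i ↦ psi_le_one hp (abs_sd hp _ _ _ _ _)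
    set J := (Ico l (k - k2)).image fun i ↦ k2 + i
    have hJ : J ⊆ range k := by
      intro j hj
      obtain ⟨i, hi, rfl⟩ := Finset.mem_image.1 hj
      have := Finset.mem_Ico.1 hi
      exact Finset.mem_range.2 (by omega)
    calc ∏ i ∈ range k, g i ≤ ∏ i ∈ J, g i := by
          rw [← prod_sdiff hJ]
          exact mul_le_of_le_one_left (prod_nonneg fun i _ ↦ hg0 i)
            (prod_le_one (fun i _ ↦ hg0 i) fun i _ ↦ hg1 i)
      _ = ∏ i ∈ Ico l (k - k2), g (k2 + i) := prod_image fun a _ b _ h ↦ by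
          simpa using h
      _ ≤ ∏ i ∈ Ico l (k - k2),
            Real.exp (lam * (err - min ((1 - θ ^ 2) * ta G θ sch n D R o w' l i p ^ 2) 1)) := by
          refine prod_le_prod (fun i _ ↦ hg0 _) fun i hi ↦ ?_
          obtain ⟨hi1, hi2⟩ := Finset.mem_Ico.1 hi
          refine (psi_le_exp hp (abs_sd hp _ _ _ _ _)).trans (Real.exp_le_exp.2 ?_)
          have h := abs_sd_sub_ta (σ := sch) hG hD ho hw'mem (l := l) (i := i) hl hi1
            (hdw' ▸ hi2) hp n R p
          rw [hshift i, hshift (i + 1), ← add_assoc k2 i 1] at h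
          set a := sd G θ sch D (past n D R p.1) p.2 (up G o w (k2 + i)) (up G o w (k2 + i + 1))
          set a' := ta G θ sch n D R o w' l i p
          have ha : |a| ≤ 1 := abs_sd hp _ _ _ _ _
          have ha' : |a'| ≤ 1 := abs_ta hp _ _ _ _ _ _ _
          have hd : a' ^ 2 - a ^ 2 ≤ err := by
            rw [herr, mul_div_assoc]
            calc a' ^ 2 - a ^ 2 = (a' - a) * (a' + a) := by ring
              _ ≤ |a' - a| * |a' + a| := by rw [← abs_mul]; exact le_abs_self _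
              _ ≤ θ ^ l / (1 - θ) * 2 := mul_le_mul (by rwa [abs_sub_comm])
                  ((abs_add_le _ _).trans (by linarith)) (abs_nonneg _) (by positivity)
              _ = _ := by ring
          have herr0 : 0 ≤ err := by rw [herr]; positivity
          have hκ1 : 1 - θ ^ 2 ≤ 1 := by nlinarith
          have hq : min ((1 - θ ^ 2) * a' ^ 2) 1 ≤ (1 - θ ^ 2) * a ^ 2 + err :=
            (min_le_left _ _).trans (by nlinarith [sq_nonneg a])
          have h1 := mul_le_mul_of_nonneg_left hq hlam0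
          have h2 : lam * ((1 - θ ^ 2) * a ^ 2) ≤ (1 - θ ^ 2) * a ^ 2 :=
            mul_le_of_le_one_left (mul_nonneg hκ.le (sq_nonneg a)) hlam1
          linarith
      _ ≤ _ := by
          rw [← Real.exp_sum]
          simp only [mul_sub, sum_sub_distrib, ← mul_sum, sum_const, Nat.card_Ico, nsmul_eq_mul]
          refine Real.exp_le_exp.2 ?_
          have herr0 : 0 ≤ err := by rw [herr]; positivity
          have hc : ((k - k2 - l : ℕ) : ℝ) ≤ ((k - k2 : ℕ) : ℝ) := by exact_mod_cast Nat.sub_le _ _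
          nlinarith [mul_le_mul_of_nonneg_right hc (mul_nonneg hlam0 herr0)]
  have hdec := decay_ta (σ := sch) (n := n) hG hp (r := r) hD ho hw'mem (R := R) (rmeas_rT sch τ)
    (rlocal_rT sch τ) (l := l) (k := k - k2) (τr := 1) (lam := lam)
    (μ := 2 * cmu θ * u ^ 16) hl (le_of_eq hdw'.symm) zero_le_one hlam0
    (by simp only [lam]; field_simp; norm_num) (by positivity) (fun i hi1 hi2 ↦ by
      refine (ta_lower hG hp hd hreg hb ho hw'mem hl hi1 (hdw' ▸ hi2) hu hu1' hτ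
        (hroom i hi2)).trans (le_of_eq (integral_congr_ae (.of_forall fun ω ↦ ?_)))
      have := abs_le.1 (abs_ta (σ := sch) (G := G) (D := D) hp n R o w' l i (vis sch ω))
      refine (min_eq_left ?_).symm
      refine mul_le_one₀ (by nlinarith [sq_nonneg θ]) (sq_nonneg _) ?_
      rw [sq_le_one_iff_abs_le_one]
      exact abs_ta hp _ _ _ _ _ _ _)
  have hbm : BM fun p : Dat V ↦ prodPsi G θ sch D (past n D R p.1) p.2 o w k := by
    refine ⟨Finset.measurable_prod _ fun i _ ↦ ?_, 1, fun p ↦ ?_⟩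
    · unfold psi sd
      simp only [sideI_past]
      have := measurable_pf_past (G := G) (θ := θ) (σ := sch) n
        (sideF G D (up G o w i) (up G o w (i + 1))) (rmeas_rT (V := V) sch τ)
        fun S ↦ sg S (up G o w i)
      fun_prop
    · obtain ⟨h0, h1⟩ := prodPsi_mem (G := G) (σ := sch) hp D (past n D R p.1) p.2 o w k
      rwa [abs_of_nonneg h0]
  refine (integral_mono ((hbm.comp (measurable_vis sch)).integrable _) (Integrable.const_mul ?_ _)
    fun ω ↦ hpt _).trans ?_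
  · refine Integrable.of_bound (((Finset.measurable_sum _ fun i _ ↦ ?_).const_mul _).neg.exp
      ).aestronglyMeasurable 1 (.of_forall fun ω ↦ ?_)
    · exact ((((bm_ta (σ := sch) hp n (rmeas_rT sch τ) o w' l i).1.pow_const 2).const_mul _).min
        measurable_const).comp (measurable_vis sch)
    · rw [Real.norm_eq_abs, abs_of_pos (Real.exp_pos _), Real.exp_le_one_iff, neg_nonpos]
      exact mul_nonneg hlam0 (sum_nonneg fun i _ ↦
        le_min (mul_nonneg hκ.le (sq_nonneg _)) zero_le_one)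
  rw [integral_const_mul]
  refine (mul_le_mul_of_nonneg_left hdec (Real.exp_pos _).le).trans ?_
  rw [← Real.exp_add]
  refine Real.exp_le_exp.2 ?_
  have hk' : (k : ℝ) ≤ 2 * ((k - k2 : ℕ) : ℝ) := by
    have : k ≤ 2 * (k - k2) := by omega
    exact_mod_cast this
  have hk8 : 8 * (l : ℝ) ≤ ((k - k2 : ℕ) : ℝ) := by
    have : 8 * l ≤ k - k2 := by omega
    exact_mod_cast this
  have herr2 : err ≤ cmu θ * u ^ 16 / 8 := by
    have := hsmall u hu hule
    rw [herr, div_le_iff₀ h1θ]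
    linarith
  set kk := ((k - k2 : ℕ) : ℝ)
  have hkk0 : 0 ≤ kk := Nat.cast_nonneg _
  have hlamu : u / 4 ≤ lam := by
    rw [le_div_iff₀ (by positivity)]
    rw [le_div_iff₀ hu] at hl2
    linarith
  have hX : 0 ≤ cmu θ * u ^ 16 := by positivity
  have hA : lam * kk * err ≤ lam * kk * (cmu θ * u ^ 16 / 8) :=
    mul_le_mul_of_nonneg_left herr2 (by positivity)
  have hB : 3 / 4 * (cmu θ * u ^ 16) * lam * kk ≤
      lam * (2 * cmu θ * u ^ 16) * (kk - 2 * l) / 2 := by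
    nlinarith [mul_le_mul_of_nonneg_left hk8 (mul_nonneg hlam0 hX)]
  have hC : cmu θ / 64 * u ^ 17 * k ≤ (cmu θ * u ^ 16) / 8 * lam * kk := by
    calc cmu θ / 64 * u ^ 17 * k ≤ cmu θ / 64 * u ^ 17 * (2 * kk) :=
          mul_le_mul_of_nonneg_left hk' (by positivity)
      _ = (cmu θ * u ^ 16) / 8 * (u / 4) * kk := by ring
      _ ≤ _ := by gcongr
  have h5 : 0 ≤ (cmu θ * u ^ 16) * lam * kk := by positivity
  linarith

end Vale.Agent.P161.Crit
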