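import Mathlib
import Vale.Agent.P161.Crit.Room
import Vale.Agent.P161.Crit.Telescope
import Vale.Agent.P161.Crit.Window

/-!
All even moments of the fluctuation of posterior means at small times.
-/

namespace Vale.Agent.P161.Crit

open Finset MeasureTheory Filter

variable {V : Type*} [DecidableEq V] {G : SimpleGraph V} {θ : ℝ}

/-- The second-order remainder of a binomial expansion. -/
lemma pow_taylor (p : ℕ) (m h : ℝ) :
    (m + h) ^ (2 * p + 2) - m ^ (2 * p + 2) ≤ ((2 * p + 2 : ℕ) : ℝ) * (m ^ (2 * p + 1) * h) +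
      4 ^ (p + 1) * (m ^ (2 * p) * h ^ 2 + h ^ (2 * p + 2)) := by
  set n := 2 * p with hn
  rw [add_comm m h, add_pow, sum_range_succ', sum_range_succ']
  simp only [pow_zero, zero_add, pow_one, Nat.sub_zero, Nat.choose_zero_right, Nat.cast_one,
    Nat.choose_one_right, mul_one, one_mul]
  rw [show n + 2 - 1 = n + 1 by omega]
  have key : ∀ i ∈ range (n + 1),
      h ^ (i + 1 + 1) * m ^ (n + 2 - (i + 1 + 1)) * ((n + 2).choose (i + 1 + 1) : ℝ) ≤
        ((n + 2).choose (i + 1 + 1) : ℝ) * (m ^ n * h ^ 2 + h ^ (n + 2)) := by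
    intro i hi
    have hi' := Finset.mem_range.1 hi
    rw [mul_comm]
    refine mul_le_mul_of_nonneg_left ((le_abs_self _).trans ?_) (Nat.cast_nonneg _)
    have e1 : m ^ n = |m| ^ n := by rw [hn, Even.pow_abs ⟨p, by ring⟩]
    have e2 : h ^ (n + 2) = |h| ^ (n + 2) := by rw [hn, Even.pow_abs ⟨p + 1, by ring⟩]
    rw [abs_mul, abs_pow, abs_pow, e1, e2, ← sq_abs h, show n + 2 - (i + 1 + 1) = n - i by omega]
    have a0 := abs_nonneg h
    have b0 := abs_nonneg m
    rcases le_total |h| |m| with hle | hle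
    · refine le_add_of_le_of_nonneg ?_ (pow_nonneg a0 _)
      calc |h| ^ (i + 1 + 1) * |m| ^ (n - i) = |h| ^ i * |m| ^ (n - i) * |h| ^ 2 := by ring
        _ ≤ |m| ^ i * |m| ^ (n - i) * |h| ^ 2 := by gcongr
        _ = |m| ^ n * |h| ^ 2 := by rw [← pow_add, show i + (n - i) = n by omega]
    · refine le_add_of_nonneg_of_le (by positivity) ?_
      calc |h| ^ (i + 1 + 1) * |m| ^ (n - i) ≤ |h| ^ (i + 1 + 1) * |h| ^ (n - i) := by gcongr
        _ = |h| ^ (n + 2) := by rw [← pow_add]; congr 1; omega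
  have hchoose : ∑ i ∈ range (n + 1), ((n + 2).choose (i + 1 + 1) : ℝ) ≤ 4 ^ (p + 1) := by
    have e : ((2 : ℕ) : ℝ) ^ (n + 2) = ∑ i ∈ range (n + 2 + 1), ((n + 2).choose i : ℝ) := by
      rw [← Nat.cast_pow, ← Nat.sum_range_choose (n + 2)]; push_cast; rfl
    rw [sum_range_succ', sum_range_succ'] at e
    have e4 : ((2 : ℕ) : ℝ) ^ (n + 2) = 4 ^ (p + 1) := by
      rw [show n + 2 = 2 * (p + 1) by omega, pow_mul]; norm_num
    have h0 : (0:ℝ) ≤ ((n + 2).choose (0 + 1) : ℝ) + ((n + 2).choose 0 : ℝ) := by positivity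
    linarith
  have := (sum_le_sum key).trans_eq (sum_mul _ _ _).symm
  have := this.trans (mul_le_mul_of_nonneg_right hchoose
    (add_nonneg ((even_two_mul p).pow_nonneg m |>.trans_eq (by rw [hn]) |>
      fun h0 ↦ mul_nonneg h0 (sq_nonneg h)) (by rw [hn]; exact (even_two_mul (p + 1)).pow_nonneg h)))
  have e : ∀ x ∈ range (n + 1), h ^ (x + 1 + 1) * m ^ (n + 2 - (x + 1 + 1)) *
      ((n + 2).choose (x + 1 + 1) : ℝ) =
      h ^ (x + 1 + 1) * m ^ (n - x) * ((n + 2).choose (x + 1 + 1) : ℝ) := fun x _ ↦ by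
    rw [show n + 2 - (x + 1 + 1) = n - x by omega]
  rw [sum_congr rfl e] at this
  push_cast
  simp only [Nat.add_sub_add_right] at *
  linarith

lemma sch_a_pos (k : ℕ) : 0 < sch.a k := by
  rcases Nat.even_or_odd' k with ⟨m, rfl | rfl⟩
  · rw [(sch_even m).1]; positivity
  · rw [(sch_odd m).1]; positivity

lemma sch_sq_pos_le {k : ℕ} {v : ℝ} (h : sch.a k < v) : 4 * sch.s k ^ 2 ≤ v := by
  linarith [sch_sq_le h, min_le_right (1:ℝ) v]

/-- The free posterior mean. -/
lemma pf_empty (hG : G.IsTree) {σ : Sch} {D : Finset V} {v : V} (hD : Sub G D v) (y : Ix V → ℝ)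
    (f : Finset V → ℝ) : pf G θ σ D ∅ y f = ∑ S ∈ D.powerset, tw G θ D S * f S := by
  simp [pf, pS, lik, sum_tw hG θ hD]

/-- An observable near the root, with a choice of endpoint for every vertex. -/
structure Near (G : SimpleGraph V) (θ : ℝ) (D : Finset V) (g : Finset V → ℝ) (c : ℝ) (o₁ o₂ : V)
    (nr : V → V) : Prop where
  abs_g : ∀ S, |g S| ≤ 1
  abs_c : |c| ≤ 1
  prior : ∀ y, pf G θ sch D ∅ y g = c
  mem₁ : o₁ ∈ D
  mem₂ : o₂ ∈ D
  sel : ∀ w, nr w = o₁ ∨ nr w = o₂
  cov : ∀ (P : Finset (Ix V)) (y : Ix V → ℝ) (w : V), (∀ i ∈ P, i.2 ∈ D) → w ∈ D →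
    |cv G θ sch D P y g (fun S ↦ sg S w)| ≤
      θ ^ G.dist (nr w) w * prodPsi G θ sch D P y (nr w) w (G.dist (nr w) w)

lemma near_site (hG : G.IsTree) (hp : Par θ) {D : Finset V} {v o : V} (hD : Sub G D v)
    (ho : o ∈ D) : Near G θ D (fun S ↦ sg S o) 0 o o fun _ ↦ o where
  abs_g S := (sg_abs S o).le
  abs_c := by simp
  prior y := by
    have h := pf_spin_flip (G := G) (θ := θ) (σ := sch) (D := D) (P := ∅) (by simp) y ho
    rw [pf_empty hG hD, pf_empty hG hD] at h
    rw [pf_empty hG hD]; linarith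
  mem₁ := ho
  mem₂ := ho
  sel _ := Or.inl rfl
  cov P y w hP hw := by
    have h := cv_path (σ := sch) hG hp hD ho hP y (loc_sg o) (B := {o}) (by simpa using ho) _ w rfl
      hw (fun z hz i hi ↦ by
        rw [Finset.mem_singleton] at hz
        subst hz
        rw [← onSide_comm hG (up_adj hG hi)]
        exact onSide_up_right hG hi)
    obtain ⟨h0, -⟩ := prodPsi_mem (G := G) (σ := sch) hp D P y o w (G.dist o w)
    rw [h, abs_mul, abs_of_nonneg (mul_nonneg (pow_nonneg hp.nonneg _) h0)]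
    exact mul_le_of_le_one_right (mul_nonneg (pow_nonneg hp.nonneg _) h0)
      (abs_cv_le' hp D P y o fun S ↦ (sg_abs S o).le)

/-- The far endpoint of an edge is not met on the way to the near one. -/
lemma side_away (hG : G.IsTree) {e o w : V} (he : G.Adj e o) (hw : OnSide G o e w) :
    ∀ i < G.dist o w, ¬ OnSide G (up G o w i) (up G o w (i + 1)) e := by
  intro i hi h
  have hadj := up_adj hG (o := o) (w := w) hi
  have ho : ¬ OnSide G (up G o w i) (up G o w (i + 1)) o :=
    (onSide_comm hG hadj).1 (onSide_up_right hG hi)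
  obtain ⟨e1, e2⟩ := cross_unique hG hadj h ho he
  have hwl := onSide_up_left hG (o := o) (w := w) hi
  rw [← e1, ← e2] at hwl
  exact (onSide_comm hG he).1 hw hwl

open Classical in
lemma near_pair (hG : G.IsTree) (hp : Par θ) {D : Finset V} {v o e : V} (hD : Sub G D v)
    (ho : o ∈ D) (he : e ∈ D) (h : G.Adj e o) :
    Near G θ D (fun S ↦ sg S e * sg S o) θ e o fun w ↦ if OnSide G e o w then e else o where
  abs_g S := by simp [abs_mul, sg_abs]
  abs_c := by rw [abs_of_nonneg hp.nonneg]; exact hp.lt_one.le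
  prior y := by
    rw [pf_empty hG hD, sum_tw_sg_mul hG hp hD he ho sch, SimpleGraph.dist_eq_one_iff_adj.2 h,
      pow_one]
  mem₁ := he
  mem₂ := ho
  sel w := by split_ifs <;> simp
  cov P y w hP hw := by
    have key : ∀ a b, a ∈ D → b ∈ D → G.Adj b a → OnSide G a b w →
        (fun S ↦ sg S e * sg S o) = (fun S ↦ sg S b * sg S a) →
        |cv G θ sch D P y (fun S ↦ sg S e * sg S o) (fun S ↦ sg S w)| ≤
          θ ^ G.dist a w * prodPsi G θ sch D P y a w (G.dist a w) := by
      intro a b ha hb hba hwa eg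
      rw [eg]
      have h1 := cv_path (σ := sch) hG hp hD ha hP y (loc_sg_mul b a) (B := {b, a})
        (by intro z hz; rcases Finset.mem_insert.1 hz with rfl | hz
            · exact hb
            · rw [Finset.mem_singleton.1 hz]; exact ha) _ w rfl hw
        (fun z hz i hi ↦ by
          rcases Finset.mem_insert.1 hz with rfl | hz
          · exact side_away hG hba hwa i hi
          · rw [Finset.mem_singleton.1 hz]
            exact (onSide_comm hG (up_adj hG hi)).1 (onSide_up_right hG hi))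
      obtain ⟨h0, -⟩ := prodPsi_mem (G := G) (σ := sch) hp D P y a w (G.dist a w)
      rw [h1, abs_mul, abs_of_nonneg (mul_nonneg (pow_nonneg hp.nonneg _) h0)]
      exact mul_le_of_le_one_right (mul_nonneg (pow_nonneg hp.nonneg _) h0)
        (abs_cv_le' hp D P y a fun S ↦ by simp [abs_mul, sg_abs])
    split_ifs with hs
    · exact key e o he ho h.symm hs (by funext S; ring)
    · exact key o e ho he h ((onSide_comm hG h).2 hs) rfl

variable [G.LocallyFinite]

/-- Summing a function of the distance against `θ ^ (2 * dist)`. -/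
lemma sum_by_dist (hG : G.IsTree) {d : ℕ} (hd : 3 ≤ d) (hreg : G.IsRegularOfDegree d)
    (hb : ((d - 1 : ℕ) : ℝ) * θ ^ 2 = 1) (o : V) (D : Finset V) {f : ℕ → ℝ} (hf : ∀ k, 0 ≤ f k)
    {S : ℝ} (hS : ∀ M, ∑ k ∈ range M, f k ≤ S) :
    ∑ w ∈ D, (θ ^ 2) ^ G.dist o w * f (G.dist o w) ≤ 2 * S := by
  set M := D.sup (G.dist o) + 1
  rw [← sum_fiberwise_of_maps_to (g := G.dist o) (t := range M)
    (fun w hw ↦ Finset.mem_range.2 (Nat.lt_succ_of_le (le_sup hw)))]
  refine le_trans (sum_le_sum fun k _ ↦ ?_)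
    ((mul_sum (range M) f 2).symm.trans_le (by linarith [hS M]))
  rw [sum_congr rfl (g := fun _ ↦ (θ ^ 2) ^ k * f k) fun w hw ↦ by rw [(mem_filter.1 hw).2],
    sum_const, nsmul_eq_mul]
  have hbk : ((d - 1 : ℕ) : ℝ) ^ k * (θ ^ 2) ^ k = 1 := by rw [← mul_pow, hb, one_pow]
  have hc : ((D.filter fun w ↦ G.dist o w = k).card : ℝ) ≤ 2 * ((d - 1 : ℕ) : ℝ) ^ k := by
    cases k with
    | zero =>
      have : (D.filter fun w ↦ G.dist o w = 0).card ≤ 1 :=
        card_le_one.2 fun a ha a' ha' ↦ by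
          rw [← (hG.connected o a).dist_eq_zero_iff.1 (mem_filter.1 ha).2,
            ← (hG.connected o a').dist_eq_zero_iff.1 (mem_filter.1 ha').2]
      have h1 : ((D.filter fun w ↦ G.dist o w = 0).card : ℝ) ≤ 1 := by exact_mod_cast this
      simpa using h1.trans (by norm_num : (1:ℝ) ≤ 2)
    | succ k =>
      have : (D.filter fun w ↦ G.dist o w = k + 1).card ≤ 2 * (d - 1) ^ (k + 1) := by
        refine (card_le_card fun w hw ↦ (mem_sphere hG o (k + 1) w).2 (mem_filter.1 hw).2).trans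
          ((card_sphere hG hreg o k).trans ?_)
        rw [pow_succ, ← mul_assoc, mul_comm (2 * (d - 1) ^ k), ← mul_assoc]
        exact Nat.mul_le_mul_right _ (by omega)
      exact_mod_cast this
  calc ((D.filter fun w ↦ G.dist o w = k).card : ℝ) * ((θ ^ 2) ^ k * f k)
      ≤ 2 * ((d - 1 : ℕ) : ℝ) ^ k * ((θ ^ 2) ^ k * f k) :=
        mul_le_mul_of_nonneg_right hc (mul_nonneg (pow_nonneg (sq_nonneg θ) _) (hf k))
    _ = 2 * f k := by rw [mul_assoc, ← mul_assoc (((d - 1 : ℕ) : ℝ) ^ k), hbk, one_mul]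

/-- Geometric tails beyond the cutoff are negligible. -/
lemma tail_le {a : ℝ} (ha : 0 < a) (K M : ℕ) :
    ∑ k ∈ (range M).filter (fun k ↦ K < k), Real.exp (-(a * k)) ≤
      Real.exp (-(a * K / 2)) * (1 + 2 / a) := by
  set q := Real.exp (-(a / 2))
  have hq0 : 0 ≤ q := (Real.exp_pos _).le
  have hq1 : q < 1 := Real.exp_lt_one_iff.2 (by linarith)
  have h1 : ∀ k ∈ (range M).filter (fun k ↦ K < k),
      Real.exp (-(a * k)) ≤ Real.exp (-(a * K / 2)) * q ^ k := by
    intro k hk
    rw [← Real.exp_nat_mul, ← Real.exp_add]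
    refine Real.exp_le_exp.2 ?_
    have : (K : ℝ) ≤ k := by exact_mod_cast (mem_filter.1 hk).2.le
    nlinarith
  refine (sum_le_sum h1).trans ?_
  rw [← mul_sum]
  refine mul_le_mul_of_nonneg_left ?_ (Real.exp_pos _).le
  refine ((summable_geometric_of_lt_one hq0 hq1).sum_le_tsum _ fun k _ ↦ pow_nonneg hq0 k).trans ?_
  rw [tsum_geometric_of_lt_one hq0 hq1, inv_le_iff_one_le_mul₀ (by linarith)]
  have h2 : q * (1 + a / 2) ≤ 1 := by
    have := mul_le_mul_of_nonneg_left (Real.add_one_le_exp (a / 2)) hq0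
    rw [show q * Real.exp (a / 2) = 1 by rw [← Real.exp_add]; simp] at this
    linarith
  have e : (1 + 2 / a) * (1 - q) - 1 = (1 - q * (1 + a / 2)) * (2 / a) := by field_simp; ring
  nlinarith [mul_nonneg (sub_nonneg.2 h2) (show 0 ≤ 2 / a by positivity)]

lemma exp_neg_le_factorial {x : ℝ} (hx : 0 < x) (N : ℕ) : Real.exp (-x) ≤ N.factorial / x ^ N := by
  rw [Real.exp_neg, inv_le_comm₀ (Real.exp_pos _) (by positivity), inv_div]
  exact Real.pow_div_factorial_le_exp x hx.le N

lemma bm_pow {Ω : Type*} [MeasurableSpace Ω] {f : Ω → ℝ} (hf : BM f) :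
    ∀ n : ℕ, BM fun x ↦ f x ^ n
  | 0 => by simpa using BM.const (Ω := Ω) 1
  | n + 1 => by simpa only [pow_succ] using (bm_pow hf n).mul hf

/-- The weight of the squared increment at `j`. -/
noncomputable def phiM (G : SimpleGraph V) (θ : ℝ) (D : Finset V) (g : Finset V → ℝ) (c : ℝ)
    (nr : V → V) (p : ℕ) (j : Ix V) (P : Finset (Ix V)) (y : Ix V → ℝ) : ℝ :=
  ((pf G θ sch D P y g - c) ^ (2 * p) + (4 * sch.s j.1 ^ 2) ^ p) *
    prodPsi G θ sch D P y (nr j.2) j.2 (G.dist (nr j.2) j.2)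

omit [G.LocallyFinite] in
lemma bm_phiM (hp : Par θ) (D : Finset V) {g : Finset V → ℝ} (hg : ∀ S, |g S| ≤ 1) {c : ℝ}
    (hc : |c| ≤ 1) (nr : V → V) (p : ℕ) (j : Ix V) (P : Finset (Ix V)) :
    Measurable (phiM G θ D g c nr p j P) ∧ Dep (phiM G θ D g c nr p j P) P ∧
      ∀ y, 0 ≤ phiM G θ D g c nr p j P y ∧ phiM G θ D g c nr p j P y ≤ 2 * 4 ^ p := by
  have hpi : Measurable fun y ↦ prodPsi G θ sch D P y (nr j.2) j.2 (G.dist (nr j.2) j.2) := by
    refine Finset.measurable_prod _ fun i _ ↦ ?_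
    simp only [psi, sd]
    have := (bm_pf (G := G) (σ := sch) hp (sideF G D (up G (nr j.2) j.2 i) (up G (nr j.2) j.2 (i + 1)))
      (sideI G P (up G (nr j.2) j.2 i) (up G (nr j.2) j.2 (i + 1)))
      (fun S ↦ sg S (up G (nr j.2) j.2 i)) (fun S ↦ (sg_abs S _).le)).1
    fun_prop
  refine ⟨?_, fun y y' h ↦ ?_, fun y ↦ ?_⟩
  · exact ((((bm_pf (G := G) (σ := sch) hp D P g hg).1.sub_const c).pow_const (2 * p)).add_const
      _).mul hpi
  · have e : ∀ (D' : Finset V) (P' : Finset (Ix V)), P' ⊆ P → ∀ f,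
        pf G θ sch D' P' y f = pf G θ sch D' P' y' f :=
      fun D' P' hP f ↦ pf_congr f fun i hi ↦ h i (hP hi)
    simp only [phiM, prodPsi, sd, e D P subset_rfl,
      e _ (sideI G P _ _) (fun i hi ↦ (mem_sideI.1 hi).1)]
  · obtain ⟨h0, h1⟩ := prodPsi_mem (G := G) (σ := sch) hp D P y (nr j.2) j.2 (G.dist (nr j.2) j.2)
    have a0 : 0 ≤ (pf G θ sch D P y g - c) ^ (2 * p) := (even_two_mul p).pow_nonneg _
    have a1 : (pf G θ sch D P y g - c) ^ (2 * p) ≤ 4 ^ p := by
      rw [pow_mul]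
      refine pow_le_pow_left₀ (sq_nonneg _) ?_ _
      have h2 := abs_le.1 (pf_abs (σ := sch) (G := G) hp D P y hg)
      have h3 := abs_le.1 hc
      nlinarith
    have b1 : (4 * sch.s j.1 ^ 2) ^ p ≤ 4 ^ p := by
      refine pow_le_pow_left₀ (by positivity) ?_ _
      have := sch.s_le j.1
      nlinarith [sch.s_nonneg j.1]
    have b0 : 0 ≤ (4 * sch.s j.1 ^ 2) ^ p := by positivity
    exact ⟨mul_nonneg (add_nonneg a0 b0) h0,
      (mul_le_of_le_one_right (add_nonneg a0 b0) h1).trans (by linarith)⟩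

variable [Countable V] (hG : G.IsTree) (hp : Par θ)

/-- The weighted squared increments over a time interval `[v₀, v₁)`. -/
noncomputable def incM (G : SimpleGraph V) [G.LocallyFinite] (θ : ℝ) (r : V) (n : ℕ)
    (g : Finset V → ℝ) (c : ℝ) (nr : V → V) (p : ℕ) (v₀ v₁ : ℝ) (ω : Om V) : ℝ :=
  ∑ j ∈ win G r n, {ω : Om V | v₀ ≤ tm sch (vis sch ω).1 j ∧ tm sch (vis sch ω).1 j < v₁}.indicator
    (fun ω ↦ sch.s j.1 ^ 2 * (θ ^ 2) ^ G.dist (nr j.2) j.2 *
      phiM G θ (ball G r n) g c nr p j (past n (ball G r n) (rJ sch j) (vis sch ω).1)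
        (vis sch ω).2) ω

include hG hp

omit [Countable V] in
lemma bm_term (r : V) (n : ℕ) {g : Finset V → ℝ} (hg : ∀ S, |g S| ≤ 1) {c : ℝ} (hc : |c| ≤ 1)
    (nr : V → V) (p : ℕ) (v₀ v₁ : ℝ) (j : Ix V) :
    BM fun ω : Om V ↦ {ω : Om V | v₀ ≤ tm sch (vis sch ω).1 j ∧
      tm sch (vis sch ω).1 j < v₁}.indicator
      (fun ω ↦ sch.s j.1 ^ 2 * (θ ^ 2) ^ G.dist (nr j.2) j.2 *
        phiM G θ (ball G r n) g c nr p j (past n (ball G r n) (rJ sch j) (vis sch ω).1)
          (vis sch ω).2) ω := by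
  classical
  have _ := hG
  have hphi := bm_phiM (G := G) hp (ball G r n) hg hc nr p j
  have hb : BM fun q : Dat V ↦
      phiM G θ (ball G r n) g c nr p j (past n (ball G r n) (rJ sch j) q.1) q.2 := by
    refine ⟨?_, 2 * 4 ^ p, fun q ↦ by
      rw [abs_of_nonneg ((hphi _).2.2 _).1]; exact ((hphi _).2.2 _).2⟩
    have e : (fun q : Dat V ↦
        phiM G θ (ball G r n) g c nr p j (past n (ball G r n) (rJ sch j) q.1) q.2) = fun q ↦
        ∑ P ∈ (range n ×ˢ ball G r n : Finset (Ix V)).powerset,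
          {q : Dat V | past n (ball G r n) (rJ sch j) q.1 = P}.indicator
            (fun q ↦ phiM G θ (ball G r n) g c nr p j P q.2) q := by
      funext q
      rw [sum_eq_single (past n (ball G r n) (rJ sch j) q.1)]
      · simp
      · intro P _ hne; simp [Ne.symm hne]
      · intro h; exact absurd (Finset.mem_powerset.2 (filter_subset _ _)) h
    rw [e]
    exact Finset.measurable_sum _ fun P _ ↦ Measurable.indicator ((hphi P).1.comp measurable_snd)
      ((measurableSet_past_eq n _ (rmeas_rJ sch j) P).preimage measurable_fst)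
  have hb' := (BM.const (sch.s j.1 ^ 2 * (θ ^ 2) ^ G.dist (nr j.2) j.2)).mul
    (hb.comp (measurable_vis sch))
  have hI : MeasurableSet {ω : Om V | v₀ ≤ tm sch (vis sch ω).1 j ∧ tm sch (vis sch ω).1 j < v₁} :=
    ((measurableSet_le measurable_const (measurable_tm sch j)).inter
      (measurableSet_lt (measurable_tm sch j) measurable_const)).preimage
      (measurable_fst.comp (measurable_vis sch))
  obtain ⟨hm, C, hC⟩ := hb'
  exact ⟨hm.indicator hI, C, fun ω ↦ by
    dsimp only
    by_cases h : ω ∈ {ω : Om V | v₀ ≤ tm sch (vis sch ω).1 j ∧ tm sch (vis sch ω).1 j < v₁}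
    · rw [Set.indicator_of_mem h]; exact hC ω
    · rw [Set.indicator_of_notMem h, abs_zero]; exact (abs_nonneg _).trans (hC ω)⟩

omit [Countable V] in
lemma bm_incM (r : V) (n : ℕ) {g : Finset V → ℝ} (hg : ∀ S, |g S| ≤ 1) {c : ℝ} (hc : |c| ≤ 1)
    (nr : V → V) (p : ℕ) (v₀ v₁ : ℝ) : BM (incM G θ r n g c nr p v₀ v₁) :=
  BM.sum _ fun j _ ↦ bm_term hG hp r n hg hc nr p v₀ v₁ j

/-- One dyadic window. -/
lemma mom_window_le {d : ℕ} (hd : 3 ≤ d) (hreg : G.IsRegularOfDegree d)
    (hb : ((d - 1 : ℕ) : ℝ) * θ ^ 2 = 1) {u1 : ℝ} (hu1 : u1 ≤ 1)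
    (hdec : ∀ {r o w : V} {n : ℕ} {u τ : ℝ}, 0 < u → u ≤ u1 → u ^ 32 ≤ τ →
      o ∈ ball G r n → w ∈ ball G r n → 2 * G.dist r o + 8 * Kc u < G.dist o w →
      ∫ ω, prodPsi G θ sch (ball G r n) (past n (ball G r n) (rT sch τ) (vis sch ω).1)
          (vis sch ω).2 o w (G.dist o w) ∂Pm G θ r ≤
        Real.exp (-(cmu θ / 64 * u ^ 17 * G.dist o w)))
    (p : ℕ) {C : ℝ} (hC : 0 ≤ C) : ∃ C' : ℝ, 0 ≤ C' ∧
      ∀ {r : V} {n : ℕ} {g : Finset V → ℝ} {c : ℝ} {o₁ o₂ : V} {nr : V → V} {v : ℝ},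
        0 < v → v ≤ u1 → Near G θ (ball G r n) g c o₁ o₂ nr → G.dist r o₁ ≤ 1 → G.dist r o₂ ≤ 1 →
        (∀ τ, τ ≤ v ^ 32 → ∫ ω, (MT G θ sch r n τ g (vis sch ω) - c) ^ (2 * p) ∂Pm G θ r ≤
          C * v ^ (12 * p)) →
        ∫ ω, incM G θ r n g c nr p ((v / 2) ^ 32) (v ^ 32) ω ∂Pm G θ r ≤
          C' * v ^ (12 * (p + 1)) := by
  classical
  have hθ : 0 < θ := by
    rcases hp.nonneg.eq_or_lt with h | h
    · exact absurd hb (by simp [← h])
    · exact h
  have hκ : 0 < cmu θ := by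
    unfold cmu
    have : θ ^ 2 < 1 := by nlinarith [hp.lt_one]
    have : 0 < θ ^ 2 := by positivity
    positivity
  set N := 4 * p + 6
  set c' := cmu θ * 80 / 128
  set A := (10 * (8 * 4 ^ 20 + 1) + 1) * (C + 1) +
    2 * 4 ^ p * ((N.factorial / c' ^ N) * (1 + 128 / cmu θ) * 4 ^ 20)
  refine ⟨4 * A * (4 ^ 32 / 2 + 1), by positivity,
    fun {r n g c o₁ o₂ nr v} hv hvu hnear ho₁ ho₂ hIH ↦ ?_⟩
  have := Pm_prob (G := G) hp r
  have hv1 : v ≤ 1 := hvu.trans hu1
  set w := v / 4 with hwd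
  have hw0 : 0 < w := by positivity
  have hwv : w ≤ v := by rw [hwd]; linarith
  set K := 10 * Kc w with hK
  set a := cmu θ / 64 * w ^ 17 with ha
  have ha0 : 0 < a := by positivity
  set B : ℕ → ℝ := fun k ↦ if k ≤ K then (C + 1) * v ^ (12 * p)
    else 2 * 4 ^ p * Real.exp (-(a * k)) with hB
  have hB0 : ∀ k, 0 ≤ B k := fun k ↦ by simp only [hB]; split_ifs <;> positivity
  have hsum : ∀ M, ∑ k ∈ range M, B k ≤ A * v ^ (12 * p) / v ^ 20 := by
    intro M
    rw [hB, sum_ite, sum_const, nsmul_eq_mul, ← mul_sum]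
    have h1 : (((range M).filter fun k ↦ k ≤ K).card : ℝ) ≤ K + 1 := by
      have := card_le_card (s := (range M).filter fun k ↦ k ≤ K) (t := range (K + 1))
        fun k hk ↦ Finset.mem_range.2 (Nat.lt_succ_of_le (mem_filter.1 hk).2)
      rw [card_range] at this; exact_mod_cast this
    have hw20 : w ^ 20 ≤ 1 := pow_le_one₀ hw0.le (hwv.trans hv1)
    have hKle : (K : ℝ) + 1 ≤ (10 * (8 * 4 ^ 20 + 1) + 1) / v ^ 20 := by
      have h2 : (Kc w : ℝ) ≤ 8 / w ^ 20 + 1 := by
        rw [Kc]; exact (Nat.ceil_lt_add_one (by positivity)).le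
      have e : 8 / w ^ 20 = 8 * 4 ^ 20 / v ^ 20 := by rw [hwd, div_pow]; field_simp
      have h3 : (1:ℝ) ≤ 1 / v ^ 20 := (one_le_div (by positivity)).2 (pow_le_one₀ hv.le hv1)
      rw [hK]; push_cast
      rw [show (10 * (8 * (4:ℝ) ^ 20 + 1) + 1) / v ^ 20 =
        10 * (8 * 4 ^ 20 / v ^ 20) + 11 * (1 / v ^ 20) by ring]
      linarith
    have hKge : c' / w ^ 3 ≤ a * K / 2 := by
      have h2 : 8 / w ^ 20 ≤ (Kc w : ℝ) := by rw [Kc]; exact Nat.le_ceil _
      rw [ha, hK]; push_cast
      calc c' / w ^ 3 = cmu θ / 64 * w ^ 17 * (10 * (8 / w ^ 20)) / 2 := by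
            simp only [c']; field_simp; ring
        _ ≤ _ := by gcongr
    have htail : ∑ k ∈ (range M).filter (fun k ↦ ¬ k ≤ K), Real.exp (-(a * k)) ≤
        (N.factorial / c' ^ N) * (1 + 128 / cmu θ) * 4 ^ 20 * v ^ (12 * p) / v ^ 20 := by
      simp only [not_le]
      refine (tail_le ha0 K M).trans ?_
      have h2 : Real.exp (-(a * K / 2)) ≤ N.factorial / c' ^ N * w ^ (3 * N) := by
        refine (Real.exp_le_exp.2 (neg_le_neg hKge)).trans ?_
        refine (exp_neg_le_factorial (by positivity) N).trans_eq ?_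
        rw [div_pow, ← pow_mul, div_div_eq_mul_div]; ring
      have h3 : 1 + 2 / a ≤ (1 + 128 / cmu θ) / w ^ 17 := by
        have : w ^ 17 ≤ 1 := pow_le_one₀ hw0.le (hwv.trans hv1)
        rw [ha, add_div, show 2 / (cmu θ / 64 * w ^ 17) = 128 / cmu θ / w ^ 17 by field_simp; ring]
        gcongr
        exact (one_le_div (by positivity)).2 this
      have hcm : 0 ≤ 128 / cmu θ := by positivity
      refine (mul_le_mul h2 h3 (by positivity) (by positivity)).trans ?_
      have e : w ^ (3 * N) / w ^ 17 = w ^ (12 * p + 1) := by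
        rw [show 3 * N = 12 * p + 1 + 17 by omega, pow_add]; field_simp
      calc (N.factorial / c' ^ N * w ^ (3 * N)) * ((1 + 128 / cmu θ) / w ^ 17)
          = N.factorial / c' ^ N * (1 + 128 / cmu θ) * w ^ (12 * p + 1) := by rw [← e]; ring
        _ ≤ N.factorial / c' ^ N * (1 + 128 / cmu θ) * (v ^ (12 * p) * (4 ^ 20 / v ^ 20)) := by
            refine mul_le_mul_of_nonneg_left ?_ (by positivity)
            calc w ^ (12 * p + 1) ≤ v ^ (12 * p + 1) := by gcongr
              _ ≤ v ^ (12 * p) * (4 ^ 20 / v ^ 20) := by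
                rw [pow_succ]
                refine mul_le_mul_of_nonneg_left ?_ (by positivity)
                refine hv1.trans ((one_le_div (by positivity)).2 ?_)
                exact (pow_le_one₀ hv.le hv1).trans (by norm_num)
        _ = _ := by ring
    calc (((range M).filter fun k ↦ k ≤ K).card : ℝ) * ((C + 1) * v ^ (12 * p)) +
          2 * 4 ^ p * ∑ k ∈ (range M).filter (fun k ↦ ¬ k ≤ K), Real.exp (-(a * k))
        ≤ (10 * (8 * 4 ^ 20 + 1) + 1) / v ^ 20 * ((C + 1) * v ^ (12 * p)) + 2 * 4 ^ p *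
          ((N.factorial / c' ^ N) * (1 + 128 / cmu θ) * 4 ^ 20 * v ^ (12 * p) / v ^ 20) := by
          gcongr; exact h1.trans hKle
      _ = A * v ^ (12 * p) / v ^ 20 := by simp only [A]; ring
  set t0 := w ^ 32 with ht0
  have ht0v : t0 < (v / 2) ^ 32 := by
    rw [ht0, hwd]; exact pow_lt_pow_left₀ (by linarith) (by positivity) (by norm_num)
  have ht' : (v / 2) ^ 32 ≤ v ^ 32 := pow_le_pow_left₀ (by positivity) (by linarith) _
  have hbj : ∀ j ∈ win G r n, ∫ ω, {ω : Om V | (v / 2) ^ 32 ≤ tm sch (vis sch ω).1 j ∧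
      tm sch (vis sch ω).1 j < v ^ 32}.indicator (fun ω ↦ sch.s j.1 ^ 2 *
        (θ ^ 2) ^ G.dist (nr j.2) j.2 * phiM G θ (ball G r n) g c nr p j
          (past n (ball G r n) (rJ sch j) (vis sch ω).1) (vis sch ω).2) ω ∂Pm G θ r ≤
      if sch.a j.1 < v ^ 32 then sch.s j.1 ^ 2 * (1 / (sch.c j.1 + max (t0 - sch.a j.1) 0)) *
        v ^ 32 * ((θ ^ 2) ^ G.dist (nr j.2) j.2 * B (G.dist (nr j.2) j.2)) else 0 := by
    intro j hj
    split_ifs with ha'
    · set k := G.dist (nr j.2) j.2 with hk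
      set cst := sch.s j.1 ^ 2 * (θ ^ 2) ^ k
      have hcst : 0 ≤ cst := by positivity
      have hphi := bm_phiM (G := G) hp (ball G r n) hnear.abs_g hnear.abs_c nr p j
      have h1 := conv_window₁ (σ := sch) hG hp r n (ball G r n) j (t := (v / 2) ^ 32)
        (t' := v ^ 32) (B := B k) (C := 2 * 4 ^ p) (Ψ := phiM G θ (ball G r n) g c nr p j)
        (t0 := t0) (by positivity) ht0v ht' (fun P ↦ (hphi P).1) (fun P ↦ (hphi P).2.1)
        (fun P y ↦ (hphi P).2.2 y) ?_
      · have e : ∀ ω : Om V, {ω : Om V | (v / 2) ^ 32 ≤ tm sch (vis sch ω).1 j ∧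
            tm sch (vis sch ω).1 j < v ^ 32}.indicator (fun ω ↦ cst *
              phiM G θ (ball G r n) g c nr p j
                (past n (ball G r n) (rJ sch j) (vis sch ω).1) (vis sch ω).2) ω =
            cst * {ω : Om V | (v / 2) ^ 32 ≤ tm sch (vis sch ω).1 j ∧
            tm sch (vis sch ω).1 j < v ^ 32}.indicator (fun ω ↦
              phiM G θ (ball G r n) g c nr p j
                (past n (ball G r n) (rJ sch j) (vis sch ω).1) (vis sch ω).2) ω := fun ω ↦ by
          simp only [Set.indicator_apply, mul_ite, mul_zero]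
        simp only [e, integral_const_mul]
        refine (mul_le_mul_of_nonneg_left h1 hcst).trans ?_
        have hh : 0 ≤ hw sch j.1 t0 :=
          div_nonneg zero_le_one (add_nonneg (sch.c_pos _).le (le_max_right _ _))
        calc cst * (hw sch j.1 t0 * ((v ^ 32 - t0) * B k))
            ≤ cst * (hw sch j.1 t0 * (v ^ 32 * B k)) := by
              have : 0 ≤ B k := hB0 k
              have : 0 ≤ t0 := by positivity
              gcongr; linarith
          _ = _ := by simp only [cst, Crit.hw]; ring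
      · intro τ h1 h2
        have hs := sch_sq_pos_le ha'
        have hv32 : v ^ 32 ≤ v ^ 12 := pow_le_pow_of_le_one hv.le hv1 (by norm_num)
        simp only [hB]
        split_ifs with hkK
        · have hle : ∀ ω : Om V, phiM G θ (ball G r n) g c nr p j
              (past n (ball G r n) (rT sch τ) (vis sch ω).1) (vis sch ω).2 ≤
              (MT G θ sch r n τ g (vis sch ω) - c) ^ (2 * p) + v ^ (12 * p) := fun ω ↦ by
            obtain ⟨q0, q1⟩ := prodPsi_mem (G := G) (σ := sch) hp (ball G r n)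
              (past n (ball G r n) (rT sch τ) (vis sch ω).1) (vis sch ω).2 (nr j.2) j.2
              (G.dist (nr j.2) j.2)
            refine (mul_le_of_le_one_right (add_nonneg ((even_two_mul p).pow_nonneg _)
              (by positivity)) q1).trans (add_le_add le_rfl ?_)
            rw [pow_mul]
            exact pow_le_pow_left₀ (by positivity) (hs.trans hv32) _
          have hM : BM fun ω : Om V ↦ (MT G θ sch r n τ g (vis sch ω) - c) ^ (2 * p) :=
            bm_pow ((bm_Mn_vis (σ := sch) hp r (rmeas_rT sch τ) hnear.abs_g n).sub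
              (BM.const c)) _
          refine (integral_mono_of_nonneg (.of_forall fun ω ↦ ((hphi _).2.2 _).1)
            ((hM.integrable _).add (integrable_const _)) (.of_forall hle)).trans ?_
          rw [integral_add' (hM.integrable _) (integrable_const _), integral_const]
          simp only [probReal_univ, one_smul]
          linarith [hIH τ h2.le]
        · have hsel : G.dist r (nr j.2) ≤ 1 := by
            rcases hnear.sel j.2 with e | e <;> rw [e] <;> assumption
          have hmem : nr j.2 ∈ ball G r n := by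
            rcases hnear.sel j.2 with e | e <;> rw [e]
            exacts [hnear.mem₁, hnear.mem₂]
          have hK1 : 1 ≤ Kc w := by
            rw [Kc, Nat.one_le_ceil_iff]; positivity
          have hfar := hdec hw0 (hwv.trans hvu) h1.le hmem (mem_product.1 hj).2
            (by rw [hK] at hkK; omega)
          have hle : ∀ ω : Om V, phiM G θ (ball G r n) g c nr p j
              (past n (ball G r n) (rT sch τ) (vis sch ω).1) (vis sch ω).2 ≤
              2 * 4 ^ p * prodPsi G θ sch (ball G r n)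
                (past n (ball G r n) (rT sch τ) (vis sch ω).1) (vis sch ω).2 (nr j.2) j.2 k := by
            intro ω
            obtain ⟨q0, q1⟩ := prodPsi_mem (G := G) (σ := sch) hp (ball G r n)
              (past n (ball G r n) (rT sch τ) (vis sch ω).1) (vis sch ω).2 (nr j.2) j.2 k
            refine mul_le_mul_of_nonneg_right ?_ q0
            have h4 : (4 * sch.s j.1 ^ 2) ^ p ≤ 4 ^ p :=
              pow_le_pow_left₀ (by positivity) (by linarith [pow_le_one₀ hv.le hv1 (n := 32)]) _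
            have h5 : (pf G θ sch (ball G r n) (past n (ball G r n) (rT sch τ) (vis sch ω).1)
                (vis sch ω).2 g - c) ^ (2 * p) ≤ 4 ^ p := by
              rw [pow_mul]
              refine pow_le_pow_left₀ (sq_nonneg _) ?_ _
              have h6 := abs_le.1 (pf_abs (σ := sch) (G := G) hp (ball G r n)
                (past n (ball G r n) (rT sch τ) (vis sch ω).1) (vis sch ω).2 hnear.abs_g)
              have h7 := abs_le.1 hnear.abs_c
              nlinarith
            linarith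
          have hPi : Integrable (fun ω : Om V ↦ 2 * 4 ^ p * prodPsi G θ sch (ball G r n)
              (past n (ball G r n) (rT sch τ) (vis sch ω).1) (vis sch ω).2 (nr j.2) j.2 k)
              (Pm G θ r) := by
            refine (Integrable.of_bound (Measurable.aestronglyMeasurable ?_) 1
              (.of_forall fun ω ↦ ?_)).const_mul _
            · refine Measurable.comp (g := fun q : Dat V ↦ prodPsi G θ sch (ball G r n)
                (past n (ball G r n) (rT sch τ) q.1) q.2 (nr j.2) j.2 k) ?_ (measurable_vis sch)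
              refine Finset.measurable_prod _ fun i _ ↦ ?_
              unfold psi sd
              simp only [sideI_past]
              have := measurable_pf_past (G := G) (θ := θ) (σ := sch) n
                (sideF G (ball G r n) (up G (nr j.2) j.2 i) (up G (nr j.2) j.2 (i + 1)))
                (rmeas_rT (V := V) sch τ) fun S ↦ sg S (up G (nr j.2) j.2 i)
              fun_prop
            · obtain ⟨q0, q1⟩ := prodPsi_mem (G := G) (σ := sch) hp (ball G r n)
                (past n (ball G r n) (rT sch τ) (vis sch ω).1) (vis sch ω).2 (nr j.2) j.2 k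
              rwa [Real.norm_eq_abs, abs_of_nonneg q0]
          refine (integral_mono_of_nonneg (.of_forall fun ω ↦ ((hphi _).2.2 _).1) hPi
            (.of_forall hle)).trans ?_
          rw [integral_const_mul]
          exact mul_le_mul_of_nonneg_left hfar (by positivity)
    · refine le_of_eq (integral_eq_zero_of_ae (.of_forall fun ω ↦ ?_))
      refine Set.indicator_of_notMem (s := {ω : Om V | (v / 2) ^ 32 ≤ tm sch (vis sch ω).1 j ∧
        tm sch (vis sch ω).1 j < v ^ 32}) (a := ω) (fun h ↦ ha' ?_) _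
      exact (a_le_tm _ _ _).trans_lt h.2
  have hpsum : ∑ x ∈ ball G r n, (θ ^ 2) ^ G.dist (nr x) x * B (G.dist (nr x) x) ≤
      2 * (2 * (A * v ^ (12 * p) / v ^ 20)) := by
    have h : ∀ x, (θ ^ 2) ^ G.dist (nr x) x * B (G.dist (nr x) x) ≤
        (θ ^ 2) ^ G.dist o₁ x * B (G.dist o₁ x) + (θ ^ 2) ^ G.dist o₂ x * B (G.dist o₂ x) := by
      intro x
      have h1 := mul_nonneg (pow_nonneg (sq_nonneg θ) (G.dist o₁ x)) (hB0 (G.dist o₁ x))
      have h2 := mul_nonneg (pow_nonneg (sq_nonneg θ) (G.dist o₂ x)) (hB0 (G.dist o₂ x))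
      rcases hnear.sel x with e | e <;> rw [e] <;> linarith
    refine (sum_le_sum fun x _ ↦ h x).trans ?_
    rw [sum_add_distrib]
    linarith [sum_by_dist hG hd hreg hb o₁ (ball G r n) hB0 hsum,
      sum_by_dist hG hd hreg hb o₂ (ball G r n) hB0 hsum]
  unfold incM
  rw [integral_finsetSum]
  · refine (sum_le_sum hbj).trans ?_
    rw [win, sum_product]
    simp only [← ite_sum_zero, ← mul_sum]
    rw [← sum_filter, ← sum_mul, ← sum_mul]
    have hz := sum_sq_hazard n (τ := t0) (t' := v ^ 32) (by positivity) (ht0v.le.trans ht')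
    have e : v ^ 32 / (2 * t0) = 4 ^ 32 / 2 := by rw [ht0, hwd, div_pow]; field_simp
    rw [e] at hz
    have hv32 : v ^ 32 ≤ 1 := pow_le_one₀ hv.le hv1
    have hA : 0 ≤ A := by positivity
    calc _ ≤ (4 ^ 32 / 2 + 1) * v ^ 32 * (2 * (2 * (A * v ^ (12 * p) / v ^ 20))) := by
          refine mul_le_mul (mul_le_mul_of_nonneg_right (hz.trans (by linarith)) (by positivity))
            hpsum (sum_nonneg fun x _ ↦ mul_nonneg (by positivity) (hB0 _)) (by positivity)
      _ = 4 * A * (4 ^ 32 / 2 + 1) * v ^ (12 * (p + 1)) := by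
          rw [show 12 * (p + 1) = 12 * p + 12 by ring, pow_add]; field_simp; ring
  · exact fun j _ ↦ (bm_term hG hp r n hnear.abs_g hnear.abs_c nr p _ _ j).integrable _

omit hG [G.LocallyFinite] in
/-- Almost surely no two indices are revealed at the same time. -/
lemma ae_inj_vis (r : V) :
    ∀ᵐ ω ∂Pm G θ r, Function.Injective (tm sch (vis sch ω).1) := by
  have := isingM_prob (G := G) hp.nonneg hp.lt_one.le r
  have hq : Measure.QuasiMeasurePreserving (fun ω : Om V ↦ ω.2.2) (Pm G θ r) (W01 V) :=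
    Measure.quasiMeasurePreserving_snd.comp Measure.quasiMeasurePreserving_snd
  exact hq.ae (ae_injOn sch)

/-- All moments of the fluctuation of a posterior mean near the root, uniformly in the volume. -/
lemma moments_fin {d : ℕ} (hd : 3 ≤ d) (hreg : G.IsRegularOfDegree d)
    (hb : ((d - 1 : ℕ) : ℝ) * θ ^ 2 = 1) :
    ∃ u1 : ℝ, 0 < u1 ∧ u1 ≤ 1 ∧ ∀ p : ℕ, ∃ C : ℝ, 0 ≤ C ∧
      ∀ {r : V} {n : ℕ} {g : Finset V → ℝ} {c : ℝ} {o₁ o₂ : V} {nr : V → V} {u τ : ℝ},
        0 < u → u ≤ u1 → τ ≤ u ^ 32 → Near G θ (ball G r n) g c o₁ o₂ nr →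
        G.dist r o₁ ≤ 1 → G.dist r o₂ ≤ 1 →
        ∫ ω, (MT G θ sch r n τ g (vis sch ω) - c) ^ (2 * p) ∂Pm G θ r ≤ C * u ^ (12 * p) := by
  classical
  obtain ⟨u1, hu10, hu11, hdec⟩ := pi_decay_weak hG hp hd hreg hb
  refine ⟨u1, hu10, hu11, fun p ↦ ?_⟩
  induction p with
  | zero =>
    refine ⟨1, zero_le_one, fun {r} _ _ _ _ _ _ _ _ _ _ _ _ _ _ ↦ ?_⟩
    have := Pm_prob (G := G) hp r
    simp
  | succ p ih =>
    obtain ⟨C, hC, hIH⟩ := ih
    obtain ⟨C', hC', hW⟩ := mom_window_le hG hp hd hreg hb hu11 hdec p hC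
    refine ⟨4 ^ (p + 1) * 4 * (2 * C'), by positivity,
      fun {r n g c o₁ o₂ nr u τ} hu huu hτ hnear h₁ h₂ ↦ ?_⟩
    have := Pm_prob (G := G) hp r
    set D := ball G r n with hDdef
    have hD := sub_ball hG r n
    -- all windows below `u`
    have hwin : ∀ I : ℕ, ∀ v, 0 < v → v ≤ u1 → (∀ k ∈ range n, (v / 2 ^ I) ^ 32 ≤ sch.a k) →
        ∫ ω, incM G θ r n g c nr p 0 (v ^ 32) ω ∂Pm G θ r ≤ 2 * C' * v ^ (12 * (p + 1)) := by
      intro I
      induction I with
      | zero =>
        intro v hv _ hk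
        refine le_of_eq_of_le (integral_eq_zero_of_ae (.of_forall fun ω ↦ ?_)) (by positivity)
        refine sum_eq_zero fun j hj ↦ Set.indicator_of_notMem
          (s := {ω : Om V | 0 ≤ tm sch (vis sch ω).1 j ∧ tm sch (vis sch ω).1 j < v ^ 32})
          (a := ω) (fun h ↦ ?_) _
        have := hk j.1 (mem_product.1 hj).1
        rw [pow_zero, div_one] at this
        linarith [h.2, a_le_tm sch (vis sch ω).1 j]
      | succ I ihI =>
        intro v hv hvu hk
        have hv2 : (v / 2) ^ 32 ≤ v ^ 32 := pow_le_pow_left₀ (by positivity) (by linarith) _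
        have e : ∀ ω : Om V, incM G θ r n g c nr p 0 (v ^ 32) ω =
            incM G θ r n g c nr p 0 ((v / 2) ^ 32) ω +
              incM G θ r n g c nr p ((v / 2) ^ 32) (v ^ 32) ω := by
          intro ω
          rw [incM, incM, incM, ← sum_add_distrib]
          refine sum_congr rfl fun j _ ↦ ?_
          simp only [Set.indicator_apply, Set.mem_setOf_eq]
          have h0 : 0 ≤ tm sch (vis sch ω).1 j := (sch.a_nonneg _).trans (a_le_tm _ _ _)
          by_cases h : tm sch (vis sch ω).1 j < (v / 2) ^ 32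
          · simp [h0, h, h.trans_le hv2, not_le.2 h]
          · simp [h0, h, not_lt.1 h]
        simp only [e]
        rw [integral_add ((bm_incM hG hp r n hnear.abs_g hnear.abs_c nr p _ _).integrable _)
          ((bm_incM hG hp r n hnear.abs_g hnear.abs_c nr p _ _).integrable _)]
        have hlow := ihI (v / 2) (by positivity) (by linarith) fun k hkn ↦ by
          rw [div_div, ← pow_succ']; exact hk k hkn
        have hhigh := hW hv hvu hnear h₁ h₂ fun τ hτ ↦ hIH hv hvu hτ hnear h₁ h₂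
        have hhalf : (v / 2) ^ (12 * (p + 1)) ≤ v ^ (12 * (p + 1)) / 2 := by
          rw [div_pow]
          exact div_le_div_of_nonneg_left (by positivity) two_pos
            (le_self_pow₀ one_le_two (by omega))
        linarith [mul_le_mul_of_nonneg_left hhalf hC']
    have hlim : ∀ᶠ I : ℕ in atTop, ∀ k ∈ range n, (u / 2 ^ I) ^ 32 ≤ sch.a k := by
      refine (eventually_all_finset _).2 fun k _ ↦ ?_
      have h := ((tendsto_pow_atTop_nhds_zero_of_lt_one (show (0:ℝ) ≤ 1 / 2 by norm_num)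
        (by norm_num)).const_mul u).pow 32
      simp only [mul_zero, zero_pow (by norm_num : (32:ℕ) ≠ 0)] at h
      filter_upwards [h.eventually (eventually_le_nhds (sch_a_pos k))] with I hI
      calc (u / 2 ^ I) ^ 32 = (u * (1 / 2) ^ I) ^ 32 := by rw [one_div_pow, mul_one_div]
        _ ≤ _ := hI
    obtain ⟨I, hI⟩ := hlim.exists
    have hinc := hwin I u hu huu hI
    -- the chronological expansion
    rcases lt_or_ge τ 0 with hτ0 | hτ0
    · have hempty : ∀ T : Ix V → ℝ, past n D (rT sch τ) T = ∅ := fun T ↦ by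
        refine filter_false_of_mem fun i _ (h : tm sch T i < τ) ↦ ?_
        linarith [sch.a_nonneg i.1, a_le_tm sch T i]
      simp only [MT, Mn, ← hDdef, hempty, hnear.prior, sub_self, zero_pow (show 2 * (p + 1) ≠ 0 by omega),
        integral_zero]
      positivity
    set φ : Ix V → Dat V → ℝ := fun j q ↦
      {q : Dat V | tm sch q.1 j < τ}.indicator
        (fun q ↦ (pf G θ sch D (past n D (rJ sch j) q.1) q.2 g - c) ^ (2 * p + 1)) q
    have hφ : ∀ j, BM (φ j) := fun j ↦ by
      obtain ⟨hm, B, hB⟩ := bm_pow ((bm_pf_past (G := G) (σ := sch) hp n D (rmeas_rJ sch j)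
        hnear.abs_g).sub (BM.const c)) (2 * p + 1)
      exact ⟨hm.indicator ((measurableSet_lt (measurable_tm sch j) measurable_const).preimage
        measurable_fst), B, fun q ↦ by
        by_cases h : q ∈ {q : Dat V | tm sch q.1 j < τ}
        · simp only [φ, Set.indicator_of_mem h]; exact hB q
        · simp only [φ, Set.indicator_of_notMem h, abs_zero]; exact (abs_nonneg _).trans (hB q)⟩
    have hφd : ∀ j T, Dep (fun y ↦ φ j (T, y)) (past n D (rJ sch j) T) := by
      intro j T y y' h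
      simp only [φ, Set.indicator_apply, Set.mem_setOf_eq]
      rw [pf_congr g h]
    set Δ : Ix V → Om V → ℝ := fun j ω ↦
      pf G θ sch D (past n D (rC sch j) (vis sch ω).1) (vis sch ω).2 g -
        pf G θ sch D (past n D (rJ sch j) (vis sch ω).1) (vis sch ω).2 g
    have hpt : ∀ᵐ ω ∂Pm G θ r, (MT G θ sch r n τ g (vis sch ω) - c) ^ (2 * (p + 1)) ≤
        (∑ j ∈ win G r n, ((2 * p + 2 : ℕ) : ℝ) * (φ j (vis sch ω) * Δ j ω)) +
          4 ^ (p + 1) * 4 * incM G θ r n g c nr p 0 (u ^ 32) ω := by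
      filter_upwards [ae_inj_vis hp r] with ω hinj'
      have hinj : Set.InjOn (tm sch (vis sch ω).1) (range n ×ˢ D : Finset (Ix V)) := hinj'.injOn
      set T := (vis sch ω).1 with hT
      set y := (vis sch ω).2 with hy
      set F : Finset (Ix V) → ℝ := fun P ↦ (pf G θ sch D P y g - c) ^ (2 * p + 2)
      have ht := telescope hinj F 0 τ hτ0
      have hempty : past n D (rT sch 0) T = ∅ := by
        refine filter_false_of_mem fun i _ (h : tm sch T i < 0) ↦ ?_
        linarith [sch.a_nonneg i.1, a_le_tm sch T i]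
      have hF0 : F ∅ = 0 := by simp [F, hnear.prior]
      rw [hempty, hF0, sub_zero] at ht
      rw [show 2 * (p + 1) = 2 * p + 2 by ring]
      change F (past n D (rT sch τ) T) ≤ _
      rw [ht, during, sum_filter, incM, mul_sum, ← sum_add_distrib]
      refine sum_le_sum fun j hj ↦ ?_
      obtain ⟨hj1, hj2⟩ := mem_product.1 hj
      have h0 : 0 ≤ tm sch T j := (sch.a_nonneg _).trans (a_le_tm _ _ _)
      simp only [φ, Set.indicator_apply, Set.mem_setOf_eq, ← hT, ← hy, h0, true_and]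
      have hphi0 := ((bm_phiM (G := G) hp D hnear.abs_g hnear.abs_c nr p j
        (past n D (rJ sch j) T)).2.2 y).1
      split_ifs with h hu' hu'
      · set P := past n D (rJ sch j) T with hP
        have hC' : past n D (rC sch j) T = insert j P := past_rC (Finset.mem_range.1 hj1) hj2
        have he : F (insert j P) - F P = (pf G θ sch D P y g - c + Δ j ω) ^ (2 * p + 2) -
            (pf G θ sch D P y g - c) ^ (2 * p + 2) := by
          simp only [F, Δ, ← hT, ← hy, hC', ← hP]; ring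
        rw [hC', he]
        refine (pow_taylor p _ _).trans (add_le_add le_rfl ?_)
        set k := G.dist (nr j.2) j.2 with hk
        set Pi := prodPsi G θ sch D P y (nr j.2) j.2 k
        obtain ⟨q0, q1⟩ := prodPsi_mem (G := G) (σ := sch) hp D P y (nr j.2) j.2 k
        have hs0 := sch.s_nonneg j.1
        have hh : |Δ j ω| ≤ 2 * sch.s j.1 * (θ ^ k * Pi) := by
          simp only [Δ, ← hT, ← hy, hC', ← hP]
          rw [pf_insert hp D (notMem_past_rJ n D T j) y g, abs_mul]
          exact (mul_le_mul (hnear.cov P y j.2 (fun i hi ↦ (mem_past.1 hi).2.1) hj2)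
            (abs_xi_le hs0 (sch.s_le _) (abs_pf_spin hp D P y j.2) (y j)) (abs_nonneg _)
            (mul_nonneg (pow_nonneg hp.nonneg _) q0)).trans_eq (by ring)
        have hh2 : Δ j ω ^ 2 ≤ 4 * sch.s j.1 ^ 2 * ((θ ^ 2) ^ k * Pi) := by
          rw [← sq_abs (Δ j ω)]
          refine (pow_le_pow_left₀ (abs_nonneg _) hh 2).trans ?_
          calc (2 * sch.s j.1 * (θ ^ k * Pi)) ^ 2
              = 4 * sch.s j.1 ^ 2 * ((θ ^ 2) ^ k * (Pi * Pi)) := by rw [← pow_mul]; ring
            _ ≤ _ := by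
              gcongr
              exact mul_le_of_le_one_right q0 q1
        have hh3 : Δ j ω ^ (2 * p + 2) ≤ (4 * sch.s j.1 ^ 2) ^ p * Δ j ω ^ 2 := by
          rw [pow_add, pow_mul]
          refine mul_le_mul_of_nonneg_right (pow_le_pow_left₀ (sq_nonneg _) (hh2.trans ?_) _)
            (sq_nonneg _)
          exact mul_le_of_le_one_right (by positivity)
            (mul_le_one₀ (pow_le_one₀ (sq_nonneg θ) (by nlinarith [hp.nonneg, hp.lt_one])) q0 q1)
        have hb0 : 0 ≤ (pf G θ sch D P y g - c) ^ (2 * p) + (4 * sch.s j.1 ^ 2) ^ p :=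
          add_nonneg ((even_two_mul p).pow_nonneg _) (by positivity)
        rw [mul_assoc (4 ^ (p + 1) : ℝ) 4]
        refine mul_le_mul_of_nonneg_left ?_ (by positivity)
        simp only [phiM]
        calc _ ≤ ((pf G θ sch D P y g - c) ^ (2 * p) + (4 * sch.s j.1 ^ 2) ^ p) * Δ j ω ^ 2 := by
              rw [add_mul]; exact add_le_add le_rfl hh3
          _ ≤ ((pf G θ sch D P y g - c) ^ (2 * p) + (4 * sch.s j.1 ^ 2) ^ p) *
              (4 * sch.s j.1 ^ 2 * ((θ ^ 2) ^ k * Pi)) := mul_le_mul_of_nonneg_left hh2 hb0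
          _ = _ := by simp only [Pi, ← hk]; ring
      · exact absurd (h.trans_le hτ) hu'
      · simp only [zero_mul, mul_zero, zero_add]
        exact mul_nonneg (by positivity) (mul_nonneg (by positivity) hphi0)
      · simp
    have hbΔ : ∀ j, BM (Δ j) := fun j ↦
      ((bm_pf_past (G := G) (σ := sch) hp n D (rmeas_rC sch j) hnear.abs_g).sub
        (bm_pf_past (G := G) (σ := sch) hp n D (rmeas_rJ sch j) hnear.abs_g)).comp
        (measurable_vis sch)
    have hbterm : ∀ j, BM fun ω : Om V ↦ ((2 * p + 2 : ℕ) : ℝ) * (φ j (vis sch ω) * Δ j ω) :=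
      fun j ↦ (BM.const _).mul (((hφ j).comp (measurable_vis sch)).mul (hbΔ j))
    have hM : BM fun ω : Om V ↦ (MT G θ sch r n τ g (vis sch ω) - c) ^ (2 * (p + 1)) :=
      bm_pow ((bm_Mn_vis (σ := sch) hp r (rmeas_rT sch τ) hnear.abs_g n).sub (BM.const c)) _
    have hbi := bm_incM hG hp r n hnear.abs_g hnear.abs_c nr p 0 (u ^ 32)
    refine (integral_mono_ae (hM.integrable _)
      (((BM.sum _ fun j _ ↦ hbterm j).add ((BM.const _).mul hbi)).integrable _) hpt).trans ?_
    rw [integral_add ((BM.sum _ fun j _ ↦ hbterm j).integrable _)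
      (((BM.const _).mul hbi).integrable _),
      integral_finsetSum _ fun j _ ↦ (hbterm j).integrable _, integral_const_mul,
      sum_eq_zero fun j _ ↦ by
        rw [integral_const_mul]
        simp only [Δ]
        rw [orth_incr hG hp hD j hnear.abs_g (hφ j) (hφd j), mul_zero], zero_add]
    exact (mul_le_mul_of_nonneg_left hinc (by positivity)).trans_eq (by ring)

omit [Countable V] hG [G.LocallyFinite] in
lemma tendsto_int_pow (r : V) {F : ℕ → Om V → ℝ} {f : Om V → ℝ} {B : ℝ}
    (hF : ∀ n, Measurable (F n)) (hB : ∀ n ω, |F n ω| ≤ B)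
    (h : ∀ᵐ ω ∂Pm G θ r, Tendsto (fun n ↦ F n ω) atTop (nhds (f ω))) (q : ℕ) :
    Tendsto (fun n ↦ ∫ ω, F n ω ^ q ∂Pm G θ r) atTop (nhds (∫ ω, f ω ^ q ∂Pm G θ r)) := by
  have := Pm_prob (G := G) hp r
  refine tendsto_integral_of_dominated_convergence (fun _ ↦ B ^ q)
    (fun n ↦ ((hF n).pow_const q).aestronglyMeasurable) (integrable_const _)
    (fun n ↦ .of_forall fun ω ↦ ?_) (h.mono fun ω hω ↦ hω.pow q)
  rw [Real.norm_eq_abs, abs_pow]
  exact pow_le_pow_left₀ (abs_nonneg _) (hB n ω) q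

/-- Moments of posterior means of spins and of adjacent pairs at small times. -/
lemma moments {d : ℕ} (hd : 3 ≤ d) (hreg : G.IsRegularOfDegree d)
    (hb : ((d - 1 : ℕ) : ℝ) * θ ^ 2 = 1) :
    ∃ u1 : ℝ, 0 < u1 ∧ u1 ≤ 1 ∧ ∀ p : ℕ, ∃ C : ℝ, 0 ≤ C ∧
      ∀ {r : V} {u τ : ℝ}, 0 < u → u ≤ u1 → τ ≤ u ^ 32 →
        (∀ x, ∫ ω, ML G θ sch r (rT sch τ) (fun S ↦ sg S x) (vis sch ω) ^ (2 * p) ∂Pm G θ r ≤
          C * u ^ (12 * p)) ∧
        ∀ x q, G.Adj x q → ∫ ω, (ML G θ sch r (rT sch τ) (fun S ↦ sg S x * sg S q) (vis sch ω) -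
          θ) ^ (2 * p) ∂Pm G θ r ≤ C * u ^ (12 * p) := by
  obtain ⟨u1, h10, h11, hfin⟩ := moments_fin hG hp hd hreg hb
  refine ⟨u1, h10, h11, fun p ↦ ?_⟩
  obtain ⟨C, hC, hfin⟩ := hfin p
  refine ⟨C, hC, fun {r u τ} hu huu hτ ↦ ?_⟩
  have hR := rmeas_rT (V := V) sch τ
  have hmove : ∀ (a : V) {f f' : Finset V → ℝ} {A : Finset V} (g : G ≃g G) (c : ℝ), g r = a →
      (∀ S, |f S| ≤ 1) → (∀ S, |f' S| ≤ 1) → Loc f A → Loc f' (A.map g.toEquiv.toEmbedding) →
      (∀ S, f' (S.map g.toEquiv.toEmbedding) = f S) →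
      ∫ ω, (ML G θ sch r (rT sch τ) f' (vis sch ω) - c) ^ (2 * p) ∂Pm G θ r =
        ∫ ω, (ML G θ sch r (rT sch τ) f (vis sch ω) - c) ^ (2 * p) ∂Pm G θ r := by
    intro a f f' A g c _ hf hf' hA hA' hff
    have hm : Measurable fun ω : Om V ↦
        (ML G θ sch r (rT sch τ) f' (vis sch ω) - c) ^ (2 * p) :=
      (((measurable_ML r hR f').comp (measurable_vis sch)).sub_const c).pow_const _
    have hg := Pm_invariant hG hp r g
    conv_lhs => rw [← hg.map_eq]
    rw [integral_map hg.measurable.aemeasurable hm.aestronglyMeasurable]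
    refine integral_congr_ae ?_
    filter_upwards [ML_move (σ := sch) hG hp r g hR hR (rmap_rT g τ) hf hf' hA hA' hff] with ω hω
    rw [vis_move, hω]
  constructor
  · intro x
    obtain ⟨g, hg, -⟩ := exists_aut hG hreg (o := r) (v := r) (o' := x) (v' := x) (by simp)
    have e := hmove x (f := fun S ↦ sg S r) (f' := fun S ↦ sg S x) (A := {r}) g 0 hg
      (fun S ↦ (sg_abs S r).le) (fun S ↦ (sg_abs S x).le) (loc_sg r)
      (by rw [map_singleton', hg]; exact loc_sg x) (fun S ↦ by rw [← hg]; exact sg_map g S r)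
    simp only [sub_zero] at e
    rw [e]
    refine le_of_tendsto (tendsto_int_pow hp r
      (fun n ↦ (measurable_Mn r hR (fun S ↦ sg S r) n).comp (measurable_vis sch))
      (fun n ω ↦ Mn_abs hp r _ (fun S ↦ (sg_abs S r).le) n _)
      (tendsto_Mn hG hp r hR (fun S ↦ (sg_abs S r).le) (loc_sg r)).1 _) ?_
    filter_upwards [eventually_ge_atTop 0] with n _
    have hr : r ∈ ball G r n := (mem_ball hG).2 (by simp)
    have h := hfin hu huu hτ (near_site hG hp (sub_ball hG r n) hr) (by simp) (by simp)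
    simp only [sub_zero] at h
    exact h
  · intro x q hxq
    obtain ⟨g, hg, -⟩ := exists_aut hG hreg (o := r) (v := r) (o' := x) (v' := x) (by simp)
    set y := g.symm q with hy
    have hgy : g y = q := g.apply_symm_apply q
    have hry : G.Adj r y := by rw [← g.map_adj_iff, hg, hgy]; exact hxq
    have e := hmove x (f := fun S ↦ sg S r * sg S y) (f' := fun S ↦ sg S x * sg S q) (A := {r, y})
      g θ hg (abs_sg2 r y) (abs_sg2 x q) (loc_sg_mul r y)
      (by rw [map_insert, map_singleton, show g.toEquiv.toEmbedding r = x from hg,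
            show g.toEquiv.toEmbedding y = q from hgy]; exact loc_sg_mul x q)
      (fun S ↦ by rw [← hg, ← hgy, sg_map, sg_map])
    rw [e]
    refine le_of_tendsto (tendsto_int_pow hp r
      (F := fun n ω ↦ Mn G θ sch r (rT sch τ) (fun S ↦ sg S r * sg S y) n (vis sch ω) - θ)
      (f := fun ω ↦ ML G θ sch r (rT sch τ) (fun S ↦ sg S r * sg S y) (vis sch ω) - θ) (B := 2)
      (fun n ↦ ((measurable_Mn r hR _ n).comp (measurable_vis sch)).sub_const θ)
      (fun n ω ↦ (abs_sub _ _).trans (by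
        have h1 := Mn_abs (G := G) (σ := sch) hp r (rT sch τ) (abs_sg2 r y) n (vis sch ω)
        rw [abs_of_nonneg hp.nonneg]; linarith [hp.lt_one]))
      ((tendsto_Mn hG hp r hR (abs_sg2 r y) (loc_sg_mul r y)).1.mono fun ω h ↦ h.sub_const θ) _) ?_
    filter_upwards [eventually_ge_atTop 1] with n hn
    have hd1 := SimpleGraph.dist_eq_one_iff_adj.2 hry
    exact hfin hu huu hτ (near_pair hG hp (sub_ball hG r n) ((mem_ball hG).2 (by omega))
      ((mem_ball hG).2 (by simp)) hry) (by simp) hd1.le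

end Vale.Agent.P161.Crit
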