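import Mathlib
import Vale.Agent.P161.Crit.Moments

/-!
Sums, over the window, of squared increments seen from one vertex: smallness and uniform tails.
-/

namespace Vale.Agent.P161.Crit

open Finset MeasureTheory Filter

variable {V : Type*} [DecidableEq V] [Countable V] {G : SimpleGraph V} [G.LocallyFinite] {θ : ℝ}

/-- The squared increment of the spin at `c` due to the index `j`, revealed during `[v₀, v₁)`. -/
noncomputable def wterm (G : SimpleGraph V) [G.LocallyFinite] (θ : ℝ) (r : V) (n : ℕ) (c : V)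
    (v₀ v₁ : ℝ) (j : Ix V) (ω : Om V) : ℝ :=
  {ω : Om V | v₀ ≤ tm sch (vis sch ω).1 j ∧ tm sch (vis sch ω).1 j < v₁}.indicator
    (fun ω ↦ sch.s j.1 ^ 2 * (θ ^ 2) ^ G.dist c j.2 *
      prodPsi G θ sch (ball G r n) (past n (ball G r n) (rJ sch j) (vis sch ω).1) (vis sch ω).2
        c j.2 (G.dist c j.2)) ω

/-- The bound on the attenuation at distance `k` at times not below `w ^ 32`. -/
noncomputable def decB (θ : ℝ) (K : ℕ) (w : ℝ) (k : ℕ) : ℝ :=
  if k ≤ K then 1 else Real.exp (-(cmu θ / 64 * w ^ 17 * k))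

lemma decB_nonneg (K : ℕ) (w : ℝ) (k : ℕ) : 0 ≤ decB θ K w k := by
  unfold decB; split_ifs <;> positivity

lemma decB_sum {w : ℝ} (hw : 0 < w) (hc : 0 < cmu θ) (K M : ℕ) :
    ∑ k ∈ range M, decB θ K w k ≤ K + 2 + 128 / cmu θ / w ^ 17 := by
  set a := cmu θ / 64 * w ^ 17 with ha
  have ha0 : 0 < a := by positivity
  have h1 : ∑ k ∈ range M, decB θ K w k ≤
      (((range M).filter fun k ↦ k ≤ K).card : ℝ) +
        ∑ k ∈ (range M).filter (fun k ↦ ¬ k ≤ K), Real.exp (-(a * k)) := by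
    unfold decB; rw [sum_ite, sum_const, nsmul_eq_mul, mul_one]
  have h2 : (((range M).filter fun k ↦ k ≤ K).card : ℝ) ≤ K + 1 := by
    have := card_le_card (s := (range M).filter fun k ↦ k ≤ K) (t := range (K + 1))
      fun k hk ↦ Finset.mem_range.2 (Nat.lt_succ_of_le (mem_filter.1 hk).2)
    rw [card_range] at this; exact_mod_cast this
  have h3 : ∑ k ∈ (range M).filter (fun k ↦ ¬ k ≤ K), Real.exp (-(a * k)) ≤ 1 + 2 / a := by
    simp only [not_le]
    refine (tail_le ha0 K M).trans ?_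
    exact mul_le_of_le_one_left (by positivity)
      (Real.exp_le_one_iff.2 (neg_nonpos.2 (by positivity)))
  have e : 2 / a = 128 / cmu θ / w ^ 17 := by rw [ha]; field_simp; ring
  linarith

lemma Kc_anti {v w : ℝ} (hw : 0 < w) (h : w ≤ v) : Kc v ≤ Kc w := by
  unfold Kc
  exact Nat.ceil_le_ceil (div_le_div_of_nonneg_left (by norm_num) (by positivity)
    (pow_le_pow_left₀ hw.le h 20))

variable (hG : G.IsTree) (hp : Par θ) {d : ℕ} (hd : 3 ≤ d) (hreg : G.IsRegularOfDegree d)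
  (hb : ((d - 1 : ℕ) : ℝ) * θ ^ 2 = 1)
include hG hp

omit [Countable V] in
lemma bm_wterm (r : V) (n : ℕ) (c : V) (v₀ v₁ : ℝ) (j : Ix V) :
    BM (wterm G θ r n c v₀ v₁ j) := by
  have h := (BM.const (1 / 2 : ℝ)).mul (bm_term hG hp r n (g := fun S ↦ sg S c)
    (fun S ↦ (sg_abs S c).le) (c := 0) (by norm_num) (fun _ ↦ c) 0 v₀ v₁ j)
  have e : wterm G θ r n c v₀ v₁ j = fun ω ↦ 1 / 2 *
      {ω : Om V | v₀ ≤ tm sch (vis sch ω).1 j ∧ tm sch (vis sch ω).1 j < v₁}.indicator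
        (fun ω ↦ sch.s j.1 ^ 2 * (θ ^ 2) ^ G.dist c j.2 *
          phiM G θ (ball G r n) (fun S ↦ sg S c) 0 (fun _ ↦ c) 0 j
            (past n (ball G r n) (rJ sch j) (vis sch ω).1) (vis sch ω).2) ω := by
    funext ω
    simp only [wterm, Set.indicator_apply, phiM]
    split_ifs <;> ring
  rw [e]; exact h

omit [Countable V] in
lemma wterm_nonneg (r : V) (n : ℕ) (c : V) (v₀ v₁ : ℝ) (j : Ix V) (ω : Om V) :
    0 ≤ wterm G θ r n c v₀ v₁ j ω := by
  have _ := hG
  refine Set.indicator_nonneg (fun ω _ ↦ ?_) ω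
  exact mul_nonneg (by positivity) (prodPsi_mem (G := G) (σ := sch) hp _ _ _ _ _ _).1

include hd hreg hb

omit hd hreg [DecidableEq V] [Countable V] [G.LocallyFinite] in
lemma theta_pos : 0 < θ ∧ 0 < cmu θ := by
  have _ := hG
  have hθ : 0 < θ := by
    rcases hp.nonneg.eq_or_lt with h | h
    · exact absurd hb (by simp [← h])
    · exact h
  refine ⟨hθ, ?_⟩
  unfold cmu
  have : θ ^ 2 < 1 := by nlinarith [hp.lt_one]
  have : 0 < θ ^ 2 := by positivity
  positivity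

/-- One window, at one index. -/
lemma wterm_window : ∃ u1 : ℝ, 0 < u1 ∧ u1 ≤ 1 ∧
    ∀ {r c : V} {n K : ℕ} {w v₀ v₁ : ℝ} (j : Ix V), 0 < w → w ≤ u1 → w ^ 32 < v₀ → v₀ ≤ v₁ →
      c ∈ ball G r n → 2 * G.dist r c + 8 * Kc w ≤ K → j ∈ win G r n →
      ∫ ω, wterm G θ r n c v₀ v₁ j ω ∂Pm G θ r ≤
        if sch.a j.1 < v₁ then sch.s j.1 ^ 2 * (1 / (sch.c j.1 + max (w ^ 32 - sch.a j.1) 0)) *
          v₁ * ((θ ^ 2) ^ G.dist c j.2 * decB θ K w (G.dist c j.2)) else 0 := by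
  classical
  obtain ⟨u1, h10, h11, hdec⟩ := pi_decay_weak hG hp hd hreg hb
  refine ⟨u1, h10, h11, fun {r c n K w v₀ v₁} j hw hwu hwv hv hc hK hj ↦ ?_⟩
  have := Pm_prob (G := G) hp r
  split_ifs with ha
  · set k := G.dist c j.2 with hk
    set D := ball G r n
    set Ψ : Finset (Ix V) → (Ix V → ℝ) → ℝ := fun P y ↦ prodPsi G θ sch D P y c j.2 k with hΨ
    have hphi := bm_phiM (G := G) hp D (g := fun S ↦ sg S c) (fun S ↦ (sg_abs S c).le) (c := 0)
      (by norm_num) (fun _ ↦ c) 0 j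
    have e : ∀ P y, Ψ P y = 1 / 2 * phiM G θ D (fun S ↦ sg S c) 0 (fun _ ↦ c) 0 j P y := fun P y ↦ by
      simp only [hΨ, phiM, hk]; ring
    have hpi : ∀ P y, 0 ≤ Ψ P y ∧ Ψ P y ≤ 1 := fun P y ↦ prodPsi_mem hp _ _ _ _ _ _
    have h1 := conv_window₁ (σ := sch) hG hp r n D j (t := v₀) (t' := v₁) (C := 1)
      (B := decB θ K w k) (Ψ := Ψ) (t0 := w ^ 32) (by positivity) hwv hv
      (fun P ↦ by rw [funext (e P)]; exact (hphi P).1.const_mul _)
      (fun P y y' h ↦ by simp only [e, (hphi P).2.1 y y' h]) hpi ?_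
    · set cst := sch.s j.1 ^ 2 * (θ ^ 2) ^ k with hcst'
      have hcst : 0 ≤ cst := by positivity
      have e2 : ∀ ω : Om V, wterm G θ r n c v₀ v₁ j ω = cst *
          {ω : Om V | v₀ ≤ tm sch (vis sch ω).1 j ∧ tm sch (vis sch ω).1 j < v₁}.indicator
            (fun ω ↦ Ψ (past n D (rJ sch j) (vis sch ω).1) (vis sch ω).2) ω := fun ω ↦ by
        simp only [wterm, Set.indicator_apply, mul_ite, mul_zero]
        rfl
      simp only [e2, integral_const_mul]
      refine (mul_le_mul_of_nonneg_left h1 hcst).trans ?_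
      have hh : 0 ≤ Crit.hw sch j.1 (w ^ 32) :=
        div_nonneg zero_le_one (add_nonneg (sch.c_pos _).le (le_max_right _ _))
      calc cst * (Crit.hw sch j.1 (w ^ 32) * ((v₁ - w ^ 32) * decB θ K w k))
          ≤ cst * (Crit.hw sch j.1 (w ^ 32) * (v₁ * decB θ K w k)) := by
            have := decB_nonneg (θ := θ) K w k
            have : 0 ≤ w ^ 32 := by positivity
            gcongr; linarith
        _ = _ := by simp only [hcst', Crit.hw]; ring
    · intro τ h1 h2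
      simp only [decB]
      split_ifs with hkK
      · refine (integral_mono_of_nonneg (.of_forall fun ω ↦ (hpi _ _).1) (integrable_const 1)
          (.of_forall fun ω ↦ (hpi _ _).2)).trans (by simp)
      · exact hdec hw hwu h1.le hc (mem_product.1 hj).2 (by omega)
  · refine le_of_eq (integral_eq_zero_of_ae (.of_forall fun ω ↦ ?_))
    refine Set.indicator_of_notMem (s := {ω : Om V | v₀ ≤ tm sch (vis sch ω).1 j ∧
      tm sch (vis sch ω).1 j < v₁}) (a := ω) (fun h ↦ ha ?_) _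
    exact (a_le_tm _ _ _).trans_lt h.2

omit [Countable V] in
/-- Summing the window bounds. -/
lemma window_sum (c : V) (n : ℕ) (D : Finset V) (K : ℕ) {w v : ℝ} (hw : 0 < w)
    (hwv : w ^ 32 ≤ v) (I : Finset (Ix V)) (hI : I ⊆ range n ×ˢ D) :
    ∑ j ∈ I, (if sch.a j.1 < v then sch.s j.1 ^ 2 * (1 / (sch.c j.1 + max (w ^ 32 - sch.a j.1) 0)) *
        v * ((θ ^ 2) ^ G.dist c j.2 * decB θ K w (G.dist c j.2)) else 0) ≤
      (v / (2 * w ^ 32) + v / 4) * v * (2 * (K + 2 + 128 / cmu θ / w ^ 17)) := by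
  classical
  obtain ⟨-, hκ⟩ := theta_pos hG hp hb
  have hv : 0 ≤ v := le_trans (by positivity) hwv
  have hnn : ∀ j : Ix V, 0 ≤ (if sch.a j.1 < v then sch.s j.1 ^ 2 *
      (1 / (sch.c j.1 + max (w ^ 32 - sch.a j.1) 0)) *
        v * ((θ ^ 2) ^ G.dist c j.2 * decB θ K w (G.dist c j.2)) else 0) := fun j ↦ by
    have : 0 ≤ 1 / (sch.c j.1 + max (w ^ 32 - sch.a j.1) 0) :=
      div_nonneg zero_le_one (add_nonneg (sch.c_pos _).le (le_max_right _ _))
    have := decB_nonneg (θ := θ) K w (G.dist c j.2)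
    split_ifs <;> positivity
  refine (sum_le_sum_of_subset_of_nonneg hI fun j _ _ ↦ hnn j).trans ?_
  rw [sum_product]
  simp only [← ite_sum_zero, ← mul_sum]
  rw [← sum_filter, ← sum_mul, ← sum_mul]
  refine mul_le_mul (mul_le_mul_of_nonneg_right (sum_sq_hazard n (by positivity) hwv) hv)
    (sum_by_dist hG hd hreg hb c D (decB_nonneg K w) (decB_sum hw hκ K))
    (sum_nonneg fun x _ ↦ mul_nonneg (by positivity) (decB_nonneg _ _ _)) (by positivity)

/-- The total up to time `u ^ 32` is of order `u ^ 12`. -/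
lemma wterm_le (M : ℕ) : ∃ C u1 : ℝ, 0 ≤ C ∧ 0 < u1 ∧ u1 ≤ 1 ∧
    ∀ {r c : V} {n : ℕ} {u : ℝ}, 0 < u → u ≤ u1 → c ∈ ball G r n → G.dist r c ≤ M * Kc u →
      ∑ j ∈ win G r n, ∫ ω, wterm G θ r n c 0 (u ^ 32) j ω ∂Pm G θ r ≤ C * u ^ 12 := by
  classical
  obtain ⟨u1, h10, h11, hwd⟩ := wterm_window hG hp hd hreg hb
  obtain ⟨-, hκ⟩ := theta_pos hG hp hb
  set A := (4 ^ 32 / 2 + 1) *
    (2 * ((2 * M + 8 : ℝ) * (8 + 1) * 4 ^ 20 + 2 + 128 / cmu θ * 4 ^ 20)) with hA
  refine ⟨2 * A, u1, by positivity, h10, h11, fun {r c n u} hu huu hc hdist ↦ ?_⟩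
  have := Pm_prob (G := G) hp r
  suffices hwin : ∀ I : ℕ, ∀ v, 0 < v → v ≤ u1 → G.dist r c ≤ M * Kc v →
      (∀ k ∈ range n, (v / 2 ^ I) ^ 32 ≤ sch.a k) →
      ∑ j ∈ win G r n, ∫ ω, wterm G θ r n c 0 (v ^ 32) j ω ∂Pm G θ r ≤ 2 * A * v ^ 12 by
    have hlim : ∀ᶠ I : ℕ in atTop, ∀ k ∈ range n, (u / 2 ^ I) ^ 32 ≤ sch.a k := by
      refine (eventually_all_finset _).2 fun k _ ↦ ?_
      have h := ((tendsto_pow_atTop_nhds_zero_of_lt_one (show (0:ℝ) ≤ 1 / 2 by norm_num)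
        (by norm_num)).const_mul u).pow 32
      simp only [mul_zero, zero_pow (by norm_num : (32:ℕ) ≠ 0)] at h
      filter_upwards [h.eventually (eventually_le_nhds (sch_a_pos k))] with I hI
      calc (u / 2 ^ I) ^ 32 = (u * (1 / 2) ^ I) ^ 32 := by rw [one_div_pow, mul_one_div]
        _ ≤ _ := hI
    obtain ⟨I, hI⟩ := hlim.exists
    exact hwin I u hu huu hdist hI
  intro I
  induction I with
  | zero =>
    intro v hv _ _ hk
    refine le_of_eq_of_le (sum_eq_zero fun j hj ↦ integral_eq_zero_of_ae (.of_forall fun ω ↦ ?_))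
      (by positivity)
    refine Set.indicator_of_notMem
      (s := {ω : Om V | 0 ≤ tm sch (vis sch ω).1 j ∧ tm sch (vis sch ω).1 j < v ^ 32})
      (a := ω) (fun h ↦ ?_) _
    have := hk j.1 (mem_product.1 hj).1
    rw [pow_zero, div_one] at this
    linarith [h.2, a_le_tm sch (vis sch ω).1 j]
  | succ I ih =>
    intro v hv hvu hd' hk
    have hv1 : v ≤ 1 := hvu.trans h11
    have hv2 : (v / 2) ^ 32 ≤ v ^ 32 := pow_le_pow_left₀ (by positivity) (by linarith) _
    have e : ∀ j ω, wterm G θ r n c 0 (v ^ 32) j ω = wterm G θ r n c 0 ((v / 2) ^ 32) j ω +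
        wterm G θ r n c ((v / 2) ^ 32) (v ^ 32) j ω := by
      intro j ω
      simp only [wterm, Set.indicator_apply, Set.mem_setOf_eq]
      have h0 : 0 ≤ tm sch (vis sch ω).1 j := (sch.a_nonneg _).trans (a_le_tm _ _ _)
      by_cases h : tm sch (vis sch ω).1 j < (v / 2) ^ 32
      · simp [h0, h, h.trans_le hv2, not_le.2 h]
      · simp [h0, h, not_lt.1 h]
    simp only [e]
    rw [sum_congr rfl fun j _ ↦ integral_add ((bm_wterm hG hp r n c _ _ j).integrable _)
      ((bm_wterm hG hp r n c _ _ j).integrable _), sum_add_distrib]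
    set w := v / 4 with hwd'
    have hw0 : 0 < w := by positivity
    have hK0 : G.dist r c ≤ M * Kc w :=
      hd'.trans (Nat.mul_le_mul_left _ (Kc_anti hw0 (by linarith)))
    have hlow := ih (v / 2) (by positivity) (by linarith)
      (hd'.trans (Nat.mul_le_mul_left _ (Kc_anti (by positivity) (by linarith)))) fun k hkn ↦ by
        rw [div_div, ← pow_succ']; exact hk k hkn
    have hhigh : ∑ j ∈ win G r n, ∫ ω, wterm G θ r n c ((v / 2) ^ 32) (v ^ 32) j ω ∂Pm G θ r ≤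
        A * v ^ 12 := by
      refine (sum_le_sum fun j hj ↦ hwd (K := (2 * M + 8) * Kc w) j hw0 (by linarith)
        (pow_lt_pow_left₀ (by linarith) hw0.le (by norm_num)) hv2 hc (by nlinarith) hj).trans ?_
      refine (window_sum hG hp hd hreg hb c n (ball G r n) _ hw0
        (pow_le_pow_left₀ hw0.le (by linarith) _) _ subset_rfl).trans ?_
      have e : v ^ 32 / (2 * w ^ 32) = 4 ^ 32 / 2 := by rw [hwd', div_pow]; field_simp
      have hv32 : v ^ 32 ≤ 1 := pow_le_one₀ hv.le hv1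
      have hv20 : (1:ℝ) ≤ 1 / v ^ 20 := (one_le_div (by positivity)).2 (pow_le_one₀ hv.le hv1)
      have hKle : (((2 * M + 8) * Kc w : ℕ) : ℝ) ≤ (2 * M + 8 : ℝ) * (8 + 1) * 4 ^ 20 / v ^ 20 := by
        have h2 : (Kc w : ℝ) ≤ 8 / w ^ 20 + 1 := by
          rw [Kc]; exact (Nat.ceil_lt_add_one (by positivity)).le
        have e : 8 / w ^ 20 = 8 * 4 ^ 20 / v ^ 20 := by rw [hwd', div_pow]; field_simp
        push_cast
        rw [mul_assoc, mul_div_assoc]
        refine mul_le_mul_of_nonneg_left (h2.trans ?_) (by positivity)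
        rw [e, show (8 + 1) * (4:ℝ) ^ 20 / v ^ 20 = 8 * 4 ^ 20 / v ^ 20 + 4 ^ 20 * (1 / v ^ 20) by
          ring]
        linarith [show (1:ℝ) ≤ 4 ^ 20 by norm_num,
          mul_le_mul (show (1:ℝ) ≤ 4 ^ 20 by norm_num) hv20 zero_le_one (by norm_num)]
      have h17 : 128 / cmu θ / w ^ 17 ≤ 128 / cmu θ * 4 ^ 20 / v ^ 20 := by
        rw [hwd', div_pow, div_div_eq_mul_div]
        exact div_le_div₀ (by positivity) (mul_le_mul_of_nonneg_left
          (pow_le_pow_right₀ (by norm_num) (by norm_num)) (by positivity)) (by positivity)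
          (pow_le_pow_of_le_one hv.le hv1 (by norm_num))
      rw [e]
      calc (4 ^ 32 / 2 + v ^ 32 / 4) * v ^ 32 *
            (2 * ((((2 * M + 8) * Kc w : ℕ) : ℝ) + 2 + 128 / cmu θ / w ^ 17))
          ≤ (4 ^ 32 / 2 + 1) * v ^ 32 * (2 * (((2 * M + 8 : ℝ) * (8 + 1) * 4 ^ 20 + 2 +
              128 / cmu θ * 4 ^ 20) / v ^ 20)) := by
            refine mul_le_mul (mul_le_mul_of_nonneg_right (by linarith) (by positivity)) ?_
              (by positivity) (by positivity)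
            rw [add_div, add_div]
            gcongr
            rw [le_div_iff₀ (by positivity)]
            exact mul_le_of_le_one_right (by norm_num) (pow_le_one₀ hv.le hv1)
        _ = A * v ^ 12 := by rw [hA]; field_simp
    have hA0 : 0 ≤ A := by positivity
    have hhalf : (v / 2) ^ 12 ≤ v ^ 12 / 2 := by
      rw [div_pow]
      exact div_le_div_of_nonneg_left (by positivity) two_pos (by norm_num)
    linarith [mul_le_mul_of_nonneg_left hhalf hA0]

/-- Far indices and high levels contribute little, uniformly in the volume. -/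
lemma wterm_tail (r c : V) {t' δ : ℝ} (ht' : 0 < t') (hδ : 0 < δ) :
    ∃ m : ℕ, ∀ {n : ℕ}, c ∈ ball G r n → ∀ I : Finset (Ix V), I ⊆ win G r n →
      (∀ j ∈ I, m ≤ j.1 ∨ m < G.dist r j.2) →
        ∑ j ∈ I, ∫ ω, wterm G θ r n c 0 t' j ω ∂Pm G θ r ≤ δ := by
  classical
  obtain ⟨C, u1, hC, h10, h11, hle⟩ := wterm_le hG hp hd hreg hb 1
  obtain ⟨u2, h20, h21, hwd⟩ := wterm_window hG hp hd hreg hb
  obtain ⟨-, hκ⟩ := theta_pos hG hp hb
  -- a cutoff `v` below which the total is small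
  have hlim : ∀ᶠ v in nhdsWithin (0:ℝ) (Set.Ioi 0),
      (v ≤ u1 ∧ v ≤ u2) ∧ C * v ^ 12 ≤ δ / 2 ∧ v ^ 32 ≤ t' ∧ v ^ 20 * (G.dist r c + 1) ≤ 1 := by
    have ev : ∀ {f : ℝ → ℝ} {b : ℝ}, Continuous f → f 0 = 0 → 0 < b →
        ∀ᶠ v in nhdsWithin (0:ℝ) (Set.Ioi 0), f v ≤ b := fun {f b} hf h0 hb ↦
      (((hf.tendsto 0).mono_left nhdsWithin_le_nhds).eventually
        (eventually_le_nhds (h0.symm ▸ hb)))
    exact ((ev continuous_id rfl h10).and (ev continuous_id rfl h20)).and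
      ((ev (f := fun v ↦ C * v ^ 12) (by fun_prop) (by simp) (half_pos hδ)).and
      ((ev (f := fun v ↦ v ^ 32) (by fun_prop) (by simp) ht').and
      (ev (f := fun v ↦ v ^ 20 * (G.dist r c + 1)) (by fun_prop) (by simp) one_pos)))
  obtain ⟨v, ⟨⟨hvu1, hvu2⟩, hCv, hvt, hvd⟩, hv⟩ := (hlim.and self_mem_nhdsWithin).exists
  have hdist : G.dist r c ≤ 1 * Kc v := by
    rw [one_mul]
    have h1 : (G.dist r c : ℝ) + 1 ≤ 1 / v ^ 20 := by rw [le_div_iff₀ (by positivity)]; linarith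
    have h2 : 1 / v ^ 20 ≤ (Kc v : ℝ) :=
      le_trans (div_le_div_of_nonneg_right (by norm_num) (by positivity))
        (show 8 / v ^ 20 ≤ (Kc v : ℝ) from Nat.le_ceil _)
    exact_mod_cast (show (G.dist r c : ℝ) ≤ (Kc v : ℝ) by linarith)
  set w := v / 2 with hwdef
  have hw : 0 < w := by positivity
  set K := 2 * G.dist r c + 8 * Kc w
  set β : Ix V → ℝ := fun j ↦ if sch.a j.1 < t' then sch.s j.1 ^ 2 *
    (1 / (sch.c j.1 + max (w ^ 32 - sch.a j.1) 0)) *
      t' * ((θ ^ 2) ^ G.dist c j.2 * decB θ K w (G.dist c j.2)) else 0 with hβdef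
  have hβ0 : ∀ j, 0 ≤ β j := fun j ↦ by
    have : 0 ≤ 1 / (sch.c j.1 + max (w ^ 32 - sch.a j.1) 0) :=
      div_nonneg zero_le_one (add_nonneg (sch.c_pos _).le (le_max_right _ _))
    have := decB_nonneg (θ := θ) K w (G.dist c j.2)
    simp only [hβdef]; split_ifs <;> positivity
  have hwv : w ^ 32 < v ^ 32 := pow_lt_pow_left₀ (by linarith) hw.le (by norm_num)
  have hwt : w ^ 32 ≤ t' := hwv.le.trans hvt
  have hsum : Summable β := by
    refine summable_of_sum_le (c := (t' / (2 * w ^ 32) + t' / 4) * t' *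
      (2 * (K + 2 + 128 / cmu θ / w ^ 17))) hβ0 fun s ↦ ?_
    refine window_sum hG hp hd hreg hb c (s.sup Prod.fst + 1) (s.image Prod.snd) K hw hwt s
      fun j hj ↦ mem_product.2 ⟨Finset.mem_range.2 (Nat.lt_succ_of_le (le_sup (f := Prod.fst) hj)),
        mem_image_of_mem _ hj⟩
  obtain ⟨s, hs⟩ := summable_iff_vanishing.1 hsum (Metric.ball 0 (δ / 2))
    (Metric.ball_mem_nhds 0 (half_pos hδ))
  refine ⟨max (s.sup Prod.fst) (s.sup fun j ↦ G.dist r j.2) + 1, fun {n} hc I hI hfar ↦ ?_⟩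
  have := Pm_prob (G := G) hp r
  have e : ∀ j ω, wterm G θ r n c 0 t' j ω =
      wterm G θ r n c 0 (v ^ 32) j ω + wterm G θ r n c (v ^ 32) t' j ω := by
    intro j ω
    simp only [wterm, Set.indicator_apply, Set.mem_setOf_eq]
    have h0 : 0 ≤ tm sch (vis sch ω).1 j := (sch.a_nonneg _).trans (a_le_tm _ _ _)
    by_cases h : tm sch (vis sch ω).1 j < v ^ 32
    · simp [h0, h, h.trans_le hvt, not_le.2 h]
    · simp [h0, h, not_lt.1 h]
  simp only [e]
  rw [sum_congr rfl fun j _ ↦ integral_add ((bm_wterm hG hp r n c _ _ j).integrable _)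
    ((bm_wterm hG hp r n c _ _ j).integrable _), sum_add_distrib]
  have h1 : ∑ j ∈ I, ∫ ω, wterm G θ r n c 0 (v ^ 32) j ω ∂Pm G θ r ≤ δ / 2 :=
    (sum_le_sum_of_subset_of_nonneg hI fun j _ _ ↦
      integral_nonneg fun ω ↦ wterm_nonneg hG hp r n c _ _ j ω).trans
      ((hle hv hvu1 hc hdist).trans hCv)
  have h2 : ∑ j ∈ I, ∫ ω, wterm G θ r n c (v ^ 32) t' j ω ∂Pm G θ r ≤ δ / 2 := by
    refine (sum_le_sum fun j hj ↦ hwd (K := K) j hw (by linarith) hwv hvt hc le_rfl (hI hj)).trans ?_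
    have hdis : Disjoint I s := Finset.disjoint_left.2 fun j hj hjs ↦ by
      have a1 := le_sup (f := Prod.fst) hjs
      have a2 := le_sup (f := fun j : Ix V ↦ G.dist r j.2) hjs
      rcases hfar j hj with h | h <;> omega
    have := hs I hdis
    rw [Metric.mem_ball, dist_zero_right, Real.norm_eq_abs] at this
    exact (le_abs_self _).trans this.le
  linarith

end Vale.Agent.P161.Crit
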