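import Mathlib
import Vale.Agent.P161.Crit.Error
import Vale.Agent.P161.Crit.Segment
import Vale.Agent.P161.Crit.CondMean
import Vale.Agent.P161.Crit.Tail

/-!
Decorrelation of the discrepancies of even functions of two well separated truncated side posteriors.
-/

namespace Vale.Agent.P161.Crit

open Finset MeasureTheory Filter

attribute [local irreducible] pf MAL

variable {V : Type*} [DecidableEq V] {G : SimpleGraph V} {θ : ℝ} {σ : Sch}

/-! ### Covariances with spins behind an edge -/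

/-- A point on the way from `b` to `w` is on the side of `b` if `w` is. -/
lemma path_side (hG : G.IsTree) {a b w : V} (hab : G.Adj a b) (hw : ¬ OnSide G a b w) {i : ℕ}
    (hi : i ≤ G.dist b w) : ¬ OnSide G a b (up G b w i) := fun h ↦ by
  have h1 := dist_cross hG hab h hw
  rw [SimpleGraph.dist_comm (u := up G b w i) (v := w), dist_up_left hG i hi] at h1
  omega

/-- A covariance with a spin behind an edge. -/
lemma cv_behind (hG : G.IsTree) (hp : Par θ) {D : Finset V} {v : V} (hD : Sub G D v) {a b w : V}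
    (hb : b ∈ D) (hwD : w ∈ D) (hab : G.Adj a b) {g : Finset V → ℝ} {B : Finset V} (hg : Loc g B)
    (hBD : B ⊆ D) (hB : ∀ z ∈ B, OnSide G a b z) (hw : ¬ OnSide G a b w) {P : Finset (Ix V)}
    (hP : ∀ i ∈ P, i.2 ∈ D) (y : Ix V → ℝ) :
    |cv G θ σ D P y g (fun S ↦ sg S w)| = θ ^ G.dist b w *
      prodPsi G θ σ D P y b w (G.dist b w) * |cv G θ σ D P y g (fun S ↦ sg S b)| := by
  rw [cv_path (σ := σ) hG hp hD hb hP y hg hBD _ w rfl hwD (fun z hz i hi h ↦ by
    have h0 := path_side hG hab hw (i := i) hi.le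
    have h1 := path_side hG hab hw (i := i + 1) hi
    have e0 := dist_cross hG hab (hB z hz) h0
    have e1 := dist_cross hG hab (hB z hz) h1
    rw [dist_up hG i hi.le] at e0
    rw [dist_up hG (i + 1) hi] at e1
    unfold OnSide at h
    omega), abs_mul, abs_of_nonneg (mul_nonneg (pow_nonneg hp.nonneg _)
    (prodPsi_mem hp D P y b w _).1)]

/-- A covariance with a spin, routed through the nearest vertex of a subtree. -/
lemma cv_nearest (hG : G.IsTree) (hp : Par θ) {D E : Finset V} {v e : V} (hD : Sub G D v)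
    (hE : Sub G E e) (hED : E ⊆ D) {g : Finset V → ℝ} (hg : Loc g E) (hgC : ∀ S, |g S| ≤ 1)
    {w : V} (hwD : w ∈ D) {P : Finset (Ix V)} (hP : ∀ i ∈ P, i.2 ∈ D) (y : Ix V → ℝ) :
    ∃ c ∈ E, |cv G θ σ D P y g (fun S ↦ sg S w)| ≤
      θ ^ G.dist c w * prodPsi G θ σ D P y c w (G.dist c w) := by
  obtain ⟨c, hc, hmin⟩ := exists_min_image E (fun z ↦ G.dist z w) ⟨e, hE.1⟩
  refine ⟨c, hc, ?_⟩
  have key : ∀ i < G.dist c w, ∀ m, ∀ z ∈ E, G.dist c z = m →
      ¬ OnSide G (up G c w i) (up G c w (i + 1)) z := by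
    intro i hi m
    induction m with
    | zero =>
      intro z _ hz
      obtain rfl : c = z := (hG.connected c z).dist_eq_zero_iff.mp hz
      exact (onSide_comm hG (up_adj hG hi)).1 (onSide_up_right hG hi)
    | succ m ih =>
      intro z hz hm hs
      have hzc : z ≠ c := by rintro rfl; simp at hm
      obtain ⟨z', hz', hadj, hd⟩ := (hE.reroot hG hc).2 z hz hzc
      have hz'2 := ih z' hz' (by omega)
      obtain ⟨rfl, -⟩ := cross_unique hG (up_adj hG hi) hs hz'2 hadj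
      have h1 := hmin _ hz
      rw [SimpleGraph.dist_comm (u := up G c w i) (v := w), dist_up_left hG i hi.le] at h1
      omega
  rw [cv_path (σ := σ) hG hp hD (hED hc) hP y hg hED _ w rfl hwD
    (fun z hz i hi ↦ key i hi _ z hz rfl), abs_mul,
    abs_of_nonneg (mul_nonneg (pow_nonneg hp.nonneg _) (prodPsi_mem hp D P y c w _).1)]
  exact mul_le_of_le_one_right (mul_nonneg (pow_nonneg hp.nonneg _) (prodPsi_mem hp D P y c w _).1)
    (abs_cv_le' hp D P y c hgC)

/-- A covariance with a spin behind two successive edges. -/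
lemma cv_two_step (hG : G.IsTree) (hp : Par θ) {D : Finset V} {v : V} (hD : Sub G D v)
    {a b a' b' w : V} {m : ℕ} (hb : b ∈ D) (hb' : b' ∈ D) (hwD : w ∈ D) (hab : G.Adj a b)
    (hab' : G.Adj a' b') {g : Finset V → ℝ} (hgC : ∀ S, |g S| ≤ 1) {B : Finset V} (hg : Loc g B)
    (hBD : B ⊆ D) (hB : ∀ z ∈ B, OnSide G a b z) (hB' : ∀ z ∈ B, OnSide G a' b' z)
    (hw : ¬ OnSide G a b w) (hw' : ¬ OnSide G a' b' b) (hm : m ≤ G.dist b' b)
    {P : Finset (Ix V)} (hP : ∀ i ∈ P, i.2 ∈ D) (y : Ix V → ℝ) :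
    |cv G θ σ D P y g (fun S ↦ sg S w)| ≤
      θ ^ m * (θ ^ G.dist b w * prodPsi G θ σ D P y b w (G.dist b w)) := by
  rw [cv_behind hG hp hD hb hwD hab hg hBD hB hw hP y, mul_comm (θ ^ m)]
  refine mul_le_mul_of_nonneg_left ?_
    (mul_nonneg (pow_nonneg hp.nonneg _) (prodPsi_mem hp D P y b w _).1)
  rw [cv_behind hG hp hD hb' hb hab' hg hBD hB' hw' hP y]
  exact ((mul_le_mul (mul_le_of_le_one_right (pow_nonneg hp.nonneg _)
    (prodPsi_mem hp D P y b' b _).2) (abs_cv_le' hp D P y b' hgC) (abs_nonneg _)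
    (pow_nonneg hp.nonneg _)).trans_eq (mul_one _)).trans
    (pow_le_pow_of_le_one hp.nonneg hp.lt_one.le hm)

/-! ### The neighbourhood of a segment -/

/-- The vertices near the `i`-th segment of the path from `w` to `o`. -/
def NearSeg (G : SimpleGraph V) (o w : V) (l i : ℕ) (x : V) : Prop :=
  (i + l ≤ G.dist o w → OnSide G (up G o w (i + l - 1)) (up G o w (i + l)) x) ∧
    (2 * l ≤ i → ¬ OnSide G (up G o w (i - 2 * l)) (up G o w (i - 2 * l + 1)) x)

section Geometry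

variable (hG : G.IsTree) {D : Finset V} {o w : V} {l i : ℕ} (hl : 1 ≤ l) (hli : l ≤ i)
  (hi : i < G.dist o w)
include hG hl hli hi

lemma seg_sides {z : V} (hz : z ∈ seg G D o w l i) :
    OnSide G (up G o w i) (up G o w (i + 1)) z ∧
      ¬ OnSide G (up G o w (i - l)) (up G o w (i - l + 1)) z :=
  ⟨(mem_sideF.1 (seg_subset D o w l i hz)).2,
    (onSide_comm hG (up_adj hG (by omega))).1 (mem_sideF.1 hz).2⟩

lemma seg_near {z : V} (hz : z ∈ seg G D o w l i) : NearSeg G o w l i z := by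
  obtain ⟨h1, h2⟩ := seg_sides hG hl hli hi hz
  refine ⟨fun hk ↦ ?_, fun h2l h ↦ h2 ?_⟩
  · have := onSide_up_mono hG (j := i + l - 1) (by omega) (by omega) h1
    rwa [show i + l - 1 + 1 = i + l by omega] at this
  · exact onSide_up_mono hG (j := i - l) (by omega) (by omega) h

omit hli in
lemma near_disjoint {j : ℕ} (hij : i + 3 * l ≤ j) (hj : j < G.dist o w) {x : V}
    (h1 : NearSeg G o w l i x) (h2 : NearSeg G o w l j x) : False := by
  have a := h1.1 (by omega)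
  refine h2.2 (by omega) ?_
  rw [show i + l = i + l - 1 + 1 by omega] at a
  rw [show i + l - 1 + 1 - 1 = i + l - 1 by omega] at a
  exact onSide_up_mono hG (j := j - 2 * l) (by omega) (by omega) a

end Geometry

variable [G.LocallyFinite]

/-- The increment of the conditional mean of `A` at `j`, if `j` is revealed before `τ`. -/
noncomputable def XA (G : SimpleGraph V) [G.LocallyFinite] (θ : ℝ) (σ : Sch) (r : V) (τ : ℝ)
    (A : Dat V → ℝ) (n : ℕ) (j : Ix V) (p : Dat V) : ℝ :=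
  {p : Dat V | tm σ p.1 j < τ}.indicator
    (fun p ↦ MA G θ σ r (rC σ j) A n p - MA G θ σ r (rJ σ j) A n p) p

/-- Its limit. -/
noncomputable def XL (G : SimpleGraph V) [G.LocallyFinite] (θ : ℝ) (σ : Sch) (r : V) (τ : ℝ)
    (A : Dat V → ℝ) (j : Ix V) (p : Dat V) : ℝ :=
  {p : Dat V | tm σ p.1 j < τ}.indicator
    (fun p ↦ MAL G θ σ r (rC σ j) A p - MAL G θ σ r (rJ σ j) A p) p

omit [DecidableEq V] in
lemma measurableSet_tm_lt (j : Ix V) (τ : ℝ) : MeasurableSet {p : Dat V | tm σ p.1 j < τ} :=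
  (measurableSet_lt (measurable_tm σ j) measurable_const).preimage measurable_fst

omit [DecidableEq V] in
lemma measurableSet_tm_before (i j : Ix V) :
    MeasurableSet {p : Dat V | tm σ p.1 i < tm σ p.1 j} :=
  (measurableSet_lt (measurable_tm σ i) (measurable_tm σ j)).preimage measurable_fst

lemma bm_indicator {Ω : Type*} [MeasurableSpace Ω] {f : Ω → ℝ} (hf : BM f) {s : Set Ω}
    (hs : MeasurableSet s) : BM (s.indicator f) := by
  obtain ⟨hm, C, hC⟩ := hf
  refine ⟨hm.indicator hs, C, fun x ↦ ?_⟩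
  by_cases h : x ∈ s
  · rw [Set.indicator_of_mem h]; exact hC x
  · rw [Set.indicator_of_notMem h, abs_zero]; exact (abs_nonneg _).trans (hC x)

variable {n0 : ℕ} {E : Finset V} {R0 : Rule V} {A B : Dat V → ℝ}

lemma bm_XA (hp : Par θ) (r : V) (τ : ℝ) (hA' : Obsv n0 E R0 A) (n : ℕ) (j : Ix V) :
    BM (XA G θ σ r τ A n j) :=
  bm_indicator ((bm_MA hp r (rmeas_rC σ j) hA' n).sub (bm_MA hp r (rmeas_rJ σ j) hA' n))
    (measurableSet_tm_lt j τ)

lemma abs_XA (hp : Par θ) (r : V) (τ : ℝ) (hA' : Obsv n0 E R0 A) (n : ℕ) (j : Ix V) (p : Dat V) :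
    |XA G θ σ r τ A n j p| ≤ 2 := by
  unfold XA
  by_cases h : p ∈ {p : Dat V | tm σ p.1 j < τ}
  · rw [Set.indicator_of_mem h]
    refine (abs_sub _ _).trans ?_
    simp only [MA]
    linarith [abs_pA (G := G) (σ := σ) hp hA' (ball G r n) (past n (ball G r n) (rC σ j) p.1) p,
      abs_pA (G := G) (σ := σ) hp hA' (ball G r n) (past n (ball G r n) (rJ σ j) p.1) p]
  · rw [Set.indicator_of_notMem h, abs_zero]; norm_num

lemma bm_XL (hp : Par θ) (r : V) (τ : ℝ) (hA' : Obsv n0 E R0 A) (j : Ix V) :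
    BM (XL G θ σ r τ A j) :=
  bm_indicator ((bm_MAL hp r (rmeas_rC σ j) hA').sub (bm_MAL hp r (rmeas_rJ σ j) hA'))
    (measurableSet_tm_lt j τ)

omit [G.LocallyFinite] in
lemma abs_alphaA (hG : G.IsTree) (hp : Par θ) {e : V} (hE : Sub G E e) (hA' : Obsv n0 E R0 A)
    (p : Dat V) : |alphaA G θ σ A E p| ≤ 1 := by
  refine (abs_sum_le_sum_abs _ _).trans ?_
  rw [← sum_tw hG θ hE]
  refine sum_le_sum fun S _ ↦ ?_
  rw [abs_mul, abs_of_pos (tw_pos hp.nonneg hp.lt_one E S)]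
  refine mul_le_of_le_one_right (tw_pos hp.nonneg hp.lt_one E S).le ?_
  refine (norm_integral_le_of_norm_le_const (μ := W01 V) (C := 1)
    (f := fun w ↦ A (p.1, obs σ S w)) (.of_forall fun w ↦ hA'.abs_le _)).trans ?_
  simp

/-- The finite-volume expansion of an observable. -/
lemma expansion (hG : G.IsTree) (hp : Par θ) {r e : V} {τ : ℝ} (hτ : 0 ≤ τ)
    (hA' : Obsv n0 E (rT σ τ) A) (hE : Sub G E e) {n : ℕ} (hn : n0 ≤ n) (hEn : E ⊆ ball G r n)
    {p : Dat V} (hinj : Set.InjOn (tm σ p.1) (range n ×ˢ ball G r n : Finset (Ix V))) :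
    A p - alphaA G θ σ A E p = ∑ j ∈ win G r n, XA G θ σ r τ A n j p := by
  classical
  set D := ball G r n
  have ht := telescope hinj (fun P ↦ pA G θ σ A D P p) 0 τ hτ
  have hempty : past n D (rT σ 0) p.1 = ∅ := by
    refine filter_false_of_mem fun i _ (h : tm σ p.1 i < 0) ↦ ?_
    linarith [σ.a_nonneg i.1, a_le_tm σ p.1 i]
  have htop : pA G θ σ A D (past n D (rT σ τ) p.1) p = A p := pA_top hp hA' D p fun i hi ↦ by
    obtain ⟨h1, h2, h3⟩ := mem_past.1 hi
    exact mem_past.2 ⟨h1.trans_le hn, hEn h2, h3⟩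
  rw [hempty, htop, pA_bot hG hA' (sub_ball hG r n) hE hEn p] at ht
  rw [ht, during, sum_filter, win]
  refine sum_congr rfl fun j _ ↦ ?_
  have h0 : 0 ≤ tm σ p.1 j := (σ.a_nonneg _).trans (a_le_tm _ _ _)
  by_cases h : tm σ p.1 j < τ
  · rw [if_pos ⟨h0, h⟩, XA, Set.indicator_of_mem (s := {p : Dat V | tm σ p.1 j < τ}) h]; rfl
  · rw [if_neg (fun hh ↦ h hh.2), XA,
      Set.indicator_of_notMem (s := {p : Dat V | tm σ p.1 j < τ}) h]

/-- An increment is small where covariances are. -/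
lemma XA_sq_le (hp : Par θ) {r : V} {τ t' : ℝ} (ht : τ ≤ t') (hA' : Obsv n0 E R0 A) {n : ℕ}
    {j : Ix V} (hj : j ∈ win G r n) (hjW : j ∉ (range n0 ×ˢ E : Finset (Ix V))) {c : V} {a : ℝ}
    (ha : 0 ≤ a) (ω : Om V)
    (hcv : |cv G θ sch (ball G r n) (past n (ball G r n) (rJ sch j) (vis sch ω).1) (vis sch ω).2
        (hA sch A (past n (ball G r n) (rJ sch j) (vis sch ω).1) (vis sch ω))
        (fun S ↦ sg S j.2)| ≤
      a * (θ ^ G.dist c j.2 * prodPsi G θ sch (ball G r n)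
        (past n (ball G r n) (rJ sch j) (vis sch ω).1) (vis sch ω).2 c j.2 (G.dist c j.2))) :
    XA G θ sch r τ A n j (vis sch ω) ^ 2 ≤ 4 * a ^ 2 * wterm G θ r n c 0 t' j ω := by
  unfold XA wterm
  set p := vis sch ω with hp'
  set D := ball G r n
  set P := past n D (rJ sch j) p.1 with hP
  obtain ⟨hj1, hj2⟩ := mem_product.1 hj
  set k := G.dist c j.2
  set Pi := prodPsi G θ sch D P p.2 c j.2 k
  obtain ⟨q0, q1⟩ := prodPsi_mem (G := G) (σ := sch) hp D P p.2 c j.2 k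
  have hs0 := sch.s_nonneg j.1
  have hT0 : 0 ≤ 4 * a ^ 2 * (sch.s j.1 ^ 2 * (θ ^ 2) ^ k * Pi) := by positivity
  by_cases h : tm sch p.1 j < τ
  · have hmem : ω ∈ {ω : Om V | 0 ≤ tm sch (vis sch ω).1 j ∧ tm sch (vis sch ω).1 j < t'} :=
      ⟨(sch.a_nonneg _).trans (a_le_tm _ _ _), h.trans_le ht⟩
    rw [Set.indicator_of_mem (s := {p : Dat V | tm sch p.1 j < τ}) h, Set.indicator_of_mem hmem]
    simp only [MA, ← hp', past_rC (Finset.mem_range.1 hj1) hj2, ← hP]
    rw [pA_insert hp hA' D (notMem_past_rJ n D p.1 j) hjW p]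
    set cvv := cv G θ sch D P p.2 (hA sch A P p) (fun S ↦ sg S j.2)
    set x := xi (sch.s j.1) (pf G θ sch D P p.2 fun S ↦ sg S j.2) (p.2 j)
    have hx : |x| ≤ 2 * sch.s j.1 := abs_xi_le hs0 (sch.s_le _) (abs_pf_spin hp D P p.2 j.2) _
    have h1 : |cvv * x| ≤ a * (θ ^ k * Pi) * (2 * sch.s j.1) := by
      rw [abs_mul]
      exact mul_le_mul hcv hx (abs_nonneg _) (mul_nonneg ha (mul_nonneg (pow_nonneg hp.nonneg _) q0))
    calc (cvv * x) ^ 2 ≤ (a * (θ ^ k * Pi) * (2 * sch.s j.1)) ^ 2 := by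
          rw [← sq_abs]; exact pow_le_pow_left₀ (abs_nonneg _) h1 2
      _ = 4 * a ^ 2 * (sch.s j.1 ^ 2 * (θ ^ 2) ^ k * (Pi * Pi)) := by rw [← pow_mul]; ring
      _ ≤ 4 * a ^ 2 * (sch.s j.1 ^ 2 * (θ ^ 2) ^ k * Pi) := by
          gcongr
          exact mul_le_of_le_one_right q0 q1
  · rw [Set.indicator_of_notMem (s := {p : Dat V | tm sch p.1 j < τ}) h]
    simp only [Set.indicator_apply]
    split_ifs
    · simpa using hT0
    · simp

variable [Countable V]

/-- A later increment is orthogonal to anything known before it. -/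
lemma cross_zero (hG : G.IsTree) (hp : Par θ) (r : V) (τ : ℝ) (hA' : Obsv n0 E R0 A)
    (hE : E ⊆ ball G r n0) (i : Ix V) {ψ : Dat V → ℝ} (hψ : BM ψ)
    (hψR : ∀ p, ψ (msk (rJ σ i) p) = ψ p) :
    ∫ q, XL G θ σ r τ A i q.1 * ψ q.2 ∂P2 G σ hp r = 0 := by
  have h := immersion (σ := σ) hG hp r (rmeas_rJ σ i) (down_rJ σ i)
    (φ := {p : Dat V | tm σ p.1 i < τ}.indicator fun _ ↦ (1:ℝ)) (φ' := ψ)
    (X := fun p ↦ MAL G θ σ r (rC σ i) A p - MAL G θ σ r (rJ σ i) A p)
    (bm_indicator (BM.const 1) (measurableSet_tm_lt i τ)) hψ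
    ((bm_MAL hp r (rmeas_rC σ i) hA').sub (bm_MAL hp r (rmeas_rJ σ i) hA'))
    (fun p ↦ rfl) hψR
    (fun φ hφ ↦ centred_MAL hG hp r (rmeas_rJ σ i) (rmeas_rC σ i) (fun T k hk ↦ Or.inl hk) hA' hE hφ)
  refine Eq.trans (integral_congr_ae (.of_forall fun q ↦ ?_)) h
  simp only [XL, Set.indicator_apply, Set.mem_ofPred_eq]
  split_ifs <;> ring

/-- Finite-volume increments are orthogonal. -/
lemma XA_orth (hG : G.IsTree) (hp : Par θ) (r : V) (τ : ℝ) (hA' : Obsv n0 E R0 A) {n : ℕ}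
    (hn : n0 ≤ n) (hEn : E ⊆ ball G r n) {i j : Ix V} (hij : i ≠ j) :
    ∫ ω, XA G θ σ r τ A n i (vis σ ω) * XA G θ σ r τ A n j (vis σ ω) ∂Pm G θ r = 0 := by
  classical
  have := Pm_prob (G := G) hp r
  set D := ball G r n
  have key : ∀ a b : Ix V, ∫ ω, {p : Dat V | tm σ p.1 a < tm σ p.1 b}.indicator
      (fun p ↦ XA G θ σ r τ A n a p * XA G θ σ r τ A n b p) (vis σ ω) ∂Pm G θ r = 0 := by
    intro a b
    set φ : Dat V → ℝ := {p : Dat V | tm σ p.1 a < tm σ p.1 b}.indicator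
      (fun p ↦ {p : Dat V | tm σ p.1 b < τ}.indicator (fun p ↦ XA G θ σ r τ A n a p) p) with hφ
    have hb : BM φ := bm_indicator (bm_indicator (bm_XA hp r τ hA' n a) (measurableSet_tm_lt b τ))
      (measurableSet_tm_before a b)
    have hd : ∀ T, Dep (fun y ↦ φ (T, y)) (past n D (rJ σ b) T) := by
      intro T y y' h
      simp only [hφ, Set.indicator_apply, Set.mem_ofPred_eq]
      split_ifs with h1 h2
      · have e : ∀ R : Rule V, (∀ k, R T k → tm σ T k < tm σ T b) →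
            MA G θ σ r R A n (T, y) = MA G θ σ r R A n (T, y') := fun R hR ↦
          pA_congr A D rfl fun k hk ↦ h k (mem_past.2
            ⟨(mem_past.1 hk).1, (mem_past.1 hk).2.1, hR k (mem_past.1 hk).2.2⟩)
        simp only [XA, Set.indicator_apply, Set.mem_ofPred_eq,
          e (rJ σ a) (fun k hk ↦ hk.trans h1),
          e (rC σ a) (fun k hk ↦ hk.elim (fun hk ↦ hk.trans h1) fun e ↦ e ▸ h1)]
      all_goals rfl
    have hdC : ∀ T, Dep (fun y ↦ φ (T, y)) (past n D (rC σ b) T) := fun T y y' h ↦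
      hd T y y' fun k hk ↦ h k (mem_past.2
        ⟨(mem_past.1 hk).1, (mem_past.1 hk).2.1, Or.inl (mem_past.1 hk).2.2⟩)
    have h1 := orth_A (σ := σ) hG hp (r := r) (sub_ball hG r n) hA' hn hEn (rmeas_rC σ b) hb hdC
    have h2 := orth_A (σ := σ) hG hp (r := r) (sub_ball hG r n) hA' hn hEn (rmeas_rJ σ b) hb hd
    have b1 : BM fun ω : Om V ↦ φ (vis σ ω) * MA G θ σ r (rC σ b) A n (vis σ ω) :=
      (hb.mul (bm_MA hp r (rmeas_rC σ b) hA' n)).comp (measurable_vis σ)
    have b2 : BM fun ω : Om V ↦ φ (vis σ ω) * MA G θ σ r (rJ σ b) A n (vis σ ω) :=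
      (hb.mul (bm_MA hp r (rmeas_rJ σ b) hA' n)).comp (measurable_vis σ)
    have e : ∀ p : Dat V, {p : Dat V | tm σ p.1 a < tm σ p.1 b}.indicator
        (fun p ↦ XA G θ σ r τ A n a p * XA G θ σ r τ A n b p) p =
        φ p * MA G θ σ r (rC σ b) A n p - φ p * MA G θ σ r (rJ σ b) A n p := by
      intro p
      simp only [hφ, XA, Set.indicator_apply, Set.mem_ofPred_eq]
      split_ifs <;> ring
    simp only [e]
    rw [integral_sub (b1.integrable _) (b2.integrable _)]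
    exact sub_eq_zero.2 (h1.symm.trans h2)
  have hprod := fun a b ↦ ((bm_indicator ((bm_XA (G := G) (σ := σ) hp r τ hA' n a).mul
    (bm_XA (G := G) (σ := σ) hp r τ hA' n b)) (measurableSet_tm_before (σ := σ) a b)).comp
      (measurable_vis σ)).integrable (Pm G θ r)
  have hae : ∀ᵐ ω ∂Pm G θ r, XA G θ σ r τ A n i (vis σ ω) * XA G θ σ r τ A n j (vis σ ω) =
      {p : Dat V | tm σ p.1 i < tm σ p.1 j}.indicator
        (fun p ↦ XA G θ σ r τ A n i p * XA G θ σ r τ A n j p) (vis σ ω) +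
      {p : Dat V | tm σ p.1 j < tm σ p.1 i}.indicator
        (fun p ↦ XA G θ σ r τ A n j p * XA G θ σ r τ A n i p) (vis σ ω) := by
    have hinj : ∀ᵐ ω ∂Pm G θ r, Function.Injective (tm σ (vis σ ω).1) := by
      have := isingM_prob (G := G) hp.nonneg hp.lt_one.le r
      exact (Measure.quasiMeasurePreserving_snd.comp Measure.quasiMeasurePreserving_snd :
        Measure.QuasiMeasurePreserving (fun ω : Om V ↦ ω.2.2) (Pm G θ r) (W01 V)).ae (ae_injOn σ)
    filter_upwards [hinj] with ω hω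
    simp only [Set.indicator_apply, Set.mem_ofPred_eq]
    rcases lt_trichotomy (tm σ (vis σ ω).1 i) (tm σ (vis σ ω).1 j) with h | h | h
    · simp [h, h.not_gt]
    · exact absurd (hω h) hij
    · simp [h, h.not_gt, mul_comm]
  rw [integral_congr_ae hae, integral_add (hprod i j) (hprod j i), key, key, add_zero]

/-- The remainder of the expansion on a finite set of indices is small. -/
lemma rem_le (hG : G.IsTree) (hp : Par θ) {r e : V} {τ : ℝ} (hτ : 0 ≤ τ)
    (hA' : Obsv n0 E (rT σ τ) A) (hE : Sub G E e) (hEn : E ⊆ ball G r n0) (J : Finset (Ix V))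
    {K : ℝ} (hK : ∀ᶠ n in atTop,
      ∑ j ∈ win G r n \ J, ∫ ω, XA G θ σ r τ A n j (vis σ ω) ^ 2 ∂Pm G θ r ≤ K) :
    ∫ ω, (A (vis σ ω) - alphaA G θ σ A E (vis σ ω) -
      ∑ j ∈ J, XL G θ σ r τ A j (vis σ ω)) ^ 2 ∂Pm G θ r ≤ K := by
  classical
  have := Pm_prob (G := G) hp r
  set F : ℕ → Om V → ℝ := fun n ω ↦
    A (vis σ ω) - alphaA G θ σ A E (vis σ ω) - ∑ j ∈ J, XA G θ σ r τ A n j (vis σ ω) with hF
  have hFm : ∀ n, Measurable (F n) := fun n ↦
    ((hA'.bm.sub (bm_alphaA hA')).sub (BM.sum _ fun j _ ↦ bm_XA hp r τ hA' n j)).1.comp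
      (measurable_vis σ)
  have hFb : ∀ n ω, |F n ω| ≤ 2 + 2 * J.card := by
    intro n ω
    refine (abs_sub _ _).trans (add_le_add ((abs_sub _ _).trans ?_) ?_)
    · linarith [hA'.abs_le (vis σ ω), abs_alphaA (σ := σ) hG hp hE hA' (vis σ ω)]
    · refine (abs_sum_le_sum_abs _ _).trans ((sum_le_sum fun j _ ↦ abs_XA hp r τ hA' n j _).trans ?_)
      rw [sum_const, nsmul_eq_mul, mul_comm]
  have hlim : ∀ᵐ ω ∂Pm G θ r, Tendsto (fun n ↦ F n ω) atTop
      (nhds (A (vis σ ω) - alphaA G θ σ A E (vis σ ω) -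
        ∑ j ∈ J, XL G θ σ r τ A j (vis σ ω))) := by
    have h : ∀ᵐ ω ∂Pm G θ r, ∀ j : Ix V,
        Tendsto (fun n ↦ XA G θ σ r τ A n j (vis σ ω)) atTop
          (nhds (XL G θ σ r τ A j (vis σ ω))) := ae_all_iff.2 fun j ↦ by
      filter_upwards [(tendsto_MA (σ := σ) hG hp r (rmeas_rC σ j) hA' hEn).1,
        (tendsto_MA (σ := σ) hG hp r (rmeas_rJ σ j) hA' hEn).1] with ω h1 h2
      simp only [XA, XL, Set.indicator_apply]
      split_ifs
      · exact h1.sub h2
      · exact tendsto_const_nhds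
    filter_upwards [h] with ω hω
    exact tendsto_const_nhds.sub (tendsto_finsetSum _ fun j _ ↦ hω j)
  refine le_of_tendsto (tendsto_int_pow (G := G) hp r hFm hFb hlim 2) ?_
  have hJ : ∀ᶠ n in atTop, ∀ j ∈ J, j ∈ win G r n := J.eventually_all.2 fun j _ ↦ mem_win hG r j
  filter_upwards [hJ, eventually_ge_atTop n0, hK] with n hnJ hn hKn
  refine le_trans (le_of_eq ?_) hKn
  have hEn' : E ⊆ ball G r n := hEn.trans (ball_mono hG r hn)
  have hinj : ∀ᵐ ω ∂Pm G θ r, Function.Injective (tm σ (vis σ ω).1) := by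
    have := isingM_prob (G := G) hp.nonneg hp.lt_one.le r
    exact (Measure.quasiMeasurePreserving_snd.comp Measure.quasiMeasurePreserving_snd :
      Measure.QuasiMeasurePreserving (fun ω : Om V ↦ ω.2.2) (Pm G θ r) (W01 V)).ae (ae_injOn σ)
  have he : ∀ᵐ ω ∂Pm G θ r, F n ω ^ 2 = ∑ a ∈ win G r n \ J, ∑ b ∈ win G r n \ J,
      XA G θ σ r τ A n a (vis σ ω) * XA G θ σ r τ A n b (vis σ ω) := by
    filter_upwards [hinj] with ω hω
    simp only [hF]
    rw [expansion hG hp hτ hA' hE hn hEn' hω.injOn, ← sum_sdiff hnJ, add_sub_cancel_right, sq,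
      sum_mul_sum]
  have hb : ∀ a b, BM fun ω : Om V ↦
      XA G θ σ r τ A n a (vis σ ω) * XA G θ σ r τ A n b (vis σ ω) := fun a b ↦
    ((bm_XA hp r τ hA' n a).mul (bm_XA hp r τ hA' n b)).comp (measurable_vis σ)
  rw [integral_congr_ae he, integral_finsetSum _ fun a _ ↦ (BM.sum _ fun b _ ↦ hb a b).integrable _]
  refine sum_congr rfl fun a ha ↦ ?_
  rw [integral_finsetSum _ fun b _ ↦ (hb a b).integrable _,
    sum_eq_single a (fun b _ hne ↦ XA_orth hG hp r τ hA' hn hEn' hne.symm) (fun h ↦ absurd ha h)]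
  simp only [sq]

/-- The indices near a segment, up to level and radius `m`. -/
noncomputable def nearIdx (G : SimpleGraph V) [G.LocallyFinite] (r o w : V) (l i m : ℕ) :
    Finset (Ix V) :=
  haveI := Classical.decPred fun j : Ix V ↦ NearSeg G o w l i j.2
  (range m ×ˢ ball G r m).filter fun j ↦ NearSeg G o w l i j.2

omit [Countable V] in
lemma mem_nearIdx {r o w : V} {l i m : ℕ} {j : Ix V} :
    j ∈ nearIdx G r o w l i m ↔ j.1 < m ∧ j.2 ∈ ball G r m ∧ NearSeg G o w l i j.2 := by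
  simp [nearIdx, and_assoc]

/-- The bound on the remainder at a segment. -/
lemma seg_rem (hG : G.IsTree) (hp : Par θ) {d : ℕ} (hd : 3 ≤ d) (hreg : G.IsRegularOfDegree d)
    (hb : ((d - 1 : ℕ) : ℝ) * θ ^ 2 = 1) {r o w : V} {n l i : ℕ} (ho : o ∈ ball G r n)
    (hw : w ∈ ball G r n) (hl : 1 ≤ l) (hli : l ≤ i) (hi : i < G.dist o w) {τ t' W δ : ℝ}
    (hτ : 0 ≤ τ) (ht : τ ≤ t') (ht' : 0 < t') (hδ : 0 < δ)
    (hW : ∀ {c : V} {m : ℕ}, c ∈ ball G r m → G.dist r c ≤ max (G.dist r w) (G.dist r o) →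
      ∑ j ∈ win G r m, ∫ ω, wterm G θ r m c 0 t' j ω ∂Pm G θ r ≤ W)
    (hA' : Obsv n (seg G (ball G r n) o w l i) (rT sch τ) A) :
    ∃ m0, ∀ m, m0 ≤ m → ∫ ω, (A (vis sch ω) -
      alphaA G θ sch A (seg G (ball G r n) o w l i) (vis sch ω) -
      ∑ j ∈ nearIdx G r o w l i m, XL G θ sch r τ A j (vis sch ω)) ^ 2 ∂Pm G θ r ≤
        8 * (θ ^ (l - 1)) ^ 2 * W + 4 * (seg G (ball G r n) o w l i).card * δ := by
  classical
  have := Pm_prob (G := G) hp r
  set D0 := ball G r n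
  set Es := seg G D0 o w l i with hEs
  have hD0 := sub_ball hG r n
  have hsub := sub_seg hG hD0 ho hw hl hli hi
  have hsegD : Es ⊆ D0 := fun z hz ↦ (mem_sideF.1 (seg_subset D0 o w l i hz)).1
  have hm' : ∀ c ∈ Es, ∃ m : ℕ, ∀ {n' : ℕ}, c ∈ ball G r n' → ∀ I : Finset (Ix V),
      I ⊆ win G r n' → (∀ j ∈ I, m ≤ j.1 ∨ m < G.dist r j.2) →
        ∑ j ∈ I, ∫ ω, wterm G θ r n' c 0 t' j ω ∂Pm G θ r ≤ δ := fun c _ ↦
    wterm_tail hG hp hd hreg hb r c ht' hδ
  choose mf hmf using hm'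
  refine ⟨max n (Es.attach.sup fun c ↦ mf c.1 c.2), fun m hm ↦ ?_⟩
  set m1 := m with hm1
  have hmn : n ≤ m := (le_max_left _ _).trans hm
  have hmc : ∀ c (hc : c ∈ Es), mf c hc ≤ m := fun c hc ↦
    ((le_sup (f := fun c : {x // x ∈ Es} ↦ mf c.1 c.2) (mem_attach Es ⟨c, hc⟩)).trans
      (le_max_right _ _)).trans hm
  set J := nearIdx G r o w l i m
  refine rem_le hG hp hτ hA' hsub hsegD J ?_
  filter_upwards [eventually_ge_atTop n] with n' hn'
  have hD' := sub_ball hG r n'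
  have hb0 : D0 ⊆ ball G r n' := ball_mono hG r hn'
  have hseg' : Es ⊆ ball G r n' := hsegD.trans hb0
  set c1 := up G o w (min (i + l) (G.dist o w))
  set c2 := up G o w (i - 2 * l)
  have hmem : ∀ q, q ≤ G.dist o w → up G o w q ∈ ball G r n' := fun q hq ↦
    hb0 (up_mem hG hD0 ho hw q hq)
  have hrc : ∀ q, q ≤ G.dist o w →
      G.dist r (up G o w q) ≤ max (G.dist r w) (G.dist r o) := fun q hq ↦
    (dist_root_up_le hG r hq).trans (max_le_max (Nat.sub_le _ _) le_rfl)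
  set q2 := (θ ^ (l - 1)) ^ 2
  set Tset := (win G r n' \ J).filter fun j ↦ m ≤ j.1 ∨ m < G.dist r j.2
  have hpt : ∀ j ∈ win G r n' \ J, ∀ ω : Om V, XA G θ sch r τ A n' j (vis sch ω) ^ 2 ≤
      4 * q2 * (wterm G θ r n' c1 0 t' j ω + wterm G θ r n' c2 0 t' j ω) +
        if m ≤ j.1 ∨ m < G.dist r j.2 then 4 * ∑ c ∈ Es, wterm G θ r n' c 0 t' j ω else 0 := by
    intro j hj ω
    obtain ⟨hjw, hjJ⟩ := mem_sdiff.1 hj
    obtain ⟨hj1, hj2⟩ := mem_product.1 hjw
    have hjW : j ∉ (range n ×ˢ Es : Finset (Ix V)) := fun h ↦ hjJ (mem_nearIdx.2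
      ⟨(Finset.mem_range.1 (mem_product.1 h).1).trans_le hmn,
        ball_mono hG r hmn (hsegD (mem_product.1 h).2),
        seg_near hG hl hli hi (mem_product.1 h).2⟩)
    set P := past n' (ball G r n') (rJ sch j) (vis sch ω).1
    have hP : ∀ k ∈ P, k.2 ∈ ball G r n' := fun k hk ↦ (mem_past.1 hk).2.1
    have hg : Loc (hA sch A P (vis sch ω)) Es := loc_hA hA' P _
    have hgC := abs_hA (σ := sch) hA' P (vis sch ω)
    have w1 := wterm_nonneg hG hp r n' c1 0 t' j ω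
    have w2 := wterm_nonneg hG hp r n' c2 0 t' j ω
    have ws : 0 ≤ ∑ c ∈ Es, wterm G θ r n' c 0 t' j ω :=
      sum_nonneg fun c _ ↦ wterm_nonneg hG hp r n' c 0 t' j ω
    have hq2 : 0 ≤ q2 := sq_nonneg _
    by_cases hT : m ≤ j.1 ∨ m < G.dist r j.2
    · rw [if_pos hT]
      obtain ⟨c, hc, hcv⟩ := cv_nearest (σ := sch) hG hp hD' hsub hseg' hg hgC hj2 hP
        (vis sch ω).2
      have h := XA_sq_le (τ := τ) (t' := t') hp ht hA' hjw hjW (c := c) zero_le_one ω
        (by rw [one_mul]; exact hcv)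
      have h1 : wterm G θ r n' c 0 t' j ω ≤ ∑ c ∈ Es, wterm G θ r n' c 0 t' j ω :=
        single_le_sum (f := fun c ↦ wterm G θ r n' c 0 t' j ω)
          (fun c _ ↦ wterm_nonneg hG hp r n' c 0 t' j ω) hc
      nlinarith
    · rw [if_neg hT, add_zero]
      rw [not_or, not_le, not_lt] at hT
      have hnot : ¬ NearSeg G o w l i j.2 := fun h ↦ hjJ (mem_nearIdx.2
        ⟨hT.1, (mem_ball hG).2 hT.2, h⟩)
      have hsides := fun z (hz : z ∈ Es) ↦ seg_sides hG hl hli hi hz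
      have hnears := fun z (hz : z ∈ Es) ↦ seg_near hG hl hli hi hz
      by_cases h1 : i + l ≤ G.dist o w → OnSide G (up G o w (i + l - 1)) (up G o w (i + l)) j.2
      · have h2 : 2 * l ≤ i ∧ OnSide G (up G o w (i - 2 * l)) (up G o w (i - 2 * l + 1)) j.2 := by
          by_contra hc
          exact hnot ⟨h1, fun a b ↦ hc ⟨a, b⟩⟩
        obtain ⟨h2l, h2⟩ := h2
        have hadj := up_adj hG (o := o) (w := w) (i := i - 2 * l) (by omega)
        have hadj' := up_adj hG (o := o) (w := w) (i := i - l) (by omega)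
        have hcv := cv_two_step (σ := sch) hG hp hD' (m := l - 1) (hmem (i - 2 * l) (by omega))
          (hmem (i - l) (by omega)) hj2 hadj.symm hadj'.symm hgC hg hseg'
          (fun z hz ↦ (onSide_comm hG hadj).2 ((hnears z hz).2 h2l))
          (fun z hz ↦ (onSide_comm hG hadj').2 (hsides z hz).2)
          ((onSide_comm hG hadj.symm).1 h2)
          ((onSide_comm hG hadj'.symm).1 (onSide_up_mono hG (j := i - l) (by omega) (by omega)
            (onSide_self hadj)))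
          (by
            have e1 := dist_up_left hG (o := o) (w := w) (i - l) (by omega)
            have e2 := dist_up_left hG (o := o) (w := w) (i - 2 * l) (by omega)
            have := hG.connected.dist_triangle (u := w) (v := up G o w (i - 2 * l))
              (w := up G o w (i - l))
            rw [SimpleGraph.dist_comm (u := up G o w (i - 2 * l)) (v := up G o w (i - l))] at this
            omega) hP (vis sch ω).2
        have h := XA_sq_le (τ := τ) (t' := t') hp ht hA' hjw hjW (c := c2)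
          (pow_nonneg hp.nonneg (l - 1)) ω hcv
        have := mul_nonneg hq2 w1
        simp only [q2] at this h ⊢
        linarith
      · obtain ⟨hk, h1⟩ := Classical.not_imp.1 h1
        have hc1 : c1 = up G o w (i + l) := by simp only [c1, min_eq_left hk]
        have hadj := up_adj hG (o := o) (w := w) (i := i + l - 1) (by omega)
        rw [show i + l - 1 + 1 = i + l by omega] at hadj
        have hadj' := up_adj hG (o := o) (w := w) (i := i) hi
        have hcv := cv_two_step (σ := sch) hG hp hD' (m := l - 1) (hmem (i + l) hk)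
          (hmem (i + 1) (by omega)) hj2 hadj hadj' hgC hg hseg'
          (fun z hz ↦ (hnears z hz).1 hk) (fun z hz ↦ (hsides z hz).1) h1
          (fun h ↦ by
            have h3 := onSide_up_mono hG (j := i + l - 1) (by omega) (by omega) h
            rw [show i + l - 1 + 1 = i + l by omega] at h3
            exact not_onSide_other _ _ h3)
          (by
            have e1 := dist_up_left hG (o := o) (w := w) (i + l) hk
            have e2 := dist_up_left hG (o := o) (w := w) (i + 1) (by omega)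
            have := hG.connected.dist_triangle (u := w) (v := up G o w (i + 1))
              (w := up G o w (i + l))
            omega) hP (vis sch ω).2
        have h := XA_sq_le (τ := τ) (t' := t') hp ht hA' hjw hjW (c := up G o w (i + l))
          (pow_nonneg hp.nonneg (l - 1)) ω hcv
        rw [← hc1] at h
        have := mul_nonneg hq2 w2
        simp only [q2] at this h ⊢
        linarith
  have bw : ∀ c j, BM fun ω : Om V ↦ wterm G θ r n' c 0 t' j ω := fun c j ↦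
    bm_wterm hG hp r n' c 0 t' j
  have hint : ∀ j ∈ win G r n' \ J, ∫ ω, XA G θ sch r τ A n' j (vis sch ω) ^ 2 ∂Pm G θ r ≤
      4 * q2 * (∫ ω, wterm G θ r n' c1 0 t' j ω ∂Pm G θ r +
          ∫ ω, wterm G θ r n' c2 0 t' j ω ∂Pm G θ r) +
        if m ≤ j.1 ∨ m < G.dist r j.2 then
          4 * ∑ c ∈ Es, ∫ ω, wterm G θ r n' c 0 t' j ω ∂Pm G θ r else 0 := by
    intro j hj
    have b0 : BM fun ω : Om V ↦ XA G θ sch r τ A n' j (vis sch ω) ^ 2 :=
      bm_pow ((bm_XA hp r τ hA' n' j).comp (measurable_vis sch)) 2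
    have b1 := (BM.const (4 * q2)).mul ((bw c1 j).add (bw c2 j))
    have b2 : BM fun ω : Om V ↦
        if m ≤ j.1 ∨ m < G.dist r j.2 then 4 * ∑ c ∈ Es, wterm G θ r n' c 0 t' j ω else 0 := by
      split_ifs
      · exact (BM.const 4).mul (BM.sum _ fun c _ ↦ bw c j)
      · exact BM.const 0
    refine (integral_mono (b0.integrable _) ((b1.add b2).integrable _) (hpt j hj)).trans (le_of_eq ?_)
    rw [integral_add (b1.integrable _) (b2.integrable _), integral_const_mul,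
      integral_add ((bw c1 j).integrable _) ((bw c2 j).integrable _)]
    congr 1
    split_ifs
    · rw [integral_const_mul, integral_finsetSum _ fun c _ ↦ (bw c j).integrable _]
    · exact integral_zero _ _
  refine (sum_le_sum hint).trans ?_
  have hnn : ∀ c j, 0 ≤ ∫ ω, wterm G θ r n' c 0 t' j ω ∂Pm G θ r := fun c j ↦
    integral_nonneg fun ω ↦ wterm_nonneg hG hp r n' c 0 t' j ω
  have hfull : ∀ q, q ≤ G.dist o w →
      ∑ j ∈ win G r n' \ J, ∫ ω, wterm G θ r n' (up G o w q) 0 t' j ω ∂Pm G θ r ≤ W := fun q hq ↦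
    (sum_le_sum_of_subset_of_nonneg sdiff_subset fun j _ _ ↦ hnn _ j).trans
      (hW (hmem q hq) (hrc q hq))
  have htail : ∑ j ∈ Tset, ∑ c ∈ Es, ∫ ω, wterm G θ r n' c 0 t' j ω ∂Pm G θ r ≤
      Es.card * δ := by
    rw [sum_comm, ← nsmul_eq_mul, ← sum_const]
    refine sum_le_sum fun c hc ↦ hmf c hc (hseg' hc) Tset
      ((filter_subset _ _).trans sdiff_subset) fun j hj ↦ ?_
    exact (mem_filter.1 hj).2.imp (fun h ↦ (hmc c hc).trans h) fun h ↦ (hmc c hc).trans_lt h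
  rw [sum_add_distrib, ← mul_sum, sum_add_distrib, ← sum_filter, ← mul_sum]
  have hA1 := hfull _ (min_le_right (i + l) (G.dist o w))
  have hA2 := hfull (i - 2 * l) (by omega)
  have := mul_le_mul_of_nonneg_left (add_le_add hA1 hA2) (show 0 ≤ 4 * q2 by positivity)
  have := mul_le_mul_of_nonneg_left htail (show (0:ℝ) ≤ 4 by norm_num)
  simp only [c1, c2, q2, Tset] at *
  linarith

lemma Kc_double {u : ℝ} (hu : 0 < u) (hu1 : u ≤ 1) : Kc u ≤ 2 ^ 21 * Kc (2 * u) := by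
  have h : (Kc u : ℝ) ≤ (2 ^ 21 : ℝ) * Kc (2 * u) := by
    have h1 : (Kc u : ℝ) ≤ 8 / u ^ 20 + 1 := (Nat.ceil_lt_add_one (by positivity)).le
    have h2 : 8 / (2 * u) ^ 20 ≤ (Kc (2 * u) : ℝ) := Nat.le_ceil _
    have h3 : (1:ℝ) ≤ 8 / u ^ 20 := by
      rw [le_div_iff₀ (by positivity)]
      linarith [pow_le_one₀ hu.le hu1 (n := 20)]
    have e : 8 / u ^ 20 = 2 ^ 20 * (8 / (2 * u) ^ 20) := by rw [mul_pow]; field_simp
    linarith
  exact_mod_cast h

lemma abs_int_mul_le {Ω : Type*} [MeasurableSpace Ω] (μ : Measure Ω) [IsFiniteMeasure μ]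
    {f g : Ω → ℝ} (hf : BM f) (hg : BM g) {ε : ℝ} (hε : 0 < ε) :
    |∫ x, f x * g x ∂μ| ≤ ((∫ x, f x ^ 2 ∂μ) / ε + ε * ∫ x, g x ^ 2 ∂μ) / 2 := by
  have hf2 : BM fun x ↦ f x ^ 2 := bm_pow hf 2
  have hg2 : BM fun x ↦ g x ^ 2 := bm_pow hg 2
  refine (abs_integral_le_integral_abs).trans ?_
  calc ∫ x, |f x * g x| ∂μ ≤ ∫ x, (ε⁻¹ * f x ^ 2 + ε * g x ^ 2) / 2 ∂μ := by
        refine integral_mono ((hf.mul hg).integrable μ).norm
          (((((BM.const ε⁻¹).mul hf2).add ((BM.const ε).mul hg2)).integrable μ).div_const 2)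
          fun x ↦ ?_
        have h1 : ε⁻¹ * f x ^ 2 + ε * g x ^ 2 - 2 * (|f x| * |g x|) =
            ε⁻¹ * (|f x| - ε * |g x|) ^ 2 := by
          rw [← sq_abs (f x), ← sq_abs (g x)]; field_simp; ring
        have : 0 ≤ ε⁻¹ * (|f x| - ε * |g x|) ^ 2 := by positivity
        simp only [abs_mul]
        linarith
    _ = _ := by
        rw [integral_div, integral_add ((hf2.integrable μ).const_mul _)
          ((hg2.integrable μ).const_mul _), integral_const_mul, integral_const_mul, div_eq_inv_mul,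
          mul_comm]
        ring

/-- Increments at two different indices are uncorrelated across the copies. -/
lemma cross_incr (hG : G.IsTree) (hp : Par θ) (r : V) (τ : ℝ) {E' : Finset V}
    (hA' : Obsv n0 E R0 A) (hE : E ⊆ ball G r n0) (hB' : Obsv n0 E' R0 B)
    (hE' : E' ⊆ ball G r n0) {a b : Ix V} (hab : a ≠ b) :
    ∫ q, XL G θ σ r τ A a q.1 * XL G θ σ r τ B b q.2 ∂P2 G σ hp r = 0 := by
  classical
  have := P2_prob (σ := σ) hG hp r
  set fA : Dat V → ℝ := fun p ↦ {p : Dat V | tm σ p.1 a < tm σ p.1 b}.indicator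
    (XL G θ σ r τ A a) p
  set fB : Dat V → ℝ := fun p ↦ {p : Dat V | tm σ p.1 b < tm σ p.1 a}.indicator
    (XL G θ σ r τ B b) p
  have bA : BM fA := bm_indicator (bm_XL hp r τ hA' a) (measurableSet_tm_before a b)
  have bB : BM fB := bm_indicator (bm_XL hp r τ hB' b) (measurableSet_tm_before b a)
  have inv : ∀ {C : Dat V → ℝ} (x y : Ix V) (p : Dat V),
      {p : Dat V | tm σ p.1 x < tm σ p.1 y}.indicator (XL G θ σ r τ C x) (msk (rJ σ y) p) =
        {p : Dat V | tm σ p.1 x < tm σ p.1 y}.indicator (XL G θ σ r τ C x) p := by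
    intro C x y p
    by_cases h : tm σ p.1 x < tm σ p.1 y
    · rw [Set.indicator_of_mem (s := {p : Dat V | tm σ p.1 x < tm σ p.1 y}) h,
        Set.indicator_of_mem (s := {p : Dat V | tm σ p.1 x < tm σ p.1 y}) (a := msk (rJ σ y) p) h]
      simp only [XL, Set.indicator_apply, Set.mem_ofPred_eq]
      rw [MAL_msk r (rC σ x) (R' := rJ σ y) (fun k hk ↦ hk.elim (fun hk ↦ hk.trans h)
          fun e ↦ e ▸ h),
        MAL_msk r (rJ σ x) (R' := rJ σ y) (fun k hk ↦ lt_trans hk h)]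
      rfl
    · rw [Set.indicator_of_notMem (s := {p : Dat V | tm σ p.1 x < tm σ p.1 y}) h,
        Set.indicator_of_notMem (s := {p : Dat V | tm σ p.1 x < tm σ p.1 y})
          (a := msk (rJ σ y) p) h]
  have h1 := cross_zero (σ := σ) hG hp r τ hA' hE a bB (inv b a)
  have h2 := cross_zero (σ := σ) hG hp r τ hB' hE' b bA (inv a b)
  have hne : ∀ᵐ q ∂P2 G σ hp r, tm σ q.1.1 a ≠ tm σ q.1.1 b := by
    refine ae_P2_fst hG hp r (P := fun p ↦ tm σ p.1 a ≠ tm σ p.1 b) ?_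
      ((measurableSet_eq_fun (measurable_tm σ a) (measurable_tm σ b)).compl.preimage measurable_fst)
    have := isingM_prob (G := G) hp.nonneg hp.lt_one.le r
    have hi := (Measure.quasiMeasurePreserving_snd.comp Measure.quasiMeasurePreserving_snd :
      Measure.QuasiMeasurePreserving (fun ω : Om V ↦ ω.2.2) (Pm G θ r) (W01 V)).ae (ae_injOn σ)
    filter_upwards [hi] with ω hω using fun h ↦ hab (hω h)
  have b1 : BM fun q : Dat V × Dat V ↦ XL G θ σ r τ A a q.1 * fB q.2 :=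
    ((bm_XL hp r τ hA' a).comp measurable_fst).mul (bB.comp measurable_snd)
  have b2 : BM fun q : Dat V × Dat V ↦ XL G θ σ r τ B b q.1 * fA q.2 :=
    ((bm_XL hp r τ hB' b).comp measurable_fst).mul (bA.comp measurable_snd)
  have b2' : BM fun q : Dat V × Dat V ↦ XL G θ σ r τ B b q.2 * fA q.1 :=
    ((bm_XL hp r τ hB' b).comp measurable_snd).mul (bA.comp measurable_fst)
  have e : ∀ᵐ q ∂P2 G σ hp r, XL G θ σ r τ A a q.1 * XL G θ σ r τ B b q.2 =
      XL G θ σ r τ A a q.1 * fB q.2 + XL G θ σ r τ B b q.2 * fA q.1 := by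
    filter_upwards [hne, P2_same hG hp r] with q hq hs
    simp only [fA, fB, Set.indicator_apply, Set.mem_ofPred_eq, ← hs.1]
    rcases lt_or_gt_of_ne hq with h | h
    · simp [h, h.not_gt, mul_comm]
    · simp [h, h.not_gt]
  rw [integral_congr_ae e, integral_add (b1.integrable _) (b2'.integrable _), h1, zero_add]
  have := integral_swap2 (σ := σ) hG hp r b2
  rw [h2] at this
  simpa only [Prod.fst_swap, Prod.snd_swap] using this

omit [G.LocallyFinite] [Countable V] in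
lemma integral_labels (hp : Par θ) (r : V) {f : (Ix V → ℝ) → ℝ} (hf : Measurable f) :
    ∫ ω, f (vis σ ω).1 ∂Pm G θ r = ∫ T, f T ∂W01 V := by
  have := isingM_prob (G := G) hp.nonneg hp.lt_one.le r
  have h : MeasurePreserving (fun ω : Om V ↦ ω.2.2) (Pm G θ r) (W01 V) :=
    (measurePreserving_snd (μ := W01 V) (ν := W01 V)).comp
      (measurePreserving_snd (μ := isingM G θ r) (ν := (W01 V).prod (W01 V)))
  conv_rhs => rw [← h.map_eq]
  rw [integral_map h.measurable.aemeasurable hf.aestronglyMeasurable]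
  rfl

/-- The discrepancies of two observables with orthogonal expansions and small remainders. -/
lemma assemble (hG : G.IsTree) (hp : Par θ) (r : V) {A B α β SA SB : Dat V → ℝ} {ε : ℝ}
    (hε : 0 < ε) (hε1 : ε ≤ 1) (hA1 : ∀ p, |A p| ≤ 1) (hB1 : ∀ p, |B p| ≤ 1) (bA : BM A) (bB : BM B)
    (bα : BM α) (bβ : BM β) (bSA : BM SA) (bSB : BM SB)
    (hcut : ∫ ω, A (vis sch ω) * B (vis sch ω) ∂Pm G θ r =
      (∫ ω, A (vis sch ω) ∂Pm G θ r) * ∫ ω, B (vis sch ω) ∂Pm G θ r)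
    (hαβ : ∫ q, α q.1 * β q.2 ∂P2 G sch hp r =
      (∫ ω, A (vis sch ω) ∂Pm G θ r) * ∫ ω, B (vis sch ω) ∂Pm G θ r)
    (hαS : ∫ q, α q.1 * SB q.2 ∂P2 G sch hp r = 0)
    (hSβ : ∫ q, SA q.1 * β q.2 ∂P2 G sch hp r = 0)
    (hSS : ∫ q, SA q.1 * SB q.2 ∂P2 G sch hp r = 0)
    (hRA : ∫ ω, (A (vis sch ω) - α (vis sch ω) - SA (vis sch ω)) ^ 2 ∂Pm G θ r ≤ ε ^ 2)
    (hRB : ∫ ω, (B (vis sch ω) - β (vis sch ω) - SB (vis sch ω)) ^ 2 ∂Pm G θ r ≤ ε ^ 2) :
    |∫ q, (A q.1 - A q.2) * (B q.1 - B q.2) ∂P2 G sch hp r| ≤ 8 * ε := by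
  have := Pm_prob (G := G) hp r
  have := P2_prob (σ := sch) hG hp r
  set RA : Dat V → ℝ := fun p ↦ A p - α p - SA p with hRAdef
  set RB : Dat V → ℝ := fun p ↦ B p - β p - SB p with hRBdef
  replace hRA : ∫ ω, RA (vis sch ω) ^ 2 ∂Pm G θ r ≤ ε ^ 2 := hRA
  replace hRB : ∫ ω, RB (vis sch ω) ^ 2 ∂Pm G θ r ≤ ε ^ 2 := hRB
  have bRA : BM RA := (bA.sub bα).sub bSA
  have bRB : BM RB := (bB.sub bβ).sub bSB
  have f1 : ∀ {f : Dat V → ℝ}, BM f → BM fun q : Dat V × Dat V ↦ f q.1 := fun h ↦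
    h.comp measurable_fst
  have f2 : ∀ {f : Dat V → ℝ}, BM f → BM fun q : Dat V × Dat V ↦ f q.2 := fun h ↦
    h.comp measurable_snd
  have isnd : ∀ {f : Dat V → ℝ}, BM f →
      ∫ q, f q.2 ∂P2 G sch hp r = ∫ ω, f (vis sch ω) ∂Pm G θ r := fun {f} hf ↦ by
    rw [← integral_fst hG hp r hf]
    exact integral_swap2 hG hp r (f1 hf)
  -- the two error terms
  have n1 : ∫ ω, B (vis sch ω) ^ 2 ∂Pm G θ r ≤ 1 := by
    refine (integral_mono ((bm_pow (bB.comp (measurable_vis sch)) 2).integrable _)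
      (integrable_const (1:ℝ)) fun ω ↦ ?_).trans (by simp)
    have := abs_le.1 (hB1 (vis sch ω))
    nlinarith
  have e1 : |∫ q, RA q.1 * B q.2 ∂P2 G sch hp r| ≤ ε := by
    refine (abs_int_mul_le _ (f1 bRA) (f2 bB) hε).trans ?_
    rw [integral_fst hG hp r (bm_pow bRA 2), isnd (bm_pow bB 2)]
    have : (∫ ω, RA (vis sch ω) ^ 2 ∂Pm G θ r) / ε ≤ ε := by
      rw [div_le_iff₀ hε]; linarith
    nlinarith [mul_le_mul_of_nonneg_left n1 hε.le]
  have bAR : BM fun p ↦ A p - RA p := bA.sub bRA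
  have n2 : ∫ ω, (A (vis sch ω) - RA (vis sch ω)) ^ 2 ∂Pm G θ r ≤ 4 := by
    have hRA2 := (bm_pow (bRA.comp (measurable_vis sch)) 2).integrable (Pm G θ r)
    refine (integral_mono ((bm_pow (bAR.comp (measurable_vis sch)) 2).integrable _)
      ((integrable_const (2:ℝ)).add (hRA2.const_mul 2)) fun ω ↦ ?_).trans ?_
    · have := abs_le.1 (hA1 (vis sch ω))
      simp only [Pi.add_apply]
      nlinarith [sq_nonneg (A (vis sch ω) + RA (vis sch ω))]
    · rw [integral_add' (integrable_const _) (hRA2.const_mul 2), integral_const_mul, integral_const,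
        probReal_univ, one_smul]
      have : ε ^ 2 ≤ 1 := pow_le_one₀ hε.le hε1
      linarith
  have e2 : |∫ q, (A q.1 - RA q.1) * RB q.2 ∂P2 G sch hp r| ≤ 5 / 2 * ε := by
    have h := abs_int_mul_le (P2 G sch hp r) (f2 bRB) (f1 bAR) hε
    rw [isnd (bm_pow bRB 2), integral_fst hG hp r (bm_pow bAR 2)] at h
    rw [show (fun q : Dat V × Dat V ↦ (A q.1 - RA q.1) * RB q.2) =
      fun q ↦ RB q.2 * (A q.1 - RA q.1) from funext fun q ↦ mul_comm _ _]
    refine h.trans ?_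
    have : (∫ ω, RB (vis sch ω) ^ 2 ∂Pm G θ r) / ε ≤ ε := by
      rw [div_le_iff₀ hε]; linarith
    nlinarith [mul_le_mul_of_nonneg_left n2 hε.le]
  -- assembly
  have bAB : BM fun q : Dat V × Dat V ↦ A q.1 * B q.2 := (f1 bA).mul (f2 bB)
  have hdec : ∀ q : Dat V × Dat V, A q.1 * B q.2 =
      (RA q.1 * B q.2 + (A q.1 - RA q.1) * RB q.2) +
        ((α q.1 * β q.2 + α q.1 * SB q.2) + (SA q.1 * β q.2 + SA q.1 * SB q.2)) := fun q ↦ by
    simp only [hRAdef, hRBdef]; ring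
  have hcross : ∫ q, A q.1 * B q.2 ∂P2 G sch hp r =
      ((∫ q, RA q.1 * B q.2 ∂P2 G sch hp r) + ∫ q, (A q.1 - RA q.1) * RB q.2 ∂P2 G sch hp r) +
        (∫ ω, A (vis sch ω) ∂Pm G θ r) * ∫ ω, B (vis sch ω) ∂Pm G θ r := by
    have c1 := (f1 bRA).mul (f2 bB)
    have c2 := (f1 bAR).mul (f2 bRB)
    have c3 := (f1 bα).mul (f2 bβ)
    have c4 := (f1 bα).mul (f2 bSB)
    have c5 := (f1 bSA).mul (f2 bβ)
    have c6 := (f1 bSA).mul (f2 bSB)
    simp only [hdec]
    rw [integral_add ((c1.add c2).integrable _) (((c3.add c4).add (c5.add c6)).integrable _),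
      integral_add (c1.integrable _) (c2.integrable _),
      integral_add ((c3.add c4).integrable _) ((c5.add c6).integrable _),
      integral_add (c3.integrable _) (c4.integrable _),
      integral_add (c5.integrable _) (c6.integrable _), hαβ, hαS, hSβ, hSS]
    ring
  have bBA : BM fun q : Dat V × Dat V ↦ A q.2 * B q.1 := (f2 bA).mul (f1 bB)
  have hsw : ∫ q, A q.2 * B q.1 ∂P2 G sch hp r = ∫ q, A q.1 * B q.2 ∂P2 G sch hp r := by
    have h := integral_swap2 (σ := sch) hG hp r bAB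
    simpa only [Prod.fst_swap, Prod.snd_swap] using h
  have etot : ∫ q, (A q.1 - A q.2) * (B q.1 - B q.2) ∂P2 G sch hp r =
      2 * ((∫ ω, A (vis sch ω) ∂Pm G θ r) * ∫ ω, B (vis sch ω) ∂Pm G θ r) -
        2 * ∫ q, A q.1 * B q.2 ∂P2 G sch hp r := by
    have e : ∀ q : Dat V × Dat V, (A q.1 - A q.2) * (B q.1 - B q.2) =
        (A q.1 * B q.1 + A q.2 * B q.2) - (A q.1 * B q.2 + A q.2 * B q.1) := fun q ↦ by ring
    simp only [e]
    rw [integral_sub (((f1 (bA.mul bB)).add (f2 (bA.mul bB))).integrable _)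
        ((bAB.add bBA).integrable _),
      integral_add ((f1 (bA.mul bB)).integrable _) ((f2 (bA.mul bB)).integrable _),
      integral_add (bAB.integrable _) (bBA.integrable _), hsw, isnd (bA.mul bB),
      integral_fst hG hp r (bA.mul bB), hcut]
    ring
  rw [etot, hcross, abs_le]
  have := abs_le.1 e1
  have := abs_le.1 e2
  constructor <;> linarith


/-- The discrepancies at two separated segments of a path are nearly uncorrelated. -/
lemma decor_pair (hG : G.IsTree) (hp : Par θ) {d : ℕ} (hd : 3 ≤ d)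
    (hreg : G.IsRegularOfDegree d) (hb : ((d - 1 : ℕ) : ℝ) * θ ^ 2 = 1) (N : ℕ) :
    ∃ C u1 : ℝ, 0 ≤ C ∧ 0 < u1 ∧ u1 ≤ 1 ∧
      ∀ {r o w : V} {u τ : ℝ} {n i j : ℕ} {F : ℝ → ℝ}, 0 < u → u ≤ u1 →
        u ^ 32 ≤ τ → τ ≤ 4 * u ^ 32 → o ∈ ball G r n → w ∈ ball G r n → G.dist r o ≤ 1 →
        G.dist o w ≤ 16 * Kc u → ell u ≤ i → i + 3 * ell u ≤ j → j < G.dist o w →
        Measurable F → (∀ x, |F x| ≤ 1) → (∀ x, F (-x) = F x) →
        |∫ q, (F (ta G θ sch n (ball G r n) (rT sch τ) o w (ell u) i q.1) -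
              F (ta G θ sch n (ball G r n) (rT sch τ) o w (ell u) i q.2)) *
            (F (ta G θ sch n (ball G r n) (rT sch τ) o w (ell u) j q.1) -
              F (ta G θ sch n (ball G r n) (rT sch τ) o w (ell u) j q.2))
            ∂P2 G sch hp r| ≤ C * u ^ N := by
  classical
  have hθ : 0 < θ := by
    rcases hp.nonneg.eq_or_lt with h | h
    · exact absurd hb (by simp [← h])
    · exact h
  obtain ⟨C0, uw, hC0, huw, huw1, hwt⟩ := wterm_le hG hp hd hreg hb (16 * 2 ^ 21 + 1)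
  obtain ⟨us, hus, hus1, hsmall⟩ := exists_small hp.nonneg hp.lt_one (2 * N)
    (C := θ ^ 2 / (16 * C0 + 1)) (by positivity)
  refine ⟨8, min (uw / 2) us, by norm_num, lt_min (by positivity) hus, min_le_right _ _ |>.trans hus1,
    fun {r o w u τ n i j F} hu hule hτl hτu ho hw hro hdist hil hij hj hF hF1 hFe ↦ ?_⟩
  have := Pm_prob (G := G) hp r
  have := P2_prob (σ := sch) hG hp r
  have hu2 : 2 * u ≤ uw := by linarith [hule.trans (min_le_left _ _)]
  have hu1 : u ≤ 1 := by linarith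
  obtain ⟨hl, -, -⟩ := ell_bounds hu hu1
  set l := ell u with hldef
  set t' := (2 * u) ^ 32 with ht'def
  have ht' : 0 < t' := by positivity
  have hτ0 : 0 ≤ τ := le_trans (by positivity) hτl
  have hτt : τ ≤ t' := hτu.trans (by rw [ht'def, mul_pow]; gcongr; norm_num)
  set D0 := ball G r n with hD0def
  have hD0 := sub_ball hG r n
  have hK1 : 1 ≤ Kc (2 * u) := by rw [Kc, Nat.one_le_ceil_iff]; positivity
  have hW : ∀ {c : V} {m : ℕ}, c ∈ ball G r m → G.dist r c ≤ max (G.dist r w) (G.dist r o) →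
      ∑ j ∈ win G r m, ∫ ω, wterm G θ r m c 0 t' j ω ∂Pm G θ r ≤ C0 := fun {c m} hc hcd ↦ by
    refine (hwt (by positivity) hu2 hc ?_).trans
      (mul_le_of_le_one_right hC0 (pow_le_one₀ (by positivity) (hu2.trans huw1)))
    have h1 := hG.connected.dist_triangle (u := r) (v := o) (w := w)
    have h2 := Kc_double hu hu1
    rw [add_mul, one_mul, mul_assoc]
    omega
  set R := rT (V := V) sch τ with hR
  set A : Dat V → ℝ := fun p ↦ F (ta G θ sch n D0 R o w l i p) with hAdef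
  set B : Dat V → ℝ := fun p ↦ F (ta G θ sch n D0 R o w l j p) with hBdef
  have hi : i < G.dist o w := by omega
  have hlj : l ≤ j := by omega
  set EA := seg G D0 o w l i
  set EB := seg G D0 o w l j
  have hobs : ∀ q, Obsv n (seg G D0 o w l q) R fun p ↦ F (ta G θ sch n D0 R o w l q p) := fun q ↦
    ⟨hF.comp (bm_ta hp n (rmeas_rT sch τ) o w l q).1, fun p ↦ hF1 _,
      fun p p' h1 h2 ↦ congrArg F (rdep_ta n (rlocal_rT sch τ) o w l q p p' h1 h2)⟩
  have hA' : Obsv n EA R A := hobs i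
  have hB' : Obsv n EB R B := hobs j
  have hsA := sub_seg hG hD0 ho hw hl hil hi
  have hsB := sub_seg hG hD0 ho hw hl hlj hj
  have hAD : EA ⊆ D0 := fun z hz ↦ (mem_sideF.1 (seg_subset D0 o w l i hz)).1
  have hBD : EB ⊆ D0 := fun z hz ↦ (mem_sideF.1 (seg_subset D0 o w l j hz)).1
  have hsideB : ∀ z ∈ EB, ¬ OnSide G (up G o w i) (up G o w (i + 1)) z := fun z hz h ↦
    (seg_sides hG hl hlj hj hz).2 (onSide_up_mono hG (j := j - l) (by omega) (by omega) h)
  have hdisj : ∀ z ∈ EA, z ∉ EB := fun z hz hz' ↦ hsideB z hz' (seg_sides hG hl hil hi hz).1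
  set ε := u ^ N with hεdef
  have hε : 0 < ε := by positivity
  have hε1 : ε ≤ 1 := pow_le_one₀ hu.le hu1
  have hq : 8 * (θ ^ (l - 1)) ^ 2 * C0 ≤ ε ^ 2 / 2 := by
    have h0 := hsmall u hu (hule.trans (min_le_right _ _))
    rw [← hldef] at h0
    have e : (θ ^ (l - 1)) ^ 2 * θ ^ 2 = (θ ^ l) ^ 2 := by
      rw [← mul_pow, ← pow_succ, show l - 1 + 1 = l by omega]
    have h1 : (θ ^ l) ^ 2 ≤ θ ^ 2 / (16 * C0 + 1) * ε ^ 2 := by
      refine le_trans ?_ (h0.trans_eq (by rw [hεdef, ← pow_mul, mul_comm N]))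
      rw [sq]
      exact mul_le_of_le_one_right (pow_nonneg hp.nonneg _)
        (pow_le_one₀ hp.nonneg hp.lt_one.le)
    rw [← e] at h1
    have h2 : (θ ^ (l - 1)) ^ 2 * (16 * C0 + 1) ≤ ε ^ 2 := by
      rw [div_mul_eq_mul_div, le_div_iff₀ (by positivity)] at h1
      nlinarith [pow_pos hθ 2]
    nlinarith [sq_nonneg (θ ^ (l - 1))]
  set δ := ε ^ 2 / (8 * ((EA.card : ℝ) + EB.card + 1)) with hδdef
  have hδ : 0 < δ := by positivity
  have hδb : ∀ a : ℕ, (a : ℝ) ≤ (EA.card : ℝ) + EB.card + 1 → 4 * (a : ℝ) * δ ≤ ε ^ 2 / 2 := by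
    intro a ha
    rw [hδdef, mul_div_assoc', div_le_div_iff₀ (by positivity) two_pos]
    nlinarith [mul_le_mul_of_nonneg_right ha (sq_nonneg ε)]
  obtain ⟨mA, hmA⟩ := seg_rem hG hp hd hreg hb ho hw hl hil hi hτ0 hτt ht' hδ hW hA'
  obtain ⟨mB, hmB⟩ := seg_rem hG hp hd hreg hb ho hw hl hlj hj hτ0 hτt ht' hδ hW hB'
  set m := max mA mB
  set JA := nearIdx G r o w l i m
  set JB := nearIdx G r o w l j m
  set α := alphaA G θ sch A EA with hα
  set β := alphaA G θ sch B EB with hβ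
  set SA : Dat V → ℝ := fun p ↦ ∑ a ∈ JA, XL G θ sch r τ A a p
  set SB : Dat V → ℝ := fun p ↦ ∑ a ∈ JB, XL G θ sch r τ B a p
  set RA : Dat V → ℝ := fun p ↦ A p - α p - SA p
  set RB : Dat V → ℝ := fun p ↦ B p - β p - SB p
  have bA : BM A := hA'.bm
  have bB : BM B := hB'.bm
  have bα : BM α := bm_alphaA hA'
  have bβ : BM β := bm_alphaA hB'
  have bSA : BM SA := BM.sum _ fun a _ ↦ bm_XL hp r τ hA' a
  have bSB : BM SB := BM.sum _ fun a _ ↦ bm_XL hp r τ hB' a
  have bRA : BM RA := (bA.sub bα).sub bSA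
  have bRB : BM RB := (bB.sub bβ).sub bSB
  have hRA : ∫ ω, RA (vis sch ω) ^ 2 ∂Pm G θ r ≤ ε ^ 2 :=
    (hmA m (le_max_left _ _)).trans (by
      have := hδb EA.card (by have := (Nat.cast_nonneg EB.card : (0:ℝ) ≤ EB.card); linarith)
      linarith)
  have hRB : ∫ ω, RB (vis sch ω) ^ 2 ∂Pm G θ r ≤ ε ^ 2 :=
    (hmB m (le_max_right _ _)).trans (by
      have := hδb EB.card (by have := (Nat.cast_nonneg EA.card : (0:ℝ) ≤ EA.card); linarith)
      linarith)
  have f1 : ∀ {f : Dat V → ℝ}, BM f → BM fun q : Dat V × Dat V ↦ f q.1 := fun h ↦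
    h.comp measurable_fst
  have f2 : ∀ {f : Dat V → ℝ}, BM f → BM fun q : Dat V × Dat V ↦ f q.2 := fun h ↦
    h.comp measurable_snd
  have isnd : ∀ {f : Dat V → ℝ}, BM f →
      ∫ q, f q.2 ∂P2 G sch hp r = ∫ ω, f (vis sch ω) ∂Pm G θ r := fun {f} hf ↦ by
    rw [← integral_fst hG hp r hf]
    exact integral_swap2 hG hp r (f1 hf)
  -- the mean given the labels
  have hmean : ∀ {E : Finset V} {f : Dat V → ℝ} {e : V}, Obsv n E R f → Sub G E e → E ⊆ D0 →
      ∫ ω, f (vis sch ω) ∂Pm G θ r = ∫ ω, alphaA G θ sch f E (vis sch ω) ∂Pm G θ r := by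
    intro E f e hf hsE hED
    have h := orth_A (σ := sch) hG hp (r := r) hD0 hf le_rfl hED (rmeas_rT sch 0) (BM.const 1)
      fun T y y' _ ↦ rfl
    simp only [one_mul] at h
    rw [h]
    refine integral_congr_ae (.of_forall fun ω ↦ ?_)
    change pA G θ sch f D0 (past n D0 (rT sch 0) (vis sch ω).1) (vis sch ω) = _
    have : past n D0 (rT sch 0) (vis sch ω).1 = ∅ := by
      refine filter_false_of_mem fun a _ (h : tm sch (vis sch ω).1 a < 0) ↦ ?_
      linarith [sch.a_nonneg a.1, a_le_tm sch (vis sch ω).1 a]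
    rw [this, pA_bot hG hf hD0 hsE hED]
  have hαβ : ∫ q, α q.1 * β q.2 ∂P2 G sch hp r =
      (∫ ω, A (vis sch ω) ∂Pm G θ r) * ∫ ω, B (vis sch ω) ∂Pm G θ r := by
    have e : ∀ᵐ q ∂P2 G sch hp r, α q.1 * β q.2 = α q.1 * β q.1 := by
      filter_upwards [P2_same hG hp r] with q hq
      simp only [hβ, alphaA, hq.1]
    rw [integral_congr_ae e, integral_fst hG hp r (bα.mul bβ), hmean hA' hsA hAD,
      hmean hB' hsB hBD, ← hα, ← hβ]
    set a' : (Ix V → ℝ) → ℝ := fun T ↦ α (T, 0)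
    set b' : (Ix V → ℝ) → ℝ := fun T ↦ β (T, 0)
    have hm0 : Measurable fun T : Ix V → ℝ ↦ ((T, 0) : Dat V) :=
      measurable_id.prodMk measurable_const
    have ba : BM a' := bα.comp hm0
    have bb : BM b' := bβ.comp hm0
    rw [show (fun ω : Om V ↦ α (vis sch ω)) = fun ω ↦ a' (vis sch ω).1 from rfl,
      show (fun ω : Om V ↦ β (vis sch ω)) = fun ω ↦ b' (vis sch ω).1 from rfl,
      show (fun ω : Om V ↦ α (vis sch ω) * β (vis sch ω)) =
        fun ω ↦ (fun T ↦ a' T * b' T) (vis sch ω).1 from rfl,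
      integral_labels hp r ba.1, integral_labels hp r bb.1, integral_labels hp r (ba.mul bb).1, W01]
    exact integral_mul_dep u01 (S := {x : Ix V | x.2 ∈ EA}) ba bb
      (fun x x' h ↦ alphaA_congr hA' fun k hk ↦ h k (mem_product.1 hk).2)
      (fun x x' h ↦ alphaA_congr hB' fun k hk ↦
        h k fun hk' ↦ hdisj _ hk' (mem_product.1 hk).2)
  have hcut : ∫ ω, A (vis sch ω) * B (vis sch ω) ∂Pm G θ r =
      (∫ ω, A (vis sch ω) ∂Pm G θ r) * ∫ ω, B (vis sch ω) ∂Pm G θ r := by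
    have hadj := up_adj hG (o := o) (w := w) (i := i) hi
    refine cut (n := n) hG hp hD0 (up_mem hG hD0 ho hw i hi.le) (up_mem hG hD0 ho hw (i + 1) hi)
      hadj (rmeas_rT sch τ) (rlocal_rT sch τ) bA bB (hA'.dep.mono (seg_subset D0 o w l i))
      (hB'.dep.mono fun z hz ↦ mem_sideF.2 ⟨hBD hz, (onSide_comm hG hadj).2 (hsideB z hz)⟩) ?_
    intro p
    simp only [hBdef]
    rw [ta_neg hG hD0 ho hw hl hlj hj, hFe]
  -- vanishing cross terms
  have hαS : ∫ q, α q.1 * SB q.2 ∂P2 G sch hp r = 0 := by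
    simp only [SB, mul_sum]
    rw [integral_finsetSum _ fun a _ ↦ ((f1 bα).mul (f2 (bm_XL hp r τ hB' a))).integrable _]
    refine sum_eq_zero fun a _ ↦ ?_
    have h := integral_swap2 (σ := sch) hG hp r ((f1 (bm_XL (G := G) (σ := sch) hp r τ hB' a)).mul (f2 bα))
    rw [cross_zero (G := G) (σ := sch) hG hp r τ hB' hBD a bα (fun p ↦ rfl)] at h
    simp only [Prod.fst_swap, Prod.snd_swap] at h
    rw [← h]
    exact integral_congr_ae (.of_forall fun q ↦ mul_comm _ _)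
  have hSβ : ∫ q, SA q.1 * β q.2 ∂P2 G sch hp r = 0 := by
    simp only [SA, sum_mul]
    rw [integral_finsetSum _ fun a _ ↦ ((f1 (bm_XL hp r τ hA' a)).mul (f2 bβ)).integrable _]
    exact sum_eq_zero fun a _ ↦ cross_zero (G := G) (σ := sch) hG hp r τ hA' hAD a bβ (fun p ↦ rfl)
  have hSS : ∫ q, SA q.1 * SB q.2 ∂P2 G sch hp r = 0 := by
    simp only [SA, SB, sum_mul_sum]
    have bt : ∀ a b, BM fun q : Dat V × Dat V ↦
        XL G θ sch r τ A a q.1 * XL G θ sch r τ B b q.2 := fun a b ↦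
      (f1 (bm_XL hp r τ hA' a)).mul (f2 (bm_XL hp r τ hB' b))
    rw [integral_finsetSum _ fun a _ ↦ (BM.sum _ fun b _ ↦ bt a b).integrable _]
    refine sum_eq_zero fun a ha ↦ ?_
    rw [integral_finsetSum _ fun b _ ↦ (bt a b).integrable _]
    refine sum_eq_zero fun b hb' ↦ cross_incr hG hp r τ hA' hAD hB' hBD ?_
    rintro rfl
    exact near_disjoint hG hl hi hij hj (mem_nearIdx.1 ha).2.2 (mem_nearIdx.1 hb').2.2
  change |∫ q, (A q.1 - A q.2) * (B q.1 - B q.2) ∂P2 G sch hp r| ≤ 8 * ε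
  exact assemble hG hp r hε hε1 hA'.abs_le hB'.abs_le bA bB bα bβ bSA bSB hcut hαβ hαS hSβ hSS
    hRA hRB

end Vale.Agent.P161.Crit
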