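import Mathlib
import Vale.Agent.P161.Crit.Error
import Vale.Agent.P161.Crit.Cut
import Vale.Agent.P161.Crit.Util.ExpMoment

/-!
A bound on the discrepancy of covariances linear in the discrepancy of the copies, away from time
zero.
-/

namespace Vale.Agent.P161.Crit

open Finset MeasureTheory Filter Topology

attribute [local irreducible] ML pf

variable {V : Type*} [DecidableEq V] [Countable V] {G : SimpleGraph V} [G.LocallyFinite] {θ : ℝ}
  {σ : Sch}

/-- The functions whose posterior means enter the discrepancy at `r`. -/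
def IsTgt (G : SimpleGraph V) (r : V) (f : Finset V → ℝ) : Prop :=
  (f = fun S ↦ sg S r) ∨
    ∃ y, G.Adj r y ∧ ((f = fun S ↦ sg S y) ∨ f = fun S ↦ sg S r * sg S y)

/-- The two discrepancy sums entering the evolution of the error. -/
noncomputable def covSum (G : SimpleGraph V) [G.LocallyFinite] (σ : Sch) (hp : Par θ) (r : V)
    (τ : ℝ) (f : Finset V → ℝ) (W : Finset V) : ℝ :=
  ∑ w ∈ W, ∫ q, (cL G θ σ r (rT σ τ) f w q.1 - cL G θ σ r (rT σ τ) f w q.2) ^ 2 ∂P2 G σ hp r +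
    ∑ w ∈ W, ∫ q, cL G θ σ r (rT σ τ) f w q.2 ^ 2 *
      (ML G θ σ r (rT σ τ) (fun S ↦ sg S w) q.1 -
        ML G θ σ r (rT σ τ) (fun S ↦ sg S w) q.2) ^ 2 ∂P2 G σ hp r

/-! ### Geometry of paths -/

omit [Countable V] in
omit [DecidableEq V] [G.LocallyFinite] in
lemma up_up (o w : V) (j i : ℕ) : up G o (up G o w j) i = up G o w (i + j) :=
  (Function.iterate_add_apply _ i j w).symm

omit [Countable V] [G.LocallyFinite] in
lemma dist_up_up (hG : G.IsTree) {o w : V} {i j : ℕ} (hij : i ≤ j) (hj : j ≤ G.dist o w) :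
    G.dist (up G o w i) (up G o w j) = j - i := by
  have h := dist_up_left hG (o := o) (w := up G o w i) (j - i)
    (by rw [dist_up hG i (hij.trans hj)]; omega)
  rwa [up_up, show j - i + i = j by omega] at h

omit [Countable V] [G.LocallyFinite] in
/-- An initial piece of a path is a path. -/
lemma up_prefix (hG : G.IsTree) {o w : V} {j : ℕ} (hj : j ≤ G.dist o w) :
    ∀ i, i ≤ j → up G (up G o w j) w i = up G o w i := by
  intro i
  induction i with
  | zero => intro _; rfl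
  | succ i ih =>
    intro hi
    rw [up_succ, ih (by omega)]
    refine (eq_par hG (up_adj hG (by omega)) ?_).symm
    rw [SimpleGraph.dist_comm, dist_up_up hG hi hj, SimpleGraph.dist_comm,
      dist_up_up hG (by omega : i ≤ j) hj]
    omega

omit [Countable V] [G.LocallyFinite] in
lemma dist_up_end (hG : G.IsTree) {o w : V} {j : ℕ} (hj : j ≤ G.dist o w) :
    G.dist (up G o w j) w = j := by
  rw [SimpleGraph.dist_comm, dist_up_left hG j hj]

omit [Countable V] [DecidableEq V] [G.LocallyFinite] in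
lemma up_map (hG : G.IsTree) (g : G ≃g G) {o w : V} :
    ∀ i, i ≤ G.dist o w → g (up G o w i) = up G (g o) (g w) i := by
  classical
  intro i
  induction i with
  | zero => intro _; rfl
  | succ i ih =>
    intro hi
    rw [up_succ (o := g o), ← ih (by omega)]
    refine eq_par hG (g.map_adj_iff.2 (up_adj hG (by omega))) ?_
    rw [iso_dist g hG, iso_dist g hG, dist_up hG (i + 1) hi, dist_up hG i (by omega)]
    omega

/-- The vertices `k` levels below the vertex `q` of level `m` about `v`. -/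
noncomputable def desc (G : SimpleGraph V) [G.LocallyFinite] (v : V) (m k : ℕ) (q : V) :
    Finset V :=
  (sphere G v (m + k)).filter fun w ↦ up G v w k = q

omit [Countable V] in
lemma mem_desc (hG : G.IsTree) {v : V} {m k : ℕ} {q w : V} :
    w ∈ desc G v m k q ↔ G.dist v w = m + k ∧ up G v w k = q := by
  simp [desc, mem_sphere hG]

omit [Countable V] in
lemma card_desc (hG : G.IsTree) {d : ℕ} (hreg : G.IsRegularOfDegree d) {v : V} {m k : ℕ}
    (hm : 1 ≤ m) {q : V} (hq : G.dist v q = m) :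
    (desc G v m k q).card ≤ (d - 1) ^ k := by
  have hne : q ≠ v := by rintro rfl; simp at hq; omega
  rw [← card_sideSph hG hreg (par_spec hG hne).1 k]
  refine card_le_card fun w hw ↦ ?_
  obtain ⟨h1, h2⟩ := (mem_desc hG).1 hw
  rw [mem_sideSph hG, ← h2, show par G v (up G v w k) = up G v w (k + 1) from (up_succ k).symm]
  exact ⟨dist_up_end hG (by omega),
    onSide_up_mono hG (Nat.zero_le k) (by omega) (by
      rw [up_zero]
      have := onSide_self (G := G) (up_adj hG (o := v) (w := w) (i := 0) (by omega))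
      rwa [up_zero] at this)⟩

/-! ### Clipped products along paths -/

/-- The product of attenuations, clipped to the unit interval. -/
noncomputable def pc (G : SimpleGraph V) [G.LocallyFinite] (θ : ℝ) (σ : Sch) (r : V) (R : Rule V)
    (o w : V) (k : ℕ) (p : Dat V) : ℝ :=
  max 0 (min 1 (piL G θ σ r R o w k p))

/-- The weighted sum of products over a ball. -/
noncomputable def SK (G : SimpleGraph V) [G.LocallyFinite] (θ : ℝ) (σ : Sch) (r : V) (R : Rule V)
    (K : ℕ) (v : V) (p : Dat V) : ℝ :=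
  ∑ w ∈ ball G v K, (θ ^ 2) ^ G.dist v w * pc G θ σ r R v w (G.dist v w) p

/-- The weighted sum of products below a vertex of level `m`. -/
noncomputable def SQ (G : SimpleGraph V) [G.LocallyFinite] (θ : ℝ) (σ : Sch) (r : V) (R : Rule V)
    (v : V) (m K : ℕ) (q : V) (p : Dat V) : ℝ :=
  ∑ k ∈ range K, (θ ^ 2) ^ k * ∑ w ∈ desc G v m k q, pc G θ σ r R v w k p

section Basics

omit [Countable V]

lemma pc_mem (r : V) (R : Rule V) (o w : V) (k : ℕ) (p : Dat V) :
    0 ≤ pc G θ σ r R o w k p ∧ pc G θ σ r R o w k p ≤ 1 :=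
  ⟨le_max_left _ _, max_le zero_le_one (min_le_left _ _)⟩

lemma measurable_aL (r : V) {R : Rule V} (hR : RMeas R) (x q : V) :
    Measurable (aL G θ σ r R x q) := by
  have h := fun f ↦ measurable_ML (G := G) (θ := θ) (σ := σ) r hR f
  unfold aL
  exact Measurable.ite (measurableSet_le measurable_const (h _))
    ((((h _).add (h _)).sub (((h _).const_add 1).const_mul θ)).div
      (((h _).const_add 1).sub (((h _).add (h _)).const_mul θ)))
    ((((h _).sub (h _)).add (((h _).const_sub 1).const_mul θ)).div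
      (((h _).const_sub 1).add (((h _).sub (h _)).const_mul θ)))

lemma measurable_piL (r : V) {R : Rule V} (hR : RMeas R) (o w : V) (k : ℕ) :
    Measurable (piL G θ σ r R o w k) := by
  unfold piL psi
  refine Finset.measurable_prod _ fun i _ ↦ ?_
  have := measurable_aL (G := G) (θ := θ) (σ := σ) r hR (up G o w i) (up G o w (i + 1))
  fun_prop

lemma bm_pc (r : V) {R : Rule V} (hR : RMeas R) (o w : V) (k : ℕ) :
    BM (pc G θ σ r R o w k) :=
  ⟨measurable_const.max (measurable_const.min (measurable_piL r hR o w k)), 1, fun p ↦ by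
    rw [abs_of_nonneg (pc_mem r R o w k p).1]; exact (pc_mem r R o w k p).2⟩

lemma bm_SK (r : V) {R : Rule V} (hR : RMeas R) (K : ℕ) (v : V) : BM (SK G θ σ r R K v) :=
  BM.sum _ fun w _ ↦ (BM.const _).mul (bm_pc r hR v w _)

lemma SK_nonneg (r : V) (R : Rule V) (K : ℕ) (v : V) (p : Dat V) : 0 ≤ SK G θ σ r R K v p :=
  sum_nonneg fun w _ ↦ mul_nonneg (by positivity) (pc_mem r R v w _ p).1

lemma one_le_SK (hG : G.IsTree) (r : V) (R : Rule V) (K : ℕ) (v : V) (p : Dat V) :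
    1 ≤ SK G θ σ r R K v p := by
  refine le_trans (le_of_eq ?_) (single_le_sum
    (f := fun w ↦ (θ ^ 2) ^ G.dist v w * pc G θ σ r R v w (G.dist v w) p)
    (fun w _ ↦ mul_nonneg (by positivity) (pc_mem r R v w _ p).1) (mem_ball_self hG v K))
  simp [pc, piL]

lemma bm_SQ (r : V) {R : Rule V} (hR : RMeas R) (v : V) (m K : ℕ) (q : V) :
    BM (SQ G θ σ r R v m K q) :=
  BM.sum _ fun k _ ↦ (BM.const _).mul (BM.sum _ fun w _ ↦ bm_pc r hR v w k)

lemma SQ_nonneg (r : V) (R : Rule V) (v : V) (m K : ℕ) (q : V) (p : Dat V) :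
    0 ≤ SQ G θ σ r R v m K q p :=
  sum_nonneg fun k _ ↦ mul_nonneg (by positivity) (sum_nonneg fun w _ ↦ (pc_mem r R v w k p).1)

lemma piL_prefix (hG : G.IsTree) (r : V) (R : Rule V) {o w : V} {j k : ℕ} (hj : j ≤ G.dist o w)
    (hk : k ≤ j) (p : Dat V) :
    piL G θ σ r R (up G o w j) w k p = piL G θ σ r R o w k p := by
  refine prod_congr rfl fun i hi ↦ ?_
  rw [Finset.mem_range] at hi
  rw [up_prefix hG hj i (by omega), up_prefix hG hj (i + 1) (by omega)]

lemma pc_prefix (hG : G.IsTree) (r : V) (R : Rule V) {o w : V} {j k : ℕ} (hj : j ≤ G.dist o w)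
    (hk : k ≤ j) (p : Dat V) :
    pc G θ σ r R (up G o w j) w k p = pc G θ σ r R o w k p := by
  rw [pc, pc, piL_prefix hG r R hj hk]

lemma piL_add (r : V) (R : Rule V) (o w : V) (j k : ℕ) (p : Dat V) :
    piL G θ σ r R o w (j + k) p = piL G θ σ r R o w j p * piL G θ σ r R o (up G o w j) k p := by
  rw [piL, prod_range_add, piL, piL]
  congr 1
  refine prod_congr rfl fun i _ ↦ ?_
  rw [up_up, up_up, add_comm j i, show i + 1 + j = i + j + 1 by omega]

lemma piL_Ico (r : V) (R : Rule V) (o w : V) {i k : ℕ} (_h : i ≤ k) (p : Dat V) :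
    ∏ j ∈ Ico i k, psi θ (aL G θ σ r R (up G o w j) (up G o w (j + 1)) p) =
      piL G θ σ r R o (up G o w i) (k - i) p := by
  rw [prod_Ico_eq_prod_range, piL]
  refine prod_congr rfl fun j _ ↦ ?_
  rw [up_up, up_up, add_comm i j, show j + 1 + i = j + i + 1 by omega]

lemma pc_eq {r : V} {R : Rule V} {p : Dat V} (hc : Conv G θ σ r R p) (hG : G.IsTree) (hp : Par θ)
    (o w : V) {k : ℕ} (hk : k ≤ G.dist o w) :
    pc G θ σ r R o w k p = piL G θ σ r R o w k p := by
  obtain ⟨h0, h1⟩ := piL_mem hc hG hp o w hk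
  rw [pc, min_eq_right h1, max_eq_right h0]

lemma pc_anti {r : V} {R : Rule V} {p : Dat V} (hc : Conv G θ σ r R p) (hG : G.IsTree)
    (hp : Par θ) (o w : V) {j k : ℕ} (h : j + k ≤ G.dist o w) :
    pc G θ σ r R o w (j + k) p ≤ pc G θ σ r R o w j p := by
  rw [pc_eq hc hG hp o w h, pc_eq hc hG hp o w (by omega), piL_add]
  refine mul_le_of_le_one_right (piL_mem hc hG hp o w (by omega)).1 (piL_mem hc hG hp o _ ?_).2
  rw [dist_up hG j (by omega)]
  omega

lemma gam_nonneg (r : V) (R : Rule V) (x : V) (q : Dat V × Dat V) : 0 ≤ gam G θ σ r R x q :=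
  add_nonneg (sq_nonneg _) (sum_nonneg fun y _ ↦ by positivity)

lemma gam_le (hp : Par θ) {d : ℕ} (hreg : G.IsRegularOfDegree d) (r : V) (R : Rule V) (x : V)
    (q : Dat V × Dat V) : gam G θ σ r R x q ≤ 4 + 8 * d := by
  have h : ∀ {f : Finset V → ℝ}, (∀ S, |f S| ≤ 1) →
      (ML G θ σ r R f q.1 - ML G θ σ r R f q.2) ^ 2 ≤ 4 := fun {f} hf ↦ by
    have h1 := abs_le.1 (abs_ML_all (G := G) (σ := σ) hp r R hf q.1)
    have h2 := abs_le.1 (abs_ML_all (G := G) (σ := σ) hp r R hf q.2)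
    nlinarith
  refine (add_le_add (h fun S ↦ (sg_abs S x).le) (sum_le_sum fun y _ ↦ add_le_add
    (h (abs_sg2 x y)) (h fun S ↦ (sg_abs S y).le))).trans (le_of_eq ?_)
  rw [sum_const, SimpleGraph.card_neighborFinset_eq_degree, hreg.degree_eq x, nsmul_eq_mul]
  ring

end Basics

/-! ### The discrepancy of a product along a path -/

lemma prod_tele (u v : ℕ → ℝ) : ∀ k : ℕ, ∏ i ∈ range k, u i - ∏ i ∈ range k, v i =
    ∑ i ∈ range k, (∏ j ∈ Ico (i + 1) k, u j) * (∏ j ∈ range i, v j) * (u i - v i) := by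
  intro k
  induction k with
  | zero => simp
  | succ k ih =>
    rw [sum_range_succ, sum_congr rfl fun i hi ↦ (show
      (∏ j ∈ Ico (i + 1) (k + 1), u j) * (∏ j ∈ range i, v j) * (u i - v i) =
        u k * ((∏ j ∈ Ico (i + 1) k, u j) * (∏ j ∈ range i, v j) * (u i - v i)) by
      rw [prod_Ico_succ_top (by have := Finset.mem_range.1 hi; omega)]; ring), ← mul_sum, ← ih,
      prod_range_succ, prod_range_succ, Ico_self, prod_empty]
    ring

lemma psi_gap (hp : Par θ) {a : ℝ} (ha : |a| ≤ 1) : (1 - θ ^ 2) * a ^ 2 ≤ 1 - psi θ a := by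
  have hd := psi_den_pos hp ha
  have hκ : 0 ≤ (1 - θ ^ 2) * a ^ 2 :=
    mul_nonneg (by nlinarith [hp.nonneg, hp.lt_one]) (sq_nonneg _)
  have e : 1 - psi θ a = (1 - θ ^ 2) * a ^ 2 / (1 - θ ^ 2 * a ^ 2) := by
    rw [psi, one_sub_div hd.ne']; ring
  rw [e, le_div_iff₀ hd]
  nlinarith [mul_nonneg hκ (mul_nonneg (sq_nonneg θ) (sq_nonneg a))]

lemma prod_psi_sub (hp : Par θ) (a a' : ℕ → ℝ) (k : ℕ) (ha : ∀ i < k, |a i| ≤ 1)
    (ha' : ∀ i < k, |a' i| ≤ 1) :
    (∏ i ∈ range k, psi θ (a i) - ∏ i ∈ range k, psi θ (a' i)) ^ 2 ≤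
      4 / (1 - θ ^ 2) ^ 3 * ∑ i ∈ range k, (∏ j ∈ Ico (i + 1) k, psi θ (a j)) *
        (∏ j ∈ range i, psi θ (a' j)) * (a i - a' i) ^ 2 := by
  have hκ : 0 < 1 - θ ^ 2 := by nlinarith [hp.nonneg, hp.lt_one]
  set P := fun i ↦ ∏ j ∈ Ico (i + 1) k, psi θ (a j) with hP
  set Q := fun i ↦ ∏ j ∈ range i, psi θ (a' j) with hQ
  have hP0 : ∀ i, 0 ≤ P i := fun i ↦ prod_nonneg fun j hj ↦
    psi_nonneg hp (ha j (Finset.mem_Ico.1 hj).2)
  have hP1 : ∀ i, P i ≤ 1 := fun i ↦ prod_le_one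
    (fun j hj ↦ psi_nonneg hp (ha j (Finset.mem_Ico.1 hj).2))
    fun j hj ↦ psi_le_one hp (ha j (Finset.mem_Ico.1 hj).2)
  have hQ0 : ∀ i ≤ k, 0 ≤ Q i := fun i hi ↦ prod_nonneg fun j hj ↦
    psi_nonneg hp (ha' j (by have := Finset.mem_range.1 hj; omega))
  have hQ1 : ∀ i ≤ k, Q i ≤ 1 := fun i hi ↦ prod_le_one
    (fun j hj ↦ psi_nonneg hp (ha' j (by have := Finset.mem_range.1 hj; omega)))
    fun j hj ↦ psi_le_one hp (ha' j (by have := Finset.mem_range.1 hj; omega))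
  set wgt := fun i ↦ P i * Q i
  have hw : ∀ i ∈ range k, 0 ≤ wgt i := fun i hi ↦
    mul_nonneg (hP0 i) (hQ0 i (Finset.mem_range.1 hi).le)
  have habs : |∏ i ∈ range k, psi θ (a i) - ∏ i ∈ range k, psi θ (a' i)| ≤
      1 / (1 - θ ^ 2) * ∑ i ∈ range k, wgt i * ((|a i| + |a' i|) * |a i - a' i|) := by
    rw [prod_tele, mul_sum]
    refine (abs_sum_le_sum_abs _ _).trans (sum_le_sum fun i hi ↦ ?_)
    rw [abs_mul, abs_of_nonneg (hw i hi), mul_left_comm]
    exact mul_le_mul_of_nonneg_left (abs_psi_sub hp (ha i (Finset.mem_range.1 hi))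
      (ha' i (Finset.mem_range.1 hi))) (hw i hi)
  have hs1 : ∑ i ∈ range k, P i * ((1 - θ ^ 2) * a i ^ 2) ≤ 1 := by
    have e := prod_tele (fun i ↦ psi θ (a i)) (fun _ ↦ (1:ℝ)) k
    simp only [prod_const_one, mul_one] at e
    have h0 : 0 ≤ ∏ i ∈ range k, psi θ (a i) :=
      prod_nonneg fun i hi ↦ psi_nonneg hp (ha i (Finset.mem_range.1 hi))
    have h : ∑ i ∈ range k, P i * ((1 - θ ^ 2) * a i ^ 2) ≤
        ∑ i ∈ range k, -(P i * (psi θ (a i) - 1)) := sum_le_sum fun i hi ↦ by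
      have := mul_le_mul_of_nonneg_left (psi_gap hp (ha i (Finset.mem_range.1 hi))) (hP0 i)
      linarith
    rw [sum_neg_distrib, ← e] at h
    linarith
  have hs2 : ∑ i ∈ range k, Q i * ((1 - θ ^ 2) * a' i ^ 2) ≤ 1 := by
    have e := prod_tele (fun _ ↦ (1:ℝ)) (fun i ↦ psi θ (a' i)) k
    simp only [prod_const_one, one_mul] at e
    have h0 := hQ0 k le_rfl
    have h : ∑ i ∈ range k, Q i * ((1 - θ ^ 2) * a' i ^ 2) ≤
        ∑ i ∈ range k, Q i * (1 - psi θ (a' i)) := sum_le_sum fun i hi ↦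
      mul_le_mul_of_nonneg_left (psi_gap hp (ha' i (Finset.mem_range.1 hi)))
        (hQ0 i (Finset.mem_range.1 hi).le)
    rw [← e] at h
    simp only [hQ] at h0 ⊢
    linarith
  have hfirst : ∑ i ∈ range k, wgt i * (|a i| + |a' i|) ^ 2 ≤ 4 / (1 - θ ^ 2) := by
    rw [le_div_iff₀ hκ, sum_mul]
    have : ∀ i ∈ range k, wgt i * (|a i| + |a' i|) ^ 2 * (1 - θ ^ 2) ≤
        2 * (P i * ((1 - θ ^ 2) * a i ^ 2)) + 2 * (Q i * ((1 - θ ^ 2) * a' i ^ 2)) := by
      intro i hi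
      have hi' := (Finset.mem_range.1 hi).le
      have e : (|a i| + |a' i|) ^ 2 ≤ 2 * a i ^ 2 + 2 * a' i ^ 2 := by
        rw [← sq_abs (a i), ← sq_abs (a' i)]; nlinarith [sq_nonneg (|a i| - |a' i|)]
      have e1 : wgt i * (2 * a i ^ 2) ≤ P i * (2 * a i ^ 2) :=
        mul_le_mul_of_nonneg_right (mul_le_of_le_one_right (hP0 i) (hQ1 i hi')) (by positivity)
      have e2 : wgt i * (2 * a' i ^ 2) ≤ Q i * (2 * a' i ^ 2) :=
        mul_le_mul_of_nonneg_right (mul_le_of_le_one_left (hQ0 i hi') (hP1 i)) (by positivity)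
      have e3 := mul_le_mul_of_nonneg_left e (hw i hi)
      calc wgt i * (|a i| + |a' i|) ^ 2 * (1 - θ ^ 2)
          ≤ (P i * (2 * a i ^ 2) + Q i * (2 * a' i ^ 2)) * (1 - θ ^ 2) :=
            mul_le_mul_of_nonneg_right (by linarith) hκ.le
        _ = _ := by ring
    refine (sum_le_sum this).trans ?_
    rw [sum_add_distrib, ← mul_sum, ← mul_sum]
    linarith
  have hcs : (∑ i ∈ range k, wgt i * ((|a i| + |a' i|) * |a i - a' i|)) ^ 2 ≤
      (∑ i ∈ range k, wgt i * (|a i| + |a' i|) ^ 2) * ∑ i ∈ range k, wgt i * (a i - a' i) ^ 2 := by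
    refine sum_sq_le_sum_mul_sum_of_sq_le_mul _ (fun i hi ↦ mul_nonneg (hw i hi) (sq_nonneg _))
      (fun i hi ↦ mul_nonneg (hw i hi) (sq_nonneg _)) fun i hi ↦ le_of_eq ?_
    rw [← sq_abs (a i - a' i)]; ring
  have hsnd : 0 ≤ ∑ i ∈ range k, wgt i * (a i - a' i) ^ 2 :=
    sum_nonneg fun i hi ↦ mul_nonneg (hw i hi) (sq_nonneg _)
  rw [← sq_abs]
  refine (pow_le_pow_left₀ (abs_nonneg _) habs 2).trans ?_
  rw [mul_pow]
  refine (mul_le_mul_of_nonneg_left (hcs.trans (mul_le_mul_of_nonneg_right hfirst hsnd))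
    (sq_nonneg _)).trans (le_of_eq ?_)
  simp only [wgt, P, Q]
  field_simp

/-! ### Equivariance -/

omit [Countable V] in
/-- Products and discrepancies are equivariant wherever the posterior means are. -/
lemma pc_move (hG : G.IsTree) (r : V) (g : G ≃g G) {R : Rule V} {p p' : Dat V}
    (h1 : ∀ a, ML G θ σ r R (fun S ↦ sg S (g a)) p' = ML G θ σ r R (fun S ↦ sg S a) p)
    (h2 : ∀ a b, ML G θ σ r R (fun S ↦ sg S (g a) * sg S (g b)) p' =
      ML G θ σ r R (fun S ↦ sg S a * sg S b) p) :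
    (∀ o w k, k ≤ G.dist o w → pc G θ σ r R (g o) (g w) k p' = pc G θ σ r R o w k p) ∧
      ∀ K v, SK G θ σ r R K (g v) p' = SK G θ σ r R K v p := by
  have ha : ∀ x q, aL G θ σ r R (g x) (g q) p' = aL G θ σ r R x q p := fun x q ↦ by
    simp only [aL, h1, h2]
  have hk : ∀ o w k, k ≤ G.dist o w → pc G θ σ r R (g o) (g w) k p' = pc G θ σ r R o w k p := by
    intro o w k hk
    simp only [pc, piL]
    congr 2
    refine prod_congr rfl fun i hi ↦ ?_
    rw [Finset.mem_range] at hi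
    rw [← up_map hG g i (by omega), ← up_map hG g (i + 1) (by omega), ha]
  refine ⟨hk, fun K v ↦ ?_⟩
  rw [SK, ball_map hG g v K, sum_map]
  refine sum_congr rfl fun w _ ↦ ?_
  rw [show g.toEquiv.toEmbedding w = g w from rfl, iso_dist g hG, hk v w _ le_rfl]

omit [Countable V] in
lemma gam_move (r : V) (g : G ≃g G) {R : Rule V} {q q' : Dat V × Dat V}
    (h1 : ∀ a, ML G θ σ r R (fun S ↦ sg S (g a)) q'.1 = ML G θ σ r R (fun S ↦ sg S a) q.1 ∧
      ML G θ σ r R (fun S ↦ sg S (g a)) q'.2 = ML G θ σ r R (fun S ↦ sg S a) q.2)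
    (h2 : ∀ a b, ML G θ σ r R (fun S ↦ sg S (g a) * sg S (g b)) q'.1 =
        ML G θ σ r R (fun S ↦ sg S a * sg S b) q.1 ∧
      ML G θ σ r R (fun S ↦ sg S (g a) * sg S (g b)) q'.2 =
        ML G θ σ r R (fun S ↦ sg S a * sg S b) q.2) (x : V) :
    gam G θ σ r R (g x) q' = gam G θ σ r R x q := by
  have hN : G.neighborFinset (g x) = (G.neighborFinset x).map g.toEquiv.toEmbedding := by
    ext z
    simp only [SimpleGraph.mem_neighborFinset, mem_map_equiv]
    conv_lhs => rw [show z = g (g.symm z) by simp, g.map_adj_iff]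
    rfl
  simp only [gam, hN, sum_map, (h1 x).1, (h1 x).2]
  refine congrArg _ (sum_congr rfl fun y _ ↦ ?_)
  rw [show g.toEquiv.toEmbedding y = g y from rfl, (h2 x y).1, (h2 x y).2, (h1 y).1, (h1 y).2]

lemma ae_equiv (hG : G.IsTree) (hp : Par θ) (r : V) (g : G ≃g G) (τ : ℝ) :
    ∀ᵐ q ∂P2 G σ hp r,
      (∀ o w k, k ≤ G.dist o w →
        pc G θ σ r (rT σ τ) (g o) (g w) k (moveD g q.1) = pc G θ σ r (rT σ τ) o w k q.1 ∧
        pc G θ σ r (rT σ τ) (g o) (g w) k (moveD g q.2) = pc G θ σ r (rT σ τ) o w k q.2) ∧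
      (∀ K v, SK G θ σ r (rT σ τ) K (g v) (moveD g q.2) = SK G θ σ r (rT σ τ) K v q.2) ∧
      ∀ x, gam G θ σ r (rT σ τ) (g x) (moveD g q.1, moveD g q.2) = gam G θ σ r (rT σ τ) x q := by
  have k1 := ae_all_iff.2 fun a : V ↦ ae_move (σ := σ) hG hp r g τ
    (f := fun S ↦ sg S a) (f' := fun S ↦ sg S (g a)) (fun S ↦ (sg_abs S a).le)
    (fun S ↦ (sg_abs S (g a)).le) (loc_sg a) (by rw [map_singleton']; exact loc_sg (g a))
    (fun S ↦ sg_map g S a)
  have k2 := ae_all_iff.2 fun a : V × V ↦ ae_move (σ := σ) hG hp r g τ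
    (f := fun S ↦ sg S a.1 * sg S a.2) (f' := fun S ↦ sg S (g a.1) * sg S (g a.2))
    (abs_sg2 a.1 a.2) (abs_sg2 (g a.1) (g a.2)) (loc_sg_mul a.1 a.2)
    (by rw [map_insert, map_singleton]; exact loc_sg_mul (g a.1) (g a.2))
    (fun S ↦ by simp only [sg_map])
  filter_upwards [k1, k2] with q h1 h2
  obtain ⟨e1, -⟩ := pc_move (σ := σ) hG r g (fun a ↦ (h1 a).1) fun a b ↦ (h2 (a, b)).1
  obtain ⟨e2, e3⟩ := pc_move (σ := σ) hG r g (fun a ↦ (h1 a).2) fun a b ↦ (h2 (a, b)).2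
  exact ⟨fun o w k hk ↦ ⟨e1 o w k hk, e2 o w k hk⟩, e3,
    fun x ↦ gam_move (σ := σ) r g h1 (fun a b ↦ h2 (a, b)) x⟩

lemma integral_move (hG : G.IsTree) (hp : Par θ) (r : V) (g : G ≃g G)
    {F F' : Dat V × Dat V → ℝ} (hF' : BM F')
    (h : ∀ᵐ q ∂P2 G σ hp r, F' (moveD g q.1, moveD g q.2) = F q) :
    ∫ q, F' q ∂P2 G σ hp r = ∫ q, F q ∂P2 G σ hp r := by
  conv_lhs => rw [← P2_move hG hp r g]
  rw [integral_map ((measurable_moveD g).prodMap (measurable_moveD g)).aemeasurable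
    hF'.1.aestronglyMeasurable]
  exact integral_congr_ae h

omit [DecidableEq V] [Countable V] in
lemma _root_.Vale.Agent.P161.BM.fst {φ : Dat V → ℝ} (h : BM φ) : BM fun q : Dat V × Dat V ↦ φ q.1 := h.comp measurable_fst

omit [DecidableEq V] [Countable V] in
lemma _root_.Vale.Agent.P161.BM.snd {φ : Dat V → ℝ} (h : BM φ) : BM fun q : Dat V × Dat V ↦ φ q.2 := h.comp measurable_snd

lemma integral_snd (hG : G.IsTree) (hp : Par θ) (r : V) {φ : Dat V → ℝ} (hφ : BM φ) :
    ∫ q, φ q.2 ∂P2 G σ hp r = ∫ ω, φ (vis σ ω) ∂Pm G θ r := by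
  rw [← integral_fst hG hp r hφ, ← integral_swap2 hG hp r hφ.fst]
  rfl

/-! ### Independence below the vertices of one level -/

/-- The finite-volume version of `SQ`. -/
noncomputable def SQn (G : SimpleGraph V) [G.LocallyFinite] (θ : ℝ) (σ : Sch) (r : V) (R : Rule V)
    (v : V) (m K : ℕ) (q : V) (n : ℕ) (p : Dat V) : ℝ :=
  ∑ k ∈ range K, (θ ^ 2) ^ k * ∑ w ∈ desc G v m k q,
    prodPsi G θ σ (ball G r n) (past n (ball G r n) R p.1) p.2 v w k

omit [Countable V] in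
lemma measurable_sd (r : V) {R : Rule V} (hR : RMeas R) (n : ℕ) (x q : V) :
    Measurable fun p : Dat V ↦ sd G θ σ (ball G r n) (past n (ball G r n) R p.1) p.2 x q := by
  simp only [sd, sideI_past]
  exact measurable_pf_past n _ hR _

omit [Countable V] in
lemma bm_SQn (hp : Par θ) (r : V) {R : Rule V} (hR : RMeas R) (v : V) (m K : ℕ) (q : V) (n : ℕ) :
    BM (SQn G θ σ r R v m K q n) := by
  refine BM.sum _ fun k _ ↦ (BM.const _).mul (BM.sum _ fun w _ ↦ ?_)
  refine ⟨?_, 1, fun p ↦ ?_⟩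
  · simp only [prodPsi, psi]
    refine Finset.measurable_prod _ fun i _ ↦ ?_
    have := measurable_sd (G := G) (θ := θ) (σ := σ) r hR n (up G v w i) (up G v w (i + 1))
    fun_prop
  · obtain ⟨h0, h1⟩ := prodPsi_mem (G := G) (σ := σ) hp (ball G r n)
      (past n (ball G r n) R p.1) p.2 v w k
    rw [abs_of_nonneg h0]; exact h1

omit [Countable V] in
lemma bm_exp {Ω : Type*} [MeasurableSpace Ω] {f : Ω → ℝ} (hf : BM f) :
    BM fun x ↦ Real.exp (f x) := by
  obtain ⟨hm, C, hC⟩ := hf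
  exact ⟨hm.exp, Real.exp C, fun x ↦ by
    rw [abs_of_pos (Real.exp_pos _)]; exact Real.exp_le_exp.2 (abs_le.1 (hC x)).2⟩

omit [Countable V] in
lemma bm_prod {Ω κ : Type*} [MeasurableSpace Ω] (s : Finset κ) {f : κ → Ω → ℝ}
    (hf : ∀ k ∈ s, BM (f k)) : BM (fun x ↦ ∏ k ∈ s, f k x) := by
  classical
  induction s using Finset.induction with
  | empty => simpa using BM.const (Ω := Ω) 1
  | insert k s hk ih =>
    simp only [Finset.prod_insert hk]
    exact (hf k (Finset.mem_insert_self k s)).mul (ih fun j hj ↦ hf j (Finset.mem_insert_of_mem hj))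

omit [Countable V] in
lemma ball_contains (hG : G.IsTree) {r v w : V} {n : ℕ} {i : ℕ} (hi : i ≤ G.dist v w)
    (h : G.dist r v + G.dist v w ≤ n) : up G v w i ∈ ball G r n := by
  rw [mem_ball hG]
  have h1 := hG.connected.dist_triangle (u := r) (v := v) (w := up G v w i)
  rw [dist_up hG i hi] at h1
  omega

lemma indep_finite (hG : G.IsTree) (hp : Par θ) (r : V) {R : Rule V} (hR : RMeas R)
    (hRl : RLocal R) (v : V) {m K n : ℕ} (hm : 1 ≤ m) (hn : G.dist r v + m + K ≤ n) (c : ℝ)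
    (Q : Finset V) (hQ : Q ⊆ sphere G v m) :
    ∫ ω, (∏ q ∈ Q, Real.exp (c * SQn G θ σ r R v m K q n (vis σ ω))) ∂Pm G θ r =
      ∏ q ∈ Q, ∫ ω, Real.exp (c * SQn G θ σ r R v m K q n (vis σ ω)) ∂Pm G θ r := by
  have := Pm_prob (G := G) hp r
  induction Q using Finset.induction with
  | empty => simp
  | insert q Q hq ih =>
    rw [insert_subset_iff] at hQ
    simp only [prod_insert hq]
    rw [← ih hQ.2]
    set D := ball G r n
    set F : V → Dat V → ℝ := fun q p ↦ Real.exp (c * SQn G θ σ r R v m K q n p)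
    have hF : ∀ q, BM (F q) := fun q ↦ bm_exp ((BM.const c).mul (bm_SQn hp r hR v m K q n))
    have hqm : G.dist v q = m := (mem_sphere hG v m q).1 hQ.1
    have hqv : q ≠ v := by rintro rfl; simp at hqm; omega
    obtain ⟨hadj, hpd⟩ := par_spec hG hqv
    have hqD : q ∈ D := by
      rw [mem_ball hG]
      have := hG.connected.dist_triangle (u := r) (v := v) (w := q)
      omega
    have hpD : par G v q ∈ D := by
      rw [mem_ball hG]
      have := hG.connected.dist_triangle (u := r) (v := v) (w := par G v q)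
      omega
    have hdep : ∀ q', G.dist v q' = m → RDep n (sideF G D q' (par G v q')) R (F q') := by
      intro q' hq' p p' e1 e2
      simp only [F, SQn, prodPsi]
      congr 2
      refine sum_congr rfl fun k hk ↦ congrArg _ (sum_congr rfl fun w hw ↦ ?_)
      obtain ⟨hw1, hw2⟩ := (mem_desc hG).1 hw
      refine prod_congr rfl fun i hi ↦ congrArg _ ?_
      rw [Finset.mem_range] at hi
      have hsub : sideF G D (up G v w i) (up G v w (i + 1)) ⊆ sideF G D q' (par G v q') := by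
        intro z hz
        rw [mem_sideF] at hz ⊢
        refine ⟨hz.1, ?_⟩
        rw [← hw2, show par G v (up G v w k) = up G v w (k + 1) from (up_succ k).symm]
        exact onSide_up_mono hG hi.le (by omega) hz.2
      simp only [sd, sideI_past]
      rw [← past_local hRl fun j hj ↦ e1 j (mem_product.2
        ⟨(mem_product.1 hj).1, hsub (mem_product.1 hj).2⟩)]
      refine pf_congr _ fun j hj ↦ e2 j ?_
      exact mem_past.2 ⟨(mem_past.1 hj).1, hsub (mem_past.1 hj).2.1, (mem_past.1 hj).2.2⟩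
    have heven : ∀ q', G.dist v q' = m → ∀ p : Dat V, F q' (p.1, -p.2) = F q' p := by
      intro q' hq' p
      simp only [F, SQn, prodPsi]
      congr 2
      refine sum_congr rfl fun k hk ↦ congrArg _ (sum_congr rfl fun w hw ↦ ?_)
      obtain ⟨hw1, hw2⟩ := (mem_desc hG).1 hw
      refine prod_congr rfl fun i hi ↦ ?_
      rw [Finset.mem_range] at hi hk
      rw [sd_flip past_snd (ball_contains hG (by omega) (by omega))
        (up_adj hG (by omega)) p.2, psi, psi, neg_sq]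
    have hside : ∀ q' ∈ Q, sideF G D q' (par G v q') ⊆ sideF G D (par G v q) q := by
      intro q' hq' z hz
      rw [mem_sideF] at hz ⊢
      refine ⟨hz.1, ?_⟩
      have hq'm : G.dist v q' = m := (mem_sphere hG v m q').1 (hQ.2 hq')
      have hq'v : q' ≠ v := by rintro rfl; simp at hq'm; omega
      obtain ⟨hadj', hpd'⟩ := par_spec hG hq'v
      rw [onSide_comm hG hadj]
      intro hzq
      have hv : ¬ OnSide G q (par G v q) v := by unfold OnSide; omega
      have hv' : ¬ OnSide G q' (par G v q') v := by unfold OnSide; omega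
      have a1 := dist_cross hG hadj hzq hv
      have a2 := dist_cross hG hadj' hz.2 hv'
      rw [SimpleGraph.dist_comm (u := par G v q)] at a1
      rw [SimpleGraph.dist_comm (u := par G v q')] at a2
      by_cases hs : OnSide G q (par G v q) q'
      · have a3 := dist_cross hG hadj hs hv
        rw [SimpleGraph.dist_comm (u := par G v q), SimpleGraph.dist_comm (u := q')] at a3
        have : G.dist q' q = 0 := by omega
        exact hq ((hG.connected q' q).dist_eq_zero_iff.1 this ▸ hq')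
      · have a3 := dist_cross hG hadj hzq hs
        omega
    refine cut (σ := σ) hG hp (sub_ball hG r n) hqD hpD hadj hR hRl (f := F q)
      (g := fun p ↦ ∏ q' ∈ Q, F q' p) (hF q) (bm_prod _ fun q' _ ↦ hF q') (hdep q hqm) ?_ ?_
    · intro p p' e1 e2
      refine prod_congr rfl fun q' hq' ↦ ?_
      exact ((hdep q' ((mem_sphere hG v m q').1 (hQ.2 hq'))).mono (hside q' hq')) p p' e1 e2
    · intro p
      exact prod_congr rfl fun q' hq' ↦ heven q' ((mem_sphere hG v m q').1 (hQ.2 hq')) p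

lemma indep_limit (hG : G.IsTree) (hp : Par θ) (r : V) {R : Rule V} (hR : RMeas R)
    (hRl : RLocal R) (v : V) {m K : ℕ} (hm : 1 ≤ m) (c : ℝ) (hc : 0 ≤ c) :
    ∫ ω, (∏ q ∈ sphere G v m, Real.exp (c * SQ G θ σ r R v m K q (vis σ ω))) ∂Pm G θ r =
      ∏ q ∈ sphere G v m, ∫ ω, Real.exp (c * SQ G θ σ r R v m K q (vis σ ω)) ∂Pm G θ r := by
  have := Pm_prob (G := G) hp r
  set B : V → ℝ := fun q ↦ c * ∑ k ∈ range K, (θ ^ 2) ^ k * ((desc G v m k q).card : ℝ)
  have hbnd : ∀ q n p, Real.exp (c * SQn G θ σ r R v m K q n p) ≤ Real.exp (B q) := by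
    intro q n p
    refine Real.exp_le_exp.2 (mul_le_mul_of_nonneg_left (sum_le_sum fun k _ ↦
      mul_le_mul_of_nonneg_left ?_ (by positivity)) hc)
    rw [← nsmul_one, ← sum_const]
    exact sum_le_sum fun w _ ↦ (prodPsi_mem hp _ _ _ _ _ _).2
  have hlim : ∀ q, ∀ᵐ ω ∂Pm G θ r, Tendsto (fun n ↦ Real.exp (c * SQn G θ σ r R v m K q n (vis σ ω)))
      atTop (𝓝 (Real.exp (c * SQ G θ σ r R v m K q (vis σ ω)))) := by
    intro q
    filter_upwards [ae_conv (σ := σ) hG hp r hR] with ω hω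
    refine (Real.continuous_exp.tendsto _).comp (Tendsto.const_mul c ?_)
    refine tendsto_finsetSum _ fun k _ ↦ Tendsto.const_mul _ (tendsto_finsetSum _ fun w hw ↦ ?_)
    obtain ⟨h1, -⟩ := (mem_desc hG).1 hw
    rw [pc_eq hω hG hp v w (by omega)]
    exact tendsto_prodPsi hω hG hp v w (by omega)
  have hmeas : ∀ q n, Measurable fun ω : Om V ↦ Real.exp (c * SQn G θ σ r R v m K q n (vis σ ω)) :=
    fun q n ↦ (bm_exp ((BM.const c).mul (bm_SQn hp r hR v m K q n))).1.comp (measurable_vis σ)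
  have t1 : Tendsto (fun n ↦ ∫ ω, (∏ q ∈ sphere G v m,
      Real.exp (c * SQn G θ σ r R v m K q n (vis σ ω))) ∂Pm G θ r) atTop
      (𝓝 (∫ ω, (∏ q ∈ sphere G v m, Real.exp (c * SQ G θ σ r R v m K q (vis σ ω))) ∂Pm G θ r)) := by
    refine tendsto_integral_of_dominated_convergence (fun _ ↦ ∏ q ∈ sphere G v m, Real.exp (B q))
      (fun n ↦ (Finset.measurable_prod _ fun q _ ↦ hmeas q n).aestronglyMeasurable)
      (integrable_const _) (fun n ↦ .of_forall fun ω ↦ ?_) ?_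
    · rw [Real.norm_eq_abs, abs_of_pos (prod_pos fun q _ ↦ Real.exp_pos _)]
      exact prod_le_prod (fun q _ ↦ (Real.exp_pos _).le) fun q _ ↦ hbnd q n _
    · filter_upwards [ae_all_iff.2 hlim] with ω hω
      exact tendsto_finsetProd _ fun q _ ↦ hω q
  have t2 : Tendsto (fun n ↦ ∏ q ∈ sphere G v m,
      ∫ ω, Real.exp (c * SQn G θ σ r R v m K q n (vis σ ω)) ∂Pm G θ r) atTop
      (𝓝 (∏ q ∈ sphere G v m, ∫ ω, Real.exp (c * SQ G θ σ r R v m K q (vis σ ω)) ∂Pm G θ r)) := by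
    refine tendsto_finsetProd _ fun q _ ↦ tendsto_integral_of_dominated_convergence
      (fun _ ↦ Real.exp (B q)) (fun n ↦ (hmeas q n).aestronglyMeasurable)
      (integrable_const _) (fun n ↦ .of_forall fun ω ↦ ?_) (hlim q)
    rw [Real.norm_eq_abs, abs_of_pos (Real.exp_pos _)]
    exact hbnd q n _
  refine tendsto_nhds_unique (t1.congr' ?_) t2
  filter_upwards [eventually_ge_atTop (G.dist r v + m + K)] with n hn
  exact indep_finite hG hp r hR hRl v hm hn c _ subset_rfl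

/-! ### Tails of the sums of products -/

section Tails

variable (hG : G.IsTree) (hp : Par θ) {d : ℕ} (hd : 3 ≤ d) (hreg : G.IsRegularOfDegree d)
  (hb : ((d - 1 : ℕ) : ℝ) * θ ^ 2 = 1)
include hG hd hreg hb

omit [Countable V] hG hreg hd in
lemma weight_eq (k : ℕ) : (((d - 1) ^ k : ℕ) : ℝ) * (θ ^ 2) ^ k = 1 := by
  rw [Nat.cast_pow, ← mul_pow, hb, one_pow]

omit [Countable V] in
lemma sphere_weight (v : V) (j : ℕ) : (θ ^ 2) ^ j * ((sphere G v j).card : ℝ) ≤ 2 := by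
  cases j with
  | zero => simp [sphere]
  | succ j =>
    have h := (Nat.cast_le (α := ℝ)).2 (card_sphere hG hreg v j)
    rw [Nat.cast_mul] at h
    have hdd : (d : ℝ) ≤ 2 * ((d - 1 : ℕ) : ℝ) := by exact_mod_cast (by omega : d ≤ 2 * (d - 1))
    calc (θ ^ 2) ^ (j + 1) * ((sphere G v (j + 1)).card : ℝ)
        ≤ (θ ^ 2) ^ (j + 1) * (2 * ((d - 1 : ℕ) : ℝ) * (((d - 1) ^ j : ℕ) : ℝ)) :=
          mul_le_mul_of_nonneg_left (h.trans (mul_le_mul_of_nonneg_right hdd (Nat.cast_nonneg _)))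
            (by positivity)
      _ = 2 * ((((d - 1) ^ (j + 1) : ℕ) : ℝ) * (θ ^ 2) ^ (j + 1)) := by push_cast; ring
      _ = 2 := by rw [weight_eq hb, mul_one]

omit [Countable V] in
include hp in
lemma SK_le {r : V} {R : Rule V} {p : Dat V} (hc : Conv G θ σ r R p) (K : ℕ) (v : V) (m : ℕ)
    (_hm : 1 ≤ m) :
    SK G θ σ r R K v p ≤
      2 * m + (θ ^ 2) ^ m * ∑ q ∈ sphere G v m, SQ G θ σ r R v m (K + 1) q p := by
  rw [SK, ← sum_filter_add_sum_filter_not _ (fun w ↦ G.dist v w < m)]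
  refine add_le_add ?_ ?_
  · have hsub : (ball G v K).filter (fun w ↦ G.dist v w < m) ⊆ (range m).biUnion (sphere G v) := by
      intro w hw
      exact mem_biUnion.2 ⟨G.dist v w, Finset.mem_range.2 (mem_filter.1 hw).2,
        (mem_sphere hG v _ w).2 rfl⟩
    refine (sum_le_sum fun w _ ↦ mul_le_of_le_one_right (by positivity)
      (pc_mem r R v w _ p).2).trans ((sum_le_sum_of_subset_of_nonneg hsub fun _ _ _ ↦
        (by positivity)).trans ?_)
    rw [sum_biUnion fun a _ c _ hac ↦ Finset.disjoint_left.2 fun w ha hc' ↦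
      hac (((mem_sphere hG v a w).1 ha).symm.trans ((mem_sphere hG v c w).1 hc'))]
    refine (sum_le_sum (g := fun _ ↦ (2:ℝ)) fun j _ ↦ ?_).trans (by simp [mul_comm])
    rw [sum_congr rfl fun w hw ↦ by rw [(mem_sphere hG v j w).1 hw], sum_const, nsmul_eq_mul,
      mul_comm]
    exact sphere_weight hG hd hreg hb v j
  · set T := (ball G v K).filter fun w ↦ ¬ G.dist v w < m
    set F : (_ : V) × (_ : ℕ) × V → ℝ := fun z ↦
      (θ ^ 2) ^ z.2.1 * pc G θ σ r R v z.2.2 z.2.1 p with hFdef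
    set e : V → (_ : V) × (_ : ℕ) × V :=
      fun w ↦ ⟨up G v w (G.dist v w - m), G.dist v w - m, w⟩ with hedef
    calc ∑ w ∈ T, (θ ^ 2) ^ G.dist v w * pc G θ σ r R v w (G.dist v w) p
        ≤ ∑ w ∈ T, (θ ^ 2) ^ m * F (e w) := by
          refine sum_le_sum fun w hw ↦ ?_
          have hwm : m ≤ G.dist v w := not_lt.1 (mem_filter.1 hw).2
          simp only [F, e]
          rw [← mul_assoc, ← pow_add, show m + (G.dist v w - m) = G.dist v w by omega]
          refine mul_le_mul_of_nonneg_left ?_ (by positivity)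
          have := pc_anti hc hG hp v w (j := G.dist v w - m) (k := m) (by omega)
          rwa [show G.dist v w - m + m = G.dist v w by omega] at this
      _ = (θ ^ 2) ^ m * ∑ z ∈ T.image e, F z := by
          rw [mul_sum, sum_image fun a _ c _ h ↦ congrArg (fun z ↦ z.2.2) h]
      _ ≤ (θ ^ 2) ^ m * ∑ z ∈ (sphere G v m).sigma (fun q ↦
            (range (K + 1)).sigma fun k ↦ desc G v m k q), F z := by
          refine mul_le_mul_of_nonneg_left (sum_le_sum_of_subset_of_nonneg ?_ fun z _ _ ↦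
            mul_nonneg (by positivity) (pc_mem r R v _ _ p).1) (by positivity)
          intro z hz
          obtain ⟨w, hw, rfl⟩ := mem_image.1 hz
          obtain ⟨hw1, hw2⟩ := mem_filter.1 hw
          rw [mem_ball hG] at hw1
          simp only [e, mem_sigma, Finset.mem_range, mem_sphere hG, mem_desc hG]
          exact ⟨by rw [dist_up hG _ (by omega)]; omega, by omega, by omega, trivial⟩
      _ = _ := by
          congr 1
          simp only [SQ, mul_sum, sum_sigma, F]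

omit hd in
include hp in
lemma exp_SQ (r : V) {C0 : ℝ} (hC0 : 0 ≤ C0) :
    ∃ M : ℝ, 1 ≤ M ∧ ∀ {τ x : ℝ}, 0 < x → x ≤ 1 →
      (∀ o w : V, ∫ ω, piL G θ σ r (rT σ τ) o w (G.dist o w) (vis σ ω) ∂Pm G θ r ≤
        C0 * Real.exp (-(x * G.dist o w))) →
      ∀ (v : V) (m K : ℕ), 1 ≤ m → ∀ q, G.dist v q = m →
        ∫ ω, Real.exp (x / 8 * SQ G θ σ r (rT σ τ) v m K q (vis σ ω)) ∂Pm G θ r ≤ M := by
  obtain ⟨M, hM⟩ := exp_moment hC0
  refine ⟨max M 1, le_max_right _ _, fun {τ x} hx hx1 hdec v m K hm q hq ↦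
    le_trans ?_ (le_max_left _ _)⟩
  have := Pm_prob (G := G) hp r
  set X : ℕ → Om V → ℝ := fun k ω ↦
    (θ ^ 2) ^ k * ∑ w ∈ desc G v m k q, pc G θ σ r (rT σ τ) v w k (vis σ ω)
  have hcard : ∀ k, (θ ^ 2) ^ k * ((desc G v m k q).card : ℝ) ≤ 1 := fun k ↦ by
    refine (mul_le_mul_of_nonneg_left
      ((Nat.cast_le (α := ℝ)).2 (card_desc hG hreg hm hq (k := k))) (by positivity)).trans
      (le_of_eq ?_)
    rw [mul_comm, weight_eq hb]
  refine hM (Pm G θ r) X K x hx hx1 ?_ ?_ ?_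
  · intro k _
    exact measurable_const.mul (Finset.measurable_sum _ fun w _ ↦
      (bm_pc r (rmeas_rT σ τ) v w k).1.comp (measurable_vis σ))
  · intro k _ ω
    refine ⟨mul_nonneg (by positivity) (sum_nonneg fun w _ ↦ (pc_mem r _ v w k _).1),
      le_trans (mul_le_mul_of_nonneg_left ?_ (by positivity)) (hcard k)⟩
    rw [← nsmul_one, ← sum_const]
    exact sum_le_sum fun w _ ↦ (pc_mem r _ v w k _).2
  · intro k _
    simp only [X]
    have hint : ∀ w, Integrable (fun ω ↦ pc G θ σ r (rT σ τ) v w k (vis σ ω)) (Pm G θ r) :=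
      fun w ↦ ((bm_pc r (rmeas_rT σ τ) v w k).comp (measurable_vis σ)).integrable _
    rw [integral_const_mul, integral_finsetSum _ fun w _ ↦ hint w]
    calc (θ ^ 2) ^ k * ∑ w ∈ desc G v m k q, ∫ ω, pc G θ σ r (rT σ τ) v w k (vis σ ω) ∂Pm G θ r
        ≤ (θ ^ 2) ^ k * ∑ _w ∈ desc G v m k q, C0 * Real.exp (-(x * k)) := by
          refine mul_le_mul_of_nonneg_left (sum_le_sum fun w hw ↦ ?_) (by positivity)
          obtain ⟨h1, h2⟩ := (mem_desc hG).1 hw
          have hqw : G.dist q w = k := by rw [← h2]; exact dist_up_end hG (by omega)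
          have h := hdec q w
          rw [hqw] at h
          refine le_trans (le_of_eq (integral_congr_ae ?_)) h
          filter_upwards [ae_conv (σ := σ) hG hp r (rmeas_rT σ τ)] with ω hω
          rw [← pc_eq hω hG hp q w hqw.ge, ← h2, pc_prefix hG r _ (by omega) le_rfl]
      _ ≤ C0 * Real.exp (-(x * k)) := by
          rw [sum_const, nsmul_eq_mul, ← mul_assoc]
          exact mul_le_of_le_one_left (mul_nonneg hC0 (Real.exp_pos _).le) (hcard k)

include hp in
/-- A bound linear in the discrepancy for products of two sums. -/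
lemma gam_SK_bound (r : V) {C0 : ℝ} (hC0 : 0 ≤ C0) :
    ∃ C : ℝ, 0 ≤ C ∧ ∀ {τ x : ℝ}, 0 < x → x ≤ 1 →
      (∀ o w : V, ∫ ω, piL G θ σ r (rT σ τ) o w (G.dist o w) (vis σ ω) ∂Pm G θ r ≤
        C0 * Real.exp (-(x * G.dist o w))) →
      ∀ (o u v : V) (K l : ℕ),
        ∫ q, gam G θ σ r (rT σ τ) o q *
            (SK G θ σ r (rT σ τ) K u q.1 * SK G θ σ r (rT σ τ) K v q.2) ∂P2 G σ hp r ≤
          C * ((l : ℝ) + 1 + 1 / x) ^ 2 * gamE G σ hp r τ +
            C * (1 / x) ^ 4 * Real.exp (-(1 / 2 * ((d - 1 : ℕ) : ℝ) ^ l)) := by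
  obtain ⟨M, hM1, hM⟩ := exp_SQ hG hp hreg hb (σ := σ) r hC0
  set A : ℝ := 8 * (Real.log M + 1) with hA
  have hA0 : 0 < A := by
    have := Real.log_nonneg hM1
    positivity
  set C4 : ℝ := 8 * (16 + (d : ℝ) ^ 4 * (24 * 8 ^ 4 * M)) with hC4
  set G0 : ℝ := 4 + 8 * d with hG0
  refine ⟨(2 + 2 * A) ^ 2 + G0 * (C4 + 1), by positivity, ?_⟩
  intro τ x hx hx1 hdec o u v K l
  have := Pm_prob (G := G) hp r
  have := P2_prob (σ := σ) hG hp r
  set R := rT (V := V) σ τ
  have hR : RMeas R := rmeas_rT σ τ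
  have hconv := ae_conv (σ := σ) hG hp r hR
  have hS4 : ∀ u, ∫ ω, SK G θ σ r R K u (vis σ ω) ^ 4 ∂Pm G θ r ≤ C4 * (1 / x) ^ 4 := by
    intro u
    set S := fun q p ↦ SQ G θ σ r R u 1 (K + 1) q p
    have hsc : ((sphere G u 1).card : ℝ) ≤ d := by
      have := card_sphere hG hreg u 0
      simp only [pow_zero, mul_one, zero_add] at this
      exact_mod_cast this
    have hpt : ∀ᵐ ω ∂Pm G θ r, SK G θ σ r R K u (vis σ ω) ^ 4 ≤ 8 * (16 + (d : ℝ) ^ 3 *
        ∑ q ∈ sphere G u 1, 24 * (8 / x) ^ 4 * Real.exp (x / 8 * S q (vis σ ω))) := by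
      filter_upwards [hconv] with ω hω
      have h := SK_le hG hp hd hreg hb hω K u 1 le_rfl
      set Sg := ∑ q ∈ sphere G u 1, S q (vis σ ω)
      have hSg : 0 ≤ Sg := sum_nonneg fun q _ ↦ SQ_nonneg r R u 1 _ q _
      have hθ1 : θ ^ 2 ≤ 1 := pow_le_one₀ hp.nonneg hp.lt_one.le
      have h' : SK G θ σ r R K u (vis σ ω) ≤ 2 + Sg := by
        refine h.trans (add_le_add (by norm_num) ?_)
        rw [pow_one]
        exact mul_le_of_le_one_left hSg hθ1
      refine (pow_le_pow_left₀ (SK_nonneg r R K u _) h' 4).trans ?_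
      refine (show (2 + Sg) ^ 4 ≤ 8 * (16 + Sg ^ 4) by
        nlinarith [sq_nonneg (Sg - 2), sq_nonneg (Sg ^ 2 - 4), sq_nonneg (Sg + 2),
          mul_nonneg (sq_nonneg (Sg - 2)) (sq_nonneg (Sg + 2))]).trans ?_
      gcongr 8 * (16 + ?_)
      refine (pow_sum_le_card_mul_sum_pow (fun q _ ↦ SQ_nonneg r R u 1 _ q _) 3).trans ?_
      refine mul_le_mul (pow_le_pow_left₀ (Nat.cast_nonneg _) hsc 3) (sum_le_sum fun q _ ↦ ?_)
        (sum_nonneg fun q _ ↦ pow_nonneg (SQ_nonneg r R u 1 _ q _) _) (by positivity)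
      have hS0 : 0 ≤ S q (vis σ ω) := SQ_nonneg r R u 1 _ q _
      have he := Real.pow_div_factorial_le_exp (x / 8 * S q (vis σ ω)) (by positivity) 4
      rw [show ((Nat.factorial 4 : ℕ) : ℝ) = 24 by norm_num [Nat.factorial]] at he
      rw [div_le_iff₀ (by norm_num)] at he
      calc S q (vis σ ω) ^ 4 = (8 / x) ^ 4 * (x / 8 * S q (vis σ ω)) ^ 4 := by field_simp
        _ ≤ (8 / x) ^ 4 * (Real.exp (x / 8 * S q (vis σ ω)) * 24) :=
          mul_le_mul_of_nonneg_left he (by positivity)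
        _ = _ := by ring
    have hb1 : ∀ q, BM fun ω ↦ Real.exp (x / 8 * S q (vis σ ω)) := fun q ↦
      bm_exp ((BM.const _).mul ((bm_SQ r hR u 1 _ q).comp (measurable_vis σ)))
    have hb2 : BM fun ω : Om V ↦ 8 * (16 + (d : ℝ) ^ 3 *
        ∑ q ∈ sphere G u 1, 24 * (8 / x) ^ 4 * Real.exp (x / 8 * S q (vis σ ω))) :=
      (BM.const _).mul ((BM.const _).add ((BM.const _).mul
        (BM.sum _ fun q _ ↦ (BM.const _).mul (hb1 q))))
    have hbS : BM fun ω ↦ SK G θ σ r R K u (vis σ ω) ^ 4 := by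
      have h := (bm_SK (G := G) (θ := θ) (σ := σ) r hR K u).comp (measurable_vis σ)
      simp only [pow_succ, pow_zero, one_mul]
      exact ((h.mul h).mul h).mul h
    refine (integral_mono_ae (hbS.integrable _) (hb2.integrable _) hpt).trans ?_
    rw [integral_const_mul, integral_add (integrable_const _) ((BM.sum _ fun q _ ↦ (BM.const _).mul (hb1 q)).integrable _ |>.const_mul _), integral_const, smul_eq_mul, probReal_univ, one_mul, integral_const_mul,
      integral_finsetSum _ fun q _ ↦ ((hb1 q).integrable _).const_mul _]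
    · have hsum : ∑ q ∈ sphere G u 1, ∫ ω, 24 * (8 / x) ^ 4 * Real.exp (x / 8 * S q (vis σ ω))
          ∂Pm G θ r ≤ (d : ℝ) * (24 * (8 / x) ^ 4 * M) := by
        refine (sum_le_sum fun q hq ↦ (le_of_eq (integral_const_mul _ _)).trans
          (mul_le_mul_of_nonneg_left (hM hx hx1 hdec u 1 (K + 1) le_rfl q
            ((mem_sphere hG u 1 q).1 hq)) (by positivity))).trans ?_
        rw [sum_const, nsmul_eq_mul]
        exact mul_le_mul_of_nonneg_right hsc (by positivity)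
      have hx4 : (1 : ℝ) ≤ (1 / x) ^ 4 := one_le_pow₀ (one_le_one_div hx hx1)
      calc 8 * (16 + (d : ℝ) ^ 3 * _) ≤ 8 * (16 + (d : ℝ) ^ 3 * ((d : ℝ) * (24 * (8 / x) ^ 4 * M))) :=
            mul_le_mul_of_nonneg_left (add_le_add le_rfl
              (mul_le_mul_of_nonneg_left hsum (by positivity))) (by norm_num)
        _ = 8 * (16 * 1 + (d : ℝ) ^ 4 * (24 * 8 ^ 4 * M) * (1 / x) ^ 4) := by ring
        _ ≤ 8 * (16 * (1 / x) ^ 4 + (d : ℝ) ^ 4 * (24 * 8 ^ 4 * M) * (1 / x) ^ 4) := by linarith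
        _ = C4 * (1 / x) ^ 4 := by rw [hC4]; ring
  set Λ : ℝ := 2 * ((l : ℝ) + 1) + 2 * A / x with hΛ
  set Bd : V → Dat V → ℝ := fun u p ↦ min 1 (Real.exp (x / 8 *
    (∑ q ∈ sphere G u (l + 1), SQ G θ σ r R u (l + 1) (K + 1) q p) -
      A * ((sphere G u (l + 1)).card : ℝ) / 8)) with hBd
  have hBm : ∀ u, BM (Bd u) := fun u ↦
    ⟨measurable_const.min ((((BM.sum _ fun q _ ↦ bm_SQ r hR u (l + 1) _ q).1.const_mul _).sub
      measurable_const).exp), 1, fun p ↦ by
      rw [hBd, abs_of_nonneg (le_min zero_le_one (Real.exp_pos _).le)]; exact min_le_left _ _⟩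
  have hbad : ∀ u p, Conv G θ σ r R p → Λ < SK G θ σ r R K u p → Bd u p = 1 := by
    intro u p hc hlt
    simp only [hBd]
    refine min_eq_left (Real.one_le_exp ?_)
    have h := SK_le hG hp hd hreg hb hc K u (l + 1) (by omega)
    have hw := sphere_weight hG hd hreg hb u (l + 1)
    push_cast at h
    set Sg := ∑ q ∈ sphere G u (l + 1), SQ G θ σ r R u (l + 1) (K + 1) q p
    set N : ℝ := ((sphere G u (l + 1)).card : ℝ)
    set t := (θ ^ 2) ^ (l + 1)
    have h1 : 2 * A / x < t * Sg := by linarith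
    rw [div_lt_iff₀ hx] at h1
    have ht : 0 ≤ t := by positivity
    have h2 : A * (t * N) ≤ A * 2 := mul_le_mul_of_nonneg_left hw hA0.le
    have h3 : t * (A * N) < t * (x * Sg) := by nlinarith
    have := lt_of_mul_lt_mul_left h3 ht
    linarith
  have hEB : ∀ u, ∫ ω, Bd u (vis σ ω) ∂Pm G θ r ≤ Real.exp (-((d - 1 : ℕ) : ℝ) ^ l) := by
    intro u
    set Q := sphere G u (l + 1)
    have hN : ((d - 1 : ℕ) : ℝ) ^ l ≤ (Q.card : ℝ) := by
      obtain ⟨y, hy, -, -⟩ := exists_other hreg hd u u u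
      rw [← Nat.cast_pow, ← card_sideSph hG hreg hy.symm l, Nat.cast_le]
      refine card_le_card fun w hw ↦ (mem_sphere hG u _ w).2 ?_
      obtain ⟨h1, h2⟩ := (mem_sideSph hG).1 hw
      have := onSide_eq hG hy.symm h2
      rw [SimpleGraph.dist_comm, this, SimpleGraph.dist_comm, h1]
    have hb1 : BM fun ω ↦ ∏ q ∈ Q, Real.exp (x / 8 * SQ G θ σ r R u (l + 1) (K + 1) q (vis σ ω)) :=
      bm_prod _ fun q _ ↦ bm_exp ((BM.const _).mul ((bm_SQ r hR u _ _ q).comp (measurable_vis σ)))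
    calc ∫ ω, Bd u (vis σ ω) ∂Pm G θ r
        ≤ ∫ ω, Real.exp (-(A * (Q.card : ℝ) / 8)) *
            ∏ q ∈ Q, Real.exp (x / 8 * SQ G θ σ r R u (l + 1) (K + 1) q (vis σ ω)) ∂Pm G θ r := by
          refine integral_mono (((hBm u).comp (measurable_vis σ)).integrable _)
            ((hb1.integrable _).const_mul _) fun ω ↦ (min_le_right _ _).trans (le_of_eq ?_)
          rw [← Real.exp_sum, ← Real.exp_add, ← mul_sum]
          congr 1
          ring
      _ ≤ Real.exp (-(A * (Q.card : ℝ) / 8)) * M ^ Q.card := by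
          rw [integral_const_mul,
            indep_limit hG hp r hR (rlocal_rT σ τ) u (by omega) _ (by positivity), ← prod_const]
          refine mul_le_mul_of_nonneg_left (prod_le_prod (fun q _ ↦ integral_nonneg fun ω ↦
            (Real.exp_pos _).le) fun q hq ↦ hM hx hx1 hdec u (l + 1) (K + 1) (by omega) q
            ((mem_sphere hG u _ q).1 hq)) (Real.exp_pos _).le
      _ = Real.exp (-(Q.card : ℝ)) := by
          rw [show M ^ Q.card = Real.exp ((Q.card : ℝ) * Real.log M) by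
            rw [Real.exp_nat_mul, Real.exp_log (by linarith)], ← Real.exp_add, hA]
          congr 1
          ring
      _ ≤ _ := Real.exp_le_exp.2 (neg_le_neg hN)
  set N : ℝ := ((d - 1 : ℕ) : ℝ) ^ l
  set ε : ℝ := Real.exp (-(1 / 2 * N))
  have hε : 0 < ε := Real.exp_pos _
  have hg := bm_gam (G := G) (σ := σ) hp r hR o
  have hSu := (bm_SK (G := G) (θ := θ) (σ := σ) r hR K u).fst
  have hSv := (bm_SK (G := G) (θ := θ) (σ := σ) r hR K v).snd
  have bS4 : ∀ w, BM fun p : Dat V ↦ SK G θ σ r R K w p ^ 4 := fun w ↦ by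
    have h := bm_SK (G := G) (θ := θ) (σ := σ) r hR K w
    simp only [pow_succ, pow_zero, one_mul]
    exact ((h.mul h).mul h).mul h
  have hR1 := ((bS4 u).fst.add (bS4 v).snd)
  have hR2 := ((hBm u).fst.add (hBm v).snd)
  have hpt : ∀ᵐ q ∂P2 G σ hp r, gam G θ σ r R o q * (SK G θ σ r R K u q.1 * SK G θ σ r R K v q.2) ≤
      Λ ^ 2 * gam G θ σ r R o q + (G0 * (ε / 2) * (SK G θ σ r R K u q.1 ^ 4 +
        SK G θ σ r R K v q.2 ^ 4) + G0 * (1 / (2 * ε)) * (Bd u q.1 + Bd v q.2)) := by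
    filter_upwards [ae_P2_conv (σ := σ) hG hp r hR] with q hq
    set a := SK G θ σ r R K u q.1
    set c := SK G θ σ r R K v q.2
    set γ := gam G θ σ r R o q
    have ha : 0 ≤ a := SK_nonneg r R K u _
    have hc : 0 ≤ c := SK_nonneg r R K v _
    have hγ : 0 ≤ γ := gam_nonneg r R o q
    have hγ' : γ ≤ G0 := gam_le hp hreg r R o q
    set B1 := Bd u q.1
    set B2 := Bd v q.2
    have hB1 : 0 ≤ B1 ∧ B1 ≤ 1 := ⟨le_min zero_le_one (Real.exp_pos _).le, min_le_left _ _⟩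
    have hB2 : 0 ≤ B2 ∧ B2 ≤ 1 := ⟨le_min zero_le_one (Real.exp_pos _).le, min_le_left _ _⟩
    have hG0' : 0 ≤ G0 := by positivity
    have key : ∀ B, 0 ≤ B → B ≤ 1 →
        a * c * B ≤ ε / 4 * (a ^ 4 + c ^ 4) + 1 / (2 * ε) * B := by
      intro B h0 h1
      have k : ∀ s : ℝ, s ^ 2 * B ≤ ε / 2 * s ^ 4 + 1 / (2 * ε) * B := fun s ↦ by
        have h2 : 0 ≤ (ε * s ^ 2 - B) ^ 2 / (2 * ε) := by positivity
        have e : (ε * s ^ 2 - B) ^ 2 / (2 * ε) =
            ε / 2 * s ^ 4 - s ^ 2 * B + 1 / (2 * ε) * B ^ 2 := by field_simp; ring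
        have : 1 / (2 * ε) * B ^ 2 ≤ 1 / (2 * ε) * B :=
          mul_le_mul_of_nonneg_left (by nlinarith) (by positivity)
        linarith
      have h3 : a * c * B ≤ (a ^ 2 * B + c ^ 2 * B) / 2 := by
        nlinarith [mul_nonneg h0 (sq_nonneg (a - c))]
      linarith [k a, k c]
    have hsplit : γ * (a * c) ≤ Λ ^ 2 * γ + G0 * (a * c * B1 + a * c * B2) := by
      have hpos : 0 ≤ a * c * B1 + a * c * B2 := by
        have := hB1.1; have := hB2.1; positivity
      by_cases hgood : a ≤ Λ ∧ c ≤ Λ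
      · have h1 : a * c ≤ Λ ^ 2 := by rw [sq]; exact mul_le_mul hgood.1 hgood.2 hc (ha.trans hgood.1)
        linarith [mul_le_mul_of_nonneg_left h1 hγ, mul_nonneg hG0' hpos]
      · have hone : 1 ≤ B1 + B2 := by
          rcases not_and_or.1 hgood with h | h
          · linarith [(hbad u q.1 hq.1 (not_le.1 h)).ge, hB2.1]
          · linarith [(hbad v q.2 hq.2 (not_le.1 h)).ge, hB1.1]
        have h1 : γ * (a * c) ≤ G0 * (a * c * (B1 + B2)) :=
          mul_le_mul hγ' (le_mul_of_one_le_right (mul_nonneg ha hc) hone) (mul_nonneg ha hc) hG0'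
        linarith [mul_nonneg (sq_nonneg Λ) hγ]
    linarith [mul_le_mul_of_nonneg_left
      (add_le_add (key B1 hB1.1 hB1.2) (key B2 hB2.1 hB2.2)) hG0']
  have hbm : BM fun q ↦ gam G θ σ r R o q * (SK G θ σ r R K u q.1 * SK G θ σ r R K v q.2) :=
    hg.mul (hSu.mul hSv)
  refine (integral_mono_ae (hbm.integrable _) ((((BM.const _).mul hg).add
    (((BM.const _).mul hR1).add ((BM.const _).mul hR2))).integrable _) hpt).trans ?_
  rw [integral_add (((BM.const _).mul hg).integrable _)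
    ((((BM.const _).mul hR1).add ((BM.const _).mul hR2)).integrable _),
    integral_add (((BM.const _).mul hR1).integrable _) (((BM.const _).mul hR2).integrable _),
    integral_const_mul, integral_const_mul, integral_const_mul,
    integral_add ((bS4 u).fst.integrable _) ((bS4 v).snd.integrable _),
    integral_add ((hBm u).fst.integrable _) ((hBm v).snd.integrable _),
    integral_fst hG hp r (bS4 u), integral_snd hG hp r (bS4 v), integral_fst hG hp r (hBm u),
    integral_snd hG hp r (hBm v), gam_invariant hG hp r hreg τ o]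
  have hx4 : (1 : ℝ) ≤ (1 / x) ^ 4 := one_le_pow₀ (one_le_one_div hx hx1)
  have hE : 0 ≤ gamE G σ hp r τ := gamE_nonneg hp r τ
  have hG0' : 0 ≤ G0 := by positivity
  have hC40 : 0 ≤ C4 := by positivity
  have hexp : 1 / (2 * ε) * (2 * Real.exp (-N)) = ε := by
    have : Real.exp (-N) = ε * ε := by
      rw [← Real.exp_add]; congr 1; ring
    rw [this]; field_simp
  have e1 : G0 * (ε / 2) * (∫ ω, SK G θ σ r R K u (vis σ ω) ^ 4 ∂Pm G θ r +
      ∫ ω, SK G θ σ r R K v (vis σ ω) ^ 4 ∂Pm G θ r) ≤ G0 * (ε / 2) * (2 * (C4 * (1 / x) ^ 4)) :=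
    mul_le_mul_of_nonneg_left (by linarith [hS4 u, hS4 v]) (by positivity)
  have e2 : G0 * (1 / (2 * ε)) * (∫ ω, Bd u (vis σ ω) ∂Pm G θ r +
      ∫ ω, Bd v (vis σ ω) ∂Pm G θ r) ≤ G0 * (1 / (2 * ε)) * (2 * Real.exp (-N)) :=
    mul_le_mul_of_nonneg_left (by linarith [hEB u, hEB v]) (by positivity)
  simp only [mul_assoc G0 (1 / (2 * ε))] at e2
  rw [hexp] at e2
  have hL : Λ ^ 2 ≤ (2 + 2 * A) ^ 2 * ((l : ℝ) + 1 + 1 / x) ^ 2 := by
    rw [← mul_pow]
    refine pow_le_pow_left₀ (by positivity) ?_ 2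
    have h1 : 0 ≤ (l : ℝ) + 1 := by positivity
    have h2 : 0 ≤ 1 / x := by positivity
    rw [hΛ, show 2 * A / x = 2 * A * (1 / x) by ring]
    nlinarith [mul_nonneg hA0.le h1, mul_nonneg hA0.le h2]
  have e3 : G0 * ε ≤ G0 * ε * (1 / x) ^ 4 := le_mul_of_one_le_right (by positivity) hx4
  have e4 : 0 ≤ G0 * (C4 + 1) * ((l : ℝ) + 1 + 1 / x) ^ 2 * gamE G σ hp r τ := by positivity
  have e5 : 0 ≤ (2 + 2 * A) ^ 2 * (1 / x) ^ 4 * ε := by positivity
  have e6 := mul_le_mul_of_nonneg_right hL hE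
  linarith

end Tails

/-! ### The centre of a covariance -/

omit [Countable V] in
lemma centre (hG : G.IsTree) (hp : Par θ) (r : V) (R : Rule V) {f : Finset V → ℝ}
    (hf : IsTgt G r f) (w : V) :
    ∃ o ∈ insert r (G.neighborFinset r), ∃ G0 : Dat V → ℝ,
      (∀ p : Dat V, Conv G θ σ r R p → cL G θ σ r R f w p =
          θ ^ G.dist o w * piL G θ σ r R o w (G.dist o w) p * G0 p ∧
        |G0 p| ≤ 1 - ML G θ σ r R (fun S ↦ sg S o) p ^ 2) ∧
      ∀ p p' : Dat V, (G0 p - G0 p') ^ 2 ≤ 12 * gam G θ σ r R o (p, p') := by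
  have hone : ∀ y ∈ insert r (G.neighborFinset r), ∃ o ∈ insert r (G.neighborFinset r),
      ∃ G0 : Dat V → ℝ,
      (∀ p : Dat V, Conv G θ σ r R p → cL G θ σ r R (fun S ↦ sg S y) w p =
          θ ^ G.dist o w * piL G θ σ r R o w (G.dist o w) p * G0 p ∧
        |G0 p| ≤ 1 - ML G θ σ r R (fun S ↦ sg S o) p ^ 2) ∧
      ∀ p p' : Dat V, (G0 p - G0 p') ^ 2 ≤ 12 * gam G θ σ r R o (p, p') := by
    intro y hy
    refine ⟨y, hy, fun p ↦ 1 - ML G θ σ r R (fun S ↦ sg S y) p ^ 2, fun p hc ↦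
      ⟨cL_one hc hG hp y w, ?_⟩, fun p p' ↦ ?_⟩
    · rw [abs_of_nonneg (var_mem hp y).1]
    · set u := ML G θ σ r R (fun S ↦ sg S y) p
      set u' := ML G θ σ r R (fun S ↦ sg S y) p'
      have h1 := abs_le.1 (abs_ML_all (G := G) (σ := σ) hp r R (fun S ↦ (sg_abs S y).le) p)
      have h2 := abs_le.1 (abs_ML_all (G := G) (σ := σ) hp r R (fun S ↦ (sg_abs S y).le) p')
      have h3 : (u + u') ^ 2 ≤ 4 := by nlinarith
      have h4 : (u - u') ^ 2 ≤ gam G θ σ r R y (p, p') :=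
        le_add_of_nonneg_right (sum_nonneg fun z _ ↦ by positivity)
      calc (1 - u ^ 2 - (1 - u' ^ 2)) ^ 2 = (u + u') ^ 2 * (u - u') ^ 2 := by ring
        _ ≤ 4 * gam G θ σ r R y (p, p') := mul_le_mul h3 h4 (sq_nonneg _) (by norm_num)
        _ ≤ _ := by linarith [gam_nonneg (G := G) (θ := θ) (σ := σ) r R y (p, p')]
  have htwo : ∀ o e, o ∈ insert r (G.neighborFinset r) → G.Adj e o →
      G.dist w e = G.dist w o + 1 → ∃ o' ∈ insert r (G.neighborFinset r),
      ∃ G0 : Dat V → ℝ,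
      (∀ p : Dat V, Conv G θ σ r R p → cL G θ σ r R (fun S ↦ sg S e * sg S o) w p =
          θ ^ G.dist o' w * piL G θ σ r R o' w (G.dist o' w) p * G0 p ∧
        |G0 p| ≤ 1 - ML G θ σ r R (fun S ↦ sg S o') p ^ 2) ∧
      ∀ p p' : Dat V, (G0 p - G0 p') ^ 2 ≤ 12 * gam G θ σ r R o' (p, p') := by
    intro o e ho he hd
    have hside : ∀ i < G.dist o w, ¬ OnSide G (up G o w i) (up G o w (i + 1)) e := by
      intro i hi h
      set k := G.dist o w - 1 with hk
      have hk1 : k + 1 = G.dist o w := by omega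
      have h2 := onSide_up_mono hG (j := k) (by omega) (by omega) h
      rw [hk1, up_dist_self hG] at h2
      have hadj := up_adj hG (o := o) (w := w) (i := k) (by omega)
      rw [hk1, up_dist_self hG] at hadj
      have hne : up G o w k ≠ e := by
        intro heq
        have := dist_up_left hG (o := o) (w := w) k (by omega)
        rw [heq, hd, SimpleGraph.dist_comm] at this
        omega
      exact onSide_disjoint hG hadj he hne h2 (onSide_self he)
    refine ⟨o, ho, fun p ↦ ML G θ σ r R (fun S ↦ sg S e) p -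
        ML G θ σ r R (fun S ↦ sg S e * sg S o) p * ML G θ σ r R (fun S ↦ sg S o) p,
      fun p hc ↦ ⟨cL_two hc hG hp he hside, abs_centre_le hc hG hp e o⟩, fun p p' ↦ ?_⟩
    have em : (fun S : Finset V ↦ sg S e * sg S o) = fun S ↦ sg S o * sg S e := by
      funext S; ring
    simp only [em]
    set a := ML G θ σ r R (fun S ↦ sg S e) p - ML G θ σ r R (fun S ↦ sg S e) p'
    set M := ML G θ σ r R (fun S ↦ sg S o * sg S e) p
    set M' := ML G θ σ r R (fun S ↦ sg S o * sg S e) p'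
    set m := ML G θ σ r R (fun S ↦ sg S o) p
    set m' := ML G θ σ r R (fun S ↦ sg S o) p'
    have hg : a ^ 2 + (M - M') ^ 2 + (m - m') ^ 2 ≤ gam G θ σ r R o (p, p') := by
      have h1 := single_le_sum (f := fun z ↦
        (ML G θ σ r R (fun S ↦ sg S o * sg S z) p - ML G θ σ r R (fun S ↦ sg S o * sg S z) p') ^ 2 +
          (ML G θ σ r R (fun S ↦ sg S z) p - ML G θ σ r R (fun S ↦ sg S z) p') ^ 2)
        (fun z _ ↦ by positivity) ((SimpleGraph.mem_neighborFinset G o e).2 he.symm)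
      calc a ^ 2 + (M - M') ^ 2 + (m - m') ^ 2 = (m - m') ^ 2 + ((M - M') ^ 2 + a ^ 2) := by ring
        _ ≤ _ := add_le_add le_rfl h1
    have hm : |m| ≤ 1 := abs_ML_all hp r R (fun S ↦ (sg_abs S o).le) p
    have hM' : |M'| ≤ 1 := abs_ML_all hp r R (abs_sg2 o e) p'
    have e1 : ((M - M') * m) ^ 2 ≤ (M - M') ^ 2 := by
      rw [mul_pow]; exact mul_le_of_le_one_right (sq_nonneg _) ((sq_le_one_iff_abs_le_one _).2 hm)
    have e2 : (M' * (m - m')) ^ 2 ≤ (m - m') ^ 2 := by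
      rw [mul_pow]; exact mul_le_of_le_one_left (sq_nonneg _) ((sq_le_one_iff_abs_le_one _).2 hM')
    calc _ = (a - (M - M') * m - M' * (m - m')) ^ 2 := by simp only [a]; ring
      _ ≤ 3 * (a ^ 2 + ((M - M') * m) ^ 2 + (M' * (m - m')) ^ 2) := by
        nlinarith [sq_nonneg (a + (M - M') * m), sq_nonneg (a + M' * (m - m')),
          sq_nonneg ((M - M') * m - M' * (m - m'))]
      _ ≤ 12 * gam G θ σ r R o (p, p') := by
        linarith [gam_nonneg (G := G) (θ := θ) (σ := σ) r R o (p, p')]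
  rcases hf with rfl | ⟨y, hy, rfl | rfl⟩
  · exact hone r (mem_insert_self _ _)
  · exact hone y (mem_insert_of_mem ((SimpleGraph.mem_neighborFinset G r y).2 hy))
  · rcases adj_dist_cases hG (v := w) hy with h | h
    · exact htwo y r (mem_insert_of_mem ((SimpleGraph.mem_neighborFinset G r y).2 hy)) hy h
    · rw [show (fun S : Finset V ↦ sg S r * sg S y) = fun S ↦ sg S y * sg S r by funext S; ring]
      exact htwo r y (mem_insert_self _ _) hy.symm h

/-! ### The discrepancy sums -/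

/-- The weight at the vertex `p`, seen from `o`. -/
noncomputable def Fp (G : SimpleGraph V) [G.LocallyFinite] (θ : ℝ) (σ : Sch) (r : V) (R : Rule V)
    (K : ℕ) (o p : V) (q : Dat V × Dat V) : ℝ :=
  pc G θ σ r R p o (G.dist p o) q.1 *
    (gam G θ σ r R p q * ∑ x ∈ G.neighborFinset p, SK G θ σ r R K x q.2)

/-- The majorant of the discrepancy sums at the base `o`. -/
noncomputable def major (G : SimpleGraph V) [G.LocallyFinite] (θ : ℝ) (σ : Sch) (r : V)
    (R : Rule V) (K : ℕ) (C : ℝ) (o : V) (q : Dat V × Dat V) : ℝ :=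
  24 * (gam G θ σ r R o q * SK G θ σ r R K o q.2) +
    C * ∑ p ∈ ball G o K, (θ ^ 2) ^ G.dist o p * Fp G θ σ r R K o p q +
    ∑ w ∈ ball G o K, (θ ^ 2) ^ G.dist o w *
      (gam G θ σ r R w q * pc G θ σ r R w o (G.dist w o) q.2)

omit [Countable V] in
/-- One term of the discrepancy sums. -/
lemma term_le (hG : G.IsTree) (hp : Par θ) (hθ : 0 < θ) (r : V) {R : Rule V}
    {q : Dat V × Dat V} (hq : Conv G θ σ r R q.1 ∧ Conv G θ σ r R q.2) {f : Finset V → ℝ} {o w : V}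
    {G0 : Dat V → ℝ} (hG0 : ∀ p : Dat V, Conv G θ σ r R p → cL G θ σ r R f w p =
        θ ^ G.dist o w * piL G θ σ r R o w (G.dist o w) p * G0 p ∧
      |G0 p| ≤ 1 - ML G θ σ r R (fun S ↦ sg S o) p ^ 2)
    (hdG : (G0 q.1 - G0 q.2) ^ 2 ≤ 12 * gam G θ σ r R o q) :
    (cL G θ σ r R f w q.1 - cL G θ σ r R f w q.2) ^ 2 ≤
      24 * ((θ ^ 2) ^ G.dist o w * (gam G θ σ r R o q * pc G θ σ r R o w (G.dist o w) q.2)) +
        24 / (1 - θ ^ 2) ^ 3 * (8 / (1 - θ) ^ 2) ^ 2 * ∑ i ∈ range (G.dist o w),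
          (θ ^ 2) ^ G.dist o w * (pc G θ σ r R (up G o w (i + 1)) o
              (G.dist (up G o w (i + 1)) o) q.1 *
            (gam G θ σ r R (up G o w (i + 1)) q * pc G θ σ r R (up G o w i) w i q.2)) ∧
    cL G θ σ r R f w q.2 ^ 2 *
        (ML G θ σ r R (fun S ↦ sg S w) q.1 - ML G θ σ r R (fun S ↦ sg S w) q.2) ^ 2 ≤
      (θ ^ 2) ^ G.dist o w * (gam G θ σ r R w q * pc G θ σ r R w o (G.dist w o) q.2) := by
  obtain ⟨hc, hc'⟩ := hq
  obtain ⟨e1, b1⟩ := hG0 q.1 hc
  obtain ⟨e2, b2⟩ := hG0 q.2 hc'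
  set k := G.dist o w with hk
  set π := piL G θ σ r R o w k q.1
  set π' := piL G θ σ r R o w k q.2
  obtain ⟨hπ'0, hπ'1⟩ := piL_mem hc' hG hp o w (k := k) le_rfl
  have hpc' : pc G θ σ r R o w k q.2 = π' := pc_eq hc' hG hp o w le_rfl
  have hγ := gam_nonneg (G := G) (θ := θ) (σ := σ) r R o q
  have hvar := var_mem (G := G) (σ := σ) (r := r) (R := R) (p := q.1) hp o
  have hvar' := var_mem (G := G) (σ := σ) (r := r) (R := R) (p := q.2) hp o
  constructor
  · have hpow : (θ ^ k) ^ 2 = (θ ^ 2) ^ k := by ring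
    have hsplit : (cL G θ σ r R f w q.1 - cL G θ σ r R f w q.2) ^ 2 ≤
        2 * ((θ ^ 2) ^ k * ((G0 q.1 - G0 q.2) ^ 2 * π' ^ 2)) +
          2 * ((θ ^ 2) ^ k * (G0 q.1 ^ 2 * (π - π') ^ 2)) := by
      rw [e1, e2, show θ ^ k * π * G0 q.1 - θ ^ k * π' * G0 q.2 =
        θ ^ k * ((G0 q.1 - G0 q.2) * π' + G0 q.1 * (π - π')) by ring, mul_pow, hpow]
      have h0 : 0 ≤ (θ ^ 2) ^ k := by positivity
      have h2 : ((G0 q.1 - G0 q.2) * π' + G0 q.1 * (π - π')) ^ 2 ≤
          2 * ((G0 q.1 - G0 q.2) ^ 2 * π' ^ 2) + 2 * (G0 q.1 ^ 2 * (π - π') ^ 2) := by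
        rw [← mul_pow, ← mul_pow]
        nlinarith [sq_nonneg ((G0 q.1 - G0 q.2) * π' - G0 q.1 * (π - π'))]
      nlinarith [mul_le_mul_of_nonneg_left h2 h0]
    have hA : (G0 q.1 - G0 q.2) ^ 2 * π' ^ 2 ≤ 12 * (gam G θ σ r R o q * π') := by
      have : π' ^ 2 ≤ π' := by nlinarith
      calc _ ≤ 12 * gam G θ σ r R o q * π' := mul_le_mul hdG this (sq_nonneg _) (by positivity)
        _ = _ := by ring
    have haL : ∀ {p : Dat V}, Conv G θ σ r R p → ∀ i < k,
        |aL G θ σ r R (up G o w i) (up G o w (i + 1)) p| ≤ 1 := fun hp' i hi ↦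
      abs_aL hp' hG hp (up_adj hG hi)
    have hB := prod_psi_sub hp (fun i ↦ aL G θ σ r R (up G o w i) (up G o w (i + 1)) q.1)
      (fun i ↦ aL G θ σ r R (up G o w i) (up G o w (i + 1)) q.2) k (haL hc) (haL hc')
    have hterm : ∀ i ∈ range k, G0 q.1 ^ 2 *
        ((∏ j ∈ Ico (i + 1) k, psi θ (aL G θ σ r R (up G o w j) (up G o w (j + 1)) q.1)) *
          (∏ j ∈ range i, psi θ (aL G θ σ r R (up G o w j) (up G o w (j + 1)) q.2)) *
          (aL G θ σ r R (up G o w i) (up G o w (i + 1)) q.1 -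
            aL G θ σ r R (up G o w i) (up G o w (i + 1)) q.2) ^ 2) ≤
        3 * (8 / (1 - θ) ^ 2) ^ 2 * (pc G θ σ r R (up G o w (i + 1)) o
              (G.dist (up G o w (i + 1)) o) q.1 *
            (gam G θ σ r R (up G o w (i + 1)) q * pc G θ σ r R (up G o w i) w i q.2)) := by
      intro i hi
      rw [Finset.mem_range] at hi
      set P := up G o w (i + 1)
      rw [piL_Ico r R o w (i := i + 1) (k := k) (by omega) q.1]
      have hdP : G.dist o P = k - (i + 1) := dist_up hG (i + 1) hi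
      have hsym := var_piL_symm hc hG hp hθ o P
      rw [← hdP]
      have hπ0 := (piL_mem hc hG hp o P (k := G.dist o P) le_rfl).1
      have hQ : (∏ j ∈ range i, psi θ (aL G θ σ r R (up G o w j) (up G o w (j + 1)) q.2)) =
          pc G θ σ r R (up G o w i) w i q.2 := by
        rw [pc_prefix hG r R hi.le le_rfl, pc_eq hc' hG hp o w hi.le]
        rfl
      rw [hQ]
      set B := pc G θ σ r R (up G o w i) w i q.2
      have hB0 : 0 ≤ B := (pc_mem r R _ w i q.2).1
      have hG2 : G0 q.1 ^ 2 * piL G θ σ r R o P (G.dist o P) q.1 ≤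
          pc G θ σ r R P o (G.dist P o) q.1 := by
        have h1 : G0 q.1 ^ 2 ≤ 1 - ML G θ σ r R (fun S ↦ sg S o) q.1 ^ 2 := by
          rw [← sq_abs]
          calc |G0 q.1| ^ 2 ≤ (1 - ML G θ σ r R (fun S ↦ sg S o) q.1 ^ 2) ^ 2 :=
                pow_le_pow_left₀ (abs_nonneg _) b1 2
            _ ≤ _ := by nlinarith
        rw [pc_eq hc hG hp P o le_rfl, SimpleGraph.dist_comm (u := P)]
        calc G0 q.1 ^ 2 * piL G θ σ r R o P (G.dist o P) q.1
            ≤ (1 - ML G θ σ r R (fun S ↦ sg S o) q.1 ^ 2) * piL G θ σ r R o P (G.dist o P) q.1 :=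
              mul_le_mul_of_nonneg_right h1 hπ0
          _ = (1 - ML G θ σ r R (fun S ↦ sg S P) q.1 ^ 2) * piL G θ σ r R P o (G.dist o P) q.1 :=
              hsym
          _ ≤ _ := mul_le_of_le_one_left
              (piL_mem hc hG hp P o (by rw [SimpleGraph.dist_comm])).1
              (var_mem (G := G) (σ := σ) (r := r) (R := R) (p := q.1) hp P).2
      have hΔ := (aL_sub_sq_le hc hG hp hc' (up_adj hG hi)).2
      calc _ = (G0 q.1 ^ 2 * piL G θ σ r R o P (G.dist o P) q.1) * B *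
            (aL G θ σ r R (up G o w i) P q.1 - aL G θ σ r R (up G o w i) P q.2) ^ 2 := by ring
        _ ≤ pc G θ σ r R P o (G.dist P o) q.1 * B *
            (3 * (8 / (1 - θ) ^ 2) ^ 2 * gam G θ σ r R P q) :=
          mul_le_mul (mul_le_mul_of_nonneg_right hG2 hB0) hΔ (sq_nonneg _)
            (mul_nonneg (pc_mem r R P o _ q.1).1 hB0)
        _ = _ := by ring
    have hBB : G0 q.1 ^ 2 * (π - π') ^ 2 ≤ 4 / (1 - θ ^ 2) ^ 3 * ∑ i ∈ range k,
        3 * (8 / (1 - θ) ^ 2) ^ 2 * (pc G θ σ r R (up G o w (i + 1)) o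
              (G.dist (up G o w (i + 1)) o) q.1 *
            (gam G θ σ r R (up G o w (i + 1)) q * pc G θ σ r R (up G o w i) w i q.2)) := by
      refine (mul_le_mul_of_nonneg_left hB (sq_nonneg _)).trans ?_
      rw [mul_left_comm, mul_sum (a := G0 q.1 ^ 2)]
      refine mul_le_mul_of_nonneg_left (sum_le_sum hterm) ?_
      have : 0 < 1 - θ ^ 2 := by nlinarith [hp.nonneg, hp.lt_one]
      positivity
    have h0 : 0 ≤ (θ ^ 2) ^ k := by positivity
    refine hsplit.trans ?_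
    rw [hpc']
    refine add_le_add (by nlinarith [mul_le_mul_of_nonneg_left hA h0]) ?_
    refine (mul_le_mul_of_nonneg_left (mul_le_mul_of_nonneg_left hBB h0) zero_le_two).trans
      (le_of_eq ?_)
    simp only [mul_sum]
    exact sum_congr rfl fun i _ ↦ by ring
  · have hsym := var_piL_symm hc' hG hp hθ o w
    have hwo := pc_eq hc' hG hp w o (k := G.dist w o) le_rfl
    rw [SimpleGraph.dist_comm (u := w)] at hwo ⊢
    rw [hwo, e2]
    have hπwo := piL_mem hc' hG hp w o (k := k) (by rw [hk, SimpleGraph.dist_comm])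
    have hπsq : π' ^ 2 ≤ π' := sq π' ▸ mul_le_of_le_one_left hπ'0 hπ'1
    have h1 : G0 q.2 ^ 2 * π' ^ 2 ≤ piL G θ σ r R w o k q.2 := by
      have hg2 : G0 q.2 ^ 2 ≤ 1 - ML G θ σ r R (fun S ↦ sg S o) q.2 ^ 2 := by
        rw [← sq_abs]
        calc |G0 q.2| ^ 2 ≤ (1 - ML G θ σ r R (fun S ↦ sg S o) q.2 ^ 2) ^ 2 :=
              pow_le_pow_left₀ (abs_nonneg _) b2 2
          _ ≤ _ := sq (1 - ML G θ σ r R (fun S ↦ sg S o) q.2 ^ 2) ▸
            mul_le_of_le_one_left hvar'.1 hvar'.2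
      calc G0 q.2 ^ 2 * π' ^ 2 ≤ (1 - ML G θ σ r R (fun S ↦ sg S o) q.2 ^ 2) * π' :=
            mul_le_mul hg2 hπsq (sq_nonneg _) hvar'.1
        _ = (1 - ML G θ σ r R (fun S ↦ sg S w) q.2 ^ 2) * piL G θ σ r R w o k q.2 := hsym
        _ ≤ _ := mul_le_of_le_one_left hπwo.1
            (var_mem (G := G) (σ := σ) (r := r) (R := R) (p := q.2) hp w).2
    have h2 : (ML G θ σ r R (fun S ↦ sg S w) q.1 - ML G θ σ r R (fun S ↦ sg S w) q.2) ^ 2 ≤
        gam G θ σ r R w q := le_add_of_nonneg_right (sum_nonneg fun z _ ↦ by positivity)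
    calc (θ ^ k * π' * G0 q.2) ^ 2 *
          (ML G θ σ r R (fun S ↦ sg S w) q.1 - ML G θ σ r R (fun S ↦ sg S w) q.2) ^ 2
        = (θ ^ 2) ^ k * ((G0 q.2 ^ 2 * π' ^ 2) *
          (ML G θ σ r R (fun S ↦ sg S w) q.1 - ML G θ σ r R (fun S ↦ sg S w) q.2) ^ 2) := by ring
      _ ≤ (θ ^ 2) ^ k * (piL G θ σ r R w o k q.2 * gam G θ σ r R w q) :=
          mul_le_mul_of_nonneg_left (mul_le_mul h1 h2 (sq_nonneg _) hπwo.1) (by positivity)
      _ = _ := by ring

omit [Countable V] in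
/-- Regrouping the pairs of a vertex and an edge of its path by the edge. -/
lemma regroup (hG : G.IsTree) (hp : Par θ) (r : V) (R : Rule V) (K : ℕ) (o : V)
    (q : Dat V × Dat V) :
    ∑ w ∈ ball G o K, ∑ i ∈ range (G.dist o w), (θ ^ 2) ^ G.dist o w *
        (pc G θ σ r R (up G o w (i + 1)) o (G.dist (up G o w (i + 1)) o) q.1 *
          (gam G θ σ r R (up G o w (i + 1)) q * pc G θ σ r R (up G o w i) w i q.2)) ≤
      ∑ p ∈ ball G o K, (θ ^ 2) ^ G.dist o p * Fp G θ σ r R K o p q := by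
  set H : (_ : V) × (_ : V) × V → ℝ := fun z ↦ (θ ^ 2) ^ G.dist o z.1 *
    (pc G θ σ r R z.1 o (G.dist z.1 o) q.1 * (gam G θ σ r R z.1 q *
      ((θ ^ 2) ^ G.dist z.2.1 z.2.2 *
        pc G θ σ r R z.2.1 z.2.2 (G.dist z.2.1 z.2.2) q.2))) with hH
  set e : (_ : V) × ℕ → (_ : V) × (_ : V) × V :=
    fun z ↦ ⟨up G o z.1 (z.2 + 1), up G o z.1 z.2, z.1⟩ with he
  have hH0 : ∀ z, 0 ≤ H z := fun z ↦ mul_nonneg (by positivity) (mul_nonneg (pc_mem r R _ _ _ _).1
    (mul_nonneg (gam_nonneg r R _ q) (mul_nonneg (by positivity) (pc_mem r R _ _ _ _).1)))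
  set T := (ball G o K).sigma fun w ↦ range (G.dist o w)
  have hinj : Set.InjOn e T := by
    rintro ⟨w, i⟩ hi ⟨w', i'⟩ hi' h
    simp only [T, mem_coe, mem_sigma, Finset.mem_range] at hi hi'
    simp only [e] at h
    have hw : w = w' := congrArg (fun z ↦ z.2.2) h
    subst hw
    have h2 := congrArg (fun z ↦ G.dist o z.1) h
    simp only [dist_up hG _ (Nat.succ_le_of_lt hi.2), dist_up hG _ (Nat.succ_le_of_lt hi'.2)] at h2
    exact Sigma.ext rfl (heq_of_eq (show i = i' by omega))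
  have hle : ∀ z ∈ T, (θ ^ 2) ^ G.dist o z.1 *
      (pc G θ σ r R (up G o z.1 (z.2 + 1)) o (G.dist (up G o z.1 (z.2 + 1)) o) q.1 *
        (gam G θ σ r R (up G o z.1 (z.2 + 1)) q * pc G θ σ r R (up G o z.1 z.2) z.1 z.2 q.2)) ≤
      H (e z) := by
    rintro ⟨w, i⟩ hz
    simp only [T, mem_sigma, Finset.mem_range] at hz
    simp only [H, e]
    rw [dist_up_end hG (by omega : i ≤ G.dist o w), dist_up hG (i + 1) hz.2]
    have h : (θ ^ 2) ^ G.dist o w ≤ (θ ^ 2) ^ (G.dist o w - (i + 1)) * (θ ^ 2) ^ i := by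
      rw [← pow_add]
      exact pow_le_pow_of_le_one (sq_nonneg θ) (pow_le_one₀ hp.nonneg hp.lt_one.le) (by omega)
    have hA := (pc_mem (G := G) (θ := θ) (σ := σ) r R (up G o w (i + 1)) o
      (G.dist (up G o w (i + 1)) o) q.1).1
    have hB := (pc_mem (G := G) (θ := θ) (σ := σ) r R (up G o w i) w i q.2).1
    have hg := gam_nonneg (G := G) (θ := θ) (σ := σ) r R (up G o w (i + 1)) q
    refine (mul_le_mul_of_nonneg_right h (mul_nonneg hA (mul_nonneg hg hB))).trans (le_of_eq ?_)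
    ring
  rw [← sum_sigma (ball G o K) (fun w ↦ range (G.dist o w)) fun z ↦ (θ ^ 2) ^ G.dist o z.1 *
    (pc G θ σ r R (up G o z.1 (z.2 + 1)) o (G.dist (up G o z.1 (z.2 + 1)) o) q.1 *
      (gam G θ σ r R (up G o z.1 (z.2 + 1)) q * pc G θ σ r R (up G o z.1 z.2) z.1 z.2 q.2))]
  refine (sum_le_sum hle).trans ?_
  rw [← sum_image hinj]
  refine (sum_le_sum_of_subset_of_nonneg (t := (ball G o K).sigma fun p ↦
    (G.neighborFinset p).sigma fun x ↦ ball G x K) ?_ fun z _ _ ↦ hH0 z).trans (le_of_eq ?_)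
  · intro z hz
    obtain ⟨⟨w, i⟩, hwi, rfl⟩ := mem_image.1 hz
    simp only [T, mem_sigma, Finset.mem_range, mem_ball hG] at hwi
    simp only [e, mem_sigma, mem_ball hG, SimpleGraph.mem_neighborFinset]
    exact ⟨by rw [dist_up hG _ (by omega)]; omega, (up_adj hG hwi.2).symm,
      by rw [dist_up_end hG (by omega)]; omega⟩
  · simp only [sum_sigma, H, Fp, SK, mul_sum]

lemma bm_Fp (hp : Par θ) (r : V) {R : Rule V} (hR : RMeas R) (K : ℕ) (o p : V) :
    BM (Fp G θ σ r R K o p) :=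
  (bm_pc r hR p o _).fst.mul
    ((bm_gam hp r hR p).mul (BM.sum _ fun x _ ↦ (bm_SK r hR K x).snd))

lemma bm_major (hp : Par θ) (r : V) {R : Rule V} (hR : RMeas R) (K : ℕ) (C : ℝ) (o : V) :
    BM (major G θ σ r R K C o) :=
  (((BM.const _).mul ((bm_gam hp r hR o).mul (bm_SK r hR K o).snd)).add
    ((BM.const _).mul (BM.sum _ fun p _ ↦ (BM.const _).mul (bm_Fp hp r hR K o p)))).add
    (BM.sum _ fun w _ ↦ (BM.const _).mul ((bm_gam hp r hR w).mul (bm_pc r hR w o _).snd))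

omit [Countable V] in
lemma major_nonneg (r : V) (R : Rule V) (K : ℕ) {C : ℝ} (hC : 0 ≤ C) (o : V)
    (q : Dat V × Dat V) : 0 ≤ major G θ σ r R K C o q := by
  have h1 := gam_nonneg (G := G) (θ := θ) (σ := σ) r R o q
  have h2 := SK_nonneg (G := G) (θ := θ) (σ := σ) r R K o q.2
  have h3 : 0 ≤ ∑ p ∈ ball G o K, (θ ^ 2) ^ G.dist o p * Fp G θ σ r R K o p q :=
    sum_nonneg fun p _ ↦ mul_nonneg (by positivity) (mul_nonneg (pc_mem r R _ _ _ _).1
      (mul_nonneg (gam_nonneg r R p q) (sum_nonneg fun x _ ↦ SK_nonneg r R K x _)))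
  have h4 : 0 ≤ ∑ w ∈ ball G o K, (θ ^ 2) ^ G.dist o w *
      (gam G θ σ r R w q * pc G θ σ r R w o (G.dist w o) q.2) :=
    sum_nonneg fun w _ ↦ mul_nonneg (by positivity)
      (mul_nonneg (gam_nonneg r R w q) (pc_mem r R _ _ _ _).1)
  unfold major
  positivity

/-- The expected majorant, moved to its base. -/
lemma integral_major (hG : G.IsTree) (hp : Par θ) {d : ℕ} (hreg : G.IsRegularOfDegree d) (r : V)
    (τ : ℝ) (K : ℕ) (C : ℝ) (o : V) :
    ∫ q, major G θ σ r (rT σ τ) K C o q ∂P2 G σ hp r ≤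
      25 * ∫ q, gam G θ σ r (rT σ τ) o q *
          (SK G θ σ r (rT σ τ) K o q.1 * SK G θ σ r (rT σ τ) K o q.2) ∂P2 G σ hp r +
        C * ∑ x ∈ G.neighborFinset o, ∫ q, gam G θ σ r (rT σ τ) o q *
          (SK G θ σ r (rT σ τ) K o q.1 * SK G θ σ r (rT σ τ) K x q.2) ∂P2 G σ hp r := by
  have := P2_prob (σ := σ) hG hp r
  set R := rT (V := V) σ τ
  have hR : RMeas R := rmeas_rT σ τ
  have hg : ∀ x, BM (gam G θ σ r R x) := fun x ↦ bm_gam hp r hR x
  have hswap : ∀ p, ∫ q, Fp G θ σ r R K o p q ∂P2 G σ hp r = ∫ q, pc G θ σ r R o p (G.dist o p) q.1 *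
      (gam G θ σ r R o q * ∑ x ∈ G.neighborFinset o, SK G θ σ r R K x q.2) ∂P2 G σ hp r := by
    intro p
    obtain ⟨g, hg1, hg2⟩ := exists_aut hG hreg (o := o) (v := p) (o' := p) (v' := o)
      (by rw [SimpleGraph.dist_comm])
    refine integral_move hG hp r g (bm_Fp hp r hR K o p) ?_
    filter_upwards [ae_equiv (σ := σ) hG hp r g τ] with q ⟨h1, h2, h3⟩
    have e1 := (h1 o p (G.dist o p) le_rfl).1
    have e2 := h3 o
    rw [hg1, hg2, SimpleGraph.dist_comm (u := o)] at e1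
    rw [hg1] at e2
    have hN : G.neighborFinset p = (G.neighborFinset o).map g.toEquiv.toEmbedding := by
      ext z
      simp only [SimpleGraph.mem_neighborFinset, mem_map_equiv, ← hg1]
      conv_lhs => rw [show z = g (g.symm z) by simp, g.map_adj_iff]
      rfl
    simp only [Fp]
    rw [e1, e2, hN, sum_map, SimpleGraph.dist_comm (u := p) (v := o)]
    congr 2
    exact sum_congr rfl fun x _ ↦ h2 K x
  have hswap2 : ∀ w, ∫ q, gam G θ σ r R w q * pc G θ σ r R w o (G.dist w o) q.2 ∂P2 G σ hp r =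
      ∫ q, gam G θ σ r R o q * pc G θ σ r R o w (G.dist o w) q.2 ∂P2 G σ hp r := by
    intro w
    obtain ⟨g, hg1, hg2⟩ := exists_aut hG hreg (o := o) (v := w) (o' := w) (v' := o)
      (by rw [SimpleGraph.dist_comm])
    refine integral_move hG hp r g ((hg w).mul (bm_pc r hR w o _).snd) ?_
    filter_upwards [ae_equiv (σ := σ) hG hp r g τ] with q ⟨h1, h2, h3⟩
    have e1 := (h1 o w (G.dist o w) le_rfl).2
    have e2 := h3 o
    rw [hg1, hg2, SimpleGraph.dist_comm (u := o)] at e1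
    rw [hg1] at e2
    rw [e1, e2, SimpleGraph.dist_comm (u := w) (v := o)]
  have b1 : BM fun q : Dat V × Dat V ↦ gam G θ σ r R o q * SK G θ σ r R K o q.2 :=
    (hg o).mul (bm_SK r hR K o).snd
  have b2 : ∀ x, BM fun q : Dat V × Dat V ↦
      gam G θ σ r R o q * (SK G θ σ r R K o q.1 * SK G θ σ r R K x q.2) :=
    fun x ↦ (hg o).mul ((bm_SK r hR K o).fst.mul (bm_SK r hR K x).snd)
  have b3 : BM fun q : Dat V × Dat V ↦
      ∑ p ∈ ball G o K, (θ ^ 2) ^ G.dist o p * Fp G θ σ r R K o p q :=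
    BM.sum _ fun p _ ↦ (BM.const _).mul (bm_Fp hp r hR K o p)
  have b4 : BM fun q : Dat V × Dat V ↦ ∑ w ∈ ball G o K, (θ ^ 2) ^ G.dist o w *
      (gam G θ σ r R w q * pc G θ σ r R w o (G.dist w o) q.2) :=
    BM.sum _ fun w _ ↦ (BM.const _).mul ((hg w).mul (bm_pc r hR w o _).snd)
  have b5 : ∀ w, BM fun q : Dat V × Dat V ↦ pc G θ σ r R o w (G.dist o w) q.1 *
      (gam G θ σ r R o q * ∑ x ∈ G.neighborFinset o, SK G θ σ r R K x q.2) := fun w ↦
    (bm_pc r hR o w _).fst.mul ((hg o).mul (BM.sum _ fun x _ ↦ (bm_SK r hR K x).snd))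
  have eB : ∫ q, ∑ p ∈ ball G o K, (θ ^ 2) ^ G.dist o p * Fp G θ σ r R K o p q ∂P2 G σ hp r =
      ∑ x ∈ G.neighborFinset o, ∫ q, gam G θ σ r R o q *
        (SK G θ σ r R K o q.1 * SK G θ σ r R K x q.2) ∂P2 G σ hp r := by
    rw [integral_finsetSum _ fun p _ ↦ ((bm_Fp hp r hR K o p).integrable _).const_mul _]
    simp only [integral_const_mul, hswap]
    simp only [← integral_const_mul]
    rw [← integral_finsetSum _ fun p _ ↦ ((b5 p).integrable _).const_mul _,
      ← integral_finsetSum _ fun x _ ↦ (b2 x).integrable _]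
    congr 1
    funext q
    simp only [SK, mul_sum, sum_mul]
    rw [sum_comm]
    refine sum_congr rfl fun x _ ↦ ?_
    rw [sum_comm]
    exact sum_congr rfl fun w _ ↦ sum_congr rfl fun u _ ↦ by ring
  have hA : ∫ q, gam G θ σ r R o q * SK G θ σ r R K o q.2 ∂P2 G σ hp r ≤
      ∫ q, gam G θ σ r R o q * (SK G θ σ r R K o q.1 * SK G θ σ r R K o q.2) ∂P2 G σ hp r :=
    integral_mono (b1.integrable _) ((b2 o).integrable _) fun q ↦
      mul_le_mul_of_nonneg_left (le_mul_of_one_le_left (SK_nonneg r R K o q.2)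
        (one_le_SK hG r R K o q.1)) (gam_nonneg r R o q)
  have eC : ∫ q, ∑ w ∈ ball G o K, (θ ^ 2) ^ G.dist o w *
      (gam G θ σ r R w q * pc G θ σ r R w o (G.dist w o) q.2) ∂P2 G σ hp r =
      ∫ q, gam G θ σ r R o q * SK G θ σ r R K o q.2 ∂P2 G σ hp r := by
    rw [integral_finsetSum _ fun w _ ↦
      (((hg w).mul (bm_pc r hR w o _).snd).integrable _).const_mul _]
    simp only [integral_const_mul, hswap2]
    simp only [← integral_const_mul]
    rw [← integral_finsetSum _ fun w _ ↦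
      (((hg o).mul (bm_pc r hR o w _).snd).integrable _).const_mul _]
    congr 1
    funext q
    simp only [SK, mul_sum]
    exact sum_congr rfl fun w _ ↦ by ring
  unfold major
  rw [integral_add ((((BM.const _).mul b1).add ((BM.const _).mul b3)).integrable _)
      (b4.integrable _),
    integral_add (((BM.const _).mul b1).integrable _) (((BM.const _).mul b3).integrable _),
    integral_const_mul, integral_const_mul, eB, eC]
  linarith

/-- The majorant of one term at the base `b`. -/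
noncomputable def Tm (G : SimpleGraph V) [G.LocallyFinite] (θ : ℝ) (σ : Sch) (r : V) (R : Rule V)
    (C : ℝ) (q : Dat V × Dat V) (b w : V) : ℝ :=
  24 * ((θ ^ 2) ^ G.dist b w * (gam G θ σ r R b q * pc G θ σ r R b w (G.dist b w) q.2)) +
    C * (∑ i ∈ range (G.dist b w),
      (θ ^ 2) ^ G.dist b w * (pc G θ σ r R (up G b w (i + 1)) b
          (G.dist (up G b w (i + 1)) b) q.1 *
        (gam G θ σ r R (up G b w (i + 1)) q * pc G θ σ r R (up G b w i) w i q.2))) +
    (θ ^ 2) ^ G.dist b w * (gam G θ σ r R w q * pc G θ σ r R w b (G.dist w b) q.2)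

omit [Countable V] in
lemma Tm_nonneg (r : V) (R : Rule V) {C : ℝ} (hC : 0 ≤ C) (q : Dat V × Dat V) (b w : V) :
    0 ≤ Tm G θ σ r R C q b w := by
  refine add_nonneg (add_nonneg (mul_nonneg (by norm_num) (mul_nonneg (by positivity)
    (mul_nonneg (gam_nonneg r R b q) (pc_mem r R _ _ _ _).1))) (mul_nonneg hC ?_))
    (mul_nonneg (by positivity) (mul_nonneg (gam_nonneg r R w q) (pc_mem r R _ _ _ _).1))
  exact sum_nonneg fun i _ ↦ mul_nonneg (by positivity) (mul_nonneg (pc_mem r R _ _ _ _).1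
    (mul_nonneg (gam_nonneg r R _ q) (pc_mem r R _ _ _ _).1))

omit [Countable V] in
lemma sum_Tm_le (hG : G.IsTree) (hp : Par θ) (r : V) (R : Rule V) (K : ℕ) {C : ℝ} (hC : 0 ≤ C)
    (b : V) (q : Dat V × Dat V) :
    ∑ w ∈ ball G b K, Tm G θ σ r R C q b w ≤ major G θ σ r R K C b q := by
  simp only [Tm]
  rw [sum_add_distrib, sum_add_distrib, major]
  refine add_le_add (add_le_add (le_of_eq ?_) ?_) le_rfl
  · rw [SK, mul_sum, mul_sum]
    exact sum_congr rfl fun w _ ↦ by ring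
  · rw [← mul_sum]
    exact mul_le_mul_of_nonneg_left (regroup hG hp r R K b q) hC

omit [Countable V] in
/-- Pointwise bound of the discrepancy sums by the majorants. -/
lemma sums_le_major (hG : G.IsTree) (hp : Par θ) (hθ : 0 < θ) (r : V) {R : Rule V} (K : ℕ)
    {C : ℝ} (hCe : 24 / (1 - θ ^ 2) ^ 3 * (8 / (1 - θ) ^ 2) ^ 2 = C) (hC : 0 ≤ C)
    {f : Finset V → ℝ} {W B : Finset V} {o : V → V} (ho : ∀ w, o w ∈ B)
    (hK : ∀ w ∈ W, w ∈ ball G (o w) K) {G0 : V → Dat V → ℝ}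
    (hG0 : ∀ w, ∀ p : Dat V, Conv G θ σ r R p → cL G θ σ r R f w p =
        θ ^ G.dist (o w) w * piL G θ σ r R (o w) w (G.dist (o w) w) p * G0 w p ∧
      |G0 w p| ≤ 1 - ML G θ σ r R (fun S ↦ sg S (o w)) p ^ 2)
    (hdG : ∀ w, ∀ p p' : Dat V, (G0 w p - G0 w p') ^ 2 ≤ 12 * gam G θ σ r R (o w) (p, p'))
    {q : Dat V × Dat V} (hq : Conv G θ σ r R q.1 ∧ Conv G θ σ r R q.2) :
    ∑ w ∈ W, ((cL G θ σ r R f w q.1 - cL G θ σ r R f w q.2) ^ 2 +
        cL G θ σ r R f w q.2 ^ 2 *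
          (ML G θ σ r R (fun S ↦ sg S w) q.1 - ML G θ σ r R (fun S ↦ sg S w) q.2) ^ 2) ≤
      ∑ b ∈ B, major G θ σ r R K C b q := by
  refine le_trans ?_ (sum_le_sum fun b _ ↦ sum_Tm_le (σ := σ) hG hp r R K hC b q)
  calc _ ≤ ∑ w ∈ W, Tm G θ σ r R C q (o w) w := by
        refine sum_le_sum fun w _ ↦ ?_
        obtain ⟨h1, h2⟩ := term_le hG hp hθ r hq (hG0 w) (hdG w q.1 q.2)
        rw [hCe] at h1
        exact add_le_add h1 h2
    _ = ∑ b ∈ B, ∑ w ∈ W.filter (fun w ↦ o w = b), Tm G θ σ r R C q b w := by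
        rw [← sum_fiberwise_of_maps_to (fun w _ ↦ ho w)]
        exact sum_congr rfl fun b _ ↦ sum_congr rfl fun w hw ↦ by rw [(mem_filter.1 hw).2]
    _ ≤ ∑ b ∈ B, ∑ w ∈ ball G b K, Tm G θ σ r R C q b w := by
        refine sum_le_sum fun b _ ↦ sum_le_sum_of_subset_of_nonneg ?_
          fun w _ _ ↦ Tm_nonneg r R hC q b w
        intro w hw
        obtain ⟨hw1, hw2⟩ := mem_filter.1 hw
        exact hw2 ▸ hK w hw1

/-- If products along paths decay at rate `x`, the discrepancy sums are linear in the discrepancy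
with constant `(l + 1/x)²`, up to an error double exponentially small in `l`. -/
lemma later_bound (hG : G.IsTree) (hp : Par θ) {d : ℕ} (hd : 3 ≤ d)
    (hreg : G.IsRegularOfDegree d) (hb : ((d - 1 : ℕ) : ℝ) * θ ^ 2 = 1) (r : V) {C0 : ℝ}
    (hC0 : 0 ≤ C0) :
    ∃ C c0 : ℝ, 0 ≤ C ∧ 0 < c0 ∧ ∀ {τ x : ℝ}, 0 < x → x ≤ 1 →
      (∀ o w : V, ∫ ω, piL G θ σ r (rT σ τ) o w (G.dist o w) (vis σ ω) ∂Pm G θ r ≤
        C0 * Real.exp (-(x * G.dist o w))) →
      ∀ f, IsTgt G r f → ∀ (W : Finset V) (l : ℕ),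
        covSum G σ hp r τ f W ≤ C * ((l : ℝ) + 1 + 1 / x) ^ 2 * gamE G σ hp r τ +
          C * (1 / x) ^ 4 * Real.exp (-(c0 * ((d - 1 : ℕ) : ℝ) ^ l)) := by
  obtain ⟨C1, hC1, hbound⟩ := gam_SK_bound hG hp hd hreg hb (σ := σ) r hC0
  have hκ : 0 < 1 - θ ^ 2 := by nlinarith [hp.nonneg, hp.lt_one]
  have hθ : 0 < θ := by
    rcases hp.nonneg.eq_or_lt with h | h
    · rw [← h] at hb; simp at hb
    · exact h
  set C2 : ℝ := 24 / (1 - θ ^ 2) ^ 3 * (8 / (1 - θ) ^ 2) ^ 2
  have hC2 : 0 ≤ C2 := by positivity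
  refine ⟨((d : ℝ) + 1) * ((25 + C2 * d) * C1), 1 / 2, by positivity, by norm_num, ?_⟩
  intro τ x hx hx1 hdec f hf W l
  have := P2_prob (σ := σ) hG hp r
  set R := rT (V := V) σ τ
  have hR : RMeas R := rmeas_rT σ τ
  set K := W.sup (fun w ↦ G.dist r w) + 1
  choose o ho G0 hG0 hdG using fun w ↦ centre (σ := σ) hG hp r R hf w
  set B := insert r (G.neighborFinset r)
  have hK : ∀ w ∈ W, w ∈ ball G (o w) K := by
    intro w hw
    rw [mem_ball hG]
    have h1 : G.dist r w ≤ W.sup (fun w ↦ G.dist r w) := le_sup (f := fun w ↦ G.dist r w) hw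
    have h2 : G.dist (o w) r ≤ 1 := by
      rcases mem_insert.1 (ho w) with h | h
      · simp [h]
      · rw [SimpleGraph.dist_eq_one_iff_adj.2 ((SimpleGraph.mem_neighborFinset _ _ _).1 h).symm]
    have := hG.connected.dist_triangle (u := o w) (v := r) (w := w)
    omega
  have hf1 : ∀ S, |f S| ≤ 1 := by
    intro S
    rcases hf with rfl | ⟨y, -, rfl | rfl⟩
    · exact (sg_abs S r).le
    · exact (sg_abs S y).le
    · exact abs_sg2 r y S
  have bcL : ∀ w, BM (cL G θ σ r R f w) := fun w ↦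
    (bm_ML hp r hR (f := fun S ↦ f S * sg S w) (C := 1) fun S ↦ by
      rw [abs_mul, sg_abs, mul_one]; exact hf1 S).sub
      ((bm_ML hp r hR hf1).mul (bm_ML hp r hR fun S ↦ (sg_abs S w).le))
  have bT1 : ∀ w, BM fun q : Dat V × Dat V ↦
      (cL G θ σ r R f w q.1 - cL G θ σ r R f w q.2) ^ 2 := fun w ↦ by
    simp only [sq]
    exact ((bcL w).fst.sub (bcL w).snd).mul ((bcL w).fst.sub (bcL w).snd)
  have bT2 : ∀ w, BM fun q : Dat V × Dat V ↦ cL G θ σ r R f w q.2 ^ 2 *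
      (ML G θ σ r R (fun S ↦ sg S w) q.1 - ML G θ σ r R (fun S ↦ sg S w) q.2) ^ 2 := fun w ↦ by
    simp only [sq]
    exact ((bcL w).snd.mul (bcL w).snd).mul
      ((bm_diff hp r hR fun S ↦ (sg_abs S w).le).mul (bm_diff hp r hR fun S ↦ (sg_abs S w).le))
  have hpt : ∀ᵐ q ∂P2 G σ hp r,
      ∑ w ∈ W, ((cL G θ σ r R f w q.1 - cL G θ σ r R f w q.2) ^ 2 +
        cL G θ σ r R f w q.2 ^ 2 *
          (ML G θ σ r R (fun S ↦ sg S w) q.1 - ML G θ σ r R (fun S ↦ sg S w) q.2) ^ 2) ≤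
      ∑ b ∈ B, major G θ σ r R K C2 b q := by
    filter_upwards [ae_P2_conv (σ := σ) hG hp r hR] with q hq
    exact sums_le_major hG hp hθ r K rfl hC2 ho hK hG0 hdG hq
  set X := C1 * ((l : ℝ) + 1 + 1 / x) ^ 2 * gamE G σ hp r τ +
    C1 * (1 / x) ^ 4 * Real.exp (-(1 / 2 * ((d - 1 : ℕ) : ℝ) ^ l)) with hX
  have hX0 : 0 ≤ X := by
    have := gamE_nonneg (G := G) (σ := σ) hp r τ
    positivity
  have hcov : covSum G σ hp r τ f W ≤ ∑ b ∈ B, ∫ q, major G θ σ r R K C2 b q ∂P2 G σ hp r := by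
    rw [covSum, ← sum_add_distrib,
      ← integral_finsetSum _ fun b _ ↦ (bm_major hp r hR K C2 b).integrable _,
      sum_congr rfl fun w _ ↦ (integral_add ((bT1 w).integrable _) ((bT2 w).integrable _)).symm,
      ← integral_finsetSum _ fun w _ ↦ ((bT1 w).integrable _).fun_add ((bT2 w).integrable _)]
    exact integral_mono_ae ((BM.sum _ fun w _ ↦ (bT1 w).add (bT2 w)).integrable _)
      ((BM.sum _ fun b _ ↦ bm_major hp r hR K C2 b).integrable _) hpt
  have hone : ∀ b, ∫ q, major G θ σ r R K C2 b q ∂P2 G σ hp r ≤ (25 + C2 * d) * X := by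
    intro b
    refine (integral_major hG hp hreg r τ K C2 b).trans ?_
    have h2 : ∑ y ∈ G.neighborFinset b, ∫ q, gam G θ σ r R b q *
        (SK G θ σ r R K b q.1 * SK G θ σ r R K y q.2) ∂P2 G σ hp r ≤ (d : ℝ) * X := by
      refine (sum_le_sum fun y _ ↦ hbound hx hx1 hdec b b y K l).trans (le_of_eq ?_)
      rw [sum_const, SimpleGraph.card_neighborFinset_eq_degree, hreg.degree_eq b, nsmul_eq_mul]
    linarith [hbound hx hx1 hdec b b b K l, mul_le_mul_of_nonneg_left h2 hC2]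
  refine (hcov.trans (sum_le_sum fun b _ ↦ hone b)).trans ?_
  rw [sum_const, nsmul_eq_mul]
  have hB : (B.card : ℝ) ≤ (d : ℝ) + 1 := by
    have h := card_insert_le r (G.neighborFinset r)
    rw [SimpleGraph.card_neighborFinset_eq_degree, hreg.degree_eq r] at h
    exact_mod_cast h
  refine (mul_le_mul_of_nonneg_right hB (by positivity)).trans (le_of_eq ?_)
  rw [hX]
  ring

end Vale.Agent.P161.Crit
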