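import Mathlib
import Vale.Agent.P161.Crit.Room
import Vale.Agent.P161.Crit.Tail
import Vale.Agent.P161.Crit.Later

/-!
Decay of products along paths at small times, at the rate of the signal.
-/

namespace Vale.Agent.P161.Crit

open Finset MeasureTheory Filter

variable {V : Type*} [DecidableEq V] [Countable V] {G : SimpleGraph V} [G.LocallyFinite] {θ : ℝ}

/-- The truncated sum of squares along the path. -/
noncomputable def sqSum (G : SimpleGraph V) [G.LocallyFinite] (θ : ℝ) (r : V) (τ u : ℝ) (o w : V)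
    (p : Dat V) : ℝ :=
  ∑ i ∈ Ico (ell u) (G.dist o w),
    (1 - θ ^ 2) * min (aL G θ sch r (rT sch τ) (up G o w i) (up G o w (i + 1)) p ^ 2) (u ^ 4)

lemma abs_min_sq_sub {a b c : ℝ} (ha : |a| ≤ 1) (hb : |b| ≤ 1) :
    |min (a ^ 2) c - min (b ^ 2) c| ≤ 2 * |a - b| := by
  refine (abs_min_sub_min_le_max _ _ _ _).trans ?_
  rw [sub_self, abs_zero, max_eq_left (abs_nonneg _), show a ^ 2 - b ^ 2 = (a + b) * (a - b) by ring,
    abs_mul]
  exact mul_le_mul_of_nonneg_right ((abs_add_le _ _).trans (by linarith)) (abs_nonneg _)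

variable (hG : G.IsTree) (hp : Par θ) {d : ℕ} (hd : 3 ≤ d) (hreg : G.IsRegularOfDegree d)
  (hb : ((d - 1 : ℕ) : ℝ) * θ ^ 2 = 1)
include hG hp hd hreg hb

/-- Moments of infinite-volume side posteriors at small times. -/
lemma aL_moments : ∃ u1 : ℝ, 0 < u1 ∧ u1 ≤ 1 ∧ ∀ p : ℕ, ∃ C : ℝ, 0 ≤ C ∧
    ∀ {r x q : V} {u τ : ℝ}, G.Adj x q → 0 < u → u ≤ u1 → τ ≤ u ^ 32 →
      ∫ ω, aL G θ sch r (rT sch τ) x q (vis sch ω) ^ (2 * p) ∂Pm G θ r ≤ C * u ^ (12 * p) := by
  obtain ⟨u1, h10, h11, hmom⟩ := moments hG hp hd hreg hb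
  refine ⟨u1, h10, h11, fun p ↦ ?_⟩
  obtain ⟨C, hC, hmom⟩ := hmom p
  set K := (8 / (1 - θ) ^ 2) ^ (2 * p) * (3:ℝ) ^ (2 * p) with hK
  have hK0 : 0 ≤ K := by positivity
  refine ⟨3 * K * C, by positivity, fun {r x q u τ} hxq hu huu hτ ↦ ?_⟩
  have := Pm_prob (G := G) hp r
  have hR := rmeas_rT (V := V) sch τ
  obtain ⟨hsite, hpair⟩ := hmom (r := r) hu huu hτ
  set m1 := fun ω : Om V ↦ ML G θ sch r (rT sch τ) (fun S ↦ sg S x) (vis sch ω)
  set m2 := fun ω : Om V ↦ ML G θ sch r (rT sch τ) (fun S ↦ sg S q) (vis sch ω)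
  set m3 := fun ω : Om V ↦ ML G θ sch r (rT sch τ) (fun S ↦ sg S x * sg S q) (vis sch ω) - θ
  have b1 : BM fun ω ↦ m1 ω ^ (2 * p) :=
    bm_pow ((bm_ML hp r hR fun S ↦ (sg_abs S x).le).comp (measurable_vis sch)) _
  have b2 : BM fun ω ↦ m2 ω ^ (2 * p) :=
    bm_pow ((bm_ML hp r hR fun S ↦ (sg_abs S q).le).comp (measurable_vis sch)) _
  have b3 : BM fun ω ↦ m3 ω ^ (2 * p) :=
    bm_pow (((bm_ML hp r hR (abs_sg2 x q)).comp (measurable_vis sch)).sub (BM.const θ)) _
  refine (integral_mono_of_nonneg (.of_forall fun ω ↦ (even_two_mul p).pow_nonneg _)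
    (((BM.const K).mul ((b1.add b2).add b3)).integrable _)
    ((ae_conv (σ := sch) hG hp r hR).mono fun ω hω ↦ ?_)).trans ?_
  · have hev : Even (2 * p) := even_two_mul p
    have h := aL_small hω hG hp hxq
    set M := max |m1 ω| (max |m2 ω| |m3 ω|)
    have hM : |m1 ω| + |m2 ω| + |m3 ω| ≤ 3 * M := by
      have := le_max_left |m1 ω| (max |m2 ω| |m3 ω|)
      have := (le_max_left |m2 ω| |m3 ω|).trans (le_max_right |m1 ω| _)
      have := (le_max_right |m2 ω| |m3 ω|).trans (le_max_right |m1 ω| _)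
      linarith
    have hMp : M ^ (2 * p) ≤ m1 ω ^ (2 * p) + m2 ω ^ (2 * p) + m3 ω ^ (2 * p) := by
      have n1 := hev.pow_nonneg (m1 ω)
      have n2 := hev.pow_nonneg (m2 ω)
      have n3 := hev.pow_nonneg (m3 ω)
      rcases max_choice |m1 ω| (max |m2 ω| |m3 ω|) with e | e
      · simp only [M, e, hev.pow_abs]; linarith
      · rcases max_choice |m2 ω| |m3 ω| with e' | e' <;> simp only [M, e, e', hev.pow_abs] <;>
          linarith
    calc aL G θ sch r (rT sch τ) x q (vis sch ω) ^ (2 * p)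
        = |aL G θ sch r (rT sch τ) x q (vis sch ω)| ^ (2 * p) := (hev.pow_abs _).symm
      _ ≤ (8 / (1 - θ) ^ 2 * (3 * M)) ^ (2 * p) :=
          pow_le_pow_left₀ (abs_nonneg _) (h.trans (mul_le_mul_of_nonneg_left hM (by positivity))) _
      _ = K * M ^ (2 * p) := by rw [hK, mul_pow, mul_pow]; ring
      _ ≤ _ := mul_le_mul_of_nonneg_left hMp hK0
  · rw [integral_const_mul, integral_add ((b1.add b2).integrable _) (b3.integrable _),
      integral_add (b1.integrable _) (b2.integrable _)]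
    have := mul_le_mul_of_nonneg_left (add_le_add (add_le_add (hsite x) (hsite q)) (hpair x q hxq)) hK0
    linarith

/-- Exponential moments of the truncated sums of squares. -/
lemma decay_exp : ∃ u1 : ℝ, 0 < u1 ∧ u1 ≤ 1 ∧
    ∀ {r o w : V} {u τ lam : ℝ}, 0 < u → u ≤ u1 → u ^ 32 ≤ τ → τ ≤ 4 * u ^ 32 → 0 ≤ lam →
      lam ≤ 1 / (2 * u ^ 3) → 8 * ell u ≤ G.dist o w →
      ∫ ω, Real.exp (-(lam * sqSum G θ r τ u o w (vis sch ω))) ∂Pm G θ r ≤
        Real.exp (-(lam * cmu θ * u ^ 16 * G.dist o w / 4)) := by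
  obtain ⟨ua, ha0, ha1, hmom⟩ := aL_moments hG hp hd hreg hb
  obtain ⟨C, hC, hmom⟩ := hmom 2
  obtain ⟨hθ, hcmu⟩ := theta_pos hG hp hb
  have h1θ : 0 < 1 - θ := by linarith [hp.lt_one]
  have hκ : 0 < 1 - θ ^ 2 := by nlinarith [hp.nonneg, hp.lt_one]
  have hκ1 : 1 - θ ^ 2 ≤ 1 := by nlinarith [sq_nonneg θ]
  obtain ⟨us, hs0, hs1, hsmall⟩ := exists_small hp.nonneg hp.lt_one 40 h1θ
  set A := 8 * (C * 2 ^ 24 + 2) with hA
  have hA0 : 0 < A := by positivity
  refine ⟨min (min (ua / 2) us) (min (cmu θ / A) (cmu θ / 16)), ?_, ?_, ?_⟩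
  · exact lt_min (lt_min (by positivity) hs0) (lt_min (by positivity) (by positivity))
  · exact ((min_le_left _ _).trans (min_le_right _ _)).trans hs1
  intro r o w u τ lam hu huu hτ1 hτ2 hlam hlam2 hk
  have hua : 2 * u ≤ ua := by
    linarith [huu.trans ((min_le_left _ _).trans (min_le_left _ _))]
  have hus : u ≤ us := huu.trans ((min_le_left _ _).trans (min_le_right _ _))
  have huA : u ≤ cmu θ / A := huu.trans ((min_le_right _ _).trans (min_le_left _ _))
  have hu16 : u ≤ cmu θ / 16 := huu.trans ((min_le_right _ _).trans (min_le_right _ _))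
  have hu1 : u ≤ 1 := hus.trans hs1
  have := Pm_prob (G := G) hp r
  set l := ell u
  set k := G.dist o w with hkdef
  obtain ⟨hl1, -, hl2⟩ := ell_bounds hu hu1
  set e := θ ^ l / (1 - θ)
  have he0 : 0 ≤ e := div_nonneg (pow_nonneg hθ.le _) h1θ.le
  have he : e ≤ u ^ 40 := by
    rw [div_le_iff₀ h1θ, mul_comm]; exact hsmall u hu hus
  have hR := rmeas_rT (V := V) sch τ
  set sdi : ℕ → ℕ → Om V → ℝ := fun i n ω ↦ sd G θ sch (ball G r n)
    (past n (ball G r n) (rT sch τ) (vis sch ω).1) (vis sch ω).2 (up G o w i) (up G o w (i + 1))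
  set ali : ℕ → Om V → ℝ := fun i ω ↦
    aL G θ sch r (rT sch τ) (up G o w i) (up G o w (i + 1)) (vis sch ω)
  have hsdm : ∀ i n, Measurable (sdi i n) := fun i n ↦
    (measurable_sd (σ := sch) r hR n (up G o w i) (up G o w (i + 1))).comp (measurable_vis sch)
  have hlim : ∀ i < k, ∀ᵐ ω ∂Pm G θ r, Tendsto (fun n ↦ sdi i n ω) atTop (nhds (ali i ω)) :=
    fun i hi ↦ (ae_conv (σ := sch) hG hp r hR).mono fun ω hω ↦ tendsto_sd hω hG hp (up_adj hG hi)
  have hfour : ∀ i < k, ∀ᶠ n in atTop,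
      ∫ ω, sdi i n ω ^ 4 ∂Pm G θ r ≤ (C * 2 ^ 24 + 1) * u ^ 24 := by
    intro i hi
    refine (tendsto_int_pow (G := G) hp r (hsdm i)
      (fun n ω ↦ abs_sd hp _ _ _ _ _) (hlim i hi) 4).eventually (eventually_le_nhds ?_)
    refine lt_of_le_of_lt (hmom (u := 2 * u) (τ := τ) (up_adj hG hi) (by positivity) hua ?_) ?_
    · refine hτ2.trans ?_
      rw [mul_pow]
      exact mul_le_mul_of_nonneg_right (by norm_num) (by positivity)
    · rw [show 12 * 2 = 24 by norm_num, mul_pow]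
      nlinarith [pow_pos hu 24]
  have hlimI : Tendsto (fun n ↦ ∫ ω, Real.exp (-(lam * ∑ i ∈ Ico l k,
      (1 - θ ^ 2) * min (sdi i n ω ^ 2) (u ^ 4))) ∂Pm G θ r) atTop
      (nhds (∫ ω, Real.exp (-(lam * sqSum G θ r τ u o w (vis sch ω))) ∂Pm G θ r)) := by
    refine tendsto_integral_of_dominated_convergence (fun _ ↦ (1:ℝ))
      (fun n ↦ ((Finset.measurable_sum _ fun i _ ↦
        (((hsdm i n).pow_const 2).min measurable_const).const_mul _).const_mul
          _).neg.exp.aestronglyMeasurable) (integrable_const _)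
      (fun n ↦ .of_forall fun ω ↦ ?_) ?_
    · rw [Real.norm_eq_abs, abs_of_pos (Real.exp_pos _), Real.exp_le_one_iff, neg_nonpos]
      exact mul_nonneg hlam (sum_nonneg fun i _ ↦
        mul_nonneg hκ.le (le_min (sq_nonneg _) (by positivity)))
    · filter_upwards [ae_conv (σ := sch) hG hp r hR] with ω hω
      refine (Real.continuous_exp.tendsto _).comp
        ((tendsto_finsetSum _ fun i hi ↦ ?_).const_mul lam).neg
      exact (((tendsto_sd hω hG hp (up_adj hG (Finset.mem_Ico.1 hi).2)).pow 2).min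
        tendsto_const_nhds).const_mul _
  refine le_of_tendsto hlimI ?_
  filter_upwards [(eventually_all_finset (Ico l k)).2 fun i hi ↦ hfour i (Finset.mem_Ico.1 hi).2,
    eventually_ge_atTop (G.dist r o + k + Kr u + 2)] with n h4 hn
  set D := ball G r n
  have ho : o ∈ D := (mem_ball hG).2 (by omega)
  have hw : w ∈ D := by
    refine (mem_ball hG).2 ?_
    have := hG.connected.dist_triangle (u := r) (v := o) (w := w)
    omega
  have hD := sub_ball hG r n
  set tai : ℕ → Om V → ℝ := fun i ω ↦ ta G θ sch n D (rT sch τ) o w l i (vis sch ω)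
  have hclose : ∀ i, l ≤ i → i < k → ∀ ω, |sdi i n ω - tai i ω| ≤ e := fun i hi hik ω ↦
    abs_sd_sub_ta hG hD ho hw hl1 hi hik hp n (rT sch τ) (vis sch ω)
  set μ := cmu θ * u ^ 16
  have hμ : ∀ i, l ≤ i → i < k → μ ≤ ∫ ω,
      min ((1 - θ ^ 2) * tai i ω ^ 2) ((1 - θ ^ 2) * u ^ 4) ∂Pm G θ r := by
    intro i hi hik
    have hlow := ta_lower hG hp hd hreg hb (r := r) ho hw hl1 hi hik hu hu1 hτ1 (n := n) (by
      have h1 := hG.connected.dist_triangle (u := r) (v := o) (w := up G o w i)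
      rw [dist_up hG i hik.le] at h1
      omega)
    have bt : BM (tai i) := (bm_ta (σ := sch) hp n hR o w l i).comp (measurable_vis sch)
    have bs : BM (sdi i n) := ⟨hsdm i n, 1, fun ω ↦ abs_sd hp _ _ _ _ _⟩
    have bmin : BM fun ω ↦ min ((1 - θ ^ 2) * tai i ω ^ 2) ((1 - θ ^ 2) * u ^ 4) :=
      ⟨(((bt.1.pow_const 2).const_mul _)).min measurable_const, 1, fun ω ↦ by
        rw [abs_of_nonneg (le_min (mul_nonneg hκ.le (sq_nonneg _))
          (mul_nonneg hκ.le (by positivity)))]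
        refine (min_le_right _ _).trans (mul_le_one₀ hκ1 (by positivity) (pow_le_one₀ hu.le hu1))⟩
    have hpt : ∀ ω, (1 - θ ^ 2) * tai i ω ^ 2 ≤
        min ((1 - θ ^ 2) * tai i ω ^ 2) ((1 - θ ^ 2) * u ^ 4) +
          8 / u ^ 4 * (sdi i n ω ^ 4 + u ^ 24) := by
      intro ω
      have h4 : tai i ω ^ 4 ≤ 8 * (sdi i n ω ^ 4 + u ^ 24) := by
        have habs : |tai i ω| ≤ |sdi i n ω| + u ^ 6 := by
          have := hclose i hi hik ω
          rw [abs_sub_comm] at this
          have := abs_sub_abs_le_abs_sub (tai i ω) (sdi i n ω)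
          have := he.trans (pow_le_pow_of_le_one hu.le hu1 (show 6 ≤ 40 by norm_num))
          linarith
        calc tai i ω ^ 4 = |tai i ω| ^ 4 := ((by decide : Even 4).pow_abs _).symm
          _ ≤ (|sdi i n ω| + u ^ 6) ^ 4 := pow_le_pow_left₀ (abs_nonneg _) habs 4
          _ ≤ 2 ^ (4 - 1) * (|sdi i n ω| ^ 4 + (u ^ 6) ^ 4) :=
              add_pow_le (abs_nonneg _) (by positivity) 4
          _ = _ := by rw [(by decide : Even 4).pow_abs]; ring
      rcases le_total (tai i ω ^ 2) (u ^ 4) with h | h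
      · rw [min_eq_left (mul_le_mul_of_nonneg_left h hκ.le)]
        have : 0 ≤ 8 / u ^ 4 * (sdi i n ω ^ 4 + u ^ 24) := by positivity
        linarith
      · rw [min_eq_right (mul_le_mul_of_nonneg_left h hκ.le)]
        refine le_add_of_nonneg_of_le (mul_nonneg hκ.le (by positivity)) ?_
        rw [div_mul_eq_mul_div, le_div_iff₀ (by positivity)]
        calc (1 - θ ^ 2) * tai i ω ^ 2 * u ^ 4 ≤ 1 * tai i ω ^ 2 * tai i ω ^ 2 := by gcongr
          _ = tai i ω ^ 4 := by ring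
          _ ≤ _ := h4
    have hint := integral_mono (((BM.const (1 - θ ^ 2)).mul (bm_pow bt 2)).integrable (Pm G θ r))
      ((bmin.add ((BM.const (8 / u ^ 4)).mul ((bm_pow bs 4).add (BM.const (u ^ 24))))).integrable _)
      hpt
    rw [integral_add (bmin.integrable _)
        (((BM.const (8 / u ^ 4)).mul ((bm_pow bs 4).add (BM.const (u ^ 24)))).integrable _),
      integral_const_mul (8 / u ^ 4),
      integral_add ((bm_pow bs 4).integrable _) (integrable_const _), integral_const] at hint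
    simp only [probReal_univ, one_smul] at hint
    have h4' := h4 i (Finset.mem_Ico.2 ⟨hi, hik⟩)
    have herr : 8 / u ^ 4 * (∫ ω, sdi i n ω ^ 4 ∂Pm G θ r + u ^ 24) ≤ μ := by
      refine (mul_le_mul_of_nonneg_left (add_le_add h4' le_rfl) (by positivity)).trans ?_
      have h20 : A * u ^ 4 ≤ cmu θ := by
        have := mul_le_mul_of_nonneg_left huA hA0.le
        rw [mul_div_cancel₀ _ hA0.ne'] at this
        refine le_trans (mul_le_mul_of_nonneg_left ?_ hA0.le) this
        simpa using pow_le_pow_of_le_one hu.le hu1 (show 1 ≤ 4 by norm_num)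
      calc 8 / u ^ 4 * ((C * 2 ^ 24 + 1) * u ^ 24 + u ^ 24) = A * u ^ 4 * u ^ 16 := by
            rw [hA]; field_simp; ring
        _ ≤ _ := mul_le_mul_of_nonneg_right h20 (by positivity)
    have : 2 * μ ≤ ∫ ω, (1 - θ ^ 2) * tai i ω ^ 2 ∂Pm G θ r := by
      simpa only [μ, tai, ← mul_assoc] using hlow
    linarith
  have hlτ : lam * l * ((1 - θ ^ 2) * u ^ 4) ≤ 1 := by
    calc lam * l * ((1 - θ ^ 2) * u ^ 4) ≤ 1 / (2 * u ^ 3) * (2 / u) * (1 * u ^ 4) := by gcongr
      _ = 1 := by field_simp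
  have hdec := decay_ta (σ := sch) hG hp hD ho hw hR (rlocal_rT sch τ) (n := n) (r := r) (l := l)
    (k := k) hl1 le_rfl (τr := (1 - θ ^ 2) * u ^ 4) (mul_nonneg hκ.le (by positivity)) hlam hlτ
    (μ := μ) (by positivity) fun i hi hik ↦ hμ i hi hik
  have hpt : ∀ ω, Real.exp (-(lam * ∑ i ∈ Ico l k, (1 - θ ^ 2) * min (sdi i n ω ^ 2) (u ^ 4))) ≤
      Real.exp (lam * (k * (2 * e))) * Real.exp (-(lam * ∑ i ∈ Ico l k,
        min ((1 - θ ^ 2) * tai i ω ^ 2) ((1 - θ ^ 2) * u ^ 4))) := by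
    intro ω
    rw [← Real.exp_add]
    refine Real.exp_le_exp.2 ?_
    have h : ∀ i ∈ Ico l k, min ((1 - θ ^ 2) * tai i ω ^ 2) ((1 - θ ^ 2) * u ^ 4) ≤
        (1 - θ ^ 2) * min (sdi i n ω ^ 2) (u ^ 4) + 2 * e := by
      intro i hi
      obtain ⟨hi1, hi2⟩ := Finset.mem_Ico.1 hi
      rw [← mul_min_of_nonneg _ _ hκ.le]
      have h1 := abs_min_sq_sub (c := u ^ 4) (abs_ta (G := G) (σ := sch) hp (D := D) n (rT sch τ) o w l i
        (vis sch ω)) (abs_sd (G := G) (σ := sch) hp D (past n D (rT sch τ) (vis sch ω).1)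
        (vis sch ω).2 (up G o w i) (up G o w (i + 1)))
      have h2 : |tai i ω - sdi i n ω| ≤ e := by rw [abs_sub_comm]; exact hclose i hi1 hi2 ω
      have h3 : |min (tai i ω ^ 2) (u ^ 4) - min (sdi i n ω ^ 2) (u ^ 4)| ≤ 2 * e :=
        h1.trans (mul_le_mul_of_nonneg_left h2 zero_le_two)
      nlinarith [(abs_le.1 h3).2]
    have hs := sum_le_sum h
    rw [sum_add_distrib, sum_const, nsmul_eq_mul, Nat.card_Ico] at hs
    have hk' : ((k - l : ℕ) : ℝ) * (2 * e) ≤ k * (2 * e) :=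
      mul_le_mul_of_nonneg_right (by exact_mod_cast Nat.sub_le k l) (by positivity)
    nlinarith [mul_le_mul_of_nonneg_left (hs.trans (add_le_add le_rfl hk')) hlam]
  have hbe : BM fun ω : Om V ↦ Real.exp (-(lam * ∑ i ∈ Ico l k,
      min ((1 - θ ^ 2) * tai i ω ^ 2) ((1 - θ ^ 2) * u ^ 4))) := by
    refine ⟨((Finset.measurable_sum _ fun i _ ↦
      ((((bm_ta (σ := sch) hp n hR o w l i).1.comp (measurable_vis sch)).pow_const 2).const_mul
        _).min measurable_const).const_mul _).neg.exp, 1, fun ω ↦ ?_⟩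
    rw [abs_of_pos (Real.exp_pos _), Real.exp_le_one_iff, neg_nonpos]
    exact mul_nonneg hlam (sum_nonneg fun i _ ↦
      le_min (mul_nonneg hκ.le (sq_nonneg _)) (mul_nonneg hκ.le (by positivity)))
  refine (integral_mono_of_nonneg (.of_forall fun ω ↦ (Real.exp_pos _).le)
    (((BM.const _).mul hbe).integrable _) (.of_forall hpt)).trans ?_
  rw [integral_const_mul]
  refine (mul_le_mul_of_nonneg_left hdec (Real.exp_pos _).le).trans ?_
  rw [← Real.exp_add]
  refine Real.exp_le_exp.2 ?_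
  have h2e : 16 * e ≤ μ := by
    have h1 : 16 * u ^ 40 ≤ cmu θ * u ^ 16 := by
      have : 16 * u ^ 24 ≤ cmu θ := by
        have := pow_le_pow_of_le_one hu.le hu1 (show 1 ≤ 24 by norm_num)
        rw [pow_one] at this; linarith
      calc 16 * u ^ 40 = 16 * u ^ 24 * u ^ 16 := by ring
        _ ≤ _ := mul_le_mul_of_nonneg_right this (by positivity)
    linarith
  have hkl : 8 * (l : ℝ) ≤ k := by exact_mod_cast hk
  have hk0 : (0:ℝ) ≤ k := Nat.cast_nonneg _
  have e1 := mul_le_mul_of_nonneg_left h2e (mul_nonneg hlam hk0)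
  have e2 := mul_le_mul_of_nonneg_left hkl (mul_nonneg hlam (show 0 ≤ μ by positivity))
  simp only [μ] at e1 e2 ⊢
  linarith

omit hd hreg hb [Countable V] in
/-- Products along paths are dominated by the truncated sums. -/
lemma piL_le_exp {r o w : V} {τ u : ℝ} {p : Dat V} (hc : Conv G θ sch r (rT sch τ) p) :
    piL G θ sch r (rT sch τ) o w (G.dist o w) p ≤ Real.exp (-(sqSum G θ r τ u o w p)) := by
  have hκ : 0 ≤ 1 - θ ^ 2 := by nlinarith [hp.nonneg, hp.lt_one]
  have ha : ∀ i < G.dist o w,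
      |aL G θ sch r (rT sch τ) (up G o w i) (up G o w (i + 1)) p| ≤ 1 := fun i hi ↦
    abs_aL hc hG hp (up_adj hG hi)
  rw [piL, sqSum, ← sum_neg_distrib, Real.exp_sum]
  refine le_trans ?_ (prod_le_prod (s := Ico (ell u) (G.dist o w))
    (fun i hi ↦ psi_nonneg hp (ha i (Finset.mem_Ico.1 hi).2)) fun i hi ↦
      (psi_le_exp hp (ha i (Finset.mem_Ico.1 hi).2)).trans (Real.exp_le_exp.2 (neg_le_neg
        (mul_le_mul_of_nonneg_left (min_le_left _ _) hκ))))
  have hsub : Ico (ell u) (G.dist o w) ⊆ range (G.dist o w) := fun i hi ↦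
    Finset.mem_range.2 (Finset.mem_Ico.1 hi).2
  rw [← prod_sdiff hsub]
  exact mul_le_of_le_one_left (prod_nonneg fun i hi ↦ psi_nonneg hp (ha i (Finset.mem_Ico.1 hi).2))
    (prod_le_one (fun i hi ↦ psi_nonneg hp (ha i (Finset.mem_range.1 (mem_sdiff.1 hi).1)))
      fun i hi ↦ psi_le_one hp (ha i (Finset.mem_range.1 (mem_sdiff.1 hi).1)))

/-- Products along paths decay at the rate `u ^ 16` at times of order `u ^ 32`. -/
lemma pi_strong : ∃ u1 : ℝ, 0 < u1 ∧ u1 ≤ 1 ∧
    ∀ {r o w : V} {u τ : ℝ}, 0 < u → u ≤ u1 → u ^ 32 ≤ τ → τ ≤ 4 * u ^ 32 →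
      ∫ ω, piL G θ sch r (rT sch τ) o w (G.dist o w) (vis sch ω) ∂Pm G θ r ≤
        Real.exp (4 * cmu θ) * Real.exp (-(cmu θ / 4 * u ^ 16 * G.dist o w)) := by
  obtain ⟨u1, h10, h11, hdec⟩ := decay_exp hG hp hd hreg hb
  obtain ⟨hθ, hcmu⟩ := theta_pos hG hp hb
  refine ⟨min u1 (1 / 2), by positivity, (min_le_left _ _).trans h11,
    fun {r o w u τ} hu huu hτ1 hτ2 ↦ ?_⟩
  have := Pm_prob (G := G) hp r
  have hu1 : u ≤ 1 := huu.trans ((min_le_left _ _).trans h11)
  set k := G.dist o w with hk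
  have hconv := ae_conv (σ := sch) hG hp r (rmeas_rT (V := V) sch τ)
  have hbe : BM fun p : Dat V ↦ Real.exp (-(1 * sqSum G θ r τ u o w p)) := by
    refine ⟨((Finset.measurable_sum _ fun i _ ↦ (((measurable_aL (σ := sch) r
      (rmeas_rT (V := V) sch τ) _ _).pow_const 2).min measurable_const).const_mul _).const_mul
        _).neg.exp, 1, fun p ↦ ?_⟩
    rw [abs_of_pos (Real.exp_pos _), Real.exp_le_one_iff, neg_nonpos, one_mul]
    exact sum_nonneg fun i _ ↦ mul_nonneg (by nlinarith [hp.nonneg, hp.lt_one])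
      (le_min (sq_nonneg _) (by positivity))
  rcases le_or_gt (8 * ell u) k with hkl | hkl
  · refine (integral_mono_of_nonneg (hconv.mono fun ω hω ↦ (piL_mem hω hG hp o w le_rfl).1)
      ((hbe.comp (measurable_vis sch)).integrable _)
      (hconv.mono fun ω hω ↦ (piL_le_exp (u := u) hG hp hω).trans (le_of_eq (by simp only [one_mul])))).trans ?_
    refine (hdec hu (huu.trans (min_le_left _ _)) hτ1 hτ2 zero_le_one ?_ hkl).trans ?_
    · rw [le_div_iff₀ (by positivity)]
      have : u ^ 3 ≤ u := by simpa using pow_le_pow_of_le_one hu.le hu1 (show 1 ≤ 3 by norm_num)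
      linarith [huu.trans (min_le_right _ _)]
    · refine le_trans (Real.exp_le_exp.2 (le_of_eq (by ring)))
        (le_mul_of_one_le_left (Real.exp_pos _).le (Real.one_le_exp (by positivity)))
  · refine le_trans (integral_mono_of_nonneg (hconv.mono fun ω hω ↦ (piL_mem hω hG hp o w le_rfl).1)
      (integrable_const 1) (hconv.mono fun ω hω ↦ (piL_mem hω hG hp o w le_rfl).2)) ?_
    simp only [integral_const, probReal_univ, one_smul]
    rw [← Real.exp_add]
    refine Real.one_le_exp ?_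
    have h1 : (k : ℝ) ≤ 16 / u := by
      have := (ell_bounds hu hu1).2.2
      have : (k : ℝ) ≤ 8 * (ell u : ℝ) := by exact_mod_cast hkl.le
      rw [show (16:ℝ) / u = 8 * (2 / u) by ring]; linarith
    have h2 : u ^ 16 * (k : ℝ) ≤ 16 := by
      refine (mul_le_mul_of_nonneg_left h1 (by positivity)).trans ?_
      rw [← mul_div_assoc, div_le_iff₀ hu]
      have : u ^ 16 ≤ u := by simpa using pow_le_pow_of_le_one hu.le hu1 (show 1 ≤ 16 by norm_num)
      linarith
    nlinarith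

/-- Products along paths decay, uniformly in the endpoints, away from time zero. -/
lemma pi_late : ∃ u1 : ℝ, 0 < u1 ∧ u1 ≤ 1 ∧ ∀ u, 0 < u → u ≤ u1 →
    ∀ {r o w : V} {τ : ℝ}, u ^ 32 ≤ τ →
      ∫ ω, piL G θ sch r (rT sch τ) o w (G.dist o w) (vis sch ω) ∂Pm G θ r ≤
        Real.exp (cmu θ / 64 * u ^ 17 * (8 * Kc u + 1 : ℕ)) *
          Real.exp (-(cmu θ / 64 * u ^ 17 * G.dist o w)) := by
  obtain ⟨u1, h10, h11, hdec⟩ := pi_decay_weak hG hp hd hreg hb
  obtain ⟨hθ, hcmu⟩ := theta_pos hG hp hb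
  refine ⟨u1, h10, h11, fun u hu huu {r o w τ} hτ ↦ ?_⟩
  have := Pm_prob (G := G) hp r
  have hR := rmeas_rT (V := V) sch τ
  have hconv := ae_conv (σ := sch) hG hp r hR
  set k := G.dist o w with hk
  rcases le_or_gt k (8 * Kc u) with hkK | hkK
  · refine le_trans (integral_mono_of_nonneg (hconv.mono fun ω hω ↦ (piL_mem hω hG hp o w le_rfl).1)
      (integrable_const 1) (hconv.mono fun ω hω ↦ (piL_mem hω hG hp o w le_rfl).2)) ?_
    simp only [integral_const, probReal_univ, one_smul]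
    rw [← Real.exp_add]
    refine Real.one_le_exp ?_
    have : (k : ℝ) ≤ ((8 * Kc u + 1 : ℕ) : ℝ) := by exact_mod_cast (by omega : k ≤ 8 * Kc u + 1)
    nlinarith [mul_le_mul_of_nonneg_left this (show 0 ≤ cmu θ / 64 * u ^ 17 by positivity)]
  · obtain ⟨g, hg, -⟩ := exists_aut hG hreg (o := r) (v := r) (o' := o) (v' := o) (by simp)
    set w' := g.symm w with hw'
    have hgw : g w' = w := g.apply_symm_apply w
    have hd' : G.dist r w' = k := by rw [hk, ← hg, ← hgw, iso_dist g hG]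
    have hmv : ∫ ω, piL G θ sch r (rT sch τ) o w k (vis sch ω) ∂Pm G θ r =
        ∫ ω, piL G θ sch r (rT sch τ) r w' k (vis sch ω) ∂Pm G θ r := by
      have hinv := Pm_invariant hG hp r g
      conv_lhs => rw [← hinv.map_eq]
      rw [integral_map hinv.measurable.aemeasurable
        (f := fun ω : Om V ↦ piL G θ sch r (rT sch τ) o w k (vis sch ω))
        ((measurable_piL (G := G) (θ := θ) (σ := sch) r hR o w k).comp
          (measurable_vis sch)).aestronglyMeasurable]
      have k1 := ae_all_iff.2 fun a : V ↦ ML_move (σ := sch) hG hp r g hR hR (rmap_rT g τ)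
        (f := fun S ↦ sg S a) (f' := fun S ↦ sg S (g a)) (C := 1) (fun S ↦ (sg_abs S a).le)
        (fun S ↦ (sg_abs S (g a)).le) (loc_sg a) (by rw [map_singleton']; exact loc_sg (g a))
        (fun S ↦ sg_map g S a)
      have k2 := ae_all_iff.2 fun a : V × V ↦ ML_move (σ := sch) hG hp r g hR hR (rmap_rT g τ)
        (f := fun S ↦ sg S a.1 * sg S a.2) (f' := fun S ↦ sg S (g a.1) * sg S (g a.2)) (C := 1)
        (abs_sg2 a.1 a.2) (abs_sg2 (g a.1) (g a.2)) (loc_sg_mul a.1 a.2)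
        (by rw [map_insert, map_singleton]; exact loc_sg_mul (g a.1) (g a.2))
        (fun S ↦ by simp only [sg_map])
      refine integral_congr_ae ?_
      filter_upwards [k1, k2, hconv] with ω h1 h2 hω
      rw [vis_move, ← hg, ← hgw]
      refine prod_congr rfl fun i hi ↦ ?_
      have hi' : i < G.dist r w' := by rw [hd']; exact Finset.mem_range.1 hi
      rw [← up_map hG g i hi'.le, ← up_map hG g (i + 1) hi']
      simp only [aL, h1]
      rw [h2 (up G r w' i, up G r w' (i + 1))]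
    rw [hmv]
    refine le_of_tendsto (tendsto_integral_of_dominated_convergence (fun _ ↦ (1:ℝ))
      (F := fun n ω ↦ prodPsi G θ sch (ball G r n) (past n (ball G r n) (rT sch τ) (vis sch ω).1)
        (vis sch ω).2 r w' k) ?_ (integrable_const _) (fun n ↦ .of_forall fun ω ↦ ?_)
      (hconv.mono fun ω hω ↦ tendsto_prodPsi hω hG hp r w' hd'.ge)) ?_
    · intro n
      refine (Finset.measurable_prod _ fun i _ ↦ ?_).aestronglyMeasurable
      have := (measurable_sd (G := G) (θ := θ) (σ := sch) r hR n (up G r w' i) (up G r w' (i + 1))).comp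
        (measurable_vis sch)
      simp only [psi]
      fun_prop
    · obtain ⟨q0, q1⟩ := prodPsi_mem (G := G) (σ := sch) hp (ball G r n)
        (past n (ball G r n) (rT sch τ) (vis sch ω).1) (vis sch ω).2 r w' k
      rwa [Real.norm_eq_abs, abs_of_nonneg q0]
    · filter_upwards [eventually_ge_atTop k] with n hn
      have h := hdec (r := r) (o := r) (w := w') (n := n) hu huu hτ ((mem_ball hG).2 (by simp))
        ((mem_ball hG).2 (by omega)) (by rw [hd']; simp; omega)
      rw [hd'] at h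
      exact h.trans (le_mul_of_one_le_left (Real.exp_pos _).le (Real.one_le_exp (by positivity)))

end Vale.Agent.P161.Crit
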