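import Mathlib
import Vale.Agent.P161.Crit.Strong
import Vale.Agent.P161.Crit.Decor

/-!
The logarithm of a product along a path is nearly linear in weakly dependent terms.
-/

namespace Vale.Agent.P161.Crit

open Finset MeasureTheory Filter

/-- Truncation at `u ^ 2`. -/
noncomputable def clu (u a : ℝ) : ℝ := max (-(u ^ 2)) (min (u ^ 2) a)

/-- The truncated logarithmic attenuation. -/
noncomputable def Acl (θ u a : ℝ) : ℝ := -Real.log (psi θ (clu u a))

lemma abs_clu_le (u a : ℝ) : |clu u a| ≤ u ^ 2 := by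
  have := sq_nonneg u
  rw [clu, abs_le]
  exact ⟨le_max_left _ _, max_le (by linarith) (min_le_left _ _)⟩

lemma abs_clu_sub (u a b : ℝ) : |clu u a - clu u b| ≤ |a - b| := by
  unfold clu
  refine (abs_max_sub_max_le_max _ _ _ _).trans ?_
  rw [sub_self, abs_zero]
  refine max_le (abs_nonneg _) ((abs_min_sub_min_le_max _ _ _ _).trans ?_)
  rw [sub_self, abs_zero]
  exact max_le (abs_nonneg _) le_rfl

lemma clu_neg (u a : ℝ) : clu u (-a) = -clu u a := by
  have := sq_nonneg u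
  simp only [clu, max_def, min_def]
  split_ifs <;> linarith

lemma clu_of_le {u a : ℝ} (h : |a| ≤ u ^ 2) : clu u a = a := by
  obtain ⟨h1, h2⟩ := abs_le.1 h
  rw [clu, min_eq_right h2, max_eq_right h1]

lemma clu_sq (u a : ℝ) : clu u a ^ 2 = min (a ^ 2) (u ^ 4) := by
  have hu := sq_nonneg u
  have e : u ^ 4 = (u ^ 2) ^ 2 := by ring
  simp only [clu, max_def, min_def]
  split_ifs <;> nlinarith

variable {θ : ℝ}

lemma clu_small {u : ℝ} (h0 : 0 ≤ u) (h1 : u ≤ 1 / 2) (a : ℝ) : |clu u a| ≤ 1 / 4 :=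
  (abs_clu_le u a).trans (by nlinarith)

lemma psi_half (hp : Par θ) {a : ℝ} (ha : |a| ≤ 1 / 4) : 1 / 2 ≤ psi θ a := by
  have h : a ^ 2 ≤ 1 / 16 := by rw [← sq_abs]; nlinarith [abs_nonneg a]
  rw [psi, le_div_iff₀ (psi_den_pos hp (by linarith))]
  nlinarith [mul_nonneg (sq_nonneg θ) (sq_nonneg a)]

lemma Acl_sub (hp : Par θ) {u : ℝ} (h0 : 0 ≤ u) (h1 : u ≤ 1 / 2) (a b : ℝ) :
    |Acl θ u a - Acl θ u b| ≤ 4 / (1 - θ ^ 2) * u ^ 2 * |a - b| := by
  have ha := clu_small h0 h1 a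
  have hb := clu_small h0 h1 b
  set x := psi θ (clu u a)
  set y := psi θ (clu u b)
  have hx : 1 / 2 ≤ x := psi_half hp ha
  have hy : 1 / 2 ≤ y := psi_half hp hb
  have hlog : ∀ x y : ℝ, 1 / 2 ≤ x → 1 / 2 ≤ y → Real.log x - Real.log y ≤ 2 * |x - y| := by
    intro x y hx hy
    rw [← Real.log_div (by linarith) (by linarith)]
    refine (Real.log_le_sub_one_of_pos (by positivity)).trans ?_
    rw [div_sub_one (by linarith), div_le_iff₀ (by linarith)]
    nlinarith [abs_nonneg (x - y), le_abs_self (x - y)]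
  have hκ : 0 < 1 - θ ^ 2 := by nlinarith [hp.nonneg, hp.lt_one]
  have key : |Acl θ u a - Acl θ u b| ≤ 2 * |x - y| := by
    rw [Acl, Acl, abs_le]
    have h2 := hlog y x hy hx
    rw [abs_sub_comm] at h2
    constructor <;> linarith [hlog x y hx hy]
  refine key.trans ?_
  calc 2 * |x - y|
      ≤ 2 * (1 / (1 - θ ^ 2) * ((|clu u a| + |clu u b|) * |clu u a - clu u b|)) :=
        mul_le_mul_of_nonneg_left (abs_psi_sub hp (by linarith) (by linarith)) zero_le_two
    _ ≤ 2 * (1 / (1 - θ ^ 2) * ((u ^ 2 + u ^ 2) * |a - b|)) := by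
        refine mul_le_mul_of_nonneg_left (mul_le_mul_of_nonneg_left ?_ (by positivity)) zero_le_two
        exact mul_le_mul (add_le_add (abs_clu_le _ _) (abs_clu_le _ _)) (abs_clu_sub _ _ _)
          (abs_nonneg _) (by positivity)
    _ = _ := by ring

lemma Acl_bound (hp : Par θ) {u : ℝ} (h0 : 0 ≤ u) (h1 : u ≤ 1 / 2) (a : ℝ) :
    (1 - θ ^ 2) * min (a ^ 2) (u ^ 4) ≤ Acl θ u a ∧ |Acl θ u a| ≤ 1 := by
  have ha := clu_small h0 h1 a
  have hx := psi_half hp ha
  have hup := psi_le_exp hp (show |clu u a| ≤ 1 by linarith)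
  rw [clu_sq] at hup
  have h := Real.log_le_log (by linarith) hup
  rw [Real.log_exp] at h
  refine ⟨by rw [Acl]; linarith, ?_⟩
  have hlo : 1 - (psi θ (clu u a))⁻¹ ≤ Real.log (psi θ (clu u a)) :=
    Real.one_sub_inv_le_log_of_pos (by linarith)
  have hinv : (psi θ (clu u a))⁻¹ ≤ 2 := by rw [inv_le_comm₀ (by linarith) two_pos]; linarith
  have h0' : 0 ≤ (1 - θ ^ 2) * min (a ^ 2) (u ^ 4) :=
    mul_nonneg (by nlinarith [hp.nonneg, hp.lt_one]) (le_min (sq_nonneg a) (by positivity))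
  rw [Acl, abs_le]
  constructor <;> linarith

lemma Acl_neg (u a : ℝ) : Acl θ u (-a) = Acl θ u a := by
  simp only [Acl, psi, clu_neg, neg_sq]

lemma measurable_Acl (u : ℝ) : Measurable (Acl θ u) := by
  unfold Acl psi clu
  fun_prop

lemma exp_neg_Acl (hp : Par θ) {u a : ℝ} (h1 : u ^ 2 ≤ 1 / 4) (h : |a| ≤ u ^ 2) :
    Real.exp (-Acl θ u a) = psi θ a := by
  rw [Acl, neg_neg, clu_of_le h, Real.exp_log]
  linarith [psi_half hp (h.trans h1)]

variable {V : Type*} [DecidableEq V] [Countable V] {G : SimpleGraph V} [G.LocallyFinite]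

/-- The truncated logarithm of the product along a path. -/
noncomputable def LL (G : SimpleGraph V) [G.LocallyFinite] (θ : ℝ) (r : V) (τ u : ℝ) (o w : V)
    (p : Dat V) : ℝ :=
  ∑ i ∈ range (G.dist o w),
    Acl θ u (aL G θ sch r (rT sch τ) (up G o w i) (up G o w (i + 1)) p)

variable (hG : G.IsTree) (hp : Par θ) {d : ℕ} (hd : 3 ≤ d) (hreg : G.IsRegularOfDegree d)
  (hb : ((d - 1 : ℕ) : ℝ) * θ ^ 2 = 1)
include hG hp hd hreg hb

/-- Two separated terms are nearly uncorrelated in the discrepancy. -/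
lemma term_pair (N : ℕ) : ∃ C u1 : ℝ, 0 ≤ C ∧ 0 < u1 ∧ u1 ≤ 1 / 2 ∧
    ∀ {r o w : V} {u τ : ℝ} {i j : ℕ}, 0 < u → u ≤ u1 → u ^ 32 ≤ τ → τ ≤ 4 * u ^ 32 →
      G.dist r o ≤ 1 → G.dist o w ≤ 16 * Kc u → ell u ≤ i → i + 3 * ell u ≤ j → j < G.dist o w →
      |∫ q, (Acl θ u (aL G θ sch r (rT sch τ) (up G o w i) (up G o w (i + 1)) q.1) -
            Acl θ u (aL G θ sch r (rT sch τ) (up G o w i) (up G o w (i + 1)) q.2)) *
          (Acl θ u (aL G θ sch r (rT sch τ) (up G o w j) (up G o w (j + 1)) q.1) -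
            Acl θ u (aL G θ sch r (rT sch τ) (up G o w j) (up G o w (j + 1)) q.2))
          ∂P2 G sch hp r| ≤ C * u ^ N := by
  obtain ⟨C, ua, hC, ha0, ha1, hdec⟩ := decor_pair hG hp hd hreg hb N
  have h1θ : 0 < 1 - θ := by linarith [hp.lt_one]
  obtain ⟨us, hs0, hs1, hsmall⟩ := exists_small hp.nonneg hp.lt_one N h1θ
  have hκ : 0 < 1 - θ ^ 2 := by nlinarith [hp.nonneg, hp.lt_one]
  refine ⟨C + 8 * (4 / (1 - θ ^ 2)), min (min ua us) (1 / 2), by positivity, by positivity,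
    min_le_right _ _, fun {r o w u τ i j} hu huu hτ1 hτ2 hro hk hi hij hj ↦ ?_⟩
  have hua : u ≤ ua := huu.trans ((min_le_left _ _).trans (min_le_left _ _))
  have hus : u ≤ us := huu.trans ((min_le_left _ _).trans (min_le_right _ _))
  have huh : u ≤ 1 / 2 := huu.trans (min_le_right _ _)
  have := P2_prob (σ := sch) hG hp r
  have hR := rmeas_rT (V := V) sch τ
  set e := 4 / (1 - θ ^ 2) * u ^ N with he
  have he0 : 0 ≤ e := by positivity
  set l := ell u
  obtain ⟨hl1, -, -⟩ := ell_bounds hu (hus.trans hs1)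
  set S := fun (i n : ℕ) (p : Dat V) ↦
    Acl θ u (sd G θ sch (ball G r n) (past n (ball G r n) (rT sch τ) p.1) p.2
      (up G o w i) (up G o w (i + 1)))
  set T := fun (i n : ℕ) (p : Dat V) ↦
    Acl θ u (ta G θ sch n (ball G r n) (rT sch τ) o w l i p)
  have bS : ∀ i n, BM (S i n) := fun i n ↦
    ⟨(measurable_Acl u).comp (measurable_sd (σ := sch) r hR n _ _), 1,
      fun p ↦ (Acl_bound hp hu.le huh _).2⟩
  have bT : ∀ i n, BM (T i n) := fun i n ↦
    ⟨(measurable_Acl u).comp (bm_ta (σ := sch) hp n hR o w l i).1, 1,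
      fun p ↦ (Acl_bound hp hu.le huh _).2⟩
  have hlim : ∀ᵐ q ∂P2 G sch hp r, Tendsto (fun n ↦ (S i n q.1 - S i n q.2) *
      (S j n q.1 - S j n q.2)) atTop (nhds
        ((Acl θ u (aL G θ sch r (rT sch τ) (up G o w i) (up G o w (i + 1)) q.1) -
            Acl θ u (aL G θ sch r (rT sch τ) (up G o w i) (up G o w (i + 1)) q.2)) *
          (Acl θ u (aL G θ sch r (rT sch τ) (up G o w j) (up G o w (j + 1)) q.1) -
            Acl θ u (aL G θ sch r (rT sch τ) (up G o w j) (up G o w (j + 1)) q.2)))) := by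
    have hcont : ∀ {a : ℝ} {f : ℕ → ℝ}, Tendsto f atTop (nhds a) →
        Tendsto (fun n ↦ Acl θ u (f n)) atTop (nhds (Acl θ u a)) := fun {a f} hf ↦ by
      refine tendsto_iff_norm_sub_tendsto_zero.2 (squeeze_zero (fun n ↦ norm_nonneg _)
        (fun n ↦ Acl_sub hp hu.le huh _ _) ?_)
      simpa using ((tendsto_iff_norm_sub_tendsto_zero.1 hf).const_mul (4 / (1 - θ ^ 2) * u ^ 2))
    filter_upwards [ae_P2_conv (σ := sch) hG hp r hR] with q hq
    have h1 := up_adj hG (o := o) (w := w) (i := i) (by omega)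
    have h2 := up_adj hG (o := o) (w := w) (i := j) hj
    exact ((hcont (tendsto_sd hq.1 hG hp h1)).sub (hcont (tendsto_sd hq.2 hG hp h1))).mul
      ((hcont (tendsto_sd hq.1 hG hp h2)).sub (hcont (tendsto_sd hq.2 hG hp h2)))
  have hdiff : ∀ {a b : ℝ}, |a| ≤ 1 → |b| ≤ 1 → |a - b| ≤ 2 := fun ha hb ↦
    (abs_sub _ _).trans (by linarith)
  have hI := tendsto_integral_of_dominated_convergence (μ := P2 G sch hp r) (fun _ ↦ (4:ℝ))
    (fun n ↦ ((((bS i n).fst).sub ((bS i n).snd)).mul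
      (((bS j n).fst).sub ((bS j n).snd))).1.aestronglyMeasurable) (integrable_const _)
    (fun n ↦ .of_forall fun q ↦ by
      rw [Real.norm_eq_abs, abs_mul, show (4:ℝ) = 2 * 2 by norm_num]
      exact mul_le_mul (hdiff (Acl_bound hp hu.le huh _).2 (Acl_bound hp hu.le huh _).2)
        (hdiff (Acl_bound hp hu.le huh _).2 (Acl_bound hp hu.le huh _).2) (abs_nonneg _) zero_le_two)
    hlim
  refine le_of_tendsto hI.abs ?_
  filter_upwards [eventually_ge_atTop (G.dist r o + G.dist o w)] with n hn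
  have hD := sub_ball hG r n
  have ho : o ∈ ball G r n := (mem_ball hG).2 (by omega)
  have hw : w ∈ ball G r n := (mem_ball hG).2
    (by have := hG.connected.dist_triangle (u := r) (v := o) (w := w); omega)
  have hclose : ∀ i, l ≤ i → i < G.dist o w → ∀ p, |S i n p - T i n p| ≤ e := by
    intro i hi hik p
    refine (Acl_sub hp hu.le huh _ _).trans ?_
    have h1 := abs_sd_sub_ta (σ := sch) hG hD ho hw hl1 hi hik hp n (rT sch τ) p
    have h2 : θ ^ l / (1 - θ) ≤ u ^ N := by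
      rw [div_le_iff₀ h1θ, mul_comm]; exact hsmall u hu hus
    rw [he, mul_assoc]
    refine mul_le_mul_of_nonneg_left ?_ (by positivity)
    calc u ^ 2 * _ ≤ 1 * u ^ N := by
          refine mul_le_mul (pow_le_one₀ hu.le (by linarith)) (h1.trans h2) (abs_nonneg _)
            zero_le_one
      _ = u ^ N := one_mul _
  have hdf := hdec (n := n) (F := Acl θ u) hu hua hτ1 hτ2 ho hw hro hk hi hij hj
    (measurable_Acl u) (fun x ↦ (Acl_bound hp hu.le huh x).2) (Acl_neg u)
  have hpt : ∀ q : Dat V × Dat V, |(S i n q.1 - S i n q.2) * (S j n q.1 - S j n q.2) -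
      (T i n q.1 - T i n q.2) * (T j n q.1 - T j n q.2)| ≤ 8 * e := by
    intro q
    have hi' := hclose i hi (by omega)
    have hj' := hclose j (by omega) hj
    have a1 : |(S i n q.1 - S i n q.2) - (T i n q.1 - T i n q.2)| ≤ 2 * e := by
      rw [show (S i n q.1 - S i n q.2) - (T i n q.1 - T i n q.2) =
        (S i n q.1 - T i n q.1) - (S i n q.2 - T i n q.2) by ring]
      exact (abs_sub _ _).trans (by linarith [hi' q.1, hi' q.2])
    have a2 : |(S j n q.1 - S j n q.2) - (T j n q.1 - T j n q.2)| ≤ 2 * e := by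
      rw [show (S j n q.1 - S j n q.2) - (T j n q.1 - T j n q.2) =
        (S j n q.1 - T j n q.1) - (S j n q.2 - T j n q.2) by ring]
      exact (abs_sub _ _).trans (by linarith [hj' q.1, hj' q.2])
    have b1 : |S j n q.1 - S j n q.2| ≤ 2 :=
      hdiff (Acl_bound hp hu.le huh _).2 (Acl_bound hp hu.le huh _).2
    have b2 : |T i n q.1 - T i n q.2| ≤ 2 :=
      hdiff (Acl_bound hp hu.le huh _).2 (Acl_bound hp hu.le huh _).2
    rw [show (S i n q.1 - S i n q.2) * (S j n q.1 - S j n q.2) -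
        (T i n q.1 - T i n q.2) * (T j n q.1 - T j n q.2) =
        ((S i n q.1 - S i n q.2) - (T i n q.1 - T i n q.2)) * (S j n q.1 - S j n q.2) +
        (T i n q.1 - T i n q.2) * ((S j n q.1 - S j n q.2) - (T j n q.1 - T j n q.2)) by ring]
    refine (abs_add_le _ _).trans ?_
    rw [abs_mul, abs_mul]
    nlinarith [mul_le_mul a1 b1 (abs_nonneg _) (by positivity),
      mul_le_mul b2 a2 (abs_nonneg _) zero_le_two]
  have iS := (((bS i n).fst.sub (bS i n).snd).mul ((bS j n).fst.sub (bS j n).snd)).integrable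
    (P2 G sch hp r)
  have iT := (((bT i n).fst.sub (bT i n).snd).mul ((bT j n).fst.sub (bT j n).snd)).integrable
    (P2 G sch hp r)
  have hnn := norm_integral_le_of_norm_le_const (μ := P2 G sch hp r)
    (f := fun q ↦ (S i n q.1 - S i n q.2) * (S j n q.1 - S j n q.2) -
      (T i n q.1 - T i n q.2) * (T j n q.1 - T j n q.2)) (C := 8 * e)
    (.of_forall fun q ↦ hpt q)
  rw [integral_sub iS iT] at hnn
  simp only [probReal_univ, mul_one, Real.norm_eq_abs] at hnn
  have h3 := abs_sub_abs_le_abs_sub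
    (∫ q, (S i n q.1 - S i n q.2) * (S j n q.1 - S j n q.2) ∂P2 G sch hp r)
    (∫ q, (T i n q.1 - T i n q.2) * (T j n q.1 - T j n q.2) ∂P2 G sch hp r)
  calc |∫ q, (S i n q.1 - S i n q.2) * (S j n q.1 - S j n q.2) ∂P2 G sch hp r|
      ≤ C * u ^ N + 8 * e := by linarith
    _ = _ := by rw [he]; ring

/-- The discrepancy of the truncated logarithm. -/
lemma LL_diff (N : ℕ) : ∃ C u1 : ℝ, 0 ≤ C ∧ 0 < u1 ∧ u1 ≤ 1 / 2 ∧
    ∀ {r o w : V} {u τ : ℝ}, 0 < u → u ≤ u1 → u ^ 32 ≤ τ → τ ≤ 4 * u ^ 32 →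
      G.dist r o ≤ 1 → G.dist o w ≤ 16 * Kc u →
      ∫ q, (LL G θ r τ u o w q.1 - LL G θ r τ u o w q.2) ^ 2 ∂P2 G sch hp r ≤
        C * ((G.dist o w : ℝ) + 1) * u ^ 3 * gamE G sch hp r τ + C * u ^ N := by
  obtain ⟨C, ua, hC, ha0, ha1, hpair⟩ := term_pair hG hp hd hreg hb (N + 40)
  have hκ : 0 < 1 - θ ^ 2 := by nlinarith [hp.nonneg, hp.lt_one]
  have h1θ : 0 < 1 - θ := by linarith [hp.lt_one]
  set M := (4 / (1 - θ ^ 2)) ^ 2 * (3 * (8 / (1 - θ) ^ 2) ^ 2) with hM
  refine ⟨16 * M + 144 ^ 2 * C, ua, by positivity, ha0, ha1,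
    fun {r o w u τ} hu huu hτ1 hτ2 hro hk ↦ ?_⟩
  classical
  have huh : u ≤ 1 / 2 := huu.trans ha1
  have := P2_prob (σ := sch) hG hp r
  have hR := rmeas_rT (V := V) sch τ
  set k := G.dist o w
  set l := ell u
  set Z : ℕ → Dat V × Dat V → ℝ := fun i q ↦
    Acl θ u (aL G θ sch r (rT sch τ) (up G o w i) (up G o w (i + 1)) q.1) -
      Acl θ u (aL G θ sch r (rT sch τ) (up G o w i) (up G o w (i + 1)) q.2) with hZ
  have bA : ∀ i, BM fun p : Dat V ↦
      Acl θ u (aL G θ sch r (rT sch τ) (up G o w i) (up G o w (i + 1)) p) := fun i ↦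
    ⟨(measurable_Acl u).comp (measurable_aL (σ := sch) r hR _ _), 1,
      fun p ↦ (Acl_bound hp hu.le huh _).2⟩
  have bZ : ∀ i, BM (Z i) := fun i ↦ (bA i).fst.sub (bA i).snd
  set D := gamE G sch hp r τ with hDdef
  have hD0 : 0 ≤ D := gamE_nonneg hp r τ
  have hsq : ∀ i < k, ∫ q, Z i q ^ 2 ∂P2 G sch hp r ≤ M * u ^ 4 * D := by
    intro i hi
    rw [hDdef, ← gam_invariant (σ := sch) hG hp r hreg τ (up G o w i), ← integral_const_mul]
    refine integral_mono_ae ((bm_pow (bZ i) 2).integrable _)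
      (((bm_gam hp r hR _).integrable _).const_mul _) ?_
    filter_upwards [ae_P2_conv (σ := sch) hG hp r hR] with q hq
    have h1 := (aL_sub_sq_le hq.1 hG hp hq.2 (up_adj hG hi)).1
    rw [← sq_abs]
    refine (pow_le_pow_left₀ (abs_nonneg _) (Acl_sub hp hu.le huh _ _) 2).trans ?_
    rw [mul_pow, sq_abs, mul_pow]
    calc (4 / (1 - θ ^ 2)) ^ 2 * (u ^ 2) ^ 2 * _
        ≤ (4 / (1 - θ ^ 2)) ^ 2 * (u ^ 2) ^ 2 * (3 * (8 / (1 - θ) ^ 2) ^ 2 *
            gam G θ sch r (rT sch τ) (up G o w i) (q.1, q.2)) :=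
          mul_le_mul_of_nonneg_left h1 (by positivity)
      _ = _ := by rw [hM]; ring
  set ε := C * u ^ (N + 40)
  have hε0 : 0 ≤ ε := by positivity
  set near : ℕ → ℕ → Prop := fun i j ↦ i < l ∨ j < l ∨ (i < j + 3 * l ∧ j < i + 3 * l)
  have hpq : ∀ i ∈ range k, ∀ j ∈ range k, ∫ q, Z i q * Z j q ∂P2 G sch hp r ≤
      (if near i j then M * u ^ 4 * D else 0) + ε := by
    intro i hi j hj
    have hi' := Finset.mem_range.1 hi
    have hj' := Finset.mem_range.1 hj
    split_ifs with h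
    · refine le_trans ?_ (le_add_of_nonneg_right hε0)
      refine (integral_mono (((bZ i).mul (bZ j)).integrable _)
        ((((bm_pow (bZ i) 2).add (bm_pow (bZ j) 2)).integrable _).div_const 2) fun q ↦ ?_).trans ?_
      · nlinarith [sq_nonneg (Z i q - Z j q)]
      · rw [integral_div, integral_add ((bm_pow (bZ i) 2).integrable _)
          ((bm_pow (bZ j) 2).integrable _)]
        linarith [hsq i hi', hsq j hj']
    · rw [zero_add]
      simp only [near, not_or, not_and_or, not_lt] at h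
      obtain ⟨h1, h2, h3⟩ := h
      rcases h3 with h3 | h3
      · refine le_trans (le_of_eq ?_) ((le_abs_self _).trans
          (hpair hu huu hτ1 hτ2 hro hk h2 h3 hi'))
        exact integral_congr_ae (.of_forall fun q ↦ by simp only [hZ]; ring)
      · exact (le_abs_self _).trans (hpair hu huu hτ1 hτ2 hro hk h1 h3 hj')
  have hcount : ∀ i, ((((range k).filter fun j ↦ near i j).card : ℕ) : ℝ) ≤
      (if i < l then (k : ℝ) else 0) + 7 * l := by
    intro i
    split_ifs with hil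
    · have := card_filter_le (range k) fun j ↦ near i j
      rw [card_range] at this
      have h7 : (((range k).filter fun j ↦ near i j).card : ℝ) ≤ k := by exact_mod_cast this
      have : (0:ℝ) ≤ 7 * l := by positivity
      linarith
    · have hsub : ((range k).filter fun j ↦ near i j) ⊆
          range l ∪ Ico (i + 1 - 3 * l) (i + 3 * l) := by
        intro j hj
        obtain ⟨-, hj⟩ := mem_filter.1 hj
        rcases hj with h | h | ⟨h, h'⟩
        · exact absurd h hil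
        · exact mem_union_left _ (Finset.mem_range.2 h)
        · exact mem_union_right _ (Finset.mem_Ico.2 ⟨by omega, h'⟩)
      have h2 := (card_le_card hsub).trans (card_union_le _ _)
      rw [card_range, Nat.card_Ico] at h2
      rw [zero_add]
      exact_mod_cast (show ((range k).filter fun j ↦ near i j).card ≤ 7 * l by omega)
  have e : ∀ q : Dat V × Dat V, LL G θ r τ u o w q.1 - LL G θ r τ u o w q.2 =
      ∑ i ∈ range k, Z i q := fun q ↦ by simp only [LL, hZ, sum_sub_distrib, k]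
  simp only [e, sq, sum_mul_sum]
  rw [integral_finsetSum _ fun i _ ↦ (BM.sum _ fun j _ ↦ (bZ i).mul (bZ j)).integrable _,
    sum_congr rfl fun i _ ↦ integral_finsetSum _ fun j _ ↦ ((bZ i).mul (bZ j)).integrable _]
  refine (sum_le_sum fun i hi ↦ sum_le_sum fun j hj ↦ hpq i hi j hj).trans ?_
  simp only [sum_add_distrib, sum_const, card_range, nsmul_eq_mul]
  rw [sum_congr rfl fun i _ ↦ ((sum_filter (fun j ↦ near i j) (fun _ ↦ M * u ^ 4 * D)).symm.trans
    ((sum_const _).trans (nsmul_eq_mul _ _))), ← sum_mul]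
  have hcnt : ∑ i ∈ range k, ((((range k).filter fun j ↦ near i j).card : ℕ) : ℝ) ≤
      8 * l * k := by
    refine (sum_le_sum fun i _ ↦ hcount i).trans ?_
    rw [sum_add_distrib, sum_const, card_range, nsmul_eq_mul, ← sum_filter, sum_const, nsmul_eq_mul]
    have h1 : (((range k).filter fun i ↦ i < l).card : ℝ) ≤ l := by
      have := card_le_card (s := (range k).filter fun i ↦ i < l) (t := range l)
        fun i hi ↦ Finset.mem_range.2 (mem_filter.1 hi).2
      rw [card_range] at this; exact_mod_cast this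
    nlinarith [mul_le_mul_of_nonneg_right h1 (Nat.cast_nonneg k : (0:ℝ) ≤ k)]
  have hu1 : u ≤ 1 := by linarith
  have hl2 := (ell_bounds hu hu1).2.2
  have hkK : (k : ℝ) ≤ 144 / u ^ 20 := by
    have h1 : (k : ℝ) ≤ 16 * (Kc u : ℝ) := by exact_mod_cast hk
    have h2 : (Kc u : ℝ) ≤ 8 / u ^ 20 + 1 := by
      rw [Kc]; exact (Nat.ceil_lt_add_one (by positivity)).le
    have h3 : (1:ℝ) ≤ 1 / u ^ 20 := (one_le_div (by positivity)).2 (pow_le_one₀ hu.le hu1)
    rw [show (144:ℝ) / u ^ 20 = 16 * (8 / u ^ 20) + 16 * (1 / u ^ 20) by ring]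
    linarith
  have h1 : (8 * (l : ℝ) * k) * (M * u ^ 4 * D) ≤ 16 * M * ((k : ℝ) + 1) * u ^ 3 * D := by
    calc (8 * (l : ℝ) * k) * (M * u ^ 4 * D) ≤ (8 * (2 / u) * ((k : ℝ) + 1)) * (M * u ^ 4 * D) := by
          gcongr; linarith
      _ = _ := by field_simp; ring
  have h2 : (k : ℝ) * (k * ε) ≤ 144 ^ 2 * C * u ^ N := by
    calc (k : ℝ) * (k * ε) ≤ 144 / u ^ 20 * (144 / u ^ 20 * ε) := by gcongr
      _ = _ := by simp only [ε, pow_add]; field_simp
  have h4 := mul_le_mul_of_nonneg_right hcnt (show 0 ≤ M * u ^ 4 * D by positivity)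
  have h5 : 0 ≤ 144 ^ 2 * C * (((k:ℝ) + 1) * u ^ 3 * D) := by positivity
  have h6 : 0 ≤ 16 * M * u ^ N := by positivity
  nlinarith

end Vale.Agent.P161.Crit
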