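import Mathlib
import Vale.Agent.P161.Crit.Tail
import Vale.Agent.P161.Crit.Error

/-!
The evolution of the discrepancy over a short time interval.
-/

namespace Vale.Agent.P161.Crit

open Finset MeasureTheory Filter

/-- The mean square of a sum of orthogonal terms. -/
lemma integral_sum_sq {Ω ι : Type*} [MeasurableSpace Ω] [DecidableEq ι] (μ : Measure Ω)
    [IsFiniteMeasure μ] (s : Finset ι) {X : ι → Ω → ℝ} (hX : ∀ i, BM (X i))
    (h : ∀ i ∈ s, ∀ j ∈ s, i ≠ j → ∫ x, X i x * X j x ∂μ = 0) :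
    ∫ x, (∑ i ∈ s, X i x) ^ 2 ∂μ = ∑ i ∈ s, ∫ x, X i x ^ 2 ∂μ := by
  simp only [sq, sum_mul_sum]
  rw [integral_finsetSum _ fun i _ ↦ (BM.sum _ fun j _ ↦ (hX i).mul (hX j)).integrable _]
  refine sum_congr rfl fun i hi ↦ ?_
  rw [integral_finsetSum _ fun j _ ↦ ((hX i).mul (hX j)).integrable _,
    sum_eq_single i (fun j hj hne ↦ h i hi j hj (Ne.symm hne)) fun h' ↦ absurd hi h']

variable {V : Type*} [DecidableEq V] {G : SimpleGraph V} [G.LocallyFinite] {θ : ℝ}

/-- The indicator that `j` is revealed during `[t, t')`. -/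
noncomputable def ivl (t t' : ℝ) (j : Ix V) (T : Ix V → ℝ) : ℝ :=
  if t ≤ tm sch T j ∧ tm sch T j < t' then 1 else 0

/-- The increment of a finite-volume posterior mean at `j`, if revealed during `[t, t')`. -/
noncomputable def incF (G : SimpleGraph V) [G.LocallyFinite] (θ : ℝ) (r : V) (n : ℕ)
    (f : Finset V → ℝ) (t t' : ℝ) (j : Ix V) (p : Dat V) : ℝ :=
  ivl t t' j p.1 * (Mn G θ sch r (rC sch j) f n p - Mn G θ sch r (rJ sch j) f n p)

/-- The increment of the posterior mean at `j`, if revealed during `[t, t')`. -/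
noncomputable def incL (G : SimpleGraph V) [G.LocallyFinite] (θ : ℝ) (r : V)
    (f : Finset V → ℝ) (t t' : ℝ) (j : Ix V) (p : Dat V) : ℝ :=
  ivl t t' j p.1 * (ML G θ sch r (rC sch j) f p - ML G θ sch r (rJ sch j) f p)

omit [DecidableEq V] in
lemma measurable_ivl (t t' : ℝ) (j : Ix V) : Measurable (ivl (V := V) t t' j) :=
  Measurable.ite ((measurableSet_le measurable_const (measurable_tm sch j)).inter
    (measurableSet_lt (measurable_tm sch j) measurable_const)) measurable_const measurable_const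

omit [DecidableEq V] in
lemma abs_ivl (t t' : ℝ) (j : Ix V) (T : Ix V → ℝ) : |ivl t t' j T| ≤ 1 := by
  unfold ivl; split_ifs <;> simp

lemma abs_diff_le {a b : ℝ} (ha : |a| ≤ 1) (hb : |b| ≤ 1) : |a - b| ≤ 2 :=
  (abs_sub _ _).trans (by linarith)

lemma bm_incF (hp : Par θ) (r : V) (n : ℕ) {f : Finset V → ℝ} (hf : ∀ S, |f S| ≤ 1) (t t' : ℝ)
    (j : Ix V) : BM (incF G θ r n f t t' j) :=
  ⟨((measurable_ivl t t' j).comp measurable_fst).mul
    ((measurable_Mn r (rmeas_rC sch j) f n).sub (measurable_Mn r (rmeas_rJ sch j) f n)), 2,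
    fun p ↦ by
      rw [incF, abs_mul]
      exact (mul_le_mul (abs_ivl _ _ _ _) (abs_diff_le (Mn_abs hp r _ hf n p) (Mn_abs hp r _ hf n p))
        (abs_nonneg _) zero_le_one).trans_eq (one_mul 2)⟩

lemma bm_incL (hp : Par θ) (r : V) {f : Finset V → ℝ} (hf : ∀ S, |f S| ≤ 1) (t t' : ℝ)
    (j : Ix V) : BM (incL G θ r f t t' j) :=
  ⟨((measurable_ivl t t' j).comp measurable_fst).mul
    ((measurable_ML r (rmeas_rC sch j) f).sub (measurable_ML r (rmeas_rJ sch j) f)), 2,
    fun p ↦ by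
      rw [incL, abs_mul]
      exact (mul_le_mul (abs_ivl _ _ _ _) (abs_diff_le (abs_ML_all hp r _ hf p)
        (abs_ML_all hp r _ hf p)) (abs_nonneg _) zero_le_one).trans_eq (one_mul 2)⟩

/-- The order indicator of two indices. -/
noncomputable def ord (i j : Ix V) (T : Ix V → ℝ) : ℝ :=
  if tm sch T i < tm sch T j then 1 else 0

omit [DecidableEq V] in
lemma measurable_ord (i j : Ix V) : Measurable (ord (V := V) i j) :=
  Measurable.ite (measurableSet_lt (measurable_tm sch i) (measurable_tm sch j))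
    measurable_const measurable_const

omit [DecidableEq V] in
lemma bm_ord (i j : Ix V) : BM fun p : Dat V ↦ ord i j p.1 :=
  ⟨(measurable_ord i j).comp measurable_fst, 1, fun p ↦ by
    dsimp only
    unfold ord; split_ifs <;> simp⟩

omit [DecidableEq V] in
lemma ord_sum {T : Ix V → ℝ} (hT : Function.Injective (tm sch T)) {i j : Ix V} (h : i ≠ j) :
    ord i j T + ord j i T = 1 := by
  rcases lt_trichotomy (tm sch T i) (tm sch T j) with h' | h' | h'
  · simp [ord, h', h'.not_gt]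
  · exact absurd (hT h') h
  · simp [ord, h', h'.not_gt]

variable (hG : G.IsTree) (hp : Par θ)
include hG hp

/-- Finite-volume increments at different indices are orthogonal. -/
lemma incF_orth [Countable V] {r : V} {n : ℕ} {f : Finset V → ℝ} (hf : ∀ S, |f S| ≤ 1)
    (t t' : ℝ) {i j : Ix V} (hij : i ≠ j) :
    ∫ ω, incF G θ r n f t t' i (vis sch ω) * incF G θ r n f t t' j (vis sch ω) ∂Pm G θ r = 0 := by
  classical
  have := Pm_prob (G := G) hp r
  have key : ∀ i j : Ix V, ∫ ω, ord i j (vis sch ω).1 *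
      (incF G θ r n f t t' i (vis sch ω) * incF G θ r n f t t' j (vis sch ω)) ∂Pm G θ r = 0 := by
    intro i j
    have hb : BM fun p : Dat V ↦ ivl t t' j p.1 * (ord i j p.1 * incF G θ r n f t t' i p) :=
      BM.mul ⟨(measurable_ivl t t' j).comp measurable_fst, 1, fun p ↦ abs_ivl _ _ _ _⟩
        ((bm_ord i j).mul (bm_incF hp r n hf t t' i))
    have h := orth_incr (σ := sch) hG hp (r := r) (v := r) (sub_ball hG r n) j hf hb
      (n := n) fun T y y' hy ↦ by
        simp only [ord, incF, Mn]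
        split_ifs with ho
        · have e1 : ∀ k ∈ past n (ball G r n) (rC sch i) T, y k = y' k := fun k hk ↦
            hy k (mem_past.2 ⟨(mem_past.1 hk).1, (mem_past.1 hk).2.1, by
              rcases (mem_past.1 hk).2.2 with h | h
              · exact h.trans ho
              · subst h; exact ho⟩)
          have e2 : ∀ k ∈ past n (ball G r n) (rJ sch i) T, y k = y' k := fun k hk ↦
            hy k (mem_past.2 ⟨(mem_past.1 hk).1, (mem_past.1 hk).2.1,
              (mem_past.1 hk).2.2.trans ho⟩)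
          rw [pf_congr f e1, pf_congr f e2]
        · simp
    rw [← h]
    refine integral_congr_ae (.of_forall fun ω ↦ ?_)
    simp only [incF, Mn]
    ring
  have e : ∀ᵐ ω ∂Pm G θ r, incF G θ r n f t t' i (vis sch ω) * incF G θ r n f t t' j (vis sch ω) =
      ord i j (vis sch ω).1 *
        (incF G θ r n f t t' i (vis sch ω) * incF G θ r n f t t' j (vis sch ω)) +
      ord j i (vis sch ω).1 *
        (incF G θ r n f t t' j (vis sch ω) * incF G θ r n f t t' i (vis sch ω)) := by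
    filter_upwards [ae_inj_vis hp r] with ω hω
    rw [mul_comm (incF G θ r n f t t' j (vis sch ω)), ← add_mul, ord_sum hω hij, one_mul]
  have hb : ∀ i j : Ix V, Integrable (fun ω : Om V ↦ ord i j (vis sch ω).1 *
      (incF G θ r n f t t' i (vis sch ω) * incF G θ r n f t t' j (vis sch ω))) (Pm G θ r) :=
    fun i j ↦ (((bm_ord i j).mul ((bm_incF hp r n hf t t' i).mul
      (bm_incF hp r n hf t t' j))).comp (measurable_vis sch)).integrable _
  rw [integral_congr_ae e, integral_add (hb i j) (hb j i), key, key, add_zero]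

variable [Countable V] (r : V)

/-- Increments of the discrepancy at different indices are orthogonal. -/
lemma incL_orth {f : Finset V → ℝ} (hf : ∀ S, |f S| ≤ 1) {A : Finset V} (hA : Loc f A)
    (t t' : ℝ) {i j : Ix V} (hij : i ≠ j) :
    ∫ q, (incL G θ r f t t' i q.1 - incL G θ r f t t' i q.2) *
      (incL G θ r f t t' j q.1 - incL G θ r f t t' j q.2) ∂P2 G sch hp r = 0 := by
  classical
  have := P2_prob (σ := sch) hG hp r
  have := Pm_prob (G := G) hp r
  set X := fun i p ↦ incL G θ r f t t' i p with hX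
  have bX : ∀ i, BM (X i) := bm_incL hp r hf t t'
  have key : ∀ i j : Ix V, ∫ q : Dat V × Dat V, ord i j q.1.1 * ((X i q.1 - X i q.2) *
      (X j q.1 - X j q.2)) ∂P2 G sch hp r = 0 := by
    intro i j
    set φ : Dat V → ℝ := fun p ↦ ord i j p.1 * X i p with hφdef
    have bφ : BM φ := (bm_ord i j).mul (bX i)
    have hord : ∀ p : Dat V, ord i j (msk (rJ sch j) p).1 = ord i j p.1 := fun p ↦ rfl
    have hφR : ∀ p, φ (msk (rJ sch j) p) = φ p := by
      intro p
      simp only [hφdef, hord]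
      by_cases ho : tm sch p.1 i < tm sch p.1 j
      · simp only [hX, incL]
        rw [ML_msk r _ f (R' := rJ sch j) (p := p) fun k hk ↦ by
              rcases hk with h | h
              · exact h.trans ho
              · subst h; exact ho,
          ML_msk r _ f (R' := rJ sch j) (p := p) fun k hk ↦ lt_trans hk ho]
        rfl
      · simp [ord, ho]
    have hcent : ∀ ψ : Dat V → ℝ, BM ψ →
        ∫ ω, ψ (msk (rJ sch j) (vis sch ω)) * X j (vis sch ω) ∂Pm G θ r = 0 := by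
      intro ψ hψ
      have h := centred (σ := sch) hG hp r (rmeas_rJ sch j) (rmeas_rC sch j)
        (fun T k hk ↦ Or.inl hk) hf hA (ψ := fun p ↦ ivl t t' j p.1 * ψ p)
        (BM.mul ⟨(measurable_ivl t t' j).comp measurable_fst, 1, fun p ↦ abs_ivl _ _ _ _⟩ hψ)
      rw [← h]
      refine integral_congr_ae (.of_forall fun ω ↦ ?_)
      simp only [hX, incL, msk]
      ring
    have e1 := immersion (σ := sch) hG hp r (rmeas_rJ sch j) (down_rJ sch j) (φ := φ)
      (φ' := fun _ ↦ 1) (X := X j) bφ (BM.const 1) (bX j) hφR (fun _ ↦ rfl) hcent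
    have e2 := immersion (σ := sch) hG hp r (rmeas_rJ sch j) (down_rJ sch j) (φ := fun _ ↦ 1)
      (φ' := φ) (X := X j) (BM.const 1) bφ (bX j) (fun _ ↦ rfl) hφR hcent
    simp only [mul_one, one_mul] at e1 e2
    have b1 : BM fun q : Dat V × Dat V ↦ φ q.1 * X j q.1 :=
      (bφ.comp measurable_fst).mul ((bX j).comp measurable_fst)
    have b2 : BM fun q : Dat V × Dat V ↦ φ q.2 * X j q.1 :=
      (bφ.comp measurable_snd).mul ((bX j).comp measurable_fst)
    have b3 : BM fun q : Dat V × Dat V ↦ φ q.swap.1 * X j q.swap.1 := b1.comp measurable_swap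
    have b4 : BM fun q : Dat V × Dat V ↦ φ q.swap.2 * X j q.swap.1 := b2.comp measurable_swap
    have e3 : ∫ q : Dat V × Dat V, φ q.swap.1 * X j q.swap.1 ∂P2 G sch hp r = 0 := by
      rw [integral_swap2 (σ := sch) hG hp r b1, e1]
    have e4 : ∫ q : Dat V × Dat V, φ q.swap.2 * X j q.swap.1 ∂P2 G sch hp r = 0 := by
      rw [integral_swap2 (σ := sch) hG hp r b2, e2]
    have e : ∀ᵐ q ∂P2 G sch hp r, ord i j q.1.1 * ((X i q.1 - X i q.2) * (X j q.1 - X j q.2)) =
        (φ q.1 * X j q.1 - φ q.2 * X j q.1) -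
          (φ q.swap.2 * X j q.swap.1 - φ q.swap.1 * X j q.swap.1) := by
      filter_upwards [P2_same (σ := sch) hG hp r] with q hq
      simp only [hφdef, Prod.fst_swap, Prod.snd_swap, ← hq.1]
      ring
    rw [integral_congr_ae e, integral_sub ((b1.sub b2).integrable _) ((b4.sub b3).integrable _),
      integral_sub (b1.integrable _) (b2.integrable _), integral_sub (b4.integrable _)
        (b3.integrable _), e1, e2, e3, e4]
    ring
  have e : ∀ᵐ q ∂P2 G sch hp r, (X i q.1 - X i q.2) * (X j q.1 - X j q.2) =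
      ord i j q.1.1 * ((X i q.1 - X i q.2) * (X j q.1 - X j q.2)) +
        ord j i q.1.1 * ((X j q.1 - X j q.2) * (X i q.1 - X i q.2)) := by
    filter_upwards [ae_P2_fst (σ := sch) hG hp r (P := fun p ↦ ord i j p.1 + ord j i p.1 = 1)
      ((ae_inj_vis hp r).mono fun ω hω ↦ ord_sum hω hij)
      (measurableSet_eq_fun (((bm_ord i j).add (bm_ord j i)).1) measurable_const)] with q hq
    rw [mul_comm (X j q.1 - X j q.2), ← add_mul, hq, one_mul]
  have bd : ∀ i j : Ix V, Integrable (fun q : Dat V × Dat V ↦ ord i j q.1.1 *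
      ((X i q.1 - X i q.2) * (X j q.1 - X j q.2))) (P2 G sch hp r) := fun i j ↦
    (((bm_ord i j).comp measurable_fst).mul
      ((((bX i).comp measurable_fst).sub ((bX i).comp measurable_snd)).mul
        (((bX j).comp measurable_fst).sub ((bX j).comp measurable_snd)))).integrable _
  rw [integral_congr_ae e, integral_add (bd i j) (bd j i), key, key, add_zero]

omit hG [Countable V] in
/-- A squared finite-volume increment is at most a window term at the nearer endpoint. -/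
lemma incF_sq_le {n : ℕ} {f : Finset V → ℝ} {c : ℝ} {o₁ o₂ : V} {nr : V → V}
    (hN : Near G θ (ball G r n) f c o₁ o₂ nr) (t t' : ℝ) {j : Ix V} (hj : j ∈ win G r n)
    (ω : Om V) (ht : 0 ≤ t) :
    incF G θ r n f t t' j (vis sch ω) ^ 2 ≤
      4 * (wterm G θ r n o₁ 0 t' j ω + wterm G θ r n o₂ 0 t' j ω) := by
  classical
  obtain ⟨hj1, hj2⟩ := mem_product.1 hj
  set D := ball G r n
  set T := (vis sch ω).1
  set y := (vis sch ω).2
  set P := past n D (rJ sch j) T with hP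
  have hnn : ∀ c, 0 ≤ {ω : Om V | 0 ≤ tm sch (vis sch ω).1 j ∧
      tm sch (vis sch ω).1 j < t'}.indicator (fun ω ↦ sch.s j.1 ^ 2 * (θ ^ 2) ^ G.dist c j.2 *
      prodPsi G θ sch D (past n D (rJ sch j) (vis sch ω).1) (vis sch ω).2
        c j.2 (G.dist c j.2)) ω := fun c ↦
    Set.indicator_nonneg (fun ω _ ↦
      mul_nonneg (by positivity) (prodPsi_mem (G := G) (σ := sch) hp _ _ _ _ _ _).1) ω
  by_cases h : t ≤ tm sch T j ∧ tm sch T j < t'
  · set k := G.dist (nr j.2) j.2 with hk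
    set Pi := prodPsi G θ sch D P y (nr j.2) j.2 k
    obtain ⟨q0, q1⟩ := prodPsi_mem (G := G) (σ := sch) hp D P y (nr j.2) j.2 k
    have hs0 := sch.s_nonneg j.1
    have hh : |incF G θ r n f t t' j (vis sch ω)| ≤ 2 * sch.s j.1 * (θ ^ k * Pi) := by
      simp only [incF, ivl, Mn]
      rw [if_pos h, one_mul, past_rC (Finset.mem_range.1 hj1) hj2,
        pf_insert hp D (notMem_past_rJ n D T j) y f, abs_mul]
      exact (mul_le_mul (hN.cov P y j.2 (fun i hi ↦ (mem_past.1 hi).2.1) hj2)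
        (abs_xi_le hs0 (sch.s_le _) (abs_pf_spin hp D P y j.2) (y j)) (abs_nonneg _)
        (mul_nonneg (pow_nonneg hp.nonneg _) q0)).trans_eq (by ring)
    have hh2 : incF G θ r n f t t' j (vis sch ω) ^ 2 ≤
        4 * (sch.s j.1 ^ 2 * (θ ^ 2) ^ k * Pi) := by
      rw [← sq_abs]
      refine (pow_le_pow_left₀ (abs_nonneg _) hh 2).trans ?_
      calc (2 * sch.s j.1 * (θ ^ k * Pi)) ^ 2
          = 4 * (sch.s j.1 ^ 2 * (θ ^ 2) ^ k * (Pi * Pi)) := by rw [← pow_mul]; ring
        _ ≤ _ := by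
          gcongr
          exact mul_le_of_le_one_right q0 q1
    have h0 : ω ∈ {ω : Om V | 0 ≤ tm sch (vis sch ω).1 j ∧ tm sch (vis sch ω).1 j < t'} :=
      ⟨ht.trans h.1, h.2⟩
    refine hh2.trans (mul_le_mul_of_nonneg_left ?_ (by norm_num))
    rcases hN.sel j.2 with e | e
    · refine le_add_of_le_of_nonneg (le_of_eq ?_) (hnn o₂)
      simp only [wterm, Set.indicator_of_mem h0, Pi, hk, e]; rfl
    · refine le_add_of_nonneg_of_le (hnn o₁) (le_of_eq ?_)
      simp only [wterm, Set.indicator_of_mem h0, Pi, hk, e]; rfl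
  · simp only [incF, ivl, T] at h ⊢
    rw [if_neg h]
    simp only [zero_mul, ne_eq, OfNat.ofNat_ne_zero, not_false_eq_true, zero_pow]
    have := hnn o₁; have := hnn o₂
    simp only [wterm]
    linarith

/-- A bound at revelation times from the infinite-volume values at fixed times. -/
lemma conv_limit (j : Ix V) {t0 t t' C : ℝ} (ht0 : 0 ≤ t0) (ht : t0 < t)
    {Ψ : ℕ → Finset (Ix V) → (Ix V → ℝ) → Finset (Ix V) → (Ix V → ℝ) → ℝ}
    (hm : ∀ n P P', Measurable fun z : (Ix V → ℝ) × (Ix V → ℝ) ↦ Ψ n P z.1 P' z.2)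
    (hd : ∀ n, PDep (Ψ n)) (hC : ∀ n P y P' y', 0 ≤ Ψ n P y P' y' ∧ Ψ n P y P' y' ≤ C)
    {Φ : Rule V → Dat V × Dat V → ℝ}
    (hlim : ∀ R : Rule V, RMeas R → ∀ᵐ q ∂P2 G sch hp r, Tendsto (fun n ↦
      Ψ n (past n (ball G r n) R q.1.1) q.1.2 (past n (ball G r n) R q.2.1) q.2.2) atTop
        (nhds (Φ R q))) :
    ∫ q, ivl t t' j q.1.1 * Φ (rJ sch j) q ∂P2 G sch hp r ≤
        hw sch j.1 t0 * ∫ τ in Set.Ioo t0 t', ∫ q, Φ (rT sch τ) q ∂P2 G sch hp r ∧
      IntegrableOn (fun τ ↦ ∫ q, Φ (rT sch τ) q ∂P2 G sch hp r) (Set.Ioo t0 t') := by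
  classical
  have := P2_prob (σ := sch) hG hp r
  set F : ℕ → ℝ → Dat V × Dat V → ℝ := fun n τ q ↦
    Ψ n (past n (ball G r n) (rT sch τ) q.1.1) q.1.2
      (past n (ball G r n) (rT sch τ) q.2.1) q.2.2 with hF
  set Fj : ℕ → Dat V × Dat V → ℝ := fun n q ↦
    Ψ n (past n (ball G r n) (rJ sch j) q.1.1) q.1.2
      (past n (ball G r n) (rJ sch j) q.2.1) q.2.2 with hFj
  have hFm : ∀ n, Measurable fun z : ℝ × (Dat V × Dat V) ↦ F n z.1 z.2 := fun n ↦
    measurable_window n _ (hm n)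
  have hFjm : ∀ n, Measurable (Fj n) := by
    intro n
    set D := ball G r n
    set W := ((range n ×ˢ D : Finset (Ix V))).powerset
    have e : Fj n = fun q ↦
        ∑ P ∈ W, ∑ P' ∈ W, {q : Dat V × Dat V | past n D (rJ sch j) q.1.1 = P ∧
          past n D (rJ sch j) q.2.1 = P'}.indicator (fun q ↦ Ψ n P q.1.2 P' q.2.2) q := by
      funext q
      rw [sum_eq_single (past n D (rJ sch j) q.1.1), sum_eq_single (past n D (rJ sch j) q.2.1)]
      · simp [hFj, D]
      · intro P' _ hne; simp [Ne.symm hne]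
      · intro h; exact absurd (Finset.mem_powerset.2 (filter_subset _ _)) h
      · intro P _ hne
        exact sum_eq_zero fun P' _ ↦ by simp [Ne.symm hne]
      · intro h; exact absurd (Finset.mem_powerset.2 (filter_subset _ _)) h
    rw [e]
    refine Finset.measurable_sum _ fun P _ ↦ Finset.measurable_sum _ fun P' _ ↦
      Measurable.indicator ((hm n P P').comp
        (by fun_prop : Measurable fun q : Dat V × Dat V ↦ (q.1.2, q.2.2))) ?_
    exact ((measurableSet_past_eq n D (rmeas_rJ sch j) P).preimage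
      (by fun_prop : Measurable fun q : Dat V × Dat V ↦ q.1.1)).inter
      ((measurableSet_past_eq n D (rmeas_rJ sch j) P').preimage
      (by fun_prop : Measurable fun q : Dat V × Dat V ↦ q.2.1))
  have hbd : ∀ n P y P' y', ‖Ψ n P y P' y'‖ ≤ C := fun n P y P' y' ↦ by
    rw [Real.norm_eq_abs, abs_of_nonneg (hC _ _ _ _ _).1]; exact (hC _ _ _ _ _).2
  have hconv : ∀ n, ∫ q, ivl t t' j q.1.1 * Fj n q ∂P2 G sch hp r ≤
      hw sch j.1 t0 * ∫ τ in Set.Ioo t0 t', ∫ q, F n τ q ∂P2 G sch hp r := by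
    intro n
    have hS : ∀ τ, Strict2 sch τ (F n τ) := by
      intro τ q q' h1 h2 h3 h4
      have e1 : past n (ball G r n) (rT sch τ) q.1.1 = past n (ball G r n) (rT sch τ) q'.1.1 := by
        ext i; simp only [mem_past, h1 i]
      have e2 : past n (ball G r n) (rT sch τ) q.2.1 = past n (ball G r n) (rT sch τ) q'.2.1 := by
        ext i; simp only [mem_past, h2 i]
      simp only [hF, ← e1, ← e2]
      exact hd n _ _ _ _ _ _ (fun i hi ↦ (h3 i (mem_past.1 hi).2.2).2)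
        (fun i hi ↦ (h4 i (mem_past.1 hi).2.2).2)
    refine le_of_eq_of_le ?_ (conversion (σ := sch) hG hp r j (t' := t') ht0 ht (hFm n)
      (fun τ q ↦ hC _ _ _ _ _) hS (hFjm n) ?_)
    · refine integral_congr_ae (.of_forall fun q ↦ ?_)
      simp only [ivl, Set.indicator_apply, Set.mem_setOf_eq, ite_mul, one_mul, zero_mul]
    · filter_upwards [P2_same (σ := sch) hG hp r] with q hq _ _
      filter_upwards [past_rT_left (σ := sch) n (ball G r n) q.1.1 j] with τ hτ
      simp only [hF, hFj, ← hq.1, hτ]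
  have hlhs : Tendsto (fun n ↦ ∫ q, ivl t t' j q.1.1 * Fj n q ∂P2 G sch hp r) atTop
      (nhds (∫ q, ivl t t' j q.1.1 * Φ (rJ sch j) q ∂P2 G sch hp r)) := by
    refine tendsto_integral_of_dominated_convergence (fun _ ↦ C)
      (fun n ↦ (((measurable_ivl t t' j).comp (measurable_fst.comp measurable_fst)).mul
        (hFjm n)).aestronglyMeasurable) (integrable_const _)
      (fun n ↦ .of_forall fun q ↦ ?_) ((hlim _ (rmeas_rJ sch j)).mono fun q hq ↦ hq.const_mul _)
    rw [norm_mul]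
    exact (mul_le_mul (abs_ivl _ _ _ _) (hbd _ _ _ _ _) (norm_nonneg _) zero_le_one).trans_eq
      (one_mul C)
  have hτlim : ∀ τ, Tendsto (fun n ↦ ∫ q, F n τ q ∂P2 G sch hp r) atTop
      (nhds (∫ q, Φ (rT sch τ) q ∂P2 G sch hp r)) := fun τ ↦ by
    refine tendsto_integral_of_dominated_convergence (fun _ ↦ C)
      (fun n ↦ ((hFm n).comp (measurable_const.prodMk measurable_id)).aestronglyMeasurable)
      (integrable_const _) (fun n ↦ .of_forall fun q ↦ hbd _ _ _ _ _) (hlim _ (rmeas_rT sch τ))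
  have hsm : ∀ n, StronglyMeasurable fun τ ↦ ∫ q, F n τ q ∂P2 G sch hp r := fun n ↦
    (hFm n).stronglyMeasurable.integral_prod_right'
  have hb1 : ∀ n τ, ‖∫ q, F n τ q ∂P2 G sch hp r‖ ≤ C := fun n τ ↦
    (norm_integral_le_of_norm_le_const (C := C) (.of_forall fun q ↦ hbd _ _ _ _ _)).trans (by simp)
  have hrhs : Tendsto (fun n ↦ ∫ τ in Set.Ioo t0 t', ∫ q, F n τ q ∂P2 G sch hp r) atTop
      (nhds (∫ τ in Set.Ioo t0 t', ∫ q, Φ (rT sch τ) q ∂P2 G sch hp r)) :=
    tendsto_integral_of_dominated_convergence (fun _ ↦ C) (fun n ↦ (hsm n).aestronglyMeasurable)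
      (integrable_const _) (fun n ↦ .of_forall fun τ ↦ hb1 n τ) (.of_forall hτlim)
  refine ⟨le_of_tendsto_of_tendsto hlhs (hrhs.const_mul _) (.of_forall hconv),
    Integrable.of_bound ((stronglyMeasurable_of_tendsto atTop hsm
      (tendsto_pi_nhds.2 hτlim)).aestronglyMeasurable) C (.of_forall fun τ ↦
        le_of_tendsto' (hτlim τ).norm fun n ↦ hb1 n τ)⟩

omit r [Countable V] in
/-- What is used of an observable: a spin or a product of adjacent spins. -/
lemma form_data (r : V) {f : Finset V → ℝ}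
    (hf : (∃ x, f = fun S ↦ sg S x) ∨ ∃ x y, G.Adj x y ∧ f = fun S ↦ sg S x * sg S y) :
    (∀ S, |f S| ≤ 1) ∧ (∃ A, Loc f A) ∧
      (∃ (c : ℝ) (o₁ o₂ : V) (nr : V → V), ∀ᶠ n in atTop, Near G θ (ball G r n) f c o₁ o₂ nr) ∧
      ∀ (R : Rule V) (p : Dat V), Conv G θ sch r R p → ∀ w, Tendsto (fun n ↦ cv G θ sch
        (ball G r n) (past n (ball G r n) R p.1) p.2 f fun S ↦ sg S w) atTop
        (nhds (cL G θ sch r R f w p)) := by
  rcases hf with ⟨x, rfl⟩ | ⟨x, y, hxy, rfl⟩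
  · refine ⟨fun S ↦ (sg_abs S x).le, ⟨{x}, loc_sg x⟩, ⟨0, x, x, fun _ ↦ x, ?_⟩,
      fun R p hc w ↦ tendsto_cv_one hc x w⟩
    filter_upwards [eventually_ge_atTop (G.dist r x)] with n hn
    exact near_site hG hp (sub_ball hG r n) ((mem_ball hG).2 hn)
  · classical
    refine ⟨abs_sg2 x y, ⟨{x, y}, loc_sg_mul x y⟩,
      ⟨θ, x, y, fun w ↦ if OnSide G x y w then x else y, ?_⟩,
      fun R p hc w ↦ tendsto_cv_two hc x y w⟩
    filter_upwards [eventually_ge_atTop (max (G.dist r x) (G.dist r y))] with n hn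
    exact near_pair hG hp (sub_ball hG r n) ((mem_ball hG).2 ((le_max_right _ _).trans hn))
      ((mem_ball hG).2 ((le_max_left _ _).trans hn)) hxy

/-- The infinite-volume increment is a covariance times an innovation factor. -/
lemma incL_formula {f : Finset V → ℝ}
    (hf : (∃ x, f = fun S ↦ sg S x) ∨ ∃ x y, G.Adj x y ∧ f = fun S ↦ sg S x * sg S y)
    (j : Ix V) :
    ∀ᵐ ω ∂Pm G θ r, ML G θ sch r (rC sch j) f (vis sch ω) - ML G θ sch r (rJ sch j) f (vis sch ω) =
      cL G θ sch r (rJ sch j) f j.2 (vis sch ω) *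
        xi (sch.s j.1) (ML G θ sch r (rJ sch j) (fun S ↦ sg S j.2) (vis sch ω))
          ((vis sch ω).2 j) := by
  obtain ⟨hf1, ⟨A, hA⟩, -, hcv⟩ := form_data hG hp r hf
  filter_upwards [(tendsto_Mn (σ := sch) hG hp r (rmeas_rC sch j) hf1 hA).1,
    (tendsto_Mn (σ := sch) hG hp r (rmeas_rJ sch j) hf1 hA).1,
    ae_conv (σ := sch) hG hp r (rmeas_rJ sch j)] with ω h1 h2 h3
  refine tendsto_nhds_unique (h1.sub h2) ?_
  have hm := conv_one h3 j.2
  have hxi : Tendsto (fun n ↦ xi (sch.s j.1)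
      (Mn G θ sch r (rJ sch j) (fun S ↦ sg S j.2) n (vis sch ω)) ((vis sch ω).2 j)) atTop
      (nhds (xi (sch.s j.1) (ML G θ sch r (rJ sch j) (fun S ↦ sg S j.2) (vis sch ω))
        ((vis sch ω).2 j))) := by
    have hne := xi_den (sch.s_nonneg j.1) (sch.s_le _)
      (abs_ML_all (G := G) (σ := sch) hp r (rJ sch j) (fun S ↦ (sg_abs S j.2).le) (vis sch ω))
      ((vis sch ω).2 j)
    exact tendsto_const_nhds.div (((hm.const_mul _).mul_const _).const_add 1) (by linarith)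
  refine ((hcv _ _ h3 j.2).mul hxi).congr' ?_
  filter_upwards [mem_win hG r j] with n hn
  obtain ⟨hn1, hn2⟩ := mem_product.1 hn
  simp only [Mn]
  rw [past_rC (Finset.mem_range.1 hn1) hn2, pf_insert hp _ (notMem_past_rJ n _ _ j) _ f]

omit hG [Countable V] in
lemma measurable_cL {R : Rule V} (hR : RMeas R) (f : Finset V → ℝ) (w : V) :
    Measurable (cL G θ sch r R f w) := by
  have _ := hp
  exact (measurable_ML r hR _).sub ((measurable_ML r hR f).mul (measurable_ML r hR _))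

/-- The squared discrepancy of an increment, at the revelation time. -/
lemma incL_sq_le {f : Finset V → ℝ}
    (hf : (∃ x, f = fun S ↦ sg S x) ∨ ∃ x y, G.Adj x y ∧ f = fun S ↦ sg S x * sg S y)
    (t t' : ℝ) (j : Ix V) :
    ∀ᵐ q ∂P2 G sch hp r, (incL G θ r f t t' j q.1 - incL G θ r f t t' j q.2) ^ 2 ≤
      ivl t t' j q.1.1 * (8 * sch.s j.1 ^ 2 *
          (cL G θ sch r (rJ sch j) f j.2 q.1 - cL G θ sch r (rJ sch j) f j.2 q.2) ^ 2 +
        128 * (sch.s j.1 ^ 2) ^ 2 * (cL G θ sch r (rJ sch j) f j.2 q.2 ^ 2 *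
          (ML G θ sch r (rJ sch j) (fun S ↦ sg S j.2) q.1 -
            ML G θ sch r (rJ sch j) (fun S ↦ sg S j.2) q.2) ^ 2)) := by
  have hR := rmeas_rJ (V := V) sch j
  have hmy : Measurable fun p : Dat V ↦ p.2 j := (measurable_pi_apply j).comp measurable_snd
  have hmm := measurable_ML (G := G) (θ := θ) (σ := sch) r hR (fun S ↦ sg S j.2)
  have hmeas : MeasurableSet {p : Dat V |
      ML G θ sch r (rC sch j) f p - ML G θ sch r (rJ sch j) f p =
      cL G θ sch r (rJ sch j) f j.2 p *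
        xi (sch.s j.1) (ML G θ sch r (rJ sch j) (fun S ↦ sg S j.2) p) (p.2 j)} := by
    refine measurableSet_eq_fun ((measurable_ML r (rmeas_rC sch j) f).sub (measurable_ML r hR f))
      ((measurable_cL hp r hR f j.2).mul ?_)
    have := measurable_c11
    unfold xi
    fun_prop
  filter_upwards [ae_P2_both (σ := sch) hG hp r (incL_formula hG hp r hf j) hmeas,
    ae_P2_both (σ := sch) hG hp r (P := fun p ↦ |p.2 j| ≤ 1)
      (.of_forall fun ω ↦ Yv_abs sch ω j) (measurableSet_le hmy.abs measurable_const),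
    P2_same (σ := sch) hG hp r] with q hfor hy hs
  set c := cL G θ sch r (rJ sch j) f j.2 q.1
  set c' := cL G θ sch r (rJ sch j) f j.2 q.2
  set m := ML G θ sch r (rJ sch j) (fun S ↦ sg S j.2) q.1
  set m' := ML G θ sch r (rJ sch j) (fun S ↦ sg S j.2) q.2
  set s := sch.s j.1
  set I := ivl t t' j q.1.1 with hI
  have hs0 : 0 ≤ s := sch.s_nonneg _
  have hs1 : s ≤ 1 / 2 := sch.s_le _
  have hm : |m| ≤ 1 := abs_ML_all hp r _ (fun S ↦ (sg_abs S j.2).le) _
  have hm' : |m'| ≤ 1 := abs_ML_all hp r _ (fun S ↦ (sg_abs S j.2).le) _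
  have hsm : ∀ {x : ℝ}, |x| ≤ 1 → |s * x| ≤ s := fun {x} hx ↦ by
    rw [abs_mul, abs_of_nonneg hs0]; exact mul_le_of_le_one_right hs0 hx
  have hdy : |q.1.2 j - q.2.2 j| ≤ s * |m - m'| := by
    have e1 := (qf_cdf1 (a := s * m) (lt_of_le_of_lt (hsm hm) (by linarith)) hy.1).1
    have e2 := (qf_cdf1 (a := s * m') (lt_of_le_of_lt (hsm hm') (by linarith)) hy.2).1
    have eU := hs.2 j
    simp only [Uinf] at eU
    rw [← e1, ← e2]
    refine (qf_lipschitz (s := s) (hsm hm) (hsm hm') hs1).trans ?_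
    rw [show cdf1 (s * m) (q.1.2 j) = cdf1 (s * m') (q.2.2 j) from eU, sub_self, abs_zero,
      mul_zero, zero_add, ← mul_sub, abs_mul, abs_of_nonneg hs0]
  have hx : |xi s m (q.1.2 j) - xi s m' (q.2.2 j)| ≤ 8 * s ^ 2 * |m - m'| := by
    refine (abs_xi_sub hs0 hs1 hm hm').trans ?_
    nlinarith [mul_le_mul_of_nonneg_left hdy hs0]
  have hxb : |xi s m (q.1.2 j)| ≤ 2 * s := abs_xi_le hs0 hs1 hm _
  have e : incL G θ r f t t' j q.1 - incL G θ r f t t' j q.2 =
      I * ((c - c') * xi s m (q.1.2 j) + c' * (xi s m (q.1.2 j) - xi s m' (q.2.2 j))) := by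
    simp only [incL, hfor.1, hfor.2, hI, ← hs.1]
    ring
  have hI2 : I ^ 2 = I := by rw [hI, ivl]; split_ifs <;> simp
  have hI0 : 0 ≤ I := by rw [hI, ivl]; split_ifs <;> simp
  rw [e, mul_pow, hI2]
  refine mul_le_mul_of_nonneg_left ?_ hI0
  have k1 : ((c - c') * xi s m (q.1.2 j)) ^ 2 ≤ (c - c') ^ 2 * (2 * s) ^ 2 := by
    rw [mul_pow]
    exact mul_le_mul_of_nonneg_left (by rw [← sq_abs]; exact pow_le_pow_left₀ (abs_nonneg _) hxb 2)
      (sq_nonneg _)
  have k2 : (c' * (xi s m (q.1.2 j) - xi s m' (q.2.2 j))) ^ 2 ≤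
      c' ^ 2 * (8 * s ^ 2 * |m - m'|) ^ 2 := by
    rw [mul_pow]
    exact mul_le_mul_of_nonneg_left (by rw [← sq_abs]; exact pow_le_pow_left₀ (abs_nonneg _) hx 2)
      (sq_nonneg _)
  calc ((c - c') * xi s m (q.1.2 j) + c' * (xi s m (q.1.2 j) - xi s m' (q.2.2 j))) ^ 2
      ≤ 2 * (((c - c') * xi s m (q.1.2 j)) ^ 2 +
          (c' * (xi s m (q.1.2 j) - xi s m' (q.2.2 j))) ^ 2) := add_sq_le
    _ ≤ 2 * ((c - c') ^ 2 * (2 * s) ^ 2 + c' ^ 2 * (8 * s ^ 2 * |m - m'|) ^ 2) :=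
        mul_le_mul_of_nonneg_left (add_le_add k1 k2) zero_le_two
    _ = _ := by rw [mul_pow (8 * s ^ 2) (|m - m'|), sq_abs]; ring

variable {d : ℕ} (hd : 3 ≤ d) (hreg : G.IsRegularOfDegree d)
  (hb : ((d - 1 : ℕ) : ℝ) * θ ^ 2 = 1)
include hd hreg hb

/-- All but finitely many increments are negligible in mean square. -/
lemma remainder_small {f : Finset V → ℝ}
    (hf : (∃ x, f = fun S ↦ sg S x) ∨ ∃ x y, G.Adj x y ∧ f = fun S ↦ sg S x * sg S y)
    {t t' δ : ℝ} (ht : 0 < t) (htt : t ≤ t') (hδ : 0 < δ) :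
    ∃ m : ℕ, ∫ ω, ((ML G θ sch r (rT sch t') f (vis sch ω) -
        ML G θ sch r (rT sch t) f (vis sch ω)) -
      ∑ j ∈ range m ×ˢ ball G r m, incL G θ r f t t' j (vis sch ω)) ^ 2 ∂Pm G θ r ≤ δ := by
  classical
  have := Pm_prob (G := G) hp r
  obtain ⟨hf1, ⟨A, hA⟩, ⟨c, o₁, o₂, nr, hN⟩, -⟩ := form_data hG hp r hf
  obtain ⟨m1, hm1⟩ := wterm_tail hG hp hd hreg hb r o₁ (ht.trans_le htt) (δ := δ / 8) (by positivity)
  obtain ⟨m2, hm2⟩ := wterm_tail hG hp hd hreg hb r o₂ (ht.trans_le htt) (δ := δ / 8) (by positivity)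
  set m := max m1 m2 with hm
  set J : Finset (Ix V) := range m ×ˢ ball G r m with hJ
  refine ⟨m, ?_⟩
  set Rn : ℕ → Om V → ℝ := fun n ω ↦ (Mn G θ sch r (rT sch t') f n (vis sch ω) -
    Mn G θ sch r (rT sch t) f n (vis sch ω)) - ∑ j ∈ J, incF G θ r n f t t' j (vis sch ω) with hRn
  have hconv := (tendsto_Mn (σ := sch) hG hp r (rmeas_rT sch t') hf1 hA).1.and
    (((tendsto_Mn (σ := sch) hG hp r (rmeas_rT sch t) hf1 hA).1).and
      ((ae_all_iff.2 fun j : Ix V ↦ (tendsto_Mn (σ := sch) hG hp r (rmeas_rC sch j) hf1 hA).1).and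
        (ae_all_iff.2 fun j : Ix V ↦ (tendsto_Mn (σ := sch) hG hp r (rmeas_rJ sch j) hf1 hA).1)))
  have hbR : ∀ n ω, |Rn n ω| ≤ 2 + 2 * J.card := by
    intro n ω
    refine (abs_sub _ _).trans (add_le_add
      (abs_diff_le (Mn_abs hp r _ hf1 n _) (Mn_abs hp r _ hf1 n _)) ?_)
    refine (abs_sum_le_sum_abs _ _).trans ?_
    refine (sum_le_card_nsmul _ _ 2 fun j _ ↦ ?_).trans_eq (by rw [nsmul_eq_mul]; ring)
    rw [incF, abs_mul]
    exact (mul_le_mul (abs_ivl _ _ _ _) (abs_diff_le (Mn_abs hp r _ hf1 n _)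
      (Mn_abs hp r _ hf1 n _)) (abs_nonneg _) zero_le_one).trans_eq (one_mul 2)
  have hlim := tendsto_int_pow (G := G) hp r (F := Rn) (B := 2 + 2 * J.card)
    (f := fun ω ↦ (ML G θ sch r (rT sch t') f (vis sch ω) -
        ML G θ sch r (rT sch t) f (vis sch ω)) - ∑ j ∈ J, incL G θ r f t t' j (vis sch ω))
    (fun n ↦ (((measurable_Mn r (rmeas_rT sch t') f n).sub
      (measurable_Mn r (rmeas_rT sch t) f n)).comp (measurable_vis sch)).sub
        (Finset.measurable_sum _ fun j _ ↦ (bm_incF hp r n hf1 t t' j).1.comp (measurable_vis sch)))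
    hbR
    (hconv.mono fun ω h ↦ (h.1.sub h.2.1).sub (tendsto_finsetSum _ fun j _ ↦
      ((h.2.2.1 j).sub (h.2.2.2 j)).const_mul _)) 2
  refine le_of_tendsto hlim ?_
  filter_upwards [hN, eventually_ge_atTop m] with n hnear hn
  set I : Finset (Ix V) := win G r n \ J with hI
  have hJn : J ⊆ win G r n :=
    product_subset_product (range_subset_range.2 hn) (ball_mono hG r hn)
  have heq : ∀ᵐ ω ∂Pm G θ r, Rn n ω ^ 2 = (∑ j ∈ I, incF G θ r n f t t' j (vis sch ω)) ^ 2 := by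
    filter_upwards [ae_inj_vis hp r] with ω hω
    have ht' := telescope (n := n) (D := ball G r n) (T := (vis sch ω).1) hω.injOn
      (fun P ↦ pf G θ sch (ball G r n) P (vis sch ω).2 f) t t' htt
    have e : ∑ j ∈ win G r n, incF G θ r n f t t' j (vis sch ω) =
        Mn G θ sch r (rT sch t') f n (vis sch ω) - Mn G θ sch r (rT sch t) f n (vis sch ω) := by
      simp only [Mn]
      rw [ht', during, sum_filter, win]
      refine sum_congr rfl fun j _ ↦ ?_
      simp only [incF, ivl, Mn]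
      split_ifs <;> simp
    rw [hRn]
    simp only [← e, hI, ← sum_sdiff_eq_sub hJn]
  rw [integral_congr_ae heq, integral_sum_sq (Pm G θ r) I
    (fun j ↦ (bm_incF hp r n hf1 t t' j).comp (measurable_vis sch))
    fun i _ j _ hij ↦ incF_orth hG hp hf1 t t' hij]
  have hbw : ∀ c j, Integrable (wterm G θ r n c 0 t' j) (Pm G θ r) := fun c j ↦
    (bm_wterm hG hp r n c 0 t' j).integrable _
  refine (sum_le_sum fun j hj ↦ integral_mono_of_nonneg (.of_forall fun ω ↦ sq_nonneg _)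
    (((hbw o₁ j).add (hbw o₂ j)).const_mul 4) (.of_forall fun ω ↦
      incF_sq_le hp r hnear t t' (mem_sdiff.1 hj).1 ω ht.le)).trans ?_
  rw [sum_congr rfl fun j _ ↦ by rw [integral_const_mul, integral_add' (hbw o₁ j) (hbw o₂ j)],
    ← mul_sum, sum_add_distrib]
  have hfar : ∀ j ∈ I, m ≤ j.1 ∨ m < G.dist r j.2 := by
    intro j hj
    by_contra h
    push Not at h
    exact (mem_sdiff.1 hj).2 (mem_product.2 ⟨Finset.mem_range.2 h.1, (mem_ball hG).2 h.2⟩)
  linarith [hm1 hnear.mem₁ I sdiff_subset fun j hj ↦ (hfar j hj).imp ((le_max_left _ _).trans)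
      (lt_of_le_of_lt (le_max_left _ _)),
    hm2 hnear.mem₂ I sdiff_subset fun j hj ↦ (hfar j hj).imp ((le_max_right _ _).trans)
      (lt_of_le_of_lt (le_max_right _ _))]

/-- Bounds on the discrepancy sums at fixed times bound the increase of the discrepancy. -/
lemma step_bound {f : Finset V → ℝ}
    (hf : (∃ x, f = fun S ↦ sg S x) ∨ ∃ x y, G.Adj x y ∧ f = fun S ↦ sg S x * sg S y)
    {t t' B1 B2 : ℝ} (ht : 0 < t) (htt : t ≤ t') (ht2 : t' ≤ 2 * t)
    (h1 : ∀ τ, t / 2 ≤ τ → τ < t' → ∀ W : Finset V, ∑ w ∈ W, ∫ q,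
      (cL G θ sch r (rT sch τ) f w q.1 - cL G θ sch r (rT sch τ) f w q.2) ^ 2
        ∂P2 G sch hp r ≤ B1)
    (h2 : ∀ τ, t / 2 ≤ τ → τ < t' → ∀ W : Finset V, ∑ w ∈ W, ∫ q,
      cL G θ sch r (rT sch τ) f w q.2 ^ 2 *
        (ML G θ sch r (rT sch τ) (fun S ↦ sg S w) q.1 -
          ML G θ sch r (rT sch τ) (fun S ↦ sg S w) q.2) ^ 2 ∂P2 G sch hp r ≤ B2) :
    incr2 G sch hp r t t' f ≤ 4 * (t' - t) * (2 + t') * (8 * B1 + 32 * min 1 t' * B2) := by
  classical
  rcases htt.eq_or_lt with rfl | hlt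
  · simp [incr2]
  have := P2_prob (σ := sch) hG hp r
  have := Pm_prob (G := G) hp r
  obtain ⟨hf1, ⟨A, hA⟩, -, hcv⟩ := form_data hG hp r hf
  set t0 := max (t - (t' - t)) (t / 2) with ht0
  have ht0l : t / 2 ≤ t0 := le_max_right _ _
  have ht0t : t0 < t := max_lt (by linarith) (by linarith)
  have ht0pos : 0 < t0 := by linarith
  have hgap : t' - t0 ≤ 2 * (t' - t) := by linarith [le_max_left (t - (t' - t)) (t / 2)]
  have hμ : 0 ≤ min 1 t' := le_min zero_le_one (by linarith)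
  refine le_of_forall_pos_le_add fun δ hδ ↦ ?_
  obtain ⟨m, hm⟩ := remainder_small hG hp r hd hreg hb hf ht htt (δ := δ / 8) (by positivity)
  set J : Finset (Ix V) := range m ×ˢ ball G r m with hJ
  set X := incL G θ r f t t' with hX
  have bX : ∀ j, BM (X j) := bm_incL hp r hf1 t t'
  set R : Dat V → ℝ := fun p ↦ (ML G θ sch r (rT sch t') f p - ML G θ sch r (rT sch t) f p) -
    ∑ j ∈ J, X j p with hRdef
  have bR : BM R := ((bm_ML hp r (rmeas_rT sch t') hf1).sub (bm_ML hp r (rmeas_rT sch t) hf1)).sub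
    (BM.sum _ fun j _ ↦ bX j)
  have bR2 : BM fun p ↦ R p ^ 2 := bm_pow bR 2
  set Z : Ix V → Dat V × Dat V → ℝ := fun j q ↦ X j q.1 - X j q.2
  have bZ : ∀ j, BM (Z j) := fun j ↦
    ((bX j).comp measurable_fst).sub ((bX j).comp measurable_snd)
  have bS : BM fun q ↦ (∑ j ∈ J, Z j q) ^ 2 := bm_pow (BM.sum _ fun j _ ↦ bZ j) 2
  have bR1' : BM fun q : Dat V × Dat V ↦ R q.1 ^ 2 := bR2.comp measurable_fst
  have bR2' : BM fun q : Dat V × Dat V ↦ R q.2 ^ 2 := bR2.comp measurable_snd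
  have hR1 : ∫ q, R q.1 ^ 2 ∂P2 G sch hp r ≤ δ / 8 := by rw [integral_fst hG hp r bR2]; exact hm
  have hR2 : ∫ q, R q.2 ^ 2 ∂P2 G sch hp r ≤ δ / 8 :=
    le_of_eq_of_le (integral_swap2 (σ := sch) hG hp r bR1') hR1
  have hinc : incr2 G sch hp r t t' f ≤
      2 * ∫ q, (∑ j ∈ J, Z j q) ^ 2 ∂P2 G sch hp r + δ := by
    unfold incr2
    refine (integral_mono_of_nonneg (.of_forall fun q ↦ sq_nonneg _)
      (g := fun q ↦ 2 * (∑ j ∈ J, Z j q) ^ 2 + (4 * R q.1 ^ 2 + 4 * R q.2 ^ 2))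
      (((BM.const 2).mul bS).add (((BM.const 4).mul bR1').add
        ((BM.const 4).mul bR2')) |>.integrable _) (.of_forall fun q ↦ ?_)).trans ?_
    · dsimp only
      have e : (ML G θ sch r (rT sch t') f q.1 - ML G θ sch r (rT sch t') f q.2) -
          (ML G θ sch r (rT sch t) f q.1 - ML G θ sch r (rT sch t) f q.2) =
          (∑ j ∈ J, Z j q) + (R q.1 - R q.2) := by
        simp only [Z, hRdef, sum_sub_distrib]; ring
      rw [e]
      nlinarith [add_sq_le (a := ∑ j ∈ J, Z j q) (b := R q.1 - R q.2), sq_nonneg (R q.1 + R q.2)]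
    · rw [integral_add (((BM.const 2).mul bS).integrable _)
          ((((BM.const 4).mul bR1').add ((BM.const 4).mul bR2')).integrable _),
        integral_add (((BM.const 4).mul bR1').integrable _)
          (((BM.const 4).mul bR2').integrable _),
        integral_const_mul, integral_const_mul, integral_const_mul]
      linarith
  -- the two families of discrepancies
  set Φ1 : V → Rule V → Dat V × Dat V → ℝ := fun w R q ↦
    (cL G θ sch r R f w q.1 - cL G θ sch r R f w q.2) ^ 2 with hΦ1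
  set Φ2 : V → Rule V → Dat V × Dat V → ℝ := fun w R q ↦ cL G θ sch r R f w q.2 ^ 2 *
    (ML G θ sch r R (fun S ↦ sg S w) q.1 - ML G θ sch r R (fun S ↦ sg S w) q.2) ^ 2 with hΦ2
  have hcvb : ∀ n P y w, |cv G θ sch (ball G r n) P y f fun S ↦ sg S w| ≤ 1 := fun n P y w ↦
    abs_cv_le' hp _ P y w hf1
  have hmcv : ∀ n (P : Finset (Ix V)) w,
      Measurable fun y ↦ cv G θ sch (ball G r n) P y f fun S ↦ sg S w := fun n P w ↦
    (bm_pf (G := G) (σ := sch) hp _ P (fun S ↦ f S * sg S w) (C := 1) fun S ↦ by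
        rw [abs_mul, sg_abs, mul_one]; exact hf1 S).1.sub
      ((bm_pf (G := G) (σ := sch) hp _ P f hf1).1.mul
        (bm_pf (G := G) (σ := sch) hp _ P (fun S ↦ sg S w) fun S ↦ (sg_abs S w).le).1)
  have hdcv : ∀ n (P : Finset (Ix V)) w y z, (∀ i ∈ P, y i = z i) →
      cv G θ sch (ball G r n) P y f (fun S ↦ sg S w) =
        cv G θ sch (ball G r n) P z f fun S ↦ sg S w := fun n P w y z h ↦ by
    simp only [cv, pf_congr _ h]
  have hsq : ∀ {a b : ℝ}, |a| ≤ 1 → |b| ≤ 1 → (a - b) ^ 2 ≤ 4 := fun {a b} ha hb ↦ by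
    nlinarith [abs_le.1 ha, abs_le.1 hb]
  have c1 : ∀ j : Ix V, _ := fun j ↦ conv_limit hG hp r j (t' := t') (C := 4)
    ht0pos.le ht0t
    (Ψ := fun n P y P' y' ↦ (cv G θ sch (ball G r n) P y f (fun S ↦ sg S j.2) -
      cv G θ sch (ball G r n) P' y' f fun S ↦ sg S j.2) ^ 2)
    (fun n P P' ↦ (((hmcv n P j.2).comp measurable_fst).sub
      ((hmcv n P' j.2).comp measurable_snd)).pow_const 2)
    (fun n P P' y z y' z' h h' ↦ by dsimp only; rw [hdcv n P j.2 y z h, hdcv n P' j.2 y' z' h'])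
    (fun n P y P' y' ↦ ⟨sq_nonneg _, hsq (hcvb _ _ _ _) (hcvb _ _ _ _)⟩)
    (Φ := Φ1 j.2) fun R hR ↦ (ae_P2_conv hG hp r hR).mono fun q hq ↦
      ((hcv R q.1 hq.1 j.2).sub (hcv R q.2 hq.2 j.2)).pow 2
  have c2 : ∀ j : Ix V, _ := fun j ↦ conv_limit hG hp r j (t' := t') (C := 4)
    ht0pos.le ht0t
    (Ψ := fun n P y P' y' ↦ cv G θ sch (ball G r n) P' y' f (fun S ↦ sg S j.2) ^ 2 *
      (pf G θ sch (ball G r n) P y (fun S ↦ sg S j.2) -
        pf G θ sch (ball G r n) P' y' fun S ↦ sg S j.2) ^ 2)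
    (fun n P P' ↦ (((hmcv n P' j.2).comp measurable_snd).pow_const 2).mul
      ((((bm_pf (G := G) (σ := sch) hp _ P (fun S ↦ sg S j.2) fun S ↦ (sg_abs S j.2).le).1.comp
        measurable_fst).sub ((bm_pf (G := G) (σ := sch) hp _ P' (fun S ↦ sg S j.2) fun S ↦
          (sg_abs S j.2).le).1.comp measurable_snd)).pow_const 2))
    (fun n P P' y z y' z' h h' ↦ by dsimp only; rw [hdcv n P' j.2 y' z' h', pf_congr _ h, pf_congr _ h'])
    (fun n P y P' y' ↦ ⟨mul_nonneg (sq_nonneg _) (sq_nonneg _),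
      (mul_le_mul ((sq_le_one_iff_abs_le_one _).2 (hcvb _ _ _ _))
        (hsq (abs_pf_spin hp _ _ _ _) (abs_pf_spin hp _ _ _ _)) (sq_nonneg _)
        zero_le_one).trans_eq (one_mul 4)⟩)
    (Φ := Φ2 j.2) fun R hR ↦ (ae_P2_conv hG hp r hR).mono fun q hq ↦
      ((hcv R q.2 hq.2 j.2).pow 2).mul (((conv_one hq.1 j.2).sub (conv_one hq.2 j.2)).pow 2)
  set I1 : V → ℝ := fun w ↦ ∫ τ in Set.Ioo t0 t', ∫ q, Φ1 w (rT sch τ) q ∂P2 G sch hp r
  set I2 : V → ℝ := fun w ↦ ∫ τ in Set.Ioo t0 t', ∫ q, Φ2 w (rT sch τ) q ∂P2 G sch hp r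
  have hper : ∀ j : Ix V, ∫ q, Z j q ^ 2 ∂P2 G sch hp r ≤
      if sch.a j.1 < t' then sch.s j.1 ^ 2 * (1 / (sch.c j.1 + max (t0 - sch.a j.1) 0)) *
        (8 * I1 j.2 + 32 * min 1 t' * I2 j.2) else 0 := by
    intro j
    split_ifs with ha
    · set s := sch.s j.1
      have bI : BM fun q : Dat V × Dat V ↦ ivl t t' j q.1.1 :=
        ⟨(measurable_ivl t t' j).comp (measurable_fst.comp measurable_fst), 1,
          fun q ↦ abs_ivl _ _ _ _⟩
      have hR := rmeas_rJ (V := V) sch j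
      have bcL : BM (cL G θ sch r (rJ sch j) f j.2) :=
        (bm_ML hp r hR (C := 1) fun S ↦ by rw [abs_mul, sg_abs, mul_one]; exact hf1 S).sub
          ((bm_ML hp r hR hf1).mul (bm_ML hp r hR fun S ↦ (sg_abs S j.2).le))
      have b1 : BM fun q ↦ ivl t t' j q.1.1 * Φ1 j.2 (rJ sch j) q :=
        bI.mul (bm_pow ((bcL.comp measurable_fst).sub (bcL.comp measurable_snd)) 2)
      have b2 : BM fun q ↦ ivl t t' j q.1.1 * Φ2 j.2 (rJ sch j) q :=
        bI.mul ((bm_pow (bcL.comp measurable_snd) 2).mul (bm_pow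
          (((bm_ML hp r hR fun S ↦ (sg_abs S j.2).le).comp measurable_fst).sub
            ((bm_ML hp r hR fun S ↦ (sg_abs S j.2).le).comp measurable_snd)) 2))
      refine (integral_mono_ae ((bm_pow (bZ j) 2).integrable _)
        (g := fun q ↦ 8 * s ^ 2 * (ivl t t' j q.1.1 * Φ1 j.2 (rJ sch j) q) +
          32 * min 1 t' * s ^ 2 * (ivl t t' j q.1.1 * Φ2 j.2 (rJ sch j) q))
        ((((BM.const (8 * s ^ 2)).mul b1).add
          ((BM.const (32 * min 1 t' * s ^ 2)).mul b2)).integrable _)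
        ((incL_sq_le hG hp r hf t t' j).mono fun q hq ↦ hq.trans ?_)).trans ?_
      · rw [mul_add]
        refine add_le_add (le_of_eq ?_) ?_
        · simp only [hΦ1]; ring
        · have hI0 : 0 ≤ ivl t t' j q.1.1 := by unfold ivl; split_ifs <;> simp
          have hs4 : 128 * (s ^ 2) ^ 2 ≤ 32 * min 1 t' * s ^ 2 := by
            have := sch_sq_le ha
            nlinarith [sq_nonneg s]
          refine (mul_le_mul_of_nonneg_left (mul_le_mul_of_nonneg_right hs4
            (mul_nonneg (sq_nonneg _) (sq_nonneg _))) hI0).trans_eq ?_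
          simp only [hΦ2]; ring
      · rw [integral_add (((BM.const (8 * s ^ 2)).mul b1).integrable _)
          (((BM.const (32 * min 1 t' * s ^ 2)).mul b2).integrable _),
          integral_const_mul, integral_const_mul]
        refine (add_le_add (mul_le_mul_of_nonneg_left (c1 j).1 (by positivity))
          (mul_le_mul_of_nonneg_left (c2 j).1 (by positivity))).trans_eq ?_
        simp only [Crit.hw, I1, I2]; ring
    · refine le_of_eq (integral_eq_zero_of_ae (.of_forall fun q ↦ ?_))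
      have hz : ∀ p : Dat V, ivl t t' j p.1 = 0 := fun p ↦
        if_neg fun h ↦ ha ((a_le_tm sch p.1 j).trans_lt h.2)
      simp [Z, hX, incL, hz]
  have hsum1 : ∀ {B : ℝ} {Φ : V → Rule V → Dat V × Dat V → ℝ},
      (∀ w, IntegrableOn (fun τ ↦ ∫ q, Φ w (rT sch τ) q ∂P2 G sch hp r) (Set.Ioo t0 t')) →
      (∀ τ, t / 2 ≤ τ → τ < t' → ∑ w ∈ ball G r m, ∫ q, Φ w (rT sch τ) q ∂P2 G sch hp r ≤ B) →
      ∑ w ∈ ball G r m, ∫ τ in Set.Ioo t0 t', ∫ q, Φ w (rT sch τ) q ∂P2 G sch hp r ≤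
        (t' - t0) * B := by
    intro B Φ hi hB
    rw [← integral_finsetSum _ fun w _ ↦ hi w]
    refine (setIntegral_mono_on (integrable_finsetSum _ fun w _ ↦ hi w) (integrable_const B)
      measurableSet_Ioo fun τ hτ ↦ hB τ (ht0l.trans hτ.1.le) hτ.2).trans_eq ?_
    rw [setIntegral_const, measureReal_def, Real.volume_Ioo,
      ENNReal.toReal_ofReal (by linarith), smul_eq_mul]
  have hB1 := hsum1 (B := B1) (Φ := Φ1) (fun w ↦ (c1 (0, w)).2) fun τ a b ↦ h1 τ a b _
  have hB2 := hsum1 (B := B2) (Φ := Φ2) (fun w ↦ (c2 (0, w)).2) fun τ a b ↦ h2 τ a b _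
  have hnn : ∀ w, 0 ≤ I1 w ∧ 0 ≤ I2 w := fun w ↦
    ⟨integral_nonneg fun τ ↦ integral_nonneg fun q ↦ sq_nonneg _,
      integral_nonneg fun τ ↦ integral_nonneg fun q ↦ mul_nonneg (sq_nonneg _) (sq_nonneg _)⟩
  have hS : ∫ q, (∑ j ∈ J, Z j q) ^ 2 ∂P2 G sch hp r ≤
      (2 + t') * ((t' - t0) * (8 * B1 + 32 * min 1 t' * B2)) := by
    rw [integral_sum_sq _ J bZ fun i _ j _ hij ↦ incL_orth hG hp r hf1 hA t t' hij]
    refine (sum_le_sum fun j _ ↦ hper j).trans ?_
    rw [hJ, sum_product]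
    simp only [← ite_sum_zero, ← mul_sum]
    rw [← sum_filter, ← sum_mul]
    refine mul_le_mul ((sum_sq_hazard m ht0pos (by linarith)).trans ?_) ?_
      (sum_nonneg fun w _ ↦ ?_) (by linarith)
    · have : t' / (2 * t0) ≤ 2 := by rw [div_le_iff₀ (by positivity)]; linarith
      linarith
    · rw [sum_add_distrib, ← mul_sum, ← mul_sum]
      have := mul_le_mul_of_nonneg_left hB2 (mul_nonneg (show (0:ℝ) ≤ 32 by norm_num) hμ)
      linarith
    · have := (hnn w).1; have := (hnn w).2; positivity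
  have hB : 0 ≤ 8 * B1 + 32 * min 1 t' * B2 := by
    have a1 := h1 t (by linarith) hlt ∅
    have a2 := h2 t (by linarith) hlt ∅
    simp only [sum_empty] at a1 a2
    positivity
  have hlast : (2 + t') * ((t' - t0) * (8 * B1 + 32 * min 1 t' * B2)) ≤
      (2 + t') * (2 * (t' - t) * (8 * B1 + 32 * min 1 t' * B2)) :=
    mul_le_mul_of_nonneg_left (mul_le_mul_of_nonneg_right hgap hB) (by linarith)
  calc incr2 G sch hp r t t' f
      ≤ 2 * ((2 + t') * (2 * (t' - t) * (8 * B1 + 32 * min 1 t' * B2))) + δ :=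
        hinc.trans (by linarith)
    _ = _ := by ring

end Vale.Agent.P161.Crit
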