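import Mathlib
import Vale.Agent.P161.Crit.Linear
import Vale.Agent.P161.Crit.Step
import Vale.Agent.P161.Crit.Util.Growth

/-!
The discrepancy vanishes to infinite order at time zero.
-/

namespace Vale.Agent.P161.Crit

open Finset MeasureTheory Filter

attribute [local irreducible] ML pf aL piL

lemma geom_weighted {ν : ℝ} (hν : 0 < ν) (M : ℕ) :
    ∑ k ∈ range M, ((k : ℝ) + 1) * Real.exp (-(ν * k)) ≤ (1 + 1 / ν) ^ 2 := by
  set q := Real.exp (-ν)
  have hq0 : 0 ≤ q := (Real.exp_pos _).le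
  have hq1 : q < 1 := Real.exp_lt_one_iff.2 (by linarith)
  have h := hasSum_choose_mul_geometric_of_norm_lt_one (𝕜 := ℝ) 1
    (show ‖q‖ < 1 by rwa [Real.norm_eq_abs, abs_of_nonneg hq0])
  simp only [Nat.choose_one_right, Nat.reduceAdd, Nat.cast_add, Nat.cast_one] at h
  have e : ∀ k ∈ range M, ((k : ℝ) + 1) * Real.exp (-(ν * k)) = ((k : ℝ) + 1) * q ^ k := fun k _ ↦ by
    rw [← Real.exp_nat_mul]; ring_nf
  rw [sum_congr rfl e]
  refine (sum_le_hasSum _ (fun k _ ↦ by positivity) h).trans ?_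
  have h2 : q * (1 + ν) ≤ 1 := by
    have := mul_le_mul_of_nonneg_left (Real.add_one_le_exp ν) hq0
    rw [show q * Real.exp ν = 1 by rw [← Real.exp_add]; simp] at this
    linarith
  have h3 : 1 / (1 - q) ≤ 1 + 1 / ν := by
    rw [div_le_iff₀ (by linarith), one_add_mul]
    have e : 1 - q + 1 / ν * (1 - q) - 1 = (1 - q * (1 + ν)) / ν := by field_simp; ring
    have : 0 ≤ (1 - q * (1 + ν)) / ν := div_nonneg (by linarith) hν.le
    linarith
  rw [← one_div_pow]
  exact pow_le_pow_left₀ (by positivity) h3 2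

lemma exp_inv_pow_le {a : ℝ} (ha : 0 < a) (m N : ℕ) :
    ∃ C : ℝ, 0 ≤ C ∧ ∀ u : ℝ, 0 < u → u ≤ 1 → Real.exp (-(a / u ^ (m + 1))) ≤ C * u ^ N := by
  refine ⟨N.factorial / a ^ N, by positivity, fun u hu hu1 ↦ ?_⟩
  refine (exp_neg_le_factorial (by positivity) N).trans_eq' rfl |>.trans ?_
  rw [div_pow, div_div_eq_mul_div, mul_div_assoc, ← pow_mul]
  rw [mul_div_assoc', div_mul_eq_mul_div]
  refine div_le_div_of_nonneg_right (mul_le_mul_of_nonneg_left ?_ (by positivity)) (by positivity)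
  exact pow_le_pow_of_le_one hu.le hu1 (Nat.le_mul_of_pos_left N (by omega))

lemma sq_sub_le_four {a b : ℝ} (ha : |a| ≤ 1) (hb : |b| ≤ 1) : (a - b) ^ 2 ≤ 4 := by
  nlinarith [abs_le.1 ha, abs_le.1 hb]

/-- Elementary comparison of two products with exponentials of two sums. -/
lemma exp_neg_sub_sq {a b c : ℝ} (ha : c ≤ a) (hb : c ≤ b) :
    (Real.exp (-a) - Real.exp (-b)) ^ 2 ≤ Real.exp (-(2 * c)) * (a - b) ^ 2 := by
  have key : ∀ {a b : ℝ}, c ≤ a → a ≤ b →
      |Real.exp (-a) - Real.exp (-b)| ≤ Real.exp (-c) * |a - b| := by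
    intro a b ha hab
    rw [abs_of_nonneg (sub_nonneg.2 (Real.exp_le_exp.2 (by linarith))),
      abs_of_nonpos (by linarith : a - b ≤ 0)]
    have h1 : Real.exp (-b) = Real.exp (-a) * Real.exp (a - b) := by rw [← Real.exp_add]; ring_nf
    have h2 := Real.add_one_le_exp (a - b)
    have h3 : Real.exp (-a) ≤ Real.exp (-c) := Real.exp_le_exp.2 (by linarith)
    nlinarith [Real.exp_pos (-a)]
  have h : |Real.exp (-a) - Real.exp (-b)| ≤ Real.exp (-c) * |a - b| := by
    rcases le_total a b with hab | hab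
    · exact key ha hab
    · rw [abs_sub_comm, abs_sub_comm a]; exact key hb hab
  have := pow_le_pow_left₀ (abs_nonneg _) h 2
  rwa [mul_pow, sq_abs, sq_abs, ← Real.exp_nat_mul, show ((2 : ℕ) : ℝ) * -c = -(2 * c) by
    push_cast; ring] at this

variable {V : Type*} [DecidableEq V] [Countable V] {G : SimpleGraph V} [G.LocallyFinite] {θ : ℝ}

variable (hG : G.IsTree) (hp : Par θ) {d : ℕ} (hd : 3 ≤ d) (hreg : G.IsRegularOfDegree d)
  (hb : ((d - 1 : ℕ) : ℝ) * θ ^ 2 = 1)
include hG hp hd hreg hb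

/-- The indicator-like weight of a small truncated sum. -/
noncomputable def lowW (G : SimpleGraph V) [G.LocallyFinite] (θ : ℝ) (r : V) (τ u : ℝ) (o w : V)
    (p : Dat V) : ℝ :=
  if 1 ≤ u ^ 16 * (G.dist o w : ℝ) then
    Real.exp (1 / (2 * u ^ 3) *
      (cmu θ / 8 * (u ^ 16 * (G.dist o w : ℝ)) - sqSum G θ r τ u o w p))
  else 0

/-- The weight of a side posterior beyond the truncation. -/
noncomputable def badW (G : SimpleGraph V) [G.LocallyFinite] (θ : ℝ) (r : V) (τ u : ℝ) (P : ℕ)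
    (o w : V) (p : Dat V) : ℝ :=
  ∑ i ∈ range (G.dist o w),
    (aL G θ sch r (rT sch τ) (up G o w i) (up G o w (i + 1)) p / u ^ 2) ^ (2 * P)

omit hd hreg hb [Countable V] in
lemma sqSum_nonneg (r : V) (τ u : ℝ) (o w : V) (p : Dat V) : 0 ≤ sqSum G θ r τ u o w p :=
  have _ := hG
  sum_nonneg fun i _ ↦ mul_nonneg (by nlinarith [hp.nonneg, hp.lt_one])
    (le_min (sq_nonneg _) (by positivity))

omit hd hreg hb in
lemma bm_lowW (r : V) (τ u : ℝ) (hu : 0 < u) (o w : V) : BM (lowW G θ r τ u o w) := by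
  have hm : Measurable (sqSum G θ r τ u o w) := Finset.measurable_sum _ fun i _ ↦
    (((measurable_aL r (rmeas_rT (V := V) sch τ) _ _).pow_const 2).min measurable_const).const_mul _
  by_cases h : 1 ≤ u ^ 16 * (G.dist o w : ℝ)
  · have e : lowW G θ r τ u o w = fun p ↦ Real.exp (1 / (2 * u ^ 3) *
        (cmu θ / 8 * (u ^ 16 * (G.dist o w : ℝ)) - sqSum G θ r τ u o w p)) := by
      funext p; simp only [lowW, if_pos h]
    rw [e]
    refine ⟨((hm.const_sub _).const_mul _).exp,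
      Real.exp (1 / (2 * u ^ 3) * (cmu θ / 8 * (u ^ 16 * (G.dist o w : ℝ)))), fun p ↦ ?_⟩
    rw [abs_of_pos (Real.exp_pos _)]
    exact Real.exp_le_exp.2 (mul_le_mul_of_nonneg_left
      (by linarith [sqSum_nonneg hG hp r τ u o w p]) (by positivity))
  · have e : lowW G θ r τ u o w = fun _ ↦ 0 := by funext p; simp only [lowW, if_neg h]
    rw [e]; exact BM.const 0

/-- Low truncated sums are very unlikely. -/
lemma lowW_int (N : ℕ) : ∃ C u1 : ℝ, 0 ≤ C ∧ 0 < u1 ∧ u1 ≤ 1 / 2 ∧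
    ∀ {r o w : V} {u τ : ℝ}, 0 < u → u ≤ u1 → u ^ 32 ≤ τ → τ ≤ 4 * u ^ 32 →
      ∫ ω, lowW G θ r τ u o w (vis sch ω) ∂Pm G θ r ≤ C * u ^ N := by
  obtain ⟨ub, hb0, hb1, hdec⟩ := decay_exp hG hp hd hreg hb
  obtain ⟨hθ, hcmu⟩ := theta_pos hG hp hb
  obtain ⟨C, hC, hexp⟩ := exp_inv_pow_le (a := cmu θ / 8 / 2) (by positivity) 2 N
  refine ⟨C, min ub (1 / 2), hC, by positivity, min_le_right _ _,
    fun {r o w u τ} hu huu hτ1 hτ2 ↦ ?_⟩
  have := Pm_prob (G := G) hp r
  have hub : u ≤ ub := huu.trans (min_le_left _ _)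
  have huh : u ≤ 1 / 2 := huu.trans (min_le_right _ _)
  have hu1 : u ≤ 1 := by linarith
  set k := G.dist o w with hk
  by_cases hx1 : 1 ≤ u ^ 16 * (k : ℝ)
  · have hk8 : 8 * ell u ≤ k := by
      have h1 : 1 / u ^ 16 ≤ (k : ℝ) := by
        rw [div_le_iff₀ (by positivity), mul_comm]; exact hx1
      have h2 := (ell_bounds hu hu1).2.2
      have h3 : 16 / u ≤ 1 / u ^ 16 := by
        rw [div_le_div_iff₀ hu (by positivity)]
        have : u ^ 15 ≤ (1 / 2) ^ 15 := pow_le_pow_left₀ hu.le huh 15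
        calc 16 * u ^ 16 = 16 * u ^ 15 * u := by ring
          _ ≤ 1 * u := mul_le_mul_of_nonneg_right
            (by linarith [show (16:ℝ) * (1/2)^15 ≤ 1 by norm_num]) hu.le
      have : 8 * (ell u : ℝ) ≤ k := by
        have : 8 * (ell u : ℝ) ≤ 16 / u := by rw [show (16:ℝ) / u = 8 * (2 / u) by ring]; linarith
        linarith
      exact_mod_cast this
    have e : ∀ ω : Om V, lowW G θ r τ u o w (vis sch ω) =
        Real.exp (1 / (2 * u ^ 3) * (cmu θ / 8 * (u ^ 16 * (k : ℝ)))) *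
          Real.exp (-(1 / (2 * u ^ 3) * sqSum G θ r τ u o w (vis sch ω))) := fun ω ↦ by
      rw [lowW, ← hk, if_pos hx1, ← Real.exp_add]; ring_nf
    simp only [e, integral_const_mul]
    refine (mul_le_mul_of_nonneg_left (hdec hu hub hτ1 hτ2 (by positivity) le_rfl hk8)
      (Real.exp_pos _).le).trans ?_
    rw [← Real.exp_add]
    refine (Real.exp_le_exp.2 ?_).trans (hexp u hu hu1)
    rw [← hk, show (2 + 1 : ℕ) = 3 from rfl]
    have h1 : cmu θ * 1 ≤ cmu θ * (u ^ 16 * k) := mul_le_mul_of_nonneg_left hx1 hcmu.le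
    calc 1 / (2 * u ^ 3) * (cmu θ / 8 * (u ^ 16 * ↑k)) +
          -(1 / (2 * u ^ 3) * cmu θ * u ^ 16 * ↑k / 4)
        = -(cmu θ * (u ^ 16 * k) / (16 * u ^ 3)) := by field_simp; ring
      _ ≤ -(cmu θ * 1 / (16 * u ^ 3)) :=
          neg_le_neg (div_le_div_of_nonneg_right h1 (by positivity))
      _ = -(cmu θ / 8 / 2 / u ^ 3) := by field_simp; ring
  · have e : ∀ ω : Om V, lowW G θ r τ u o w (vis sch ω) = 0 := fun ω ↦ by
      rw [lowW, ← hk, if_neg hx1]
    simp only [e, integral_zero]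
    positivity

/-- Side posteriors beyond the truncation are very unlikely. -/
lemma badW_int (N : ℕ) : ∃ (P : ℕ) (C u1 : ℝ), 0 ≤ C ∧ 0 < u1 ∧ u1 ≤ 1 / 2 ∧
    ∀ {r o w : V} {u τ : ℝ}, 0 < u → u ≤ u1 → τ ≤ 4 * u ^ 32 → G.dist o w ≤ 16 * Kc u →
      Integrable (fun ω ↦ badW G θ r τ u P o w (vis sch ω)) (Pm G θ r) ∧
        ∫ ω, badW G θ r τ u P o w (vis sch ω) ∂Pm G θ r ≤ C * u ^ N := by
  obtain ⟨uc, hc0, hc1, hmom⟩ := aL_moments hG hp hd hreg hb
  set P := N + 3 with hP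
  obtain ⟨C2, hC2, hmom⟩ := hmom P
  refine ⟨P, 144 * 2 ^ (12 * P) * C2, uc / 2, by positivity, by positivity, by linarith,
    fun {r o w u τ} hu huu hτ2 hk ↦ ?_⟩
  have := Pm_prob (G := G) hp r
  have hR := rmeas_rT (V := V) sch τ
  have hu1 : u ≤ 1 := by linarith
  set k := G.dist o w
  have hint : ∀ i ∈ range k, Integrable (fun ω ↦ (aL G θ sch r (rT sch τ) (up G o w i)
      (up G o w (i + 1)) (vis sch ω) / u ^ 2) ^ (2 * P)) (Pm G θ r) := fun i hi ↦
    Integrable.of_bound ((((measurable_aL r hR _ _).comp (measurable_vis sch)).div_const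
      _).pow_const _).aestronglyMeasurable ((1 / u ^ 2) ^ (2 * P))
      ((ae_conv (σ := sch) hG hp r hR).mono fun ω hω ↦ by
        rw [Real.norm_eq_abs, abs_pow, abs_div, abs_of_pos (by positivity : 0 < u ^ 2)]
        exact pow_le_pow_left₀ (by positivity) (div_le_div_of_nonneg_right
          (abs_aL hω hG hp (up_adj hG (Finset.mem_range.1 hi))) (by positivity)) _)
  refine ⟨integrable_finsetSum _ hint, ?_⟩
  simp only [badW]
  rw [integral_finsetSum _ hint]
  refine (sum_le_card_nsmul (range k) _ (C2 * (2 * u) ^ (12 * P) / (u ^ 2) ^ (2 * P))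
    fun i hi ↦ ?_).trans ?_
  · simp only [div_pow, integral_div]
    refine div_le_div_of_nonneg_right (hmom (up_adj hG (Finset.mem_range.1 hi)) (by positivity)
      (by linarith) ?_) (by positivity)
    refine hτ2.trans ?_
    rw [mul_pow]
    exact mul_le_mul_of_nonneg_right (by norm_num) (by positivity)
  · rw [card_range, nsmul_eq_mul]
    have e : C2 * (2 * u) ^ (12 * P) / (u ^ 2) ^ (2 * P) = C2 * 2 ^ (12 * P) * u ^ (8 * P) := by
      rw [mul_pow, ← pow_mul, show 12 * P = 8 * P + 2 * (2 * P) by ring, pow_add u]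
      field_simp
    have hkK : (k : ℝ) ≤ 144 / u ^ 20 := by
      have h1 : (k : ℝ) ≤ 16 * (Kc u : ℝ) := by exact_mod_cast hk
      have h2 : (Kc u : ℝ) ≤ 8 / u ^ 20 + 1 := by
        rw [Kc]; exact (Nat.ceil_lt_add_one (by positivity)).le
      have h3 : (1:ℝ) ≤ 1 / u ^ 20 := (one_le_div (by positivity)).2 (pow_le_one₀ hu.le hu1)
      rw [show (144:ℝ) / u ^ 20 = 16 * (8 / u ^ 20) + 16 * (1 / u ^ 20) by ring]
      linarith
    rw [e]
    calc (k : ℝ) * (C2 * 2 ^ (12 * P) * u ^ (8 * P))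
        ≤ 144 / u ^ 20 * (C2 * 2 ^ (12 * P) * u ^ (N + 20)) :=
          mul_le_mul hkK (mul_le_mul_of_nonneg_left
            (pow_le_pow_of_le_one hu.le hu1 (by omega)) (by positivity)) (by positivity)
            (by positivity)
      _ = _ := by rw [pow_add]; field_simp

omit hd hreg hb in
/-- The pointwise comparison of a product with the truncated logarithm. -/
lemma piL_sub_le {r o w : V} {u τ : ℝ} (P : ℕ) (hu : 0 < u) (huh : u ≤ 1 / 2) {q : Dat V × Dat V}
    (hq1 : Conv G θ sch r (rT sch τ) q.1) (hq2 : Conv G θ sch r (rT sch τ) q.2) :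
    (piL G θ sch r (rT sch τ) o w (G.dist o w) q.1 -
        piL G θ sch r (rT sch τ) o w (G.dist o w) q.2) ^ 2 ≤
      Real.exp (cmu θ / 4) * Real.exp (-(cmu θ / 4 * (u ^ 16 * (G.dist o w : ℝ)))) *
          (LL G θ r τ u o w q.1 - LL G θ r τ u o w q.2) ^ 2 +
        (lowW G θ r τ u o w q.1 + lowW G θ r τ u o w q.2 +
          (badW G θ r τ u P o w q.1 + badW G θ r τ u P o w q.2)) := by
  have hκ : 0 < 1 - θ ^ 2 := by nlinarith [hp.nonneg, hp.lt_one]
  have hc : 0 ≤ cmu θ := by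
    unfold cmu; positivity
  set k := G.dist o w with hk
  set x := u ^ 16 * (k : ℝ) with hx
  have hx0 : 0 ≤ x := by positivity
  have hEn : ∀ p, 0 ≤ lowW G θ r τ u o w p := fun p ↦ by
    simp only [lowW]; split_ifs <;> positivity
  have hBn : ∀ p, 0 ≤ badW G θ r τ u P o w p := fun p ↦
    sum_nonneg fun i _ ↦ (even_two_mul P).pow_nonneg _
  have hT0 : 0 ≤ Real.exp (cmu θ / 4) * Real.exp (-(cmu θ / 4 * x)) *
      (LL G θ r τ u o w q.1 - LL G θ r τ u o w q.2) ^ 2 := by positivity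
  obtain ⟨p10, p11⟩ := piL_mem hq1 hG hp o w (le_refl k)
  obtain ⟨p20, p21⟩ := piL_mem hq2 hG hp o w (le_refl k)
  have hone : (piL G θ sch r (rT sch τ) o w k q.1 - piL G θ sch r (rT sch τ) o w k q.2) ^ 2 ≤ 1 := by
    rw [sq_le_one_iff_abs_le_one, abs_le]; constructor <;> linarith
  have hnn := add_nonneg (add_nonneg (hEn q.1) (hEn q.2)) (add_nonneg (hBn q.1) (hBn q.2))
  by_cases hsmall : ∀ i ∈ range k,
      |aL G θ sch r (rT sch τ) (up G o w i) (up G o w (i + 1)) q.1| ≤ u ^ 2 ∧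
      |aL G θ sch r (rT sch τ) (up G o w i) (up G o w (i + 1)) q.2| ≤ u ^ 2
  · have hexpL : ∀ p : Dat V, (∀ i ∈ range k,
        |aL G θ sch r (rT sch τ) (up G o w i) (up G o w (i + 1)) p| ≤ u ^ 2) →
        piL G θ sch r (rT sch τ) o w k p = Real.exp (-LL G θ r τ u o w p) ∧
          sqSum G θ r τ u o w p ≤ LL G θ r τ u o w p := by
      intro p hp'
      constructor
      · rw [piL, LL, ← sum_neg_distrib, Real.exp_sum]
        exact prod_congr rfl fun i hi ↦ (exp_neg_Acl hp (by nlinarith) (hp' i hi)).symm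
      · rw [sqSum, LL]
        refine (sum_le_sum fun i _ ↦ (Acl_bound hp hu.le huh _).1).trans ?_
        refine sum_le_sum_of_subset_of_nonneg
          (fun i hi ↦ Finset.mem_range.2 (Finset.mem_Ico.1 hi).2) fun i _ _ ↦ ?_
        exact le_trans (mul_nonneg hκ.le (le_min (sq_nonneg _) (by positivity)))
          (Acl_bound hp hu.le huh _).1
    obtain ⟨e1, s1⟩ := hexpL q.1 fun i hi ↦ (hsmall i hi).1
    obtain ⟨e2, s2⟩ := hexpL q.2 fun i hi ↦ (hsmall i hi).2
    have hs1 := sqSum_nonneg hG hp r τ u o w q.1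
    have hs2 := sqSum_nonneg hG hp r τ u o w q.2
    by_cases hx1 : 1 ≤ x
    · by_cases hgood : cmu θ / 8 * x ≤ sqSum G θ r τ u o w q.1 ∧
          cmu θ / 8 * x ≤ sqSum G θ r τ u o w q.2
      · rw [e1, e2]
        refine ((exp_neg_sub_sq (hgood.1.trans s1) (hgood.2.trans s2)).trans ?_).trans
          (le_add_of_nonneg_right hnn)
        rw [show 2 * (cmu θ / 8 * x) = cmu θ / 4 * x by ring]
        refine mul_le_mul_of_nonneg_right ?_ (sq_nonneg _)
        exact le_mul_of_one_le_left (Real.exp_pos _).le (Real.one_le_exp (by positivity))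
      · refine hone.trans ?_
        have key : ∀ p, ¬ cmu θ / 8 * x ≤ sqSum G θ r τ u o w p → 1 ≤ lowW G θ r τ u o w p := by
          intro p h
          rw [lowW, ← hk, ← hx, if_pos hx1]
          exact Real.one_le_exp (mul_nonneg (by positivity) (by linarith [not_le.1 h]))
        rcases not_and_or.1 hgood with h | h <;>
          linarith [key _ h, hEn q.1, hEn q.2, hBn q.1, hBn q.2]
    · rw [e1, e2]
      refine ((exp_neg_sub_sq (hs1.trans s1) (hs2.trans s2)).trans ?_).trans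
        (le_add_of_nonneg_right hnn)
      refine mul_le_mul_of_nonneg_right ?_ (sq_nonneg _)
      rw [mul_zero, neg_zero, Real.exp_zero, ← Real.exp_add]
      exact Real.one_le_exp (by nlinarith [not_le.1 hx1])
  · push Not at hsmall
    obtain ⟨i, hi, hbad⟩ := hsmall
    refine hone.trans ?_
    have key : ∀ p : Dat V, u ^ 2 < |aL G θ sch r (rT sch τ) (up G o w i) (up G o w (i + 1)) p| →
        1 ≤ badW G θ r τ u P o w p := fun p h ↦ by
      refine le_trans ?_ (single_le_sum (f := fun i ↦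
        (aL G θ sch r (rT sch τ) (up G o w i) (up G o w (i + 1)) p / u ^ 2) ^ (2 * P))
        (fun i _ ↦ (even_two_mul P).pow_nonneg _) hi)
      rw [← (even_two_mul P).pow_abs]
      refine one_le_pow₀ ?_
      rw [abs_div, abs_of_pos (by positivity : 0 < u ^ 2), le_div_iff₀ (by positivity), one_mul]
      exact h.le
    by_cases h1 : |aL G θ sch r (rT sch τ) (up G o w i) (up G o w (i + 1)) q.1| ≤ u ^ 2
    · linarith [key q.2 (hbad h1), hEn q.1, hEn q.2, hBn q.1]
    · linarith [key q.1 (not_le.1 h1), hEn q.1, hEn q.2, hBn q.2]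

omit hd hreg hb in
/-- Integrals over the two copies of a function of one copy. -/
lemma integral_both (r : V) {φ : Dat V → ℝ} (hm : Measurable φ)
    (hi : Integrable (fun ω ↦ φ (vis sch ω)) (Pm G θ r)) :
    (Integrable (fun q : Dat V × Dat V ↦ φ q.1) (P2 G sch hp r) ∧
      Integrable (fun q : Dat V × Dat V ↦ φ q.2) (P2 G sch hp r)) ∧
    ∫ q, φ q.1 ∂P2 G sch hp r = ∫ ω, φ (vis sch ω) ∂Pm G θ r ∧
      ∫ q, φ q.2 ∂P2 G sch hp r = ∫ ω, φ (vis sch ω) ∂Pm G θ r := by
  have i1 : Integrable (fun q : Dat V × Dat V ↦ φ q.1) (P2 G sch hp r) := by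
    have h : Integrable φ ((P2 G sch hp r).map Prod.fst) := by
      rw [P2_fst hG hp r, integrable_map_measure hm.aestronglyMeasurable
        (measurable_vis sch).aemeasurable]
      exact hi
    exact h.comp_measurable measurable_fst
  have e1 : ∫ q, φ q.1 ∂P2 G sch hp r = ∫ ω, φ (vis sch ω) ∂Pm G θ r := by
    rw [← integral_map measurable_fst.aemeasurable hm.aestronglyMeasurable, P2_fst hG hp r,
      integral_map (measurable_vis sch).aemeasurable hm.aestronglyMeasurable]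
  have hmsw : MeasurePreserving Prod.swap (P2 G sch hp r) (P2 G sch hp r) :=
    ⟨measurable_swap, P2_swap hG hp r⟩
  refine ⟨⟨i1, hmsw.integrable_comp_of_integrable i1⟩, e1, ?_⟩
  rw [← e1]
  conv_rhs => rw [← P2_swap (σ := sch) hG hp r]
  rw [integral_map measurable_swap.aemeasurable
    (f := fun q : Dat V × Dat V ↦ φ q.1) (hm.comp measurable_fst).aestronglyMeasurable]
  rfl

/-- The discrepancy of a product along a path. -/
lemma piL_diff (N : ℕ) : ∃ C ν u1 : ℝ, 0 ≤ C ∧ 0 < ν ∧ 0 < u1 ∧ u1 ≤ 1 / 2 ∧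
    ∀ {r o w : V} {u τ : ℝ}, 0 < u → u ≤ u1 → u ^ 32 ≤ τ → τ ≤ 4 * u ^ 32 →
      G.dist r o ≤ 1 → G.dist o w ≤ 16 * Kc u →
      ∫ q, (piL G θ sch r (rT sch τ) o w (G.dist o w) q.1 -
          piL G θ sch r (rT sch τ) o w (G.dist o w) q.2) ^ 2 ∂P2 G sch hp r ≤
        C * Real.exp (-(ν * u ^ 16 * G.dist o w)) * ((G.dist o w : ℝ) + 1) * u ^ 3 *
            gamE G sch hp r τ + C * u ^ N := by
  obtain ⟨C1, ua, hC1, ha0, ha1, hL⟩ := LL_diff hG hp hd hreg hb N
  obtain ⟨CE, ub, hCE, hb0, hb1, hE⟩ := lowW_int hG hp hd hreg hb N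
  obtain ⟨P, CB, uc, hCB, hc0, hc1, hB⟩ := badW_int hG hp hd hreg hb N
  obtain ⟨hθ, hcmu⟩ := theta_pos hG hp hb
  set A := Real.exp (cmu θ / 4) with hA
  refine ⟨A * C1 + 2 * CE + 2 * CB, cmu θ / 4, min (min ua ub) uc, by positivity, by positivity,
    lt_min (lt_min ha0 hb0) hc0, ((min_le_left _ _).trans (min_le_left _ _)).trans ha1,
    fun {r o w u τ} hu huu hτ1 hτ2 hro hk ↦ ?_⟩
  have hua : u ≤ ua := huu.trans ((min_le_left _ _).trans (min_le_left _ _))
  have hub : u ≤ ub := huu.trans ((min_le_left _ _).trans (min_le_right _ _))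
  have huc : u ≤ uc := huu.trans (min_le_right _ _)
  have huh : u ≤ 1 / 2 := hua.trans ha1
  have := P2_prob (σ := sch) hG hp r
  have hR := rmeas_rT (V := V) sch τ
  set X := Real.exp (-(cmu θ / 4 * (u ^ 16 * (G.dist o w : ℝ)))) with hX
  obtain ⟨iB, hBle⟩ := hB (r := r) (o := o) (w := w) hu huc hτ2 hk
  have hmB : Measurable (badW G θ r τ u P o w) := Finset.measurable_sum _ fun i _ ↦
    ((measurable_aL r hR _ _).div_const _).pow_const _
  obtain ⟨⟨iB1, iB2⟩, eB1, eB2⟩ := integral_both hG hp r hmB iB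
  have bE : BM (lowW G θ r τ u o w) := bm_lowW hG hp r τ u hu o w
  have hbL : BM fun q : Dat V × Dat V ↦ (LL G θ r τ u o w q.1 - LL G θ r τ u o w q.2) ^ 2 := by
    have h : BM (LL G θ r τ u o w) := BM.sum _ fun i _ ↦
      ⟨(measurable_Acl u).comp (measurable_aL r hR _ _), 1,
        fun p ↦ (Acl_bound hp hu.le huh _).2⟩
    exact bm_pow (h.fst.sub h.snd) 2
  have iE := (bE.fst.integrable (P2 G sch hp r)).fun_add (bE.snd.integrable (P2 G sch hp r))
  have iBB := iB1.fun_add iB2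
  have iL := (hbL.integrable (P2 G sch hp r)).const_mul (A * X)
  refine (integral_mono_of_nonneg (.of_forall fun q ↦ sq_nonneg _) (iL.fun_add (iE.fun_add iBB))
    ((ae_P2_conv (σ := sch) hG hp r hR).mono fun q hq ↦
      piL_sub_le hG hp P hu huh hq.1 hq.2)).trans ?_
  rw [integral_add iL (iE.fun_add iBB), integral_add iE iBB,
    integral_add (bE.fst.integrable _) (bE.snd.integrable _), integral_add iB1 iB2,
    integral_const_mul, integral_fst hG hp r bE, integral_snd hG hp r bE, eB1, eB2]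
  have hLb := hL hu hua hτ1 hτ2 hro hk
  have hEb := hE (r := r) (o := o) (w := w) hu hub hτ1 hτ2
  have hX1 : X ≤ 1 := Real.exp_le_one_iff.2 (neg_nonpos.2 (by positivity))
  have hD0 : 0 ≤ gamE G sch hp r τ := gamE_nonneg hp r τ
  have hXe : Real.exp (-(cmu θ / 4 * u ^ 16 * (G.dist o w : ℝ))) = X := by rw [hX]; ring_nf
  rw [hXe]
  have h1 := mul_le_mul_of_nonneg_left hLb (show 0 ≤ A * X by positivity)
  have h2 : 0 ≤ (2 * CE + 2 * CB) * X * ((G.dist o w : ℝ) + 1) * u ^ 3 *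
      gamE G sch hp r τ := by positivity
  have h3 : A * X * (C1 * u ^ N) ≤ A * 1 * (C1 * u ^ N) := by gcongr
  linarith

/-- Both discrepancy sums near time zero. -/
lemma germ_cov (N : ℕ) : ∃ C u1 : ℝ, 0 ≤ C ∧ 0 < u1 ∧ u1 ≤ 1 / 2 ∧
    ∀ {r : V} {u τ : ℝ}, 0 < u → u ≤ u1 → u ^ 32 ≤ τ → τ ≤ 4 * u ^ 32 →
      ∀ f, IsTgt G r f → ∀ W : Finset V,
        u ^ 29 * (∑ w ∈ W, ∫ q, (cL G θ sch r (rT sch τ) f w q.1 -
            cL G θ sch r (rT sch τ) f w q.2) ^ 2 ∂P2 G sch hp r) ≤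
          C * gamE G sch hp r τ + C * u ^ N ∧
        u ^ 29 * (∑ w ∈ W, ∫ q, cL G θ sch r (rT sch τ) f w q.2 ^ 2 *
            (ML G θ sch r (rT sch τ) (fun S ↦ sg S w) q.1 -
              ML G θ sch r (rT sch τ) (fun S ↦ sg S w) q.2) ^ 2 ∂P2 G sch hp r) ≤
          C * gamE G sch hp r τ + C * u ^ N := by
  classical
  obtain ⟨C, ν, ua, hC, hν, ha0, ha1, hpi⟩ := piL_diff hG hp hd hreg hb (N + 20)
  obtain ⟨ub, hb0, hb1, hstr⟩ := pi_strong hG hp hd hreg hb
  obtain ⟨hθ, hcmu⟩ := theta_pos hG hp hb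
  set a0 := cmu θ / 4 with ha0'
  set C0 := Real.exp (4 * cmu θ) with hC0
  obtain ⟨C3, hC3, hexp⟩ := exp_inv_pow_le (a := 64 * a0) (by positivity) 3 (N + 20)
  set S1 := 2 * C * (1 + 1 / ν) ^ 2 + 26 * 145 with hS1
  set S2 := 2 * C * 145 + 8 * C0 * C3 * (1 + 2 / a0) with hS2
  refine ⟨2 * (d + 1) * (S1 + S2), min ua ub, by positivity, lt_min ha0 hb0,
    (min_le_left _ _).trans ha1, fun {r u τ} hu huu hτ1 hτ2 f hf W ↦ ?_⟩
  have hua : u ≤ ua := huu.trans (min_le_left _ _)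
  have hub : u ≤ ub := huu.trans (min_le_right _ _)
  have huh : u ≤ 1 / 2 := hua.trans ha1
  have hu1 : u ≤ 1 := by linarith
  have := P2_prob (σ := sch) hG hp r
  have := Pm_prob (G := G) hp r
  have hR := rmeas_rT (V := V) sch τ
  set R := rT (V := V) sch τ
  set D := gamE G sch hp r τ with hD
  have hD0 : 0 ≤ D := gamE_nonneg hp r τ
  set K := 16 * Kc u with hK
  set bnd : ℕ → ℝ := fun k ↦ if k ≤ K then
      2 * (C * Real.exp (-(ν * u ^ 16 * k)) * ((k : ℝ) + 1) * u ^ 3 * D + C * u ^ (N + 20)) + 26 * D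
    else 8 * C0 * Real.exp (-(a0 * u ^ 16 * k)) with hbnd
  have hbnd0 : ∀ k, 0 ≤ bnd k := fun k ↦ by simp only [hbnd]; split_ifs <;> positivity
  have hKle : (K : ℝ) + 1 ≤ 145 / u ^ 20 := by
    have h2 : (Kc u : ℝ) ≤ 8 / u ^ 20 + 1 := by
      rw [Kc]; exact (Nat.ceil_lt_add_one (by positivity)).le
    have h3 : (1:ℝ) ≤ 1 / u ^ 20 := (one_le_div (by positivity)).2 (pow_le_one₀ hu.le hu1)
    rw [show (145:ℝ) / u ^ 20 = 16 * (8 / u ^ 20) + 17 * (1 / u ^ 20) by ring, hK]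
    push_cast; linarith
  have hsum : ∀ M, ∑ k ∈ range M, bnd k ≤ (S1 * D + S2 * u ^ N) / u ^ 29 := by
    intro M
    simp only [hbnd]
    rw [sum_ite, sum_add_distrib, sum_const, nsmul_eq_mul, ← mul_sum, sum_add_distrib, sum_const,
      nsmul_eq_mul, ← mul_sum]
    set F := (range M).filter fun k ↦ k ≤ K
    have hF : (F.card : ℝ) ≤ K + 1 := by
      have := card_le_card (s := F) (t := range (K + 1))
        fun k hk ↦ Finset.mem_range.2 (Nat.lt_succ_of_le (mem_filter.1 hk).2)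
      rw [card_range] at this; exact_mod_cast this
    have h1 : ∑ k ∈ F, C * Real.exp (-(ν * u ^ 16 * k)) * ((k : ℝ) + 1) * u ^ 3 * D ≤
        C * (1 + 1 / ν) ^ 2 * D / u ^ 29 := by
      have e : ∀ k ∈ F, C * Real.exp (-(ν * u ^ 16 * k)) * ((k : ℝ) + 1) * u ^ 3 * D =
          C * u ^ 3 * D * (((k : ℝ) + 1) * Real.exp (-(ν * u ^ 16 * k))) := fun k _ ↦ by ring
      rw [sum_congr rfl e, ← mul_sum]
      have hg := (sum_le_sum_of_subset_of_nonneg (filter_subset (fun k ↦ k ≤ K) (range M))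
        fun k _ _ ↦ (by positivity :
          (0:ℝ) ≤ ((k : ℝ) + 1) * Real.exp (-(ν * u ^ 16 * k)))).trans
        (geom_weighted (ν := ν * u ^ 16) (by positivity) M)
      have hle : 1 + 1 / (ν * u ^ 16) ≤ (1 + 1 / ν) / u ^ 16 := by
        rw [add_div, div_div]
        exact add_le_add ((one_le_div (by positivity)).2 (pow_le_one₀ hu.le hu1)) le_rfl
      refine (mul_le_mul_of_nonneg_left (hg.trans (pow_le_pow_left₀ (by positivity) hle 2))
        (by positivity)).trans_eq ?_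
      rw [div_pow]; field_simp
    have h2 : ∑ k ∈ (range M).filter (fun k ↦ ¬ k ≤ K), Real.exp (-(a0 * u ^ 16 * k)) ≤
        C3 * (1 + 2 / a0) * (u ^ N * u ^ 4) := by
      simp only [not_le]
      have hA : 0 < a0 * u ^ 16 := by positivity
      refine (tail_le hA K M).trans ?_
      have hKge : 128 / u ^ 20 ≤ (K : ℝ) := by
        rw [hK]; push_cast
        have : 8 / u ^ 20 ≤ (Kc u : ℝ) := by rw [Kc]; exact Nat.le_ceil _
        linarith [show (128:ℝ) / u ^ 20 = 16 * (8 / u ^ 20) by ring]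
      have h3 : Real.exp (-(a0 * u ^ 16 * K / 2)) ≤ C3 * u ^ (N + 20) := by
        refine (Real.exp_le_exp.2 (neg_le_neg ?_)).trans (hexp u hu hu1)
        calc 64 * a0 / u ^ (3 + 1) = a0 * u ^ 16 * (128 / u ^ 20) / 2 := by field_simp; ring
          _ ≤ _ := by gcongr
      have h4 : 1 + 2 / (a0 * u ^ 16) ≤ (1 + 2 / a0) / u ^ 16 := by
        rw [add_div, div_div]
        exact add_le_add ((one_le_div (by positivity)).2 (pow_le_one₀ hu.le hu1)) le_rfl
      refine (mul_le_mul h3 h4 (by positivity) (by positivity)).trans_eq ?_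
      rw [pow_add]; field_simp
    have hu29 : (1:ℝ) ≤ 1 / u ^ 29 := (one_le_div (by positivity)).2 (pow_le_one₀ hu.le hu1)
    have h2029 : 145 / u ^ 20 ≤ 145 / u ^ 29 := div_le_div_of_nonneg_left (by norm_num)
      (by positivity) (pow_le_pow_of_le_one hu.le hu1 (by norm_num))
    have k1 : (F.card : ℝ) * (C * u ^ (N + 20)) ≤ C * 145 * u ^ N / u ^ 29 := by
      calc (F.card : ℝ) * (C * u ^ (N + 20)) ≤ 145 / u ^ 29 * (C * u ^ N) :=
            mul_le_mul ((hF.trans hKle).trans h2029) (mul_le_mul_of_nonneg_left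
              (pow_le_pow_of_le_one hu.le hu1 (by omega)) hC) (by positivity) (by positivity)
        _ = _ := by ring
    have k2 : (F.card : ℝ) * (26 * D) ≤ 26 * 145 * D / u ^ 29 := by
      calc (F.card : ℝ) * (26 * D) ≤ 145 / u ^ 29 * (26 * D) :=
            mul_le_mul_of_nonneg_right ((hF.trans hKle).trans h2029) (by positivity)
        _ = _ := by ring
    have k3 : 8 * C0 * ∑ k ∈ (range M).filter (fun k ↦ ¬ k ≤ K), Real.exp (-(a0 * u ^ 16 * k)) ≤
        8 * C0 * C3 * (1 + 2 / a0) * u ^ N / u ^ 29 := by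
      refine (mul_le_mul_of_nonneg_left h2 (by positivity)).trans ?_
      calc 8 * C0 * (C3 * (1 + 2 / a0) * (u ^ N * u ^ 4))
          ≤ 8 * C0 * (C3 * (1 + 2 / a0) * (u ^ N * (1 / u ^ 29))) := by
            refine mul_le_mul_of_nonneg_left (mul_le_mul_of_nonneg_left
              (mul_le_mul_of_nonneg_left ((pow_le_one₀ hu.le hu1).trans hu29) (by positivity))
              (by positivity)) (by positivity)
        _ = _ := by ring
    rw [show (S1 * D + S2 * u ^ N) / u ^ 29 = 2 * (C * (1 + 1 / ν) ^ 2 * D / u ^ 29) +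
        2 * (C * 145 * u ^ N / u ^ 29) + 26 * 145 * D / u ^ 29 +
        8 * C0 * C3 * (1 + 2 / a0) * u ^ N / u ^ 29 by rw [hS1, hS2]; ring]
    linarith
  -- each term
  have hgam : ∀ o, ∫ q, gam G θ sch r R o q ∂P2 G sch hp r = D := fun o ↦
    gam_invariant (σ := sch) hG hp r hreg τ o
  set B := insert r (G.neighborFinset r)
  choose o ho G0 hG0 hdG using fun w ↦ centre (σ := sch) hG hp r R hf w
  have hoD : ∀ w, G.dist r (o w) ≤ 1 := fun w ↦ by
    rcases Finset.mem_insert.1 (ho w) with e | e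
    · simp [e]
    · rw [SimpleGraph.mem_neighborFinset] at e
      rw [SimpleGraph.dist_eq_one_iff_adj.2 e]
  have hone : ∀ w, ∫ q, (cL G θ sch r R f w q.1 - cL G θ sch r R f w q.2) ^ 2 ∂P2 G sch hp r ≤
        (θ ^ 2) ^ G.dist (o w) w * bnd (G.dist (o w) w) ∧
      ∫ q, cL G θ sch r R f w q.2 ^ 2 * (ML G θ sch r R (fun S ↦ sg S w) q.1 -
          ML G θ sch r R (fun S ↦ sg S w) q.2) ^ 2 ∂P2 G sch hp r ≤
        (θ ^ 2) ^ G.dist (o w) w * bnd (G.dist (o w) w) := by
    intro w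
    set k := G.dist (o w) w with hk
    have hb2 : BM fun q : Dat V × Dat V ↦ (pc G θ sch r R (o w) w k q.1 -
        pc G θ sch r R (o w) w k q.2) ^ 2 :=
      bm_pow ((bm_pc r hR _ _ _).fst.sub (bm_pc r hR _ _ _).snd) 2
    have bgo : BM (gam G θ sch r R (o w)) := bm_gam hp r hR _
    have bgw : BM (gam G θ sch r R w) := bm_gam hp r hR _
    have bp : BM fun p ↦ pc G θ sch r R (o w) w k p := bm_pc r hR _ _ _
    have hθk : 0 ≤ (θ ^ 2) ^ k := by positivity
    have hc2 : ∀ q : Dat V × Dat V, Conv G θ sch r R q.1 → Conv G θ sch r R q.2 →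
        ((cL G θ sch r R f w q.1 - cL G θ sch r R f w q.2) ^ 2 ≤
          (θ ^ 2) ^ k * (2 * (pc G θ sch r R (o w) w k q.1 - pc G θ sch r R (o w) w k q.2) ^ 2 +
            24 * gam G θ sch r R (o w) q)) ∧
        ((cL G θ sch r R f w q.1 - cL G θ sch r R f w q.2) ^ 2 ≤
          (θ ^ 2) ^ k * (2 * pc G θ sch r R (o w) w k q.1 + 2 * pc G θ sch r R (o w) w k q.2)) ∧
        cL G θ sch r R f w q.2 ^ 2 ≤ (θ ^ 2) ^ k * pc G θ sch r R (o w) w k q.2 := by
      intro q h1 h2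
      obtain ⟨f1, g1⟩ := hG0 w q.1 h1
      obtain ⟨f2, g2⟩ := hG0 w q.2 h2
      rw [← pc_eq h1 hG hp _ _ le_rfl] at f1
      rw [← pc_eq h2 hG hp _ _ le_rfl] at f2
      rw [f1, f2]
      simp only [← hk]
      obtain ⟨a0, a1⟩ := pc_mem (G := G) (θ := θ) (σ := sch) r R (o w) w k q.1
      obtain ⟨b0, b1⟩ := pc_mem (G := G) (θ := θ) (σ := sch) r R (o w) w k q.2
      set P := pc G θ sch r R (o w) w k q.1
      set P' := pc G θ sch r R (o w) w k q.2
      have gg1 : |G0 w q.1| ≤ 1 := g1.trans (var_mem hp (o w)).2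
      have gg2 : |G0 w q.2| ≤ 1 := g2.trans (var_mem hp (o w)).2
      have s1 : G0 w q.1 ^ 2 ≤ 1 := (sq_le_one_iff_abs_le_one _).2 gg1
      have s2 : G0 w q.2 ^ 2 ≤ 1 := (sq_le_one_iff_abs_le_one _).2 gg2
      have e : (θ ^ 2) ^ k = (θ ^ k) ^ 2 := by rw [← pow_mul, ← pow_mul, mul_comm]
      have hd' := hdG w q.1 q.2
      refine ⟨?_, ?_, ?_⟩
      · rw [e, show θ ^ k * P * G0 w q.1 - θ ^ k * P' * G0 w q.2 =
          θ ^ k * ((P - P') * G0 w q.1 + P' * (G0 w q.1 - G0 w q.2)) by ring, mul_pow]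
        refine mul_le_mul_of_nonneg_left (add_sq_le.trans ?_) (sq_nonneg _)
        rw [mul_add, mul_pow, mul_pow]
        refine add_le_add (mul_le_mul_of_nonneg_left (mul_le_of_le_one_right (sq_nonneg _) s1)
          zero_le_two) ?_
        have : P' ^ 2 * (G0 w q.1 - G0 w q.2) ^ 2 ≤ 1 * (12 * gam G θ sch r R (o w) q) :=
          mul_le_mul (pow_le_one₀ b0 b1) hd' (sq_nonneg _) zero_le_one
        linarith
      · rw [e, show θ ^ k * P * G0 w q.1 - θ ^ k * P' * G0 w q.2 =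
          θ ^ k * (P * G0 w q.1 + -(P' * G0 w q.2)) by ring, mul_pow]
        refine mul_le_mul_of_nonneg_left (add_sq_le.trans ?_) (sq_nonneg _)
        rw [neg_sq, mul_pow, mul_pow]
        have t1 : P ^ 2 * G0 w q.1 ^ 2 ≤ P * 1 :=
          mul_le_mul (by rw [sq]; exact mul_le_of_le_one_left a0 a1) s1 (sq_nonneg _) a0
        have t2 : P' ^ 2 * G0 w q.2 ^ 2 ≤ P' * 1 :=
          mul_le_mul (by rw [sq]; exact mul_le_of_le_one_left b0 b1) s2 (sq_nonneg _) b0
        linarith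
      · rw [e, mul_pow, mul_pow, mul_assoc]
        refine mul_le_mul_of_nonneg_left ?_ (sq_nonneg _)
        exact (mul_le_mul (by rw [sq]; exact mul_le_of_le_one_left b0 b1) s2 (sq_nonneg _)
          b0).trans_eq (mul_one _)
    have hΔm : ∀ q : Dat V × Dat V, (ML G θ sch r R (fun S ↦ sg S w) q.1 -
          ML G θ sch r R (fun S ↦ sg S w) q.2) ^ 2 ≤ gam G θ sch r R w q ∧
        (ML G θ sch r R (fun S ↦ sg S w) q.1 - ML G θ sch r R (fun S ↦ sg S w) q.2) ^ 2 ≤ 4 :=
      fun q ↦ ⟨le_add_of_nonneg_right (sum_nonneg fun y _ ↦ by positivity),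
        sq_sub_le_four (abs_ML_all hp r R (fun S ↦ (sg_abs S w).le) _)
          (abs_ML_all hp r R (fun S ↦ (sg_abs S w).le) _)⟩
    have epc : ∀ (φ : Dat V × Dat V → Dat V) , (φ = Prod.fst ∨ φ = Prod.snd) →
        K < k → ∫ q, pc G θ sch r R (o w) w k (φ q) ∂P2 G sch hp r ≤
          C0 * Real.exp (-(a0 * u ^ 16 * k)) := by
      intro φ hφ _
      have h := hstr (r := r) (o := o w) (w := w) hu hub hτ1 hτ2
      have e1 : ∫ ω, pc G θ sch r R (o w) w k (vis sch ω) ∂Pm G θ r =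
          ∫ ω, piL G θ sch r R (o w) w k (vis sch ω) ∂Pm G θ r :=
        integral_congr_ae ((ae_conv (σ := sch) hG hp r hR).mono fun ω hω ↦
          pc_eq hω hG hp _ _ le_rfl)
      rcases hφ with rfl | rfl
      · rw [integral_fst hG hp r bp, e1]; exact h
      · rw [integral_snd hG hp r bp, e1]; exact h
    have hconv := ae_P2_conv (σ := sch) hG hp r hR
    by_cases hkK : k ≤ K
    · have hpd := hpi hu hua hτ1 hτ2 (hoD w) hkK
      have e1 : ∫ q, (pc G θ sch r R (o w) w k q.1 - pc G θ sch r R (o w) w k q.2) ^ 2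
            ∂P2 G sch hp r =
          ∫ q, (piL G θ sch r R (o w) w k q.1 - piL G θ sch r R (o w) w k q.2) ^ 2
            ∂P2 G sch hp r :=
        integral_congr_ae (hconv.mono fun q hq ↦ by
          simp only [pc_eq hq.1 hG hp _ _ (le_refl k), pc_eq hq.2 hG hp _ _ (le_refl k)])
      simp only [hbnd, if_pos hkK]
      constructor
      · refine (integral_mono_of_nonneg (.of_forall fun q ↦ sq_nonneg _)
          (g := fun q ↦ (θ ^ 2) ^ k * (2 * (pc G θ sch r R (o w) w k q.1 -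
            pc G θ sch r R (o w) w k q.2) ^ 2 + 24 * gam G θ sch r R (o w) q))
          (((BM.const _).mul (((BM.const 2).mul hb2).add ((BM.const 24).mul bgo))).integrable _)
          (hconv.mono fun q hq ↦ (hc2 q hq.1 hq.2).1)).trans ?_
        rw [integral_const_mul, integral_add (((BM.const 2).mul hb2).integrable _)
          (((BM.const 24).mul bgo).integrable _), integral_const_mul, integral_const_mul, hgam, e1]
        refine mul_le_mul_of_nonneg_left ?_ hθk
        linarith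
      · refine (integral_mono_of_nonneg
          (.of_forall fun q ↦ mul_nonneg (sq_nonneg _) (sq_nonneg _))
          (g := fun q ↦ (θ ^ 2) ^ k * gam G θ sch r R w q)
          (((BM.const _).mul bgw).integrable _) (hconv.mono fun q hq ↦ ?_)).trans ?_
        · refine (mul_le_mul ((hc2 q hq.1 hq.2).2.2) (hΔm q).1 (sq_nonneg _)
            (mul_nonneg hθk (pc_mem r R _ _ _ _).1)).trans ?_
          refine mul_le_mul_of_nonneg_right ?_ (gam_nonneg r R w q)
          exact mul_le_of_le_one_right hθk (pc_mem r R _ _ _ _).2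
        · rw [integral_const_mul, hgam]
          refine mul_le_mul_of_nonneg_left ?_ hθk
          have : 0 ≤ C * Real.exp (-(ν * u ^ 16 * k)) * ((k : ℝ) + 1) * u ^ 3 * D := by positivity
          have : 0 ≤ C * u ^ (N + 20) := by positivity
          linarith
    · simp only [hbnd, if_neg hkK]
      have i1 := epc Prod.fst (Or.inl rfl) (not_le.1 hkK)
      have i2 := epc Prod.snd (Or.inr rfl) (not_le.1 hkK)
      have hx : 0 ≤ C0 * Real.exp (-(a0 * u ^ 16 * k)) := by positivity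
      constructor
      · refine (integral_mono_of_nonneg (.of_forall fun q ↦ sq_nonneg _)
          (g := fun q ↦ (θ ^ 2) ^ k *
            (2 * pc G θ sch r R (o w) w k q.1 + 2 * pc G θ sch r R (o w) w k q.2))
          (((BM.const _).mul (((BM.const 2).mul bp.fst).add ((BM.const 2).mul bp.snd))).integrable _)
          (hconv.mono fun q hq ↦ (hc2 q hq.1 hq.2).2.1)).trans ?_
        rw [integral_const_mul, integral_add (((BM.const 2).mul bp.fst).integrable _)
          (((BM.const 2).mul bp.snd).integrable _), integral_const_mul, integral_const_mul]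
        refine mul_le_mul_of_nonneg_left ?_ hθk
        linarith
      · refine (integral_mono_of_nonneg
          (.of_forall fun q ↦ mul_nonneg (sq_nonneg _) (sq_nonneg _))
          (g := fun q ↦ (θ ^ 2) ^ k * (4 * pc G θ sch r R (o w) w k q.2))
          (((BM.const _).mul ((BM.const 4).mul bp.snd)).integrable _)
          (hconv.mono fun q hq ↦ ?_)).trans ?_
        · exact (mul_le_mul ((hc2 q hq.1 hq.2).2.2) (hΔm q).2 (sq_nonneg _)
            (mul_nonneg hθk (pc_mem r R _ _ _ _).1)).trans_eq (by ring)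
        · rw [integral_const_mul, integral_const_mul]
          refine mul_le_mul_of_nonneg_left ?_ hθk
          linarith
  have hbig : ∑ w ∈ W, (θ ^ 2) ^ G.dist (o w) w * bnd (G.dist (o w) w) ≤
      (d + 1 : ℝ) * (2 * ((S1 * D + S2 * u ^ N) / u ^ 29)) := by
    have hstep : ∀ w ∈ W, (θ ^ 2) ^ G.dist (o w) w * bnd (G.dist (o w) w) ≤
        ∑ b ∈ B, (θ ^ 2) ^ G.dist b w * bnd (G.dist b w) := fun w _ ↦
      single_le_sum (f := fun b ↦ (θ ^ 2) ^ G.dist b w * bnd (G.dist b w))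
        (fun b _ ↦ mul_nonneg (by positivity) (hbnd0 _)) (ho w)
    refine (sum_le_sum hstep).trans ?_
    rw [sum_comm]
    refine (sum_le_card_nsmul B _ _ fun b _ ↦ sum_by_dist hG hd hreg hb b W hbnd0 hsum).trans ?_
    rw [nsmul_eq_mul]
    refine mul_le_mul_of_nonneg_right ?_ (by positivity)
    have := card_insert_le r (G.neighborFinset r)
    rw [SimpleGraph.card_neighborFinset_eq_degree, hreg.degree_eq r] at this
    exact_mod_cast this
  have hfin : ∀ F : V → ℝ, (∀ w ∈ W, F w ≤ (θ ^ 2) ^ G.dist (o w) w * bnd (G.dist (o w) w)) →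
      u ^ 29 * ∑ w ∈ W, F w ≤ 2 * (d + 1) * (S1 + S2) * D + 2 * (d + 1) * (S1 + S2) * u ^ N := by
    intro F hF
    refine (mul_le_mul_of_nonneg_left ((sum_le_sum hF).trans hbig) (by positivity)).trans ?_
    rw [show u ^ 29 * ((d + 1 : ℝ) * (2 * ((S1 * D + S2 * u ^ N) / u ^ 29))) =
      2 * (d + 1) * (S1 * D + S2 * u ^ N) by field_simp]
    have hS10 : 0 ≤ S1 := by positivity
    have hS20 : 0 ≤ S2 := by positivity
    have : 0 ≤ 2 * ((d:ℝ) + 1) * (S2 * D + S1 * u ^ N) := by positivity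
    linarith
  exact ⟨hfin _ fun w _ ↦ (hone w).1, hfin _ fun w _ ↦ (hone w).2⟩

omit [Countable V] [G.LocallyFinite] hd hreg hb hp in
lemma tgt_form {r : V} {f : Finset V → ℝ} (hf : IsTgt G r f) :
    (∃ x, f = fun S ↦ sg S x) ∨ ∃ x y, G.Adj x y ∧ f = fun S ↦ sg S x * sg S y := by
  have _ := hG
  rcases hf with h | ⟨y, hy, h | h⟩
  · exact Or.inl ⟨r, h⟩
  · exact Or.inl ⟨y, h⟩
  · exact Or.inr ⟨r, y, hy, h⟩

omit hd hreg hb in
/-- A squared discrepancy is at most four times a centred second moment. -/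
lemma disc_le {r : V} {t c B : ℝ} {f : Finset V → ℝ} (hf : ∀ S, |f S| ≤ 1)
    (hB : ∫ ω, (ML G θ sch r (rT sch t) f (vis sch ω) - c) ^ 2 ∂Pm G θ r ≤ B) :
    ∫ q, (ML G θ sch r (rT sch t) f q.1 - ML G θ sch r (rT sch t) f q.2) ^ 2 ∂P2 G sch hp r ≤
      4 * B := by
  have := P2_prob (σ := sch) hG hp r
  have := Pm_prob (G := G) hp r
  have bX : BM fun p : Dat V ↦ (ML G θ sch r (rT sch t) f p - c) ^ 2 :=
    bm_pow ((bm_ML hp r (rmeas_rT sch t) hf).sub (BM.const c)) 2
  have i1 := (bX.fst.integrable (P2 G sch hp r)).const_mul 2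
  have i2 := (bX.snd.integrable (P2 G sch hp r)).const_mul 2
  refine (integral_mono_of_nonneg (.of_forall fun q ↦ sq_nonneg _) (i1.fun_add i2)
    (.of_forall fun q ↦ ?_)).trans ?_
  · dsimp only
    nlinarith [sq_nonneg ((ML G θ sch r (rT sch t) f q.1 - c) +
      (ML G θ sch r (rT sch t) f q.2 - c))]
  · rw [integral_add i1 i2, integral_const_mul, integral_const_mul, integral_fst hG hp r bX,
      integral_snd hG hp r bX]
    linarith

/-- The crude bound near zero. -/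
lemma gamE_base (r : V) : ∃ C : ℝ, ∀ t, 0 < t → t ≤ 1 → gamE G sch hp r t ≤ C * uu t ^ 12 := by
  obtain ⟨u1, h10, h11, hmom⟩ := moments hG hp hd hreg hb
  obtain ⟨C, hC, hmom⟩ := hmom 1
  have := P2_prob (σ := sch) hG hp r
  have := Pm_prob (G := G) hp r
  set m : ℝ := 1 + 2 * d
  refine ⟨4 * m * C + 16 * m / u1 ^ 12, fun t ht ht1 ↦ ?_⟩
  have hu : 0 < uu t := Real.rpow_pos_of_pos ht _
  have hR := rmeas_rT (V := V) sch t
  have hT : ∀ {f : Finset V → ℝ} {c : ℝ} {B : ℝ}, (∀ S, |f S| ≤ 1) →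
      (∫ ω, (ML G θ sch r (rT sch t) f (vis sch ω) - c) ^ 2 ∂Pm G θ r ≤ B) →
      ∫ q, (ML G θ sch r (rT sch t) f q.1 - ML G θ sch r (rT sch t) f q.2) ^ 2 ∂P2 G sch hp r ≤
        4 * B := by
    intro f c B hf hB
    exact disc_le hG hp hf hB
  have hall : ∀ B : ℝ, (∀ x, ∫ ω, ML G θ sch r (rT sch t) (fun S ↦ sg S x) (vis sch ω) ^ 2
        ∂Pm G θ r ≤ B) →
      (∀ x q, G.Adj x q → ∫ ω, (ML G θ sch r (rT sch t) (fun S ↦ sg S x * sg S q) (vis sch ω) -
        θ) ^ 2 ∂Pm G θ r ≤ B) → gamE G sch hp r t ≤ 4 * m * B := by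
    intro B h1 h2
    have s1 : ∀ x, ∫ q, (ML G θ sch r (rT sch t) (fun S ↦ sg S x) q.1 -
        ML G θ sch r (rT sch t) (fun S ↦ sg S x) q.2) ^ 2 ∂P2 G sch hp r ≤ 4 * B := fun x ↦
      hT (c := 0) (fun S ↦ (sg_abs S x).le) (by simpa only [sub_zero] using h1 x)
    have b : ∀ {f : Finset V → ℝ}, (∀ S, |f S| ≤ 1) → Integrable (fun q : Dat V × Dat V ↦
        (ML G θ sch r (rT sch t) f q.1 - ML G θ sch r (rT sch t) f q.2) ^ 2) (P2 G sch hp r) :=
      fun hf ↦ (bm_pow (bm_diff hp r hR hf) 2).integrable _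
    unfold gamE gam
    rw [integral_add (b fun S ↦ (sg_abs S r).le) (integrable_finsetSum _ fun y _ ↦
        (b (abs_sg2 r y)).fun_add (b fun S ↦ (sg_abs S y).le)),
      integral_finsetSum _ fun y _ ↦ (b (abs_sg2 r y)).fun_add (b fun S ↦ (sg_abs S y).le)]
    have hsum : ∀ y ∈ G.neighborFinset r, ∫ q,
        (ML G θ sch r (rT sch t) (fun S ↦ sg S r * sg S y) q.1 -
          ML G θ sch r (rT sch t) (fun S ↦ sg S r * sg S y) q.2) ^ 2 +
        (ML G θ sch r (rT sch t) (fun S ↦ sg S y) q.1 -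
          ML G θ sch r (rT sch t) (fun S ↦ sg S y) q.2) ^ 2 ∂P2 G sch hp r ≤ 8 * B := by
      intro y hy
      rw [integral_add (b (abs_sg2 r y)) (b fun S ↦ (sg_abs S y).le)]
      linarith [s1 y, hT (c := θ) (abs_sg2 r y)
        (h2 r y ((G.mem_neighborFinset r y).1 hy))]
    refine (add_le_add (s1 r) (sum_le_card_nsmul _ _ _ hsum)).trans_eq ?_
    rw [SimpleGraph.card_neighborFinset_eq_degree, hreg.degree_eq r, nsmul_eq_mul]
    simp only [m]; ring
  have hC0 : 0 ≤ 4 * m * C * uu t ^ 12 := by positivity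
  rcases le_or_gt (uu t) u1 with h | h
  · have ht32 : t ≤ uu t ^ 32 := by
      rw [show 32 = 32 * 1 from rfl, uu_pow ht.le, pow_one]
    obtain ⟨hs, hpair⟩ := hmom (r := r) hu h ht32
    simp only [mul_one] at hs hpair
    refine (hall _ hs hpair).trans ?_
    have : 0 ≤ 16 * m / u1 ^ 12 * uu t ^ 12 := by positivity
    linarith
  · have h0 := hall 4 (fun x ↦ ?_) (fun x q _ ↦ ?_)
    · have h12 : 1 ≤ uu t ^ 12 / u1 ^ 12 := by
        rw [le_div_iff₀ (by positivity), one_mul]; exact pow_le_pow_left₀ h10.le h.le _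
      have := mul_le_mul_of_nonneg_left h12 (show (0:ℝ) ≤ 16 * m by positivity)
      rw [show 16 * m * (uu t ^ 12 / u1 ^ 12) = 16 * m / u1 ^ 12 * uu t ^ 12 by ring] at this
      linarith
    · refine (integral_mono_of_nonneg (.of_forall fun ω ↦ sq_nonneg _) (integrable_const 1)
        (.of_forall fun ω ↦ (sq_le_one_iff_abs_le_one _).2
          (abs_ML_all hp r _ (fun S ↦ (sg_abs S x).le) _))).trans (by simp)
    · refine (integral_mono_of_nonneg (.of_forall fun ω ↦ sq_nonneg _) (integrable_const 4)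
        (.of_forall fun ω ↦ sq_sub_le_four (abs_ML_all hp r _ (abs_sg2 x q) _)
          (by rw [abs_of_nonneg hp.nonneg]; exact hp.lt_one.le))).trans ?_
      simp only [integral_const, probReal_univ, one_smul, le_refl]

/-- The discrepancy is smaller than every power of the time near zero. -/
lemma germ (r : V) : ∀ N : ℕ, ∃ C t1 : ℝ, 0 < t1 ∧ ∀ t, 0 < t → t ≤ t1 →
    gamE G sch hp r t ≤ C * uu t ^ N := by
  classical
  have := P2_prob (σ := sch) hG hp r
  obtain ⟨C0, h0⟩ := gamE_base hG hp hd hreg hb r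
  refine bootstrap (fun s t _ hst ↦ gamE_mono hG hp r hst) (fun t _ ↦ gamE_nonneg hp r t) h0
    fun N ↦ ?_
  obtain ⟨C, u1, hC, h10, h11, hcov⟩ := germ_cov hG hp hd hreg hb N
  set K := (1 + 2 * (d : ℝ)) * (4 * 6 * (8 + 64) * C) with hK
  refine ⟨2 * K, 2 * u1 ^ 32, by positivity, fun t ht htt ↦ ?_⟩
  set u := uu (t / 2) with hu
  have hu0 : 0 < u := Real.rpow_pos_of_pos (by linarith) _
  have hu32 : u ^ 32 = t / 2 := by
    rw [show (32:ℕ) = 32 * 1 from rfl, hu, uu_pow (by linarith), pow_one]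
  have huu1 : u ≤ u1 := (pow_le_pow_iff_left₀ hu0.le h10.le (by norm_num : (32:ℕ) ≠ 0)).1
    (by rw [hu32]; linarith)
  have hu1 : u ≤ 1 := by linarith
  have hutt : u ≤ uu t := Real.rpow_le_rpow (by linarith) (by linarith) (by norm_num)
  set D := gamE G sch hp r (2 * t)
  have hD0 : 0 ≤ D := gamE_nonneg hp r _
  set B := (C * D + C * u ^ N) / u ^ 29 with hB
  have hB0 : 0 ≤ B := by positivity
  have hinc : ∀ f, IsTgt G r f → incr2 G sch hp r t (2 * t) f ≤
      4 * 6 * (8 + 64) * C * (u ^ 3 * D + u ^ N) * 2 := by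
    intro f hf
    have hb' : ∀ τ, t / 2 ≤ τ → τ < 2 * t → ∀ W, _ := fun τ h1 h2 W ↦
      hcov (r := r) (τ := τ) hu0 huu1 (by rw [hu32]; linarith) (by rw [hu32]; linarith) f hf W
    have hB1 : ∀ τ, t / 2 ≤ τ → τ < 2 * t → C * gamE G sch hp r τ + C * u ^ N ≤
        C * D + C * u ^ N := fun τ _ h2 ↦ by
      have := gamE_mono (σ := sch) hG hp r h2.le
      have := mul_le_mul_of_nonneg_left this hC
      linarith
    have hstep := step_bound hG hp r hd hreg hb (tgt_form hG hf) (B1 := B) (B2 := B) ht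
      (by linarith : t ≤ 2 * t) le_rfl
      (fun τ h1 h2 W ↦ by
        rw [hB, le_div_iff₀ (by positivity), mul_comm]
        exact (hb' τ h1 h2 W).1.trans (hB1 τ h1 h2))
      (fun τ h1 h2 W ↦ by
        rw [hB, le_div_iff₀ (by positivity), mul_comm]
        exact (hb' τ h1 h2 W).2.trans (hB1 τ h1 h2))
    refine hstep.trans ?_
    have ht2 : t = 2 * u ^ 32 := by linarith
    have hmin : min 1 (2 * t) ≤ 2 := (min_le_left _ _).trans (by norm_num)
    have h2t : 2 + 2 * t ≤ 6 := by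
      have : u ^ 32 ≤ 1 := pow_le_one₀ hu0.le hu1
      linarith
    have hmin0 : 0 ≤ min 1 (2 * t) := le_min zero_le_one (by linarith)
    calc 4 * (2 * t - t) * (2 + 2 * t) * (8 * B + 32 * min 1 (2 * t) * B)
        ≤ 4 * (2 * t - t) * 6 * (8 * B + 32 * 2 * B) := by gcongr <;> linarith
      _ = 4 * 6 * (8 + 64) * C * (u ^ 3 * D + u ^ 3 * u ^ N) * 2 := by
          rw [hB, show 2 * t - t = t by ring, ht2]; field_simp; ring
      _ ≤ _ := by
          gcongr
          exact mul_le_of_le_one_left (by positivity) (pow_le_one₀ hu0.le hu1)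
  have hdiff := gamE_diff (σ := sch) hG hp r (t := t) (t' := 2 * t) (by linarith)
  have h1 := hinc _ (Or.inl rfl)
  have h2 : ∑ y ∈ G.neighborFinset r, (incr2 G sch hp r t (2 * t) (fun S ↦ sg S r * sg S y) +
      incr2 G sch hp r t (2 * t) fun S ↦ sg S y) ≤
      (d : ℝ) * (2 * (4 * 6 * (8 + 64) * C * (u ^ 3 * D + u ^ N) * 2)) := by
    refine (sum_le_card_nsmul _ _ (2 * (4 * 6 * (8 + 64) * C * (u ^ 3 * D + u ^ N) * 2))
      fun y hy ↦ ?_).trans_eq
      (by rw [SimpleGraph.card_neighborFinset_eq_degree, hreg.degree_eq r, nsmul_eq_mul])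
    have hy' := (G.mem_neighborFinset r y).1 hy
    linarith [hinc _ (Or.inr ⟨y, hy', Or.inr rfl⟩), hinc _ (Or.inr ⟨y, hy', Or.inl rfl⟩)]
  have e3 : u ^ 3 * D ≤ uu t ^ 3 * D :=
    mul_le_mul_of_nonneg_right (pow_le_pow_left₀ hu0.le hutt 3) hD0
  have eN : u ^ N ≤ uu t ^ N := pow_le_pow_left₀ hu0.le hutt N
  have hm : 0 ≤ 2 * K := by positivity
  calc D - gamE G sch hp r t
      ≤ 2 * K * (u ^ 3 * D + u ^ N) := by rw [hK]; linarith
    _ ≤ 2 * K * (uu t ^ 3 * D + uu t ^ N) := mul_le_mul_of_nonneg_left (add_le_add e3 eN) hm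
    _ = _ := by ring

end Vale.Agent.P161.Crit
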