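import Mathlib
import Vale.Agent.P161.Crit.Germ
import Vale.Agent.P161.Crit.Strong

/-!
The discrepancy of the two copies vanishes at all times; the observations are functions of the
source.
-/

namespace Vale.Agent.P161.Crit

open Finset MeasureTheory Filter Topology

attribute [local irreducible] ML pf aL piL

variable {V : Type*} [DecidableEq V] [Countable V] {G : SimpleGraph V} [G.LocallyFinite] {θ : ℝ}

variable (hG : G.IsTree) (hp : Par θ) {d : ℕ} (hd : 3 ≤ d) (hreg : G.IsRegularOfDegree d)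
  (hb : ((d - 1 : ℕ) : ℝ) * θ ^ 2 = 1)
include hG hp hd hreg hb

/-- At every time the products along paths decay at a rate whose inverse square is `O(1 + 1/τ)`. -/
lemma pi_rate : ∃ C0 A : ℝ, 0 ≤ C0 ∧ 1 ≤ A ∧ ∀ {r : V} {τ : ℝ}, 0 < τ →
    ∃ x, 0 < x ∧ x ≤ 1 ∧ (1 / x) ^ 2 ≤ A + A / τ ∧
      ∀ o w : V, ∫ ω, piL G θ sch r (rT sch τ) o w (G.dist o w) (vis sch ω) ∂Pm G θ r ≤
        C0 * Real.exp (-(x * G.dist o w)) := by
  obtain ⟨ua, ha0, ha1, hs⟩ := pi_strong hG hp hd hreg hb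
  obtain ⟨ub, hb0, hb1, hl⟩ := pi_late hG hp hd hreg hb
  obtain ⟨hθ, hc⟩ := theta_pos hG hp hb
  set v := min ua ub with hv
  have hv0 : 0 < v := lt_min ha0 hb0
  set a := cmu θ / 4 with ha
  set x0 := cmu θ / 64 * v ^ 17 with hx0
  set A := 1 + (1 / a) ^ 2 + (1 / x0) ^ 2 with hA
  have ha' : 0 < a := by positivity
  have hx0' : 0 < x0 := by positivity
  refine ⟨max (Real.exp (4 * cmu θ)) (Real.exp (cmu θ / 64 * v ^ 17 * (8 * Kc v + 1 : ℕ))), A,
    le_max_of_le_left (Real.exp_pos _).le, by rw [hA]; nlinarith [sq_nonneg (1/a), sq_nonneg (1/x0)],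
    fun {r τ} hτ ↦ ?_⟩
  -- a rate is enough: cap it at one
  have cap : ∀ {y : ℝ}, 0 < y → (1 / y) ^ 2 ≤ A - 1 + (A - 1) / τ →
      (1 / min 1 y) ^ 2 ≤ A + A / τ := by
    intro y hy h
    have : (1:ℝ) / τ ≥ 0 := by positivity
    have e : (A - 1) / τ = A / τ - 1 / τ := by ring
    rcases le_total (1:ℝ) y with h1 | h1
    · rw [min_eq_left h1]
      have : 0 ≤ A / τ := by positivity
      have : 1 ≤ A := by rw [hA]; nlinarith [sq_nonneg (1/a), sq_nonneg (1/x0)]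
      norm_num; linarith
    · rw [min_eq_right h1]; linarith
  rcases le_or_gt τ (v ^ 32) with hτv | hτv
  · set u := uu τ with hu
    have hu0 : 0 < u := Real.rpow_pos_of_pos hτ _
    have hu32 : u ^ 32 = τ := by rw [show (32:ℕ) = 32 * 1 from rfl, hu, uu_pow hτ.le, pow_one]
    have huv : u ≤ v := (pow_le_pow_iff_left₀ hu0.le hv0.le (by norm_num : (32:ℕ) ≠ 0)).1
      (by rw [hu32]; exact hτv)
    refine ⟨min 1 (a * u ^ 16), lt_min one_pos (by positivity), min_le_left _ _,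
      cap (by positivity) ?_, fun o w ↦ ?_⟩
    · have e : (1 / (a * u ^ 16)) ^ 2 = (1 / a) ^ 2 / τ := by rw [← hu32]; field_simp
      have h2 : 0 ≤ (1 / x0) ^ 2 / τ + (A - 1) := by rw [hA]; ring_nf; positivity
      rw [e, hA] at *
      rw [show (1 + (1 / a) ^ 2 + (1 / x0) ^ 2 - 1) / τ = (1 / a) ^ 2 / τ + (1 / x0) ^ 2 / τ by ring]
      linarith
    · refine (hs (r := r) (o := o) (w := w) hu0 (huv.trans (min_le_left _ _)) hu32.le
        (by linarith [hu32])).trans ?_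
      refine mul_le_mul (le_max_left _ _) (Real.exp_le_exp.2 (neg_le_neg ?_)) (Real.exp_pos _).le
        (le_max_of_le_left (Real.exp_pos _).le)
      rw [ha]
      exact mul_le_mul_of_nonneg_right (min_le_right _ _) (Nat.cast_nonneg _)
  · refine ⟨min 1 x0, lt_min one_pos hx0', min_le_left _ _, cap hx0' ?_, fun o w ↦ ?_⟩
    · have h2 : 0 ≤ (A - 1) / τ + (1 / a) ^ 2 := by
        rw [hA]; ring_nf; positivity
      rw [hA] at *
      linarith
    · refine (hl v hv0 (min_le_right _ _) (r := r) (o := o) (w := w) hτv.le).trans ?_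
      exact mul_le_mul (le_max_right _ _) (Real.exp_le_exp.2 (neg_le_neg
        (mul_le_mul_of_nonneg_right (min_le_right _ _) (Nat.cast_nonneg _)))) (Real.exp_pos _).le
        (le_max_of_le_left (Real.exp_pos _).le)

/-- The increase of the discrepancy over a short interval. -/
lemma gamE_step (r : V) {T : ℝ} (hT : 0 < T) :
    ∃ c K P c0 : ℝ, 0 ≤ c ∧ 0 ≤ K ∧ 0 ≤ P ∧ 0 < c0 ∧
      ∀ (l : ℕ) (s t : ℝ), 0 < s → s ≤ t → t ≤ 2 * s → t ≤ T →
        gamE G sch hp r t - gamE G sch hp r s ≤ (t - s) *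
          ((c / s + K * (l + 1 : ℝ) ^ 2) * gamE G sch hp r t +
            P * (1 + 1 / s) ^ 2 * Real.exp (-(c0 * ((d - 1 : ℕ) : ℝ) ^ l))) := by
  obtain ⟨C0, A, hC0, hA, hrate⟩ := pi_rate hG hp hd hreg hb
  obtain ⟨C, c0, hC, hc0, hlb⟩ := later_bound (σ := sch) hG hp hd hreg hb r hC0
  set M : ℝ := (1 + 2 * d) * (4 * (2 + T) * 40) with hM
  have hM0 : 0 ≤ M := by positivity
  refine ⟨M * (4 * C * A), M * C * (2 + 2 * A), M * (4 * C * A ^ 2), c0, by positivity,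
    by positivity, by positivity, hc0, fun l s t hs hst ht2 htT ↦ ?_⟩
  set D := gamE G sch hp r t with hD
  have hD0 : 0 ≤ D := gamE_nonneg hp r t
  set E := Real.exp (-(c0 * ((d - 1 : ℕ) : ℝ) ^ l))
  set L := ((l : ℝ) + 1) ^ 2 with hL
  have hL1 : 1 ≤ L := one_le_pow₀ (by linarith [Nat.cast_nonneg (α := ℝ) l])
  set Bd := C * ((2 + 2 * A) * L + 4 * A / s) * D + C * (4 * A ^ 2 * (1 + 1 / s) ^ 2) * E with hBd
  have hBd0 : 0 ≤ Bd := by positivity
  have hbd : ∀ f, IsTgt G r f → ∀ τ, s / 2 ≤ τ → τ < t → ∀ W, covSum G sch hp r τ f W ≤ Bd := by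
    intro f hf τ hτ1 hτ2 W
    have hτ : 0 < τ := by linarith
    obtain ⟨x, hx0, hx1, hx2, hdec⟩ := hrate (r := r) hτ
    refine (hlb hx0 hx1 hdec f hf W l).trans ?_
    have h1 : (1:ℝ) / τ ≤ 2 / s := by rw [div_le_div_iff₀ hτ hs]; linarith
    have h2 : (1 / x) ^ 2 ≤ A + 2 * A / s := by
      refine hx2.trans (add_le_add le_rfl ?_)
      calc A / τ = A * (1 / τ) := by ring
        _ ≤ A * (2 / s) := mul_le_mul_of_nonneg_left h1 (by linarith)
        _ = _ := by ring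
    have hγ : gamE G sch hp r τ ≤ D := gamE_mono hG hp r hτ2.le
    have h3 : ((l : ℝ) + 1 + 1 / x) ^ 2 ≤ (2 + 2 * A) * L + 4 * A / s := by
      have e : 4 * A / s = 2 * (2 * A / s) := by ring
      have := mul_le_mul_of_nonneg_left hL1 (show (0:ℝ) ≤ A by linarith)
      nlinarith [sq_nonneg ((l : ℝ) + 1 - 1 / x)]
    have h4 : (1 / x) ^ 4 ≤ 4 * A ^ 2 * (1 + 1 / s) ^ 2 := by
      calc (1 / x) ^ 4 = ((1 / x) ^ 2) ^ 2 := by ring
        _ ≤ (A + 2 * A / s) ^ 2 := pow_le_pow_left₀ (sq_nonneg _) h2 2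
        _ ≤ (2 * A * (1 + 1 / s)) ^ 2 := pow_le_pow_left₀ (by positivity)
            (by rw [mul_add, mul_one, mul_one_div]; linarith) 2
        _ = _ := by ring
    rw [hBd]
    gcongr
    exact gamE_nonneg hp r τ
  have hinc : ∀ f, IsTgt G r f →
      incr2 G sch hp r s t f ≤ 4 * (2 + T) * 40 * ((t - s) * Bd) := by
    intro f hf
    have hn1 : ∀ τ W, 0 ≤ ∑ w ∈ (W : Finset V), ∫ q, (cL G θ sch r (rT sch τ) f w q.1 -
        cL G θ sch r (rT sch τ) f w q.2) ^ 2 ∂P2 G sch hp r := fun τ W ↦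
      sum_nonneg fun w _ ↦ integral_nonneg fun q ↦ sq_nonneg _
    have hn2 : ∀ τ W, 0 ≤ ∑ w ∈ (W : Finset V), ∫ q, cL G θ sch r (rT sch τ) f w q.2 ^ 2 *
        (ML G θ sch r (rT sch τ) (fun S ↦ sg S w) q.1 -
          ML G θ sch r (rT sch τ) (fun S ↦ sg S w) q.2) ^ 2 ∂P2 G sch hp r := fun τ W ↦
      sum_nonneg fun w _ ↦ integral_nonneg fun q ↦ mul_nonneg (sq_nonneg _) (sq_nonneg _)
    refine (step_bound hG hp r hd hreg hb (tgt_form hG hf) (B1 := Bd) (B2 := Bd) hs hst ht2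
      (fun τ h1 h2 W ↦ le_trans (le_add_of_nonneg_right (hn2 τ W)) (hbd f hf τ h1 h2 W))
      (fun τ h1 h2 W ↦ le_trans (le_add_of_nonneg_left (hn1 τ W)) (hbd f hf τ h1 h2 W))).trans ?_
    have hm : min 1 t ≤ 1 := min_le_left _ _
    have hm0 : 0 ≤ min 1 t := le_min zero_le_one (by linarith)
    have hts : 0 ≤ t - s := by linarith
    calc 4 * (t - s) * (2 + t) * (8 * Bd + 32 * min 1 t * Bd)
        ≤ 4 * (t - s) * (2 + T) * (8 * Bd + 32 * 1 * Bd) := by gcongr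
      _ = _ := by ring
  have hdiff := gamE_diff (σ := sch) hG hp r hst
  have h2 : ∑ y ∈ G.neighborFinset r, (incr2 G sch hp r s t (fun S ↦ sg S r * sg S y) +
      incr2 G sch hp r s t fun S ↦ sg S y) ≤
      (d : ℝ) * (2 * (4 * (2 + T) * 40 * ((t - s) * Bd))) := by
    refine (sum_le_card_nsmul _ _ (2 * (4 * (2 + T) * 40 * ((t - s) * Bd)))
      fun y hy ↦ ?_).trans_eq
      (by rw [SimpleGraph.card_neighborFinset_eq_degree, hreg.degree_eq r, nsmul_eq_mul])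
    have hy' := (G.mem_neighborFinset r y).1 hy
    linarith [hinc _ (Or.inr ⟨y, hy', Or.inr rfl⟩), hinc _ (Or.inr ⟨y, hy', Or.inl rfl⟩)]
  have h3 := hinc _ (Or.inl rfl)
  calc D - gamE G sch hp r s ≤ M * ((t - s) * Bd) := by rw [hM]; linarith
    _ = _ := by rw [hBd]; ring

/-- The discrepancy vanishes at every time. -/
lemma gamE_zero (r : V) (τ : ℝ) : gamE G sch hp r τ = 0 := by
  have key : ∀ T, 0 < T → gamE G sch hp r T = 0 := by
    intro T hT
    obtain ⟨c, K, P, c0, hc, hK, hP, hc0, hstep⟩ := gamE_step hG hp hd hreg hb r hT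
    exact vanish (fun s t _ hst ↦ gamE_mono hG hp r hst) (fun t _ ↦ gamE_nonneg hp r t)
      (germ hG hp hd hreg hb r) (b := d - 1) (by omega) hc hK hP hc0 hT hstep
  refine le_antisymm ?_ (gamE_nonneg hp r τ)
  calc gamE G sch hp r τ ≤ gamE G sch hp r (max τ 1) := gamE_mono hG hp r (le_max_left _ _)
    _ = 0 := key _ (lt_max_of_lt_right one_pos)

/-- At revelation times the spin posteriors of the copies agree. -/
lemma disc_reveal (r : V) (j : Ix V) :
    ∀ᵐ q ∂P2 G sch hp r,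
      ML G θ sch r (rJ sch j) (fun S ↦ sg S j.2) q.1 =
        ML G θ sch r (rJ sch j) (fun S ↦ sg S j.2) q.2 := by
  have := P2_prob (σ := sch) hG hp r
  set f : Finset V → ℝ := fun S ↦ sg S j.2
  have hf : ∀ S, |f S| ≤ 1 := fun S ↦ (sg_abs S j.2).le
  have hsq : ∀ {a b : ℝ}, |a| ≤ 1 → |b| ≤ 1 → (a - b) ^ 2 ≤ 4 := fun {a b} ha hb ↦
    sq_sub_le_four ha hb
  have hzero : ∀ τ, ∫ q, (ML G θ sch r (rT sch τ) f q.1 - ML G θ sch r (rT sch τ) f q.2) ^ 2
      ∂P2 G sch hp r = 0 := by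
    intro τ
    refine le_antisymm ?_ (integral_nonneg fun q ↦ sq_nonneg _)
    refine (integral_mono_of_nonneg (.of_forall fun q ↦ sq_nonneg _)
      ((bm_gam hp r (rmeas_rT sch τ) j.2).integrable _) (.of_forall fun q ↦ ?_)).trans
      ((gam_invariant hG hp r hreg τ j.2).trans (gamE_zero hG hp hd hreg hb r τ)).le
    exact le_add_of_nonneg_right (sum_nonneg fun y _ ↦ by positivity)
  have bD : BM fun q : Dat V × Dat V ↦ (ML G θ sch r (rJ sch j) f q.1 -
      ML G θ sch r (rJ sch j) f q.2) ^ 2 :=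
    bm_pow (bm_diff hp r (rmeas_rJ sch j) hf) 2
  have hwin : ∀ m : ℕ, ∀ᵐ q ∂P2 G sch hp r, ivl (1 / ((m : ℝ) + 1)) ((m : ℝ) + 1) j q.1.1 *
      (ML G θ sch r (rJ sch j) f q.1 - ML G θ sch r (rJ sch j) f q.2) ^ 2 = 0 := by
    intro m
    set t := 1 / ((m : ℝ) + 1) with ht'
    have ht : 0 < t := by positivity
    have h := (conv_limit hG hp r j (t0 := t / 2) (t := t) (t' := (m : ℝ) + 1) (C := 4)
      (half_pos ht).le (half_lt_self ht)
      (Ψ := fun n P y P' y' ↦ (pf G θ sch (ball G r n) P y f -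
        pf G θ sch (ball G r n) P' y' f) ^ 2)
      (fun n P P' ↦ (((bm_pf (G := G) (σ := sch) hp _ P f hf).1.comp measurable_fst).sub
        ((bm_pf (G := G) (σ := sch) hp _ P' f hf).1.comp measurable_snd)).pow_const 2)
      (fun n P P' y z y' z' h h' ↦ by dsimp only; rw [pf_congr _ h, pf_congr _ h'])
      (fun n P y P' y' ↦ ⟨sq_nonneg _, hsq (pf_abs hp _ _ _ hf) (pf_abs hp _ _ _ hf)⟩)
      (Φ := fun R q ↦ (ML G θ sch r R f q.1 - ML G θ sch r R f q.2) ^ 2)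
      fun R hR ↦ (ae_P2_conv hG hp r hR).mono fun q hq ↦
        ((conv_one hq.1 j.2).sub (conv_one hq.2 j.2)).pow 2).1
    simp only [hzero, integral_zero, mul_zero] at h
    have hnn : ∀ q : Dat V × Dat V, 0 ≤ ivl t ((m : ℝ) + 1) j q.1.1 *
        (ML G θ sch r (rJ sch j) f q.1 - ML G θ sch r (rJ sch j) f q.2) ^ 2 := fun q ↦
      mul_nonneg (by unfold ivl; split_ifs <;> simp) (sq_nonneg _)
    have bI : BM fun q : Dat V × Dat V ↦ ivl t ((m : ℝ) + 1) j q.1.1 :=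
      ⟨(measurable_ivl _ _ j).comp (measurable_fst.comp measurable_fst), 1,
        fun q ↦ abs_ivl _ _ _ _⟩
    exact (integral_eq_zero_iff_of_nonneg hnn ((bI.mul bD).integrable _)).1
      (le_antisymm h (integral_nonneg hnn))
  filter_upwards [ae_all_iff.2 hwin] with q hq
  have htm : 0 < tm sch q.1.1 j := by
    refine lt_of_lt_of_le ?_ (a_le_tm sch q.1.1 j)
    rcases Nat.even_or_odd' j.1 with ⟨k, hk | hk⟩ <;> rw [hk]
    · rw [(sch_even k).1]; positivity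
    · rw [(sch_odd k).1]; positivity
  obtain ⟨m, hm⟩ := exists_nat_gt (max (tm sch q.1.1 j) (1 / tm sch q.1.1 j))
  have h1 : 1 / ((m : ℝ) + 1) ≤ tm sch q.1.1 j := by
    rw [div_le_iff₀ (by positivity), mul_comm, ← div_le_iff₀ htm]
    linarith [le_max_right (tm sch q.1.1 j) (1 / tm sch q.1.1 j)]
  have h2 : tm sch q.1.1 j < (m : ℝ) + 1 := by
    linarith [le_max_left (tm sch q.1.1 j) (1 / tm sch q.1.1 j)]
  have := hq m
  rw [ivl, if_pos ⟨h1, h2⟩, one_mul] at this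
  exact sub_eq_zero.1 (eq_zero_of_pow_eq_zero this)

/-- The observations are functions of the source. -/
lemma obs_decode (r : V) (j : Ix V) :
    ∃ f : Dat V → ℝ, Measurable f ∧ ∀ᵐ ω ∂Pm G θ r, Yv sch ω j = f (Zv G θ sch r ω) := by
  refine decode hG hp r j ?_
  have hy := ae_P2_both (σ := sch) hG hp r (P := fun p ↦ |p.2 j| ≤ 1)
    (.of_forall fun ω ↦ Yv_abs sch ω j)
    (measurableSet_le (((measurable_pi_apply j).comp measurable_snd).abs) measurable_const)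
  filter_upwards [disc_reveal hG hp hd hreg hb r j, P2_same (σ := sch) hG hp r, hy]
    with q hm hs hy
  have h := hs.2 j
  simp only [Uinf, ← hm] at h
  have ha : |sch.s j.1 * ML G θ sch r (rJ sch j) (fun S ↦ sg S j.2) q.1| < 1 := by
    rw [abs_mul, abs_of_nonneg (sch.s_nonneg _)]
    refine lt_of_le_of_lt (mul_le_of_le_one_right (sch.s_nonneg _)
      (abs_ML_all hp r _ (fun S ↦ (sg_abs S j.2).le) _)) ?_
    linarith [sch.s_le j.1]
  rw [← (qf_cdf1 ha hy.1).1, h, (qf_cdf1 ha hy.2).1]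

end Vale.Agent.P161.Crit
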