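import Mathlib
import Vale.Agent.P161.Defs
import Vale.Agent.P161.Main
import Vale.Agent.P161.Crit.Invariance
import Vale.Agent.P161.Crit.Observe
import Vale.Agent.P161.Crit.Vanish

/-!
Assembly: the free Ising measure is a factor of IID at the reconstruction threshold.
-/

namespace Vale.Agent.P161.Crit

open Finset MeasureTheory

variable {V : Type*} [DecidableEq V] {G : SimpleGraph V} [G.LocallyFinite] {θ : ℝ}

/-- The free Ising measure is a factor of IID at the reconstruction threshold. -/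
theorem factorOfIID_critical [Countable V] (hG : G.IsTree) {d : ℕ} (hd : 3 ≤ d)
    (hreg : G.IsRegularOfDegree d) (h0 : 0 ≤ θ) (hb : ((d - 1 : ℕ) : ℝ) * θ ^ 2 = 1) (r : V) :
    IsFactorOfIID G (isingM G θ r) := by
  have h1 : θ < 1 := by
    by_contra h
    have h2 : (2:ℝ) ≤ ((d - 1 : ℕ) : ℝ) := by exact_mod_cast (show 2 ≤ d - 1 by omega)
    have h3 : (1:ℝ) ≤ θ ^ 2 := one_le_pow₀ (not_lt.1 h)
    nlinarith
  have hp : Par θ := ⟨h0, h1⟩
  obtain ⟨Ψ, hΨ, hΨe⟩ := spins_of_obs (G := G) hp r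
    fun j ↦ obs_decode hG hp hd hreg hb r j
  obtain ⟨Q, hQ, hQlaw, hQe⟩ := exists_split2 V
  have := isingM_prob (G := G) h0 h1.le r
  refine ⟨fun U ↦ Ψ (Q U), hΨ.comp hQ, fun g ↦ ?_, ?_⟩
  · have h1 : ∀ᵐ z ∂(W01 V).prod (W01 V), Ψ (moveD g z) = fun x ↦ Ψ z (g.symm x) := by
      rw [← map_Zv (σ := sch) hG hp r, ae_map_iff (measurable_Zv r).aemeasurable]
      · filter_upwards [hΨe, (Pm_invariant hG hp r g).quasiMeasurePreserving.ae hΨe,
          Zv_move (σ := sch) hG hp r g] with ω a b c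
        rw [← c, ← b, ← a]
        rfl
      · exact measurableSet_eq_pi (hΨ.comp (measurable_moveD g))
          (measurable_pi_iff.2 fun x ↦ (measurable_pi_apply (g.symm x)).comp hΨ)
    rw [← hQlaw] at h1
    filter_upwards [ae_of_ae_map hQ.aemeasurable h1] with U hU
    rw [hQe g.symm U]
    exact hU
  · have e : (fun U ↦ Ψ (Q U)) = Ψ ∘ Q := rfl
    rw [e, ← Measure.map_map hΨ hQ, hQlaw, ← map_Zv (σ := sch) hG hp r,
      Measure.map_map hΨ (measurable_Zv r),
      Measure.map_congr (f := Ψ ∘ Zv G θ sch r) (g := Prod.fst) (hΨe.mono fun ω h ↦ h.symm)]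
    simp [Pm, Measure.map_fst_prod]

end Vale.Agent.P161.Crit
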